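import Crest.Agent.R279.Alg712Calc

/-!
# R279 (helper712), A1: the fibres of the Gauss map are finite
-/

set_option autoImplicit false

namespace Crest.Agent.R279.Alg

open MvPolynomial Topology

section fiber

variable {Q : MvPolynomial (Fin 4) ℂ}

theorem homogeneousComponent_mul_of_hom {a q : MvPolynomial (Fin 4) ℂ} {m : ℕ}
    (hq : q.IsHomogeneous m) (n : ℕ) :
    homogeneousComponent (n + m) (a * q) = homogeneousComponent n a * q := by
  conv_lhs => rw [← sum_homogeneousComponent a, Finset.sum_mul, map_sum]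
  have h1 : ∀ i, homogeneousComponent (n + m) (homogeneousComponent i a * q) =
      if i = n then homogeneousComponent i a * q else 0 := by
    intro i
    have h2 : (homogeneousComponent i a * q).IsHomogeneous (i + m) :=
      (homogeneousComponent_isHomogeneous i a).mul hq
    rw [homogeneousComponent_of_mem h2]
    by_cases h : i = n
    · subst h; simp
    · rw [if_neg h, if_neg (by omega)]
  rw [Finset.sum_congr rfl fun i _ => h1 i, Finset.sum_ite_eq' (Finset.range (a.totalDegree + 1))]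
  by_cases h : n ∈ Finset.range (a.totalDegree + 1)
  · rw [if_pos h]
  · rw [if_neg h, homogeneousComponent_eq_zero]
    · rw [zero_mul]
    · simpa using h

/-- a power of each variable is a combination of the partials, with coefficients homogeneous -/
theorem exists_pow_eq (hQ : SmoothQuartic Q) : ∃ M : ℕ, ∀ j : Fin 4,
    ∃ b : Fin 4 → MvPolynomial (Fin 4) ℂ, (∀ i, (b i).IsHomogeneous M) ∧
      (X j : MvPolynomial (Fin 4) ℂ) ^ (M + 3) = ∑ i, b i * pderiv i Q := by
  set I : Ideal (MvPolynomial (Fin 4) ℂ) := Ideal.span (Set.range fun i => pderiv i Q) with hI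
  have hz : zeroLocus ℂ I ⊆ {0} := by
    intro v hv
    by_contra hne
    have hne' : v ≠ 0 := hne
    apply hQ.grad_ne hne'
    funext i
    have := hv (pderiv i Q) (Ideal.subset_span ⟨i, rfl⟩)
    simpa [grad, aeval_eq_eval] using this
  have hX : ∀ j : Fin 4, (X j : MvPolynomial (Fin 4) ℂ) ∈ I.radical := by
    intro j
    rw [← vanishingIdeal_zeroLocus_eq_radical (K := ℂ)]
    intro v hv
    rw [hz hv]
    simp
  choose n hn using hX
  refine ⟨∑ j, n j, fun j => ?_⟩
  have h1 : (X j : MvPolynomial (Fin 4) ℂ) ^ (∑ j, n j + 3) ∈ I := by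
    have hle : n j ≤ ∑ j, n j + 3 :=
      (Finset.single_le_sum (f := n) (fun _ _ => Nat.zero_le _) (Finset.mem_univ j)).trans
        (Nat.le_add_right _ _)
    rw [← Nat.sub_add_cancel hle, pow_add]
    exact I.mul_mem_left _ (hn j)
  rw [hI, Ideal.mem_span_range_iff_exists_fun] at h1
  obtain ⟨c, hc⟩ := h1
  refine ⟨fun i => homogeneousComponent (∑ j, n j) (c i),
    fun i => homogeneousComponent_isHomogeneous _ _, ?_⟩
  have h2 := congrArg (homogeneousComponent (∑ j, n j + 3)) hc
  rw [map_sum, homogeneousComponent_of_mem (m := ∑ j, n j + 3) (isHomogeneous_X_pow j _),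
    if_pos rfl] at h2
  rw [← h2]
  refine Finset.sum_congr rfl fun i _ => ?_
  exact homogeneousComponent_mul_of_hom (hQ.hom.pderiv (i := i)) _

/-- the restriction of a polynomial to a set -/
noncomputable def resF (F : Set (Fin 4 → ℂ)) : MvPolynomial (Fin 4) ℂ →ₗ[ℂ] (F → ℂ) where
  toFun P := fun p => eval p.1 P
  map_add' P P' := by funext p; simp
  map_smul' c P := by funext p; simp [smul_eval]

/-- span of the restrictions of the monomials of degree `≤ N` -/
noncomputable def SpN (F : Set (Fin 4 → ℂ)) (N : ℕ) : Submodule ℂ (F → ℂ) :=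
  Submodule.span ℂ ((fun d : Fin 4 →₀ ℕ => resF F (monomial d 1)) '' {d | d.degree ≤ N})

theorem finite_degree_le (N : ℕ) : {d : Fin 4 →₀ ℕ | d.degree ≤ N}.Finite := by
  refine (Set.finite_Iic (Finsupp.equivFunOnFinite.symm fun _ : Fin 4 => N)).subset ?_
  intro d hd i
  have h1 : d i ≤ d.degree := Finsupp.le_degree i d
  exact h1.trans hd

theorem resF_mem (F : Set (Fin 4 → ℂ)) {N : ℕ} {P : MvPolynomial (Fin 4) ℂ}
    (h : P.totalDegree ≤ N) : resF F P ∈ SpN F N := by
  rw [P.as_sum, map_sum]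
  refine Submodule.sum_mem _ fun d hd => ?_
  have h1 : monomial d (coeff d P) = (coeff d P) • monomial d (1 : ℂ) := by
    rw [smul_monomial, smul_eq_mul, mul_one]
  rw [h1, map_smul]
  refine Submodule.smul_mem _ _ (Submodule.subset_span ⟨d, ?_, rfl⟩)
  exact (le_totalDegree hd).trans h

theorem SpN_succ_le {F : Set (Fin 4 → ℂ)} {M : ℕ} {c : Fin 4 → ℂ}
    (hF : ∀ p ∈ F, grad Q p = c)
    (hM : ∀ j : Fin 4, ∃ b : Fin 4 → MvPolynomial (Fin 4) ℂ, (∀ i, (b i).IsHomogeneous M) ∧
      (X j : MvPolynomial (Fin 4) ℂ) ^ (M + 3) = ∑ i, b i * pderiv i Q) {N : ℕ}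
    (hN : 4 * (M + 3) ≤ N + 1) : SpN F (N + 1) ≤ SpN F N := by
  rw [SpN, Submodule.span_le]
  rintro _ ⟨d, hd, rfl⟩
  have hd' : d.degree ≤ N + 1 := hd
  by_cases hdN : d.degree ≤ N
  · exact Submodule.subset_span ⟨d, hdN, rfl⟩
  have hdeg : d.degree = N + 1 := by omega
  obtain ⟨j, hj⟩ : ∃ j, M + 3 ≤ d j := by
    by_contra hcon
    push Not at hcon
    have h1 : d.degree = ∑ i, d i := Finsupp.degree_eq_sum d
    have h2 : ∑ i, d i < ∑ _i : Fin 4, (M + 3) :=
      Finset.sum_lt_sum_of_nonempty Finset.univ_nonempty fun i _ => hcon i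
    simp at h2
    omega
  obtain ⟨b, hb, hX⟩ := hM j
  set d' : Fin 4 →₀ ℕ := d - Finsupp.single j (M + 3) with hd'def
  have hle : Finsupp.single j (M + 3) ≤ d := by
    rw [Finsupp.single_le_iff]; exact hj
  have hdd : d = Finsupp.single j (M + 3) + d' := (add_tsub_cancel_of_le hle).symm
  have hdegd : d'.degree + (M + 3) = N + 1 := by
    have := congrArg Finsupp.degree hdd
    rw [map_add, Finsupp.degree_single, hdeg] at this
    omega
  have hmon : monomial d (1 : ℂ) = X j ^ (M + 3) * monomial d' 1 := by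
    rw [X_pow_eq_monomial, monomial_mul, ← hdd, mul_one]
  have hres : resF F (monomial d (1 : ℂ)) =
      resF F ((∑ i, C (c i) * b i) * monomial d' 1) := by
    funext p
    show eval p.1 (monomial d (1 : ℂ)) = eval p.1 ((∑ i, C (c i) * b i) * monomial d' 1)
    rw [hmon, hX, map_mul, map_mul]
    congr 1
    rw [map_sum, map_sum]
    refine Finset.sum_congr rfl fun i _ => ?_
    rw [map_mul, map_mul, eval_C, mul_comm]
    congr 1
    exact congrFun (hF p.1 p.2) i
  show resF F (monomial d (1 : ℂ)) ∈ SpN F N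
  rw [hres]
  apply resF_mem
  refine (totalDegree_mul _ _).trans ?_
  have h1 : (∑ i, C (c i) * b i).totalDegree ≤ M := by
    refine totalDegree_finsetSum_le fun i _ => ?_
    refine (totalDegree_mul _ _).trans ?_
    rw [totalDegree_C, zero_add]
    exact (hb i).totalDegree_le
  have h2 : (monomial d' (1 : ℂ)).totalDegree ≤ d'.degree := by
    rw [totalDegree_monomial _ one_ne_zero, Finsupp.degree_eq_sum, Finsupp.sum_fintype _ _ (by simp)]
  omega

theorem eval_aeval_X (p : Fin 4 → ℂ) (j : Fin 4) (f : Polynomial ℂ) :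
    eval p (Polynomial.aeval (X j : MvPolynomial (Fin 4) ℂ) f) = f.eval (p j) := by
  induction f using Polynomial.induction_on' with
  | add f g hf hg => rw [map_add, map_add, hf, hg, Polynomial.eval_add]
  | monomial n a => simp [Polynomial.aeval_monomial, Polynomial.eval_monomial]

/-- A1: the fibres of the gradient map are finite. -/
theorem gauss_fiber_finite (hQ : SmoothQuartic Q) (c : Fin 4 → ℂ) :
    {p : Fin 4 → ℂ | grad Q p = c}.Finite := by
  set F : Set (Fin 4 → ℂ) := {p : Fin 4 → ℂ | grad Q p = c} with hF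
  obtain ⟨M, hM⟩ := exists_pow_eq hQ
  set N0 := 4 * (M + 3) with hN0
  have hall : ∀ N, SpN F (N0 + N) ≤ SpN F N0 := by
    intro N
    induction N with
    | zero => exact le_rfl
    | succ N ih =>
      refine le_trans ?_ ih
      rw [← add_assoc]
      exact SpN_succ_le (Q := Q) (c := c) (fun p hp => hp) hM (by omega)
  have hmem : ∀ P : MvPolynomial (Fin 4) ℂ, resF F P ∈ SpN F N0 := fun P =>
    hall P.totalDegree (resF_mem F (Nat.le_add_left _ _))
  have hfin : Module.Finite ℂ (SpN F N0) := by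
    apply Module.Finite.span_of_finite
    exact (finite_degree_le N0).image _
  -- for each coordinate a polynomial
  have hpol : ∀ j : Fin 4, ∃ f : Polynomial ℂ, f ≠ 0 ∧ ∀ p ∈ F, f.eval (p j) = 0 := by
    intro j
    let ψ : Polynomial ℂ →ₗ[ℂ] SpN F N0 :=
      LinearMap.codRestrict (SpN F N0)
        ((resF F).comp (Polynomial.aeval (X j : MvPolynomial (Fin 4) ℂ)).toLinearMap)
        (fun f => hmem _)
    have hni : ¬ Function.Injective ψ := by
      intro hinj
      exact Polynomial.not_finite (R := ℂ) (Module.Finite.of_injective ψ hinj)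
    rw [← LinearMap.ker_eq_bot, Submodule.eq_bot_iff] at hni
    push Not at hni
    obtain ⟨f, hf, hf0⟩ := hni
    refine ⟨f, hf0, fun p hp => ?_⟩
    have h1 : (ψ f : F → ℂ) ⟨p, hp⟩ = 0 := by
      rw [LinearMap.mem_ker.1 hf]; rfl
    have h2 : (ψ f : F → ℂ) ⟨p, hp⟩ = eval p (Polynomial.aeval (X j : MvPolynomial (Fin 4) ℂ) f) :=
      rfl
    rw [h2] at h1
    rw [← eval_aeval_X p j f, h1]
  choose f hf0 hf using hpol
  refine (Set.Finite.pi (t := fun j => {w : ℂ | (f j).eval w = 0}) fun j => ?_).subset ?_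
  · have : {w : ℂ | (f j).eval w = 0} ⊆ ((f j).roots.toFinset : Set ℂ) := by
      intro w hw
      simp only [Finset.mem_coe, Multiset.mem_toFinset, Polynomial.mem_roots (hf0 j)]
      exact hw
    exact (Finset.finite_toSet _).subset this
  · intro p hp j _
    exact hf j p hp

/-- A1, arc version: the Gauss map is not constant along an arc, infinitesimally. -/
theorem gauss_arc (hQ : SmoothQuartic Q) {a : ℂ → Fin 4 → ℂ} {t0 : ℂ}
    (ha : DifferentiableAt ℂ a t0) (ha0 : a t0 ≠ 0) {h0 : Fin 4 → ℂ} (hh0 : h0 ≠ 0)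
    (hfr : ∃ᶠ t in 𝓝[≠] t0, ∃ μ : ℂ, μ ≠ 0 ∧ grad Q (a t) = μ • h0) :
    ∃ κ : ℂ, deriv a t0 = κ • a t0 := by
  have hfin := gauss_fiber_finite hQ h0
  -- pigeonhole
  have h1 : ∃ᶠ t in 𝓝[≠] t0, ∃ f ∈ {p : Fin 4 → ℂ | grad Q p = h0}, ∃ s : ℂ, a t = s • f := by
    refine hfr.mono ?_
    rintro t ⟨μ, hμ, ht⟩
    obtain ⟨s, hs⟩ := IsAlgClosed.exists_pow_nat_eq μ (n := 3) (by norm_num)
    have hs0 : s ≠ 0 := by
      rintro rfl
      apply hμ
      rw [← hs]; norm_num
    refine ⟨s⁻¹ • a t, ?_, s, ?_⟩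
    · show grad Q (s⁻¹ • a t) = h0
      rw [grad_smul hQ.hom, ht, ← hs, smul_smul, ← mul_pow, inv_mul_cancel₀ hs0, one_pow, one_smul]
    · rw [smul_smul, mul_inv_cancel₀ hs0, one_smul]
  obtain ⟨f, hf, hfr2⟩ : ∃ f ∈ {p : Fin 4 → ℂ | grad Q p = h0},
      ∃ᶠ t in 𝓝[≠] t0, ∃ s : ℂ, a t = s • f := by
    by_contra hcon
    push Not at hcon
    apply h1
    have h2 : ∀ᶠ t in 𝓝[≠] t0, ∀ f ∈ {p : Fin 4 → ℂ | grad Q p = h0}, ¬ ∃ s : ℂ, a t = s • f := by
      rw [Filter.eventually_all_finite hfin]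
      intro f hf
      filter_upwards [hcon f hf] with t ht
      rintro ⟨s, hs⟩
      exact ht s hs
    filter_upwards [h2] with t ht
    rintro ⟨f, hf, s, hs⟩
    exact ht f hf ⟨s, hs⟩
  have hf0 : f ≠ 0 := by
    rintro rfl
    apply hh0
    have h2 : grad Q 0 = h0 := hf
    rw [← h2]
    have h3 := grad_smul hQ.hom 0 (0 : Fin 4 → ℂ)
    simpa using h3
  obtain ⟨k, hk⟩ : ∃ k, f k ≠ 0 := by
    by_contra hcon
    push Not at hcon
    exact hf0 (funext hcon)
  -- the minors
  have hminor : ∀ i, a t0 i * f k - a t0 k * f i = 0 ∧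
      deriv a t0 i * f k - deriv a t0 k * f i = 0 := by
    intro i
    have hda := hasDerivAt_pi.1 ha.hasDerivAt
    have hd : HasDerivAt (fun t => a t i * f k - a t k * f i)
        (deriv a t0 i * f k - deriv a t0 k * f i) t0 :=
      ((hda i).mul_const _).fun_sub ((hda k).mul_const _)
    have hz : ∃ᶠ t in 𝓝[≠] t0, a t i * f k - a t k * f i = 0 := by
      refine hfr2.mono ?_
      rintro t ⟨s, hs⟩
      rw [hs]
      simp only [Pi.smul_apply, smul_eq_mul]
      ring
    have hv : a t0 i * f k - a t0 k * f i = 0 := by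
      by_contra hne
      have h3 : ∀ᶠ t in 𝓝 t0, a t i * f k - a t k * f i ≠ 0 :=
        hd.continuousAt.eventually_ne hne
      exact hz (h3.filter_mono nhdsWithin_le_nhds)
    refine ⟨hv, ?_⟩
    by_contra hne
    have h3 : Filter.Tendsto (slope (fun t => a t i * f k - a t k * f i) t0) (𝓝[≠] t0)
        (𝓝 (deriv a t0 i * f k - deriv a t0 k * f i)) := hasDerivAt_iff_tendsto_slope.1 hd
    have h4 := h3.eventually_ne hne
    apply hz
    filter_upwards [h4] with t ht h0
    apply ht
    rw [slope_def_field, h0, hv]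
    simp
  have hak : a t0 k ≠ 0 := by
    intro h0
    apply ha0
    funext i
    have := (hminor i).1
    rw [h0, zero_mul, sub_zero] at this
    exact (mul_eq_zero.1 this).resolve_right hk
  refine ⟨deriv a t0 k / a t0 k, ?_⟩
  funext i
  have h1 := (hminor i).1
  have h2 := (hminor i).2
  simp only [Pi.smul_apply, smul_eq_mul]
  rw [div_mul_eq_mul_div, eq_div_iff hak]
  have h3 : f k * (deriv a t0 i * a t0 k - deriv a t0 k * a t0 i) = 0 := by
    linear_combination a t0 k * h2 - deriv a t0 k * h1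
  have h4 := (mul_eq_zero.1 h3).resolve_left hk
  exact sub_eq_zero.1 h4

end fiber

end Crest.Agent.R279.Alg
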