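import Crest.Agent.R279.Alg712Sel

/-!
# R279 (helper712), A2: no line of the surface through a generic point;
A4: the set `DD Q` has empty interior
-/

set_option autoImplicit false

namespace Crest.Agent.R279.Alg

open MvPolynomial Topology

section

variable {Q : MvPolynomial (Fin 4) ℂ} {W : Set (ℂ × ℂ)} {x : ℂ × ℂ → Fin 4 → ℂ}

/-- first coordinate field -/
noncomputable def y1 (x : ℂ × ℂ → Fin 4 → ℂ) (z : ℂ × ℂ) : Fin 4 → ℂ := fderiv ℂ x z (1, 0)
/-- second coordinate field -/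
noncomputable def y2 (x : ℂ × ℂ → Fin 4 → ℂ) (z : ℂ × ℂ) : Fin 4 → ℂ := fderiv ℂ x z (0, 1)

theorem IsChart.diff_fderiv (h : IsChart Q W x) (e : ℂ × ℂ) :
    DifferentiableOn ℂ (fun z => fderiv ℂ x z e) W := by
  have h1 := R266.SCV.analyticOnNhd_of_differentiableOn h.isOpen h.diff
  intro z hz
  exact ((h1.fderiv z hz).differentiableAt.clm_apply
    (differentiableAt_const e)).differentiableWithinAt

theorem IsChart.diff_y1 (h : IsChart Q W x) : DifferentiableOn ℂ (y1 x) W := h.diff_fderiv _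
theorem IsChart.diff_y2 (h : IsChart Q W x) : DifferentiableOn ℂ (y2 x) W := h.diff_fderiv _

theorem IsChart.li_comb (h : IsChart Q W x) {z : ℂ × ℂ} (hz : z ∈ W) {a b c : ℂ}
    (hbc : b ≠ 0 ∨ c ≠ 0) : LinearIndependent ℂ ![x z, a • x z + b • y1 x z + c • y2 x z] := by
  rw [LinearIndependent.pair_iff]
  intro s t hst
  have h1 : (s + t * a) • x z + (t * b) • y1 x z + (t * c) • y2 x z = 0 := by
    rw [← hst]; module
  obtain ⟨h2, h3, h4⟩ := li3_elim (h.indep z hz) h1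
  have ht : t = 0 := by
    rcases hbc with hb | hc
    · exact (mul_eq_zero.1 h3).resolve_right hb
    · exact (mul_eq_zero.1 h4).resolve_right hc
  rw [ht, zero_mul, add_zero] at h2
  exact ⟨h2, ht⟩

theorem IsChart.li_y1 (h : IsChart Q W x) {z : ℂ × ℂ} (hz : z ∈ W) :
    LinearIndependent ℂ ![x z, y1 x z] := by
  have := h.li_comb hz (a := 0) (b := 1) (c := 0) (Or.inl one_ne_zero)
  simpa using this

theorem IsChart.li_dir (h : IsChart Q W x) {z : ℂ × ℂ} (hz : z ∈ W) (c : ℂ) :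
    LinearIndependent ℂ ![x z, y2 x z + c • y1 x z] := by
  have := h.li_comb hz (a := 0) (b := c) (c := 1) (Or.inr one_ne_zero)
  simpa [add_comm] using this

theorem IsChart.mem_Tg_dir (hQ : SmoothQuartic Q) (h : IsChart Q W x) {z : ℂ × ℂ} (hz : z ∈ W)
    (b c : ℂ) : b • y1 x z + c • y2 x z ∈ Tg Q (x z) := by
  rw [h.mem_Tg hQ hz]
  exact ⟨0, b, c, by simp [y1, y2]⟩

theorem IsChart.y1_mem (hQ : SmoothQuartic Q) (h : IsChart Q W x) {z : ℂ × ℂ} (hz : z ∈ W) :
    y1 x z ∈ Tg Q (x z) := by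
  have := h.mem_Tg_dir hQ hz 1 0
  simpa using this

theorem IsChart.y2_mem (hQ : SmoothQuartic Q) (h : IsChart Q W x) {z : ℂ × ℂ} (hz : z ∈ W) :
    y2 x z ∈ Tg Q (x z) := by
  have := h.mem_Tg_dir hQ hz 0 1
  simpa using this

theorem IsChart.dir_mem (hQ : SmoothQuartic Q) (h : IsChart Q W x) {z : ℂ × ℂ} (hz : z ∈ W)
    (c : ℂ) : y2 x z + c • y1 x z ∈ Tg Q (x z) :=
  Submodule.add_mem _ (h.y2_mem hQ hz) (Submodule.smul_mem _ _ (h.y1_mem hQ hz))

/-- nondegeneracy of `q2` in the coordinate fields -/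
theorem GRank.exists_q2_ne (hQ : SmoothQuartic Q) (h : IsChart Q W x) {z : ℂ × ℂ} (hz : z ∈ W)
    (hg : GRank Q x z) : ∃ c : ℂ,
      tens Q (x z) (x z) (y2 x z + c • y1 x z) (y2 x z + c • y1 x z) ≠ 0 := by
  by_contra hcon
  push Not at hcon
  have hexp : ∀ c : ℂ, tens Q (x z) (x z) (y2 x z) (y2 x z) +
      2 * c * tens Q (x z) (x z) (y2 x z) (y1 x z) +
      c ^ 2 * tens Q (x z) (x z) (y1 x z) (y1 x z) = 0 := by
    intro c
    have := hcon c
    simp only [tens_add3, tens_add4, tens_smul3, tens_smul4] at this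
    rw [tens_swap34 Q (x z) (x z) (y1 x z) (y2 x z)] at this
    linear_combination this
  have e0 := hexp 0
  have e1 := hexp 1
  have e2 := hexp (-1)
  have f1 : tens Q (x z) (x z) (y2 x z) (y1 x z) = 0 := by linear_combination (e1 - e2) / 4
  have f2 : tens Q (x z) (x z) (y1 x z) (y1 x z) = 0 := by
    linear_combination (e1 + e2) / 2 - e0
  exact hg.elim hQ h hz (tens_of_mem_Tg (h.y1_mem hQ hz)) f2 f1 (h.li_y1 hz)

/-- the closed condition "line direction" -/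
noncomputable def lineG (Q : MvPolynomial (Fin 4) ℂ) (p u : Fin 4 → ℂ) : ℂ × ℂ × ℂ :=
  (tens Q p p u u, tens Q p u u u, tens Q u u u u)

theorem lineG_eq_zero_iff (hQ : SmoothQuartic Q) (h : IsChart Q W x) {z : ℂ × ℂ} (hz : z ∈ W)
    {u : Fin 4 → ℂ} (hu : u ∈ Tg Q (x z)) (hli : LinearIndependent ℂ ![x z, u]) :
    lineG Q (x z) u = 0 ↔ IsLine Q (x z) u := by
  constructor
  · intro h0
    have h1 : tens Q (x z) (x z) u u = 0 := congrArg (fun p : ℂ × ℂ × ℂ => p.1) h0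
    have h2 : tens Q (x z) u u u = 0 := congrArg (fun p : ℂ × ℂ × ℂ => p.2.1) h0
    have h3 : tens Q u u u u = 0 := congrArg (fun p : ℂ × ℂ × ℂ => p.2.2) h0
    exact isLine_of_tens hQ.hom hli (h.tens_self hQ.hom hz) (tens_of_mem_Tg hu) h1 h2 h3
  · intro hl
    obtain ⟨_, _, h2, h3, h4⟩ := hl.tens_eq hQ.hom
    simp [lineG, h2, h3, h4]

theorem IsLine.add_smul {p u : Fin 4 → ℂ} (h : IsLine Q p u) (a : ℂ) {t : ℂ} (ht : t ≠ 0) :
    IsLine Q p (t • (u + a • p)) := by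
  refine ⟨?_, fun r s => ?_⟩
  · rw [LinearIndependent.pair_iff]
    intro r s hrs
    have h1 : (r + s * t * a) • p + (s * t) • u = 0 := by rw [← hrs]; module
    obtain ⟨h2, h3⟩ := LinearIndependent.pair_iff.1 h.1 _ _ h1
    have hs : s = 0 := (mul_eq_zero.1 h3).resolve_right ht
    rw [hs, zero_mul, zero_mul, add_zero] at h2
    exact ⟨h2, hs⟩
  · have h1 : r • p + s • t • (u + a • p) = (r + s * t * a) • p + (s * t) • u := by module
    rw [h1]
    exact h.2 _ _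

/-- normalisation of a direction: either `y1` or `y2 + c y1` -/
theorem dir_cases (hQ : SmoothQuartic Q) (h : IsChart Q W x) {z : ℂ × ℂ} (hz : z ∈ W)
    {u : Fin 4 → ℂ} (hu : u ∈ Tg Q (x z)) (hli : LinearIndependent ℂ ![x z, u]) :
    ∃ a t : ℂ, t ≠ 0 ∧ (t • (u + a • x z) = y1 x z ∨ ∃ c : ℂ, t • (u + a • x z) = y2 x z + c • y1 x z) := by
  obtain ⟨a, b, c, rfl⟩ := (h.mem_Tg hQ hz).1 hu
  by_cases hc : c = 0
  · have hb : b ≠ 0 := by
      rintro rfl
      have := LinearIndependent.pair_iff.1 hli (-a) 1 (by rw [hc]; module)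
      exact one_ne_zero this.2
    refine ⟨-a, b⁻¹, inv_ne_zero hb, Or.inl ?_⟩
    have h1 : (a • x z + b • (fderiv ℂ x z) (1, 0) + c • (fderiv ℂ x z) (0, 1) + -a • x z) =
        b • y1 x z := by rw [hc, y1]; module
    rw [h1, smul_smul, inv_mul_cancel₀ hb, one_smul]
  · refine ⟨-a, c⁻¹, inv_ne_zero hc, Or.inr ⟨c⁻¹ * b, ?_⟩⟩
    have h1 : (a • x z + b • (fderiv ℂ x z) (1, 0) + c • (fderiv ℂ x z) (0, 1) + -a • x z) =
        b • y1 x z + c • y2 x z := by rw [y1, y2]; module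
    rw [h1, smul_add, smul_smul, smul_smul, inv_mul_cancel₀ hc, one_smul, add_comm]

/-- A2: through some point of every chart there is no line of the surface. -/
theorem no_line (hQ : SmoothQuartic Q) (h : IsChart Q W x) (hne : W.Nonempty) :
    ∃ z ∈ W, ¬ ∃ u, IsLine Q (x z) u := by
  by_contra hcon
  push Not at hcon
  set W1 : Set (ℂ × ℂ) := {z ∈ W | GRank Q x z} with hW1
  have hW1o : IsOpen W1 := isOpen_gRank hQ h
  have hW1ne : W1.Nonempty := by
    obtain ⟨z, hz, hg⟩ := gauss_rank hQ h hne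
    exact ⟨z, hz, hg⟩
  have hW1s : W1 ⊆ W := fun z hz => hz.1
  have hx1 : DifferentiableOn ℂ x W1 := h.diff.mono hW1s
  have hy1 : DifferentiableOn ℂ (y1 x) W1 := h.diff_y1.mono hW1s
  have hy2 : DifferentiableOn ℂ (y2 x) W1 := h.diff_y2.mono hW1s
  by_cases hall : ∀ z ∈ W1, IsLine Q (x z) (y1 x z)
  · exact no_line_family hQ (h.mono hW1o hW1s) hW1ne hy1 hall
  push Not at hall
  obtain ⟨z1, hz1, hn1⟩ := hall
  set W2 : Set (ℂ × ℂ) := W1 ∩ (fun z => lineG Q (x z) (y1 x z)) ⁻¹' {0}ᶜ with hW2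
  have hcont : ContinuousOn (fun z => lineG Q (x z) (y1 x z)) W1 :=
    (differentiableOn_tens hx1 hx1 hy1 hy1).continuousOn.prodMk
      ((differentiableOn_tens hx1 hy1 hy1 hy1).continuousOn.prodMk
        (differentiableOn_tens hy1 hy1 hy1 hy1).continuousOn)
  have hW2o : IsOpen W2 := hcont.isOpen_inter_preimage hW1o isOpen_compl_singleton
  have hW2ne : W2.Nonempty := by
    refine ⟨z1, hz1, ?_⟩
    intro h0
    exact hn1 ((lineG_eq_zero_iff hQ h hz1.1 (h.y1_mem hQ hz1.1) (h.li_y1 hz1.1)).1 h0)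
  have hW2s : W2 ⊆ W1 := Set.inter_subset_left
  -- the direction function
  have hdir : DifferentiableOn ℂ (fun p : (ℂ × ℂ) × ℂ => y2 x p.1 + p.2 • y1 x p.1)
      (W2 ×ˢ Set.univ) := by
    have e1 : DifferentiableOn ℂ (fun p : (ℂ × ℂ) × ℂ => y2 x p.1) (W2 ×ˢ Set.univ) :=
      (hy2.mono hW2s).comp differentiable_fst.differentiableOn (fun p hp => hp.1)
    have e2 : DifferentiableOn ℂ (fun p : (ℂ × ℂ) × ℂ => y1 x p.1) (W2 ×ˢ Set.univ) :=
      (hy1.mono hW2s).comp differentiable_fst.differentiableOn (fun p hp => hp.1)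
    exact e1.add (differentiable_snd.differentiableOn.smul e2)
  have hxp : DifferentiableOn ℂ (fun p : (ℂ × ℂ) × ℂ => x p.1) (W2 ×ˢ Set.univ) :=
    (hx1.mono hW2s).comp differentiable_fst.differentiableOn (fun p hp => hp.1)
  obtain ⟨W3, hW3s, hW3o, hW3ne, ρ, hρ, hsel⟩ := exists_selection hW2o hW2ne
    (N := fun p => tens Q (x p.1) (x p.1) (y2 x p.1 + p.2 • y1 x p.1) (y2 x p.1 + p.2 • y1 x p.1))
    (differentiableOn_tens hxp hxp hdir hdir)
    (G := fun p => lineG Q (x p.1) (y2 x p.1 + p.2 • y1 x p.1)) (o := 0)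
    ((differentiableOn_tens hxp hxp hdir hdir).continuousOn.prodMk
      ((differentiableOn_tens hxp hdir hdir hdir).continuousOn.prodMk
        (differentiableOn_tens hdir hdir hdir hdir).continuousOn))
    (fun z _ c h0 => congrArg (fun p : ℂ × ℂ × ℂ => p.1) h0)
    (by
      intro z hz
      obtain ⟨u, hu⟩ := hcon z (hW1s (hW2s hz))
      have huT : u ∈ Tg Q (x z) := mem_Tg_of_tens (hu.tens_eq hQ.hom).2.1
      obtain ⟨a, t, ht, hc⟩ := dir_cases hQ h (hW1s (hW2s hz)) huT hu.1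
      have hl := hu.add_smul a ht
      rcases hc with hc | ⟨c, hc⟩
      · exfalso
        rw [hc] at hl
        exact hz.2 ((lineG_eq_zero_iff hQ h (hW1s (hW2s hz)) (h.y1_mem hQ (hW1s (hW2s hz)))
          (h.li_y1 (hW1s (hW2s hz)))).2 hl)
      · rw [hc] at hl
        exact ⟨c, (lineG_eq_zero_iff hQ h (hW1s (hW2s hz)) (h.dir_mem hQ (hW1s (hW2s hz)) c)
          (h.li_dir (hW1s (hW2s hz)) c)).2 hl⟩)
    (fun z hz => (hW2s hz).2.exists_q2_ne hQ h (hW1s (hW2s hz)))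
  have hW3W : W3 ⊆ W := fun z hz => hW1s (hW2s (hW3s hz))
  refine no_line_family hQ (h.mono hW3o hW3W) hW3ne
    (u := fun z => y2 x z + ρ z • y1 x z) ?_ ?_
  · exact (h.diff_y2.mono hW3W).add (hρ.smul (h.diff_y1.mono hW3W))
  · intro z hz
    exact (lineG_eq_zero_iff hQ h (hW3W hz) (h.dir_mem hQ (hW3W hz) _)
      (h.li_dir (hW3W hz) _)).1 (hsel z hz)

end

end Crest.Agent.R279.Alg
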