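import Crest.Agent.R279.Alg712Calc

/-!
# R279 (helper712): rigidity of lines, tangent space in a chart
-/

set_option autoImplicit false

namespace Crest.Agent.R279.Alg

open MvPolynomial Topology

section rig

variable {Q : MvPolynomial (Fin 4) ℂ}

theorem poly_helper {n2 n3 m2 m3 : Polynomial ℂ} (hrel : n2 * m2 + n3 * m3 = 0)
    (hno : ∀ l : ℂ, ¬ (n2.eval l = 0 ∧ n3.eval l = 0)) (hm2 : m2.natDegree ≤ 1)
    (hdeg : 2 ≤ n3.natDegree) : m2 = 0 ∧ m3 = 0 := by
  have hcop : IsCoprime n2 n3 := by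
    refine (Polynomial.isCoprime_iff_aeval_ne_zero_of_isAlgClosed ℂ ℂ n2 n3).2 fun l => ?_
    simp only [Polynomial.coe_aeval_eq_eval]
    by_contra hcon
    push Not at hcon
    exact hno l hcon
  have hdvd : n3 ∣ n2 * m2 := ⟨-m3, by linear_combination hrel⟩
  have h1 : n3 ∣ m2 := hcop.symm.dvd_of_dvd_mul_left hdvd
  have hm20 : m2 = 0 := by
    by_contra hne
    have := Polynomial.natDegree_le_of_dvd h1 hne
    omega
  refine ⟨hm20, ?_⟩
  rw [hm20, mul_zero, zero_add] at hrel
  refine (mul_eq_zero.1 hrel).resolve_left ?_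
  rintro rfl
  simp at hdeg

/-- the coefficients of `Q` along a line of the surface vanish -/
theorem IsLine.tens_eq (hQ : Q.IsHomogeneous 4) {x u : Fin 4 → ℂ} (h : IsLine Q x u) :
    tens Q x x x x = 0 ∧ tens Q x x x u = 0 ∧ tens Q x x u u = 0 ∧ tens Q x u u u = 0 ∧
      tens Q u u u u = 0 := by
  have h1 : ∀ a b : ℂ, a ^ 4 * tens Q x x x x + a ^ 3 * b * (4 * tens Q x x x u) +
      a ^ 2 * b ^ 2 * (6 * tens Q x x u u) + a * b ^ 3 * (4 * tens Q x u u u) +
      b ^ 4 * tens Q u u u u = 0 := by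
    intro a b
    have := h.2 a b
    rw [eval_eq_tens hQ, tens_comb] at this
    exact this
  have e1 := h1 1 0
  have e2 := h1 0 1
  have e3 := h1 1 1
  have e4 := h1 1 (-1)
  have e5 := h1 1 2
  have e6 := h1 1 (-2)
  norm_num at e1 e2 e3 e4 e5 e6
  have f1 : tens Q x x u u = 0 := by
    rw [e1, e2] at e3 e4
    linear_combination (e3 + e4) / 12
  have f2 : tens Q x u u u = 0 := by
    rw [e1, e2, f1] at e3 e4 e5 e6
    linear_combination (-2 * (e3 - e4) + (e5 - e6)) / 48
  have f3 : tens Q x x x u = 0 := by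
    rw [e1, e2, f1, f2] at e3
    linear_combination e3 / 4
  exact ⟨e1, f3, f1, f2, e2⟩

theorem isLine_of_tens (hQ : Q.IsHomogeneous 4) {x u : Fin 4 → ℂ}
    (hli : LinearIndependent ℂ ![x, u]) (h0 : tens Q x x x x = 0)
    (h1 : tens Q x x x u = 0) (h2 : tens Q x x u u = 0) (h3 : tens Q x u u u = 0)
    (h4 : tens Q u u u u = 0) : IsLine Q x u := by
  refine ⟨hli, fun a b => ?_⟩
  rw [eval_eq_tens hQ, tens_comb, q1, q2, q3, q4, h0, h1, h2, h3, h4]
  ring

/-- extension of two independent vectors to a basis -/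
theorem exists_basis {x u : Fin 4 → ℂ} (h : LinearIndependent ℂ ![x, u]) :
    ∃ B : Module.Basis (Fin 4) ℂ (Fin 4 → ℂ), B 0 = x ∧ B 1 = u := by
  have hfr : Module.finrank ℂ (Fin 4 → ℂ) = 4 := by simp
  obtain ⟨y, hy⟩ := exists_linearIndependent_snoc_of_lt_finrank h (by rw [hfr]; norm_num)
  obtain ⟨w, hw⟩ := exists_linearIndependent_snoc_of_lt_finrank hy (by rw [hfr]; norm_num)
  refine ⟨basisOfLinearIndependentOfCardEqFinrank hw (by simp), ?_, ?_⟩
  · rw [coe_basisOfLinearIndependentOfCardEqFinrank]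
    rfl
  · rw [coe_basisOfLinearIndependentOfCardEqFinrank]
    rfl

theorem mem_span_pair_of_repr {x u v : Fin 4 → ℂ} (B : Module.Basis (Fin 4) ℂ (Fin 4 → ℂ))
    (h0 : B 0 = x) (h1 : B 1 = u) (h2 : B.repr v 2 = 0) (h3 : B.repr v 3 = 0) :
    ∃ a b : ℂ, v = a • x + b • u := by
  refine ⟨B.repr v 0, B.repr v 1, ?_⟩
  conv_lhs => rw [← B.sum_repr v]
  rw [Fin.sum_univ_four, h0, h1, h2, h3]
  simp

/-- pointwise rigidity: an infinitesimal deformation of a line inside the surface is trivial -/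
theorem line_rigid (hQ : SmoothQuartic Q) {x u x' u' : Fin 4 → ℂ} (hl : IsLine Q x u)
    (h : ∀ l : ℂ, tens Q (x + l • u) (x + l • u) (x + l • u) (x' + l • u') = 0) :
    (∃ a b : ℂ, x' = a • x + b • u) ∧ ∃ a b : ℂ, u' = a • x + b • u := by
  obtain ⟨t0, t1, t2, t3, t4⟩ := hl.tens_eq hQ.hom
  obtain ⟨B, hB0, hB1⟩ := exists_basis hl.1
  -- expansion of `tens (x + l u)^3 w`
  have hexp : ∀ (l : ℂ) (w : Fin 4 → ℂ), tens Q (x + l • u) (x + l • u) (x + l • u) w =
      tens Q x x x w + 3 * l * tens Q x x u w + 3 * l ^ 2 * tens Q x u u w +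
        l ^ 3 * tens Q u u u w := by
    intro l w
    simp only [tens_add1, tens_add2, tens_add3, tens_smul1, tens_smul2, tens_smul3]
    rw [tens_swap23 Q x u x w, tens_swap13 Q u x x w, tens_swap12 Q u x u w,
      tens_swap13 Q u u x w]
    ring
  have hx0 : ∀ l : ℂ, tens Q (x + l • u) (x + l • u) (x + l • u) x = 0 := by
    intro l
    rw [hexp, t0, tens_swap34 Q x x u x, t1, tens_swap24 Q x u u x, t2, tens_swap14 Q u u u x, t3]
    ring
  have hu0 : ∀ l : ℂ, tens Q (x + l • u) (x + l • u) (x + l • u) u = 0 := by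
    intro l
    rw [hexp, t1, t2, t3, t4]
    ring
  -- decomposition along the basis
  have hdec : ∀ (l : ℂ) (w : Fin 4 → ℂ), tens Q (x + l • u) (x + l • u) (x + l • u) w =
      B.repr w 2 * tens Q (x + l • u) (x + l • u) (x + l • u) (B 2) +
      B.repr w 3 * tens Q (x + l • u) (x + l • u) (x + l • u) (B 3) := by
    intro l w
    conv_lhs => rw [← B.sum_repr w]
    rw [Fin.sum_univ_four]
    simp only [tens_add4, tens_smul4]
    rw [hB0, hB1, hx0, hu0]
    ring
  have hne : ∀ v : Fin 4 → ℂ, v ≠ 0 → (∀ w, tens Q v v v w = 0) → False := by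
    intro v hv hw
    apply hQ.grad_ne hv
    funext i
    rw [grad_apply hQ.hom, hw]
    simp
  let n : Fin 4 → Polynomial ℂ := fun i =>
    Polynomial.C (tens Q u u u (B i)) * Polynomial.X ^ 3 +
      Polynomial.C (3 * tens Q x u u (B i)) * Polynomial.X ^ 2 +
      Polynomial.C (3 * tens Q x x u (B i)) * Polynomial.X + Polynomial.C (tens Q x x x (B i))
  let m : Fin 4 → Polynomial ℂ := fun i =>
    Polynomial.C (B.repr u' i) * Polynomial.X + Polynomial.C (B.repr x' i)
  have hn : ∀ i (l : ℂ), (n i).eval l = tens Q (x + l • u) (x + l • u) (x + l • u) (B i) := by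
    intro i l
    rw [hexp]
    simp only [n, Polynomial.eval_add, Polynomial.eval_mul, Polynomial.eval_C, Polynomial.eval_pow,
      Polynomial.eval_X]
    ring
  have hm : ∀ i (l : ℂ), (m i).eval l = B.repr (x' + l • u') i := by
    intro i l
    simp only [m, Polynomial.eval_add, Polynomial.eval_mul, Polynomial.eval_C, Polynomial.eval_X,
      map_add, map_smul, Finsupp.add_apply, Finsupp.smul_apply, smul_eq_mul]
    ring
  have hrel : n 2 * m 2 + n 3 * m 3 = 0 := by
    apply Polynomial.funext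
    intro l
    rw [Polynomial.eval_add, Polynomial.eval_mul, Polynomial.eval_mul, hn, hn, hm, hm,
      Polynomial.eval_zero]
    have := h l
    rw [hdec] at this
    linear_combination this
  have hno : ∀ l : ℂ, ¬ ((n 2).eval l = 0 ∧ (n 3).eval l = 0) := by
    rintro l ⟨h2, h3⟩
    rw [hn] at h2 h3
    refine hne (x + l • u) ?_ (fun w => by rw [hdec, h2, h3]; ring)
    intro h0
    have := LinearIndependent.pair_iff.1 hl.1 1 l (by rw [one_smul]; exact h0)
    exact one_ne_zero this.1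
  have hu4 : ∀ w, tens Q u u u w =
      B.repr w 2 * tens Q u u u (B 2) + B.repr w 3 * tens Q u u u (B 3) := by
    intro w
    conv_lhs => rw [← B.sum_repr w]
    rw [Fin.sum_univ_four]
    simp only [tens_add4, tens_smul4]
    rw [hB0, hB1, t4, tens_swap14 Q u u u x, t3]
    ring
  have hlead : tens Q u u u (B 2) ≠ 0 ∨ tens Q u u u (B 3) ≠ 0 := by
    by_contra hcon
    push Not at hcon
    refine hne u ?_ (fun w => by rw [hu4, hcon.1, hcon.2]; ring)
    intro h0
    have := LinearIndependent.pair_iff.1 hl.1 0 1 (by rw [h0]; simp)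
    exact one_ne_zero this.2
  have hmdeg : ∀ i, (m i).natDegree ≤ 1 := fun i => Polynomial.natDegree_linear_le
  have hmz : m 2 = 0 ∧ m 3 = 0 := by
    rcases hlead with h2 | h3
    · have hd : 2 ≤ (n 2).natDegree := by
        rw [show (n 2).natDegree = 3 from Polynomial.natDegree_cubic h2]; norm_num
      have := poly_helper (n2 := n 3) (n3 := n 2) (m2 := m 3) (m3 := m 2)
        (by rw [← hrel]; ring) (fun l hl => hno l ⟨hl.2, hl.1⟩) (hmdeg 3) hd
      exact ⟨this.2, this.1⟩
    · have hd : 2 ≤ (n 3).natDegree := by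
        rw [show (n 3).natDegree = 3 from Polynomial.natDegree_cubic h3]; norm_num
      exact poly_helper hrel hno (hmdeg 2) hd
  have hzero : ∀ i, m i = 0 → B.repr x' i = 0 ∧ B.repr u' i = 0 := by
    intro i hi
    have c0 := congrArg (fun p => Polynomial.coeff p 0) hi
    have c1 := congrArg (fun p => Polynomial.coeff p 1) hi
    simp only [m, Polynomial.coeff_add, Polynomial.coeff_C_mul, Polynomial.coeff_X_zero,
      Polynomial.coeff_C_zero, Polynomial.coeff_zero, mul_zero, zero_add] at c0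
    simp only [m, Polynomial.coeff_add, Polynomial.coeff_C_mul, Polynomial.coeff_X_one,
      Polynomial.coeff_C_succ, Polynomial.coeff_zero, mul_one, add_zero] at c1
    exact ⟨c0, c1⟩
  obtain ⟨x2, u2⟩ := hzero 2 hmz.1
  obtain ⟨x3, u3⟩ := hzero 3 hmz.2
  exact ⟨mem_span_pair_of_repr B hB0 hB1 x2 x3, mem_span_pair_of_repr B hB0 hB1 u2 u3⟩

end rig

section chart

variable {Q : MvPolynomial (Fin 4) ℂ} {W : Set (ℂ × ℂ)} {x : ℂ × ℂ → Fin 4 → ℂ}

theorem IsChart.mono {W' : Set (ℂ × ℂ)} (h : IsChart Q W x) (hW' : IsOpen W') (hsub : W' ⊆ W) :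
    IsChart Q W' x :=
  ⟨hW', h.diff.mono hsub, fun z hz => h.zero z (hsub hz), fun z hz => h.indep z (hsub hz)⟩

theorem IsChart.differentiableAt (h : IsChart Q W x) {z : ℂ × ℂ} (hz : z ∈ W) :
    DifferentiableAt ℂ x z := (h.diff z hz).differentiableAt (h.isOpen.mem_nhds hz)

theorem IsChart.ne_zero (h : IsChart Q W x) {z : ℂ × ℂ} (hz : z ∈ W) : x z ≠ 0 :=
  (h.indep z hz).ne_zero 0

theorem IsChart.tens_self (hQ : Q.IsHomogeneous 4) (h : IsChart Q W x) {z : ℂ × ℂ} (hz : z ∈ W) :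
    tens Q (x z) (x z) (x z) (x z) = 0 := by
  rw [← eval_eq_tens hQ]; exact h.zero z hz

/-- no nonzero combination of `x, ∂₁x, ∂₂x`  -/
theorem li3_elim {a b c : Fin 4 → ℂ} (h : LinearIndependent ℂ ![a, b, c]) {r s t : ℂ}
    (h0 : r • a + s • b + t • c = 0) : r = 0 ∧ s = 0 ∧ t = 0 := by
  have := Fintype.linearIndependent_iff.1 h ![r, s, t] (by
    rw [Fin.sum_univ_three]; simpa using h0)
  exact ⟨this 0, this 1, this 2⟩

theorem IsChart.tens_fderiv (hQ : Q.IsHomogeneous 4) (h : IsChart Q W x) {z : ℂ × ℂ} (hz : z ∈ W)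
    (e : ℂ × ℂ) : tens Q (x z) (x z) (x z) (fderiv ℂ x z e) = 0 := by
  have hx := h.differentiableAt hz
  have h1 := fderiv_tens (Q := Q) hx hx hx hx e
  have h2 : fderiv ℂ (fun z => tens Q (x z) (x z) (x z) (x z)) z = 0 := by
    have h3 : (fun z => tens Q (x z) (x z) (x z) (x z)) =ᶠ[𝓝 z] fun _ => (0 : ℂ) := by
      filter_upwards [h.isOpen.mem_nhds hz] with w hw
      exact h.tens_self hQ hw
    rw [h3.fderiv_eq, fderiv_fun_const]; rfl
  rw [h2, tens_swap14 Q (fderiv ℂ x z e) (x z) (x z) (x z),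
    tens_swap24 Q (x z) (fderiv ℂ x z e) (x z) (x z),
    tens_swap34 Q (x z) (x z) (fderiv ℂ x z e) (x z)] at h1
  have h4 : (4 : ℂ) * tens Q (x z) (x z) (x z) (fderiv ℂ x z e) = 0 := by
    rw [_root_.zero_apply] at h1
    linear_combination -h1
  simpa using h4

/-- a family of lines in the surface along a chart: impossible -/
theorem no_line_family (hQ : SmoothQuartic Q) (h : IsChart Q W x) (hne : W.Nonempty)
    {u : ℂ × ℂ → Fin 4 → ℂ} (hu : DifferentiableOn ℂ u W) (hl : ∀ z ∈ W, IsLine Q (x z) (u z)) :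
    False := by
  obtain ⟨z, hz⟩ := hne
  have hx := h.differentiableAt hz
  have hu' : DifferentiableAt ℂ u z := (hu z hz).differentiableAt (h.isOpen.mem_nhds hz)
  have key : ∀ e : ℂ × ℂ, ∃ a b : ℂ, fderiv ℂ x z e = a • x z + b • u z := by
    intro e
    refine (line_rigid hQ (hl z hz) (x' := fderiv ℂ x z e) (u' := fderiv ℂ u z e) ?_).1
    intro l
    have hy : DifferentiableAt ℂ (fun z => x z + l • u z) z := hx.add (hu'.const_smul l)
    have h1 := fderiv_tens (Q := Q) hy hy hy hy e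
    have h2 : fderiv ℂ (fun z => tens Q (x z + l • u z) (x z + l • u z) (x z + l • u z)
        (x z + l • u z)) z = 0 := by
      have h3 : (fun z => tens Q (x z + l • u z) (x z + l • u z) (x z + l • u z)
          (x z + l • u z)) =ᶠ[𝓝 z] fun _ => (0 : ℂ) := by
        filter_upwards [h.isOpen.mem_nhds hz] with w hw
        rw [← eval_eq_tens hQ.hom]
        have := (hl w hw).2 1 l
        rwa [one_smul] at this
      rw [h3.fderiv_eq, fderiv_fun_const]; rfl
    have h5 : fderiv ℂ (fun z => x z + l • u z) z e = fderiv ℂ x z e + l • fderiv ℂ u z e := by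
      have h6 := hx.hasFDerivAt.add (hu'.hasFDerivAt.const_smul l)
      have h7 : fderiv ℂ (fun z => x z + l • u z) z = fderiv ℂ x z + l • fderiv ℂ u z := h6.fderiv
      rw [h7]; rfl
    rw [h5] at h1
    rw [h2, tens_swap14 Q (fderiv ℂ x z e + l • fderiv ℂ u z e), tens_swap24 Q (x z + l • u z)
      (fderiv ℂ x z e + l • fderiv ℂ u z e), tens_swap34 Q (x z + l • u z) (x z + l • u z)
      (fderiv ℂ x z e + l • fderiv ℂ u z e)] at h1
    have h4 : (4 : ℂ) * tens Q (x z + l • u z) (x z + l • u z) (x z + l • u z)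
        (fderiv ℂ x z e + l • fderiv ℂ u z e) = 0 := by
      rw [_root_.zero_apply] at h1
      linear_combination -h1
    simpa using h4
  obtain ⟨a1, b1, h1⟩ := key (1, 0)
  obtain ⟨a2, b2, h2⟩ := key (0, 1)
  have hli := h.indep z hz
  by_cases hb : b1 = 0
  · have h3 : (a1 : ℂ) • x z + (-1 : ℂ) • fderiv ℂ x z (1, 0) + (0 : ℂ) • fderiv ℂ x z (0, 1) = 0 := by
      rw [h1, hb]; simp
    have := (li3_elim hli h3).2.1
    norm_num at this
  · have h3 : (a1 * b2 - a2 * b1) • x z + (-b2) • fderiv ℂ x z (1, 0) +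
        b1 • fderiv ℂ x z (0, 1) = 0 := by
      rw [h1, h2]
      module
    exact hb (li3_elim hli h3).2.2

end chart

end Crest.Agent.R279.Alg
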