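import Mathlib

/-!
R279 (helper806): complex-differentiable maps on open subsets of complex normed spaces:
Cauchy estimate for the Fréchet derivative, Lipschitz bound, continuity of the derivative.
-/

set_option autoImplicit false

open Set Metric Filter
open scoped Topology

namespace Crest.Agent.R279.Hol

variable {E F : Type*} [NormedAddCommGroup E] [NormedSpace ℂ E]
  [NormedAddCommGroup F] [NormedSpace ℂ F]

/-- Cauchy estimate at the centre of a ball. -/
theorem norm_fderiv_le {f : E → F} {x : E} {R M : ℝ} (hR : 0 < R)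
    (hf : DifferentiableOn ℂ f (ball x R)) (hM : ∀ y ∈ ball x R, ‖f y‖ ≤ M) :
    ‖fderiv ℂ f x‖ ≤ M / R := by
  have hM0 : 0 ≤ M := (norm_nonneg _).trans (hM x (mem_ball_self hR))
  refine ContinuousLinearMap.opNorm_le_bound _ (by positivity) fun v => ?_
  rcases eq_or_ne v 0 with rfl | hv
  · simp
  have hv0 : 0 < ‖v‖ := norm_pos_iff.mpr hv
  set g : ℂ → F := fun c => f (x + c • v) with hg
  have hd : HasDerivAt g (fderiv ℂ f x v) 0 := by
    have h1 : HasFDerivAt f (fderiv ℂ f x) (x + (0 : ℂ) • v) := by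
      rw [zero_smul, add_zero]
      exact (hf.differentiableAt (ball_mem_nhds x hR)).hasFDerivAt
    have h2 : HasDerivAt (fun c : ℂ => x + c • v) v 0 := by
      simpa using ((hasDerivAt_id (0 : ℂ)).smul_const v).const_add x
    exact h1.comp_hasDerivAt (0 : ℂ) h2
  have key : ∀ ρ : ℝ, 0 < ρ → ρ < R / ‖v‖ → ‖fderiv ℂ f x v‖ * ρ ≤ M := by
    intro ρ hρ hρ'
    have hin : ∀ c : ℂ, ‖c‖ ≤ ρ → x + c • v ∈ ball x R := by
      intro c hc
      rw [mem_ball, dist_eq_norm, add_sub_cancel_left, norm_smul]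
      calc ‖c‖ * ‖v‖ ≤ ρ * ‖v‖ := by gcongr
        _ < R / ‖v‖ * ‖v‖ := by gcongr
        _ = R := by field_simp
    have hdiff : DiffContOnCl ℂ g (ball 0 ρ) := by
      have : DifferentiableOn ℂ g (closedBall 0 ρ) := by
        intro c hc
        have h1 : DifferentiableAt ℂ f (x + c • v) :=
          hf.differentiableAt (isOpen_ball.mem_nhds (hin c (by simpa using hc)))
        have h2 : DifferentiableAt ℂ (fun c : ℂ => x + c • v) c := by fun_prop
        exact (h1.comp c h2).differentiableWithinAt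
      exact (this.mono closure_ball_subset_closedBall).diffContOnCl
    have := Complex.norm_deriv_le_of_forall_mem_sphere_norm_le hρ hdiff (C := M)
      (fun c hc => hM _ (hin c (by simpa using (mem_sphere_zero_iff_norm.mp hc).le)))
    rw [hd.deriv, le_div_iff₀ hρ] at this
    exact this
  by_contra hcon
  push Not at hcon
  have ha : 0 < ‖fderiv ℂ f x v‖ := lt_of_le_of_lt (by positivity) hcon
  have hlt : M / ‖fderiv ℂ f x v‖ < R / ‖v‖ := by
    rw [div_lt_div_iff₀ ha hv0]
    have := hcon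
    rw [div_mul_eq_mul_div, div_lt_iff₀ hR] at this
    linarith
  obtain ⟨ρ, h1, h2⟩ := exists_between hlt
  have hρ : 0 < ρ := lt_of_le_of_lt (by positivity) h1
  have h3 := key ρ hρ h2
  rw [div_lt_iff₀ ha] at h1
  linarith

/-- Cauchy estimate at a point of a smaller ball. -/
theorem norm_fderiv_le_of_mem {f : E → F} {x₀ x : E} {R r M : ℝ} (hr : r < R)
    (hf : DifferentiableOn ℂ f (ball x₀ R)) (hM : ∀ y ∈ ball x₀ R, ‖f y‖ ≤ M)
    (hx : dist x x₀ ≤ r) :
    ‖fderiv ℂ f x‖ ≤ M / (R - r) := by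
  have hsub : ball x (R - r) ⊆ ball x₀ R := by
    intro y hy
    rw [mem_ball] at hy ⊢
    have := dist_triangle y x x₀
    linarith
  exact norm_fderiv_le (by linarith) (hf.mono hsub) fun y hy => hM y (hsub hy)

/-- Lipschitz estimate on a smaller ball. -/
theorem norm_sub_le {f : E → F} {x₀ x y : E} {R r M : ℝ} (hr : r < R)
    (hf : DifferentiableOn ℂ f (ball x₀ R)) (hM : ∀ y ∈ ball x₀ R, ‖f y‖ ≤ M)
    (hx : x ∈ ball x₀ r) (hy : y ∈ ball x₀ r) :
    ‖f y - f x‖ ≤ M / (R - r) * ‖y - x‖ := by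
  refine (convex_ball x₀ r).norm_image_sub_le_of_norm_fderiv_le (𝕜 := ℂ)
    (fun z hz => hf.differentiableAt (isOpen_ball.mem_nhds ?_)) (fun z hz => ?_) hx hy
  · rw [mem_ball] at hz ⊢; linarith
  · exact norm_fderiv_le_of_mem hr hf hM (mem_ball.mp hz).le

/-- Lipschitz estimate for the derivative on a small ball. -/
theorem norm_fderiv_sub_le {f : E → F} {x₀ x y : E} {R M : ℝ} (hR : 0 < R)
    (hf : DifferentiableOn ℂ f (ball x₀ R)) (hM : ∀ y ∈ ball x₀ R, ‖f y‖ ≤ M)
    (hx : x ∈ ball x₀ (R / 4)) (hy : y ∈ ball x₀ (R / 4)) :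
    ‖fderiv ℂ f x - fderiv ℂ f y‖ ≤ 8 * M / R ^ 2 * ‖x - y‖ := by
  rw [mem_ball] at hx hy
  set g : E → F := fun z => f (z + (x - y)) - f z with hg
  have hz1 : ∀ z ∈ ball y (R / 4), z ∈ ball x₀ (R / 2) := by
    intro z hz
    rw [mem_ball] at hz ⊢
    have := dist_triangle z y x₀
    linarith
  have hz2 : ∀ z ∈ ball y (R / 4), z + (x - y) ∈ ball x₀ (R / 2) := by
    intro z hz
    rw [mem_ball] at hz ⊢
    have h1 : dist (z + (x - y)) x = dist z y := by
      rw [dist_eq_norm, dist_eq_norm]; congr 1; abel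
    have := dist_triangle (z + (x - y)) x x₀
    linarith
  have hball : ∀ z ∈ ball x₀ (R / 2), ball x₀ R ∈ 𝓝 z := fun z hz =>
    isOpen_ball.mem_nhds (ball_subset_ball (by linarith) hz)
  have hd1 : ∀ z ∈ ball y (R / 4), DifferentiableAt ℂ (fun z => f (z + (x - y))) z := by
    intro z hz
    exact DifferentiableAt.comp z (hf.differentiableAt (hball _ (hz2 z hz))) (by fun_prop)
  have hd2 : ∀ z ∈ ball y (R / 4), DifferentiableAt ℂ f z := fun z hz =>
    hf.differentiableAt (hball _ (hz1 z hz))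
  have hgd : DifferentiableOn ℂ g (ball y (R / 4)) := fun z hz =>
    ((hd1 z hz).sub (hd2 z hz)).differentiableWithinAt
  have hgb : ∀ z ∈ ball y (R / 4), ‖g z‖ ≤ M / (R - R / 2) * ‖x - y‖ := by
    intro z hz
    have := norm_sub_le (by linarith : R / 2 < R) hf hM (hz1 z hz) (hz2 z hz)
    rwa [add_sub_cancel_left] at this
  have h := norm_fderiv_le (by linarith) hgd hgb
  have hy0 : y ∈ ball y (R / 4) := mem_ball_self (by linarith)
  have hfg : fderiv ℂ g y = fderiv ℂ f x - fderiv ℂ f y := by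
    rw [hg, fderiv_fun_sub (hd1 y hy0) (hd2 y hy0), fderiv_comp_add_right]
    congr 2
    abel
  rw [hfg] at h
  refine h.trans (le_of_eq ?_)
  field_simp
  ring

/-- The derivative of a complex differentiable map on an open set is continuous. -/
theorem continuousOn_fderiv {f : E → F} {U : Set E} (hU : IsOpen U)
    (hf : DifferentiableOn ℂ f U) : ContinuousOn (fderiv ℂ f) U := by
  intro x₀ hx₀
  obtain ⟨R₁, hR₁, h₁⟩ := Metric.isOpen_iff.mp hU x₀ hx₀
  have hc : ContinuousAt f x₀ := (hf.differentiableAt (hU.mem_nhds hx₀)).continuousAt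
  obtain ⟨R₂, hR₂, h₂⟩ := Metric.continuousAt_iff.mp hc 1 one_pos
  set R := min R₁ R₂ with hRdef
  have hR : 0 < R := lt_min hR₁ hR₂
  have hfR : DifferentiableOn ℂ f (ball x₀ R) :=
    hf.mono ((ball_subset_ball (min_le_left _ _)).trans h₁)
  have hM : ∀ y ∈ ball x₀ R, ‖f y‖ ≤ ‖f x₀‖ + 1 := by
    intro y hy
    have := h₂ (lt_of_lt_of_le (mem_ball.mp hy) (min_le_right _ _))
    rw [dist_eq_norm] at this
    have h3 := norm_add_le (f y - f x₀) (f x₀)
    rw [sub_add_cancel] at h3
    linarith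
  refine ContinuousAt.continuousWithinAt ?_
  refine continuousAt_of_locally_lipschitz (r := R / 4) (by linarith)
    (8 * (‖f x₀‖ + 1) / R ^ 2) fun y hy => ?_
  rw [dist_eq_norm, dist_eq_norm]
  exact norm_fderiv_sub_le hR hfR hM (mem_ball.mpr hy) (mem_ball_self (by linarith))

/-- Complex differentiable maps on open sets are `C¹`. -/
theorem contDiffOn_one {f : E → F} {U : Set E} (hU : IsOpen U)
    (hf : DifferentiableOn ℂ f U) : ContDiffOn ℂ 1 f U := by
  have h := (contDiffOn_succ_iff_fderiv_of_isOpen (𝕜 := ℂ) (n := 0) (f := f) hU).2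
    ⟨hf, by simp, contDiffOn_zero.2 (continuousOn_fderiv hU hf)⟩
  simpa using h

end Crest.Agent.R279.Hol
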