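import Mathlib
import Crest.Agent.R279.Hol806

/-!
# R279: scalar holomorphic implicit function theorem with uniqueness (helper545)
-/

set_option autoImplicit false

namespace Crest.Agent.R279.Impl

open Metric Set Filter Topology

variable {E : Type*} [NormedAddCommGroup E] [NormedSpace ℂ E] [CompleteSpace E]

omit [CompleteSpace E] in
/-- A linear form on `E × ℂ` whose restriction to `0 × ℂ` is nonzero is invertible there. -/
theorem isInvertible_inr {L : E × ℂ →L[ℂ] ℂ} (hL : L (0, 1) ≠ 0) :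
    (L ∘L ContinuousLinearMap.inr ℂ E ℂ).IsInvertible := by
  refine ⟨ContinuousLinearEquiv.unitsEquivAut ℂ (Units.mk0 _ hL), ?_⟩
  ext
  simp

/-- Scalar implicit function theorem for a holomorphic function `n` on an open subset of `E × ℂ`:
near a zero with nonvanishing `c`-derivative the zero set is a graph. -/
theorem exists_implicit {n : E × ℂ → ℂ} {O : Set (E × ℂ)} (hO : IsOpen O)
    (hn : DifferentiableOn ℂ n O) {x0 : E} {c0 : ℂ} (h0 : (x0, c0) ∈ O)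
    (hz : n (x0, c0) = 0) (hd : fderiv ℂ n (x0, c0) (0, 1) ≠ 0) :
    ∃ (W : Set E) (δ : ℝ) (χ : E → ℂ), IsOpen W ∧ x0 ∈ W ∧ 0 < δ ∧ DifferentiableOn ℂ χ W ∧
      χ x0 = c0 ∧ W ×ˢ ball c0 δ ⊆ O ∧ (∀ x ∈ W, χ x ∈ ball c0 δ) ∧
      ∀ x ∈ W, ∀ c ∈ ball c0 δ, (n (x, c) = 0 ↔ χ x = c) := by
  have hC : ContDiffAt ℂ 1 n (x0, c0) :=
    (Hol.contDiffOn_one hO hn).contDiffAt (hO.mem_nhds h0)
  have hi := isInvertible_inr (E := E) hd
  set χ : E → ℂ := hC.implicitFunction one_ne_zero hi with hχ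
  have hself : χ x0 = c0 := hC.implicitFunction_apply_self one_ne_zero hi
  have hiff := hC.eventually_apply_eq_iff_implicitFunction one_ne_zero hi
  have hcd : ContDiffAt ℂ 1 χ x0 := hC.contDiffAt_implicitFunction one_ne_zero hi
  have hcd' : ∀ᶠ x in 𝓝 x0, ContDiffAt ℂ 1 χ x := hcd.eventually (by simp)
  rw [hz] at hiff
  have hall : ∀ᶠ v in 𝓝 (x0, c0), v ∈ O ∧ (n v = 0 ↔ χ v.1 = v.2) :=
    (show ∀ᶠ v in 𝓝 (x0, c0), v ∈ O from hO.mem_nhds h0).and hiff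
  rw [nhds_prod_eq, ((nhds_basis_opens x0).prod nhds_basis_ball).eventually_iff] at hall
  obtain ⟨⟨W, δ⟩, ⟨⟨hxW, hWo⟩, hδ⟩, hW⟩ := hall
  have hcont : ContinuousAt χ x0 := hcd.continuousAt
  have hev : ∀ᶠ x in 𝓝 x0, χ x ∈ ball c0 δ := by
    refine hcont.eventually_mem ?_
    rw [hself]
    exact ball_mem_nhds _ hδ
  obtain ⟨W', hW'sub, hW'o, hxW'⟩ := _root_.mem_nhds_iff.mp (hev.and hcd')
  refine ⟨W ∩ W', δ, χ, hWo.inter hW'o, ⟨hxW, hxW'⟩, hδ, ?_, hself, ?_, ?_, ?_⟩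
  · intro x hx
    exact ((hW'sub hx.2).2.differentiableAt (by simp)).differentiableWithinAt
  · rintro ⟨x, c⟩ hxc
    exact (@hW (x, c) ⟨hxc.1.1, hxc.2⟩).1
  · intro x hx
    exact (hW'sub hx.2).1
  · intro x hx c hc
    exact (@hW (x, c) ⟨hx.1, hc⟩).2

end Crest.Agent.R279.Impl
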