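import Crest.Agent.R279.Alg712A2

/-!
# R279 (helper712), A4: the set `DD Q` has empty interior
-/

set_option autoImplicit false

namespace Crest.Agent.R279.Alg

open MvPolynomial Topology

section pointwise

variable {Q : MvPolynomial (Fin 4) ℂ}

theorem dg6_smul_mid (p u w : Fin 4 → ℂ) (c : ℂ) : dg6 Q p (c • u) w = c ^ 5 * dg6 Q p u w := by
  simp only [dg6, dq2, dq3, dq4, q2, q3, q4, tens_smul1, tens_smul2, tens_smul3, tens_smul4]
  ring

theorem dg6_add_smul_mid (hQ : Q.IsHomogeneous 4) {p u w : Fin 4 → ℂ} (hp : eval p Q = 0)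
    (hu : u ∈ Tg Q p) (hw : w ∈ Tg Q p) (c : ℂ) : dg6 Q p (u + c • p) w = dg6 Q p u w := by
  have h1 := hasDerivAt_g6 (Q := Q) p (u + c • p) w
  have h2 := hasDerivAt_g6 (Q := Q) p u w
  have h3 : (fun t : ℂ => g6 Q p (u + c • p + t • w)) = fun t : ℂ => g6 Q p (u + t • w) := by
    funext t
    have h4 : u + c • p + t • w = (u + t • w) + c • p := by module
    rw [h4]
    exact g6_add_smul hQ hp (Submodule.add_mem _ hu (Submodule.smul_mem _ _ hw)) c
  rw [h3] at h1
  exact h1.unique h2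

theorem dg6_self_right (hQ : Q.IsHomogeneous 4) {p u : Fin 4 → ℂ} (hp : eval p Q = 0)
    (hu : u ∈ Tg Q p) : dg6 Q p u p = 0 := by
  have h1 := hasDerivAt_g6 (Q := Q) p u p
  have h3 : (fun t : ℂ => g6 Q p (u + t • p)) = fun _ : ℂ => g6 Q p u := by
    funext t
    exact g6_add_smul hQ hp hu t
  rw [h3] at h1
  exact h1.unique (hasDerivAt_const _ _)

/-- a multiple root of `g6` on which `q2` vanishes is a line direction (if `q2` is
nondegenerate) -/
theorem isLine_of_multRoot (hQ : Q.IsHomogeneous 4) {p u : Fin 4 → ℂ} (hp : eval p Q = 0)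
    (hnd : NonDeg Q p) (hu : u ∈ Tg Q p) (hli : LinearIndependent ℂ ![p, u])
    (h6 : g6 Q p u = 0) (hd : ∀ w ∈ Tg Q p, dg6 Q p u w = 0) (h2 : tens Q p p u u = 0) :
    IsLine Q p u := by
  have hq2 : q2 Q p u = 0 := by rw [q2, h2, mul_zero]
  have hq3 : q3 Q p u = 0 := by
    rw [g6, hq2] at h6
    have : q3 Q p u ^ 2 = 0 := by linear_combination h6
    exact pow_eq_zero_iff (two_ne_zero) |>.1 this
  obtain ⟨w, hw, hw2⟩ : ∃ w ∈ Tg Q p, tens Q p p u w ≠ 0 := by
    by_contra hcon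
    push Not at hcon
    obtain ⟨c, hc⟩ := hnd u hu hcon
    have := LinearIndependent.pair_iff.1 hli (-c) 1 (by rw [hc]; module)
    exact one_ne_zero this.2
  have hq4 : q4 Q u = 0 := by
    have := hd w hw
    rw [dg6, hq2, hq3, dq2] at this
    have h5 : tens Q p p u w * q4 Q u = 0 := by linear_combination (-1 / 48) * this
    exact (mul_eq_zero.1 h5).resolve_left hw2
  refine isLine_of_tens hQ hli ?_ (tens_of_mem_Tg hu) h2 ?_ ?_
  · rw [← eval_eq_tens hQ]; exact hp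
  · rw [q3] at hq3; simpa using hq3
  · rw [q4] at hq4; exact hq4

/-- the second tangency point: for a multiple root `e` with `q2 ≠ 0`, the point
`v = -(q3 / (2 q2)) p + e` satisfies `Q v = 0` and `grad v` vanishes on `T_p` -/
theorem second_point (hQ : Q.IsHomogeneous 4) {p e : Fin 4 → ℂ} (hp : eval p Q = 0)
    (he : e ∈ Tg Q p) (h6 : g6 Q p e = 0) (hd : ∀ w ∈ Tg Q p, dg6 Q p e w = 0)
    (h2 : q2 Q p e ≠ 0) {l : ℂ} (hl : l = -(q3 Q p e / (2 * q2 Q p e))) :
    tens Q (l • p + e) (l • p + e) (l • p + e) (l • p + e) = 0 ∧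
      ∀ w ∈ Tg Q p, tens Q (l • p + e) (l • p + e) (l • p + e) w = 0 := by
  have hl' : 2 * q2 Q p e * l = -q3 Q p e := by rw [hl]; field_simp
  have hp' : tens Q p p p p = 0 := by rw [← eval_eq_tens hQ]; exact hp
  have he' := tens_of_mem_Tg he
  constructor
  · have h1 := tens_comb (Q := Q) p e l 1
    rw [one_smul] at h1
    rw [h1, hp', q1, he']
    have h3 : 4 * q2 Q p e * (l ^ 2 * q2 Q p e + l * q3 Q p e + q4 Q e) = 0 := by
      rw [g6] at h6
      linear_combination (2 * q2 Q p e * l + q3 Q p e) * hl' - h6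
    have h4 := (mul_eq_zero.1 h3).resolve_left (mul_ne_zero (by norm_num) h2)
    linear_combination h4
  · intro w hw
    have hw' := tens_of_mem_Tg hw
    have hexp : 4 * tens Q (l • p + e) (l • p + e) (l • p + e) w =
        l ^ 2 * dq2 Q p e w + l * dq3 Q p e w + dq4 Q e w := by
      simp only [tens_add1, tens_add2, tens_add3, tens_smul1, tens_smul2, tens_smul3, dq2, dq3, dq4]
      rw [hw', tens_swap23 Q p e p w, tens_swap13 Q e p p w, tens_swap12 Q e p e w,
        tens_swap13 Q e e p w]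
      ring
    have h3 : 4 * q2 Q p e * (l ^ 2 * dq2 Q p e w + l * dq3 Q p e w + dq4 Q e w) = 0 := by
      have h5 := hd w hw
      rw [dg6] at h5
      rw [g6] at h6
      have h7 : q2 Q p e * (4 * q2 Q p e * (l ^ 2 * dq2 Q p e w + l * dq3 Q p e w + dq4 Q e w)) = 0 := by
        linear_combination (2 * q2 Q p e * l * dq2 Q p e w - q3 Q p e * dq2 Q p e w +
          2 * q2 Q p e * dq3 Q p e w) * hl' + dq2 Q p e w * h6 - q2 Q p e * h5
      exact (mul_eq_zero.1 h7).resolve_left h2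
    have h8 := (mul_eq_zero.1 h3).resolve_left (mul_ne_zero (by norm_num) h2)
    rw [← hexp] at h8
    simpa using h8

end pointwise

section chart

variable {Q : MvPolynomial (Fin 4) ℂ} {W : Set (ℂ × ℂ)} {x : ℂ × ℂ → Fin 4 → ℂ}

/-- the closed condition "multiple root direction" in a chart -/
noncomputable def multG (Q : MvPolynomial (Fin 4) ℂ) (x : ℂ × ℂ → Fin 4 → ℂ) (z : ℂ × ℂ)
    (u : Fin 4 → ℂ) : ℂ × ℂ × ℂ :=
  (g6 Q (x z) u, dg6 Q (x z) u (y1 x z), dg6 Q (x z) u (y2 x z))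

theorem multG_eq_zero_iff (hQ : SmoothQuartic Q) (h : IsChart Q W x) {z : ℂ × ℂ} (hz : z ∈ W)
    {u : Fin 4 → ℂ} (hu : u ∈ Tg Q (x z)) :
    multG Q x z u = 0 ↔ (g6 Q (x z) u = 0 ∧ ∀ w ∈ Tg Q (x z), dg6 Q (x z) u w = 0) := by
  constructor
  · intro h0
    have h1 : g6 Q (x z) u = 0 := congrArg (fun p : ℂ × ℂ × ℂ => p.1) h0
    have h2 : dg6 Q (x z) u (y1 x z) = 0 := congrArg (fun p : ℂ × ℂ × ℂ => p.2.1) h0
    have h3 : dg6 Q (x z) u (y2 x z) = 0 := congrArg (fun p : ℂ × ℂ × ℂ => p.2.2) h0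
    refine ⟨h1, fun w hw => ?_⟩
    obtain ⟨a, b, c, rfl⟩ := (h.mem_Tg hQ hz).1 hw
    rw [dg6_add_right, dg6_add_right, dg6_smul_right, dg6_smul_right, dg6_smul_right,
      dg6_self_right hQ.hom (h.zero z hz) hu]
    rw [y1] at h2
    rw [y2] at h3
    rw [h2, h3]; ring
  · rintro ⟨h1, h2⟩
    simp [multG, h1, h2 _ (h.y1_mem hQ hz), h2 _ (h.y2_mem hQ hz)]

theorem diffOn_g6 {E : Type*} [NormedAddCommGroup E] [NormedSpace ℂ E] {U : Set E}
    {a b : E → Fin 4 → ℂ} (ha : DifferentiableOn ℂ a U) (hb : DifferentiableOn ℂ b U) :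
    DifferentiableOn ℂ (fun z => g6 Q (a z) (b z)) U := by
  unfold g6 q3 q2 q4
  have h1 := differentiableOn_tens (Q := Q) ha hb hb hb
  have h2 := differentiableOn_tens (Q := Q) ha ha hb hb
  have h3 := differentiableOn_tens (Q := Q) hb hb hb hb
  exact ((h1.const_mul 4).pow 2).sub (((h2.const_mul 6).const_mul 4).mul h3)

theorem diffOn_dg6 {E : Type*} [NormedAddCommGroup E] [NormedSpace ℂ E] {U : Set E}
    {a b c : E → Fin 4 → ℂ} (ha : DifferentiableOn ℂ a U) (hb : DifferentiableOn ℂ b U)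
    (hc : DifferentiableOn ℂ c U) :
    DifferentiableOn ℂ (fun z => dg6 Q (a z) (b z) (c z)) U := by
  unfold dg6 dq3 dq2 dq4 q3 q2 q4
  have h1 := differentiableOn_tens (Q := Q) ha hb hb hb
  have h2 := differentiableOn_tens (Q := Q) ha ha hb hb
  have h3 := differentiableOn_tens (Q := Q) hb hb hb hb
  have h4 := differentiableOn_tens (Q := Q) ha hb hb hc
  have h5 := differentiableOn_tens (Q := Q) ha ha hb hc
  have h6 := differentiableOn_tens (Q := Q) hb hb hb hc
  exact (((h1.const_mul 4).const_mul 2).mul (h4.const_mul 12)).sub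
    ((((h5.const_mul 12).mul h3).add ((h2.const_mul 6).mul (h6.const_mul 4))).const_mul 4)

/-- if `g6` vanishes in all directions `y2 + c y1` then it vanishes on the tangent space -/
theorem g6_zero_of_dir (hQ : SmoothQuartic Q) (h : IsChart Q W x) {z : ℂ × ℂ} (hz : z ∈ W)
    (h0 : ∀ c : ℂ, g6 Q (x z) (y2 x z + c • y1 x z) = 0) :
    ∀ v ∈ Tg Q (x z), g6 Q (x z) v = 0 := by
  have hy1 : g6 Q (x z) (y1 x z) = 0 := by
    have hc : Continuous (fun ε : ℂ => g6 Q (x z) (y1 x z + ε • y2 x z)) := by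
      have h1 : Differentiable ℂ (fun ε : ℂ => g6 Q (x z) (y1 x z + ε • y2 x z)) := by
        have h2 := differentiable_g6 Q
        exact h2.comp (g := fun z : (Fin 4 → ℂ) × (Fin 4 → ℂ) => g6 Q z.1 z.2)
          (f := fun ε : ℂ => (x z, y1 x z + ε • y2 x z)) (by fun_prop)
      exact h1.continuous
    have h3 : ∀ ε : ℂ, ε ≠ 0 → g6 Q (x z) (y1 x z + ε • y2 x z) = 0 := by
      intro ε hε
      have h4 : y1 x z + ε • y2 x z = ε • (y2 x z + ε⁻¹ • y1 x z) := by
        rw [smul_add, smul_smul, mul_inv_cancel₀ hε, one_smul, add_comm]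
      rw [h4, g6_smul_right, h0, mul_zero]
    have h5 : Filter.Tendsto (fun ε : ℂ => g6 Q (x z) (y1 x z + ε • y2 x z)) (𝓝[≠] 0)
        (𝓝 (g6 Q (x z) (y1 x z + (0 : ℂ) • y2 x z))) :=
      (hc.tendsto 0).mono_left nhdsWithin_le_nhds
    have h6 : Filter.Tendsto (fun ε : ℂ => g6 Q (x z) (y1 x z + ε • y2 x z)) (𝓝[≠] 0) (𝓝 0) := by
      refine tendsto_const_nhds.congr' ?_
      filter_upwards [self_mem_nhdsWithin] with ε hε
      exact (h3 ε hε).symm
    have h7 := tendsto_nhds_unique h5 h6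
    simpa using h7
  intro v hv
  by_cases hli : LinearIndependent ℂ ![x z, v]
  · obtain ⟨a, t, ht, hc⟩ := dir_cases hQ h hz hv hli
    have h1 : g6 Q (x z) (t • (v + a • x z)) = t ^ 6 * g6 Q (x z) v := by
      rw [g6_smul_right, g6_add_smul hQ.hom (h.zero z hz) hv]
    have h2 : g6 Q (x z) (t • (v + a • x z)) = 0 := by
      rcases hc with hc | ⟨c, hc⟩
      · rw [hc, hy1]
      · rw [hc, h0]
    rw [h2] at h1
    exact (mul_eq_zero.1 h1.symm).resolve_left (pow_ne_zero _ ht)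
  · obtain ⟨c, hc⟩ := exists_smul_of_not_li (h.ne_zero hz) hli
    have h1 := g6_add_smul hQ.hom (h.zero z hz) (Submodule.zero_mem (Tg Q (x z))) c
    rw [zero_add] at h1
    rw [hc, h1]
    simp [g6, q3, q4]

/-- if `g6` vanishes identically there is a line -/
theorem exists_line_of_g6_zero (hQ : SmoothQuartic Q) (h : IsChart Q W x) {z : ℂ × ℂ} (hz : z ∈ W)
    (hg : GRank Q x z) (h0 : ∀ v ∈ Tg Q (x z), g6 Q (x z) v = 0) : ∃ u, IsLine Q (x z) u := by
  have hnd := hg.nonDeg hQ h hz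
  have key : ∀ u ∈ Tg Q (x z), LinearIndependent ℂ ![x z, u] → tens Q (x z) (x z) u u = 0 →
      IsLine Q (x z) u := by
    intro u hu hli h2
    refine isLine_of_multRoot hQ.hom (h.zero z hz) hnd hu hli (h0 u hu) ?_ h2
    intro w hw
    have h1 := hasDerivAt_g6 (Q := Q) (x z) u w
    have h3 : (fun t : ℂ => g6 Q (x z) (u + t • w)) = fun _ => 0 := by
      funext t
      exact h0 _ (Submodule.add_mem _ hu (Submodule.smul_mem _ _ hw))
    rw [h3] at h1
    exact h1.unique (hasDerivAt_const _ _)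
  by_cases h11 : tens Q (x z) (x z) (y1 x z) (y1 x z) = 0
  · exact ⟨_, key _ (h.y1_mem hQ hz) (h.li_y1 hz) h11⟩
  · -- root of the quadratic polynomial
    set A := tens Q (x z) (x z) (y1 x z) (y1 x z) with hA
    set B := tens Q (x z) (x z) (y2 x z) (y1 x z) with hB
    set C' := tens Q (x z) (x z) (y2 x z) (y2 x z) with hC
    obtain ⟨s, hs⟩ := IsAlgClosed.exists_pow_nat_eq (B ^ 2 - A * C') (n := 2) (by norm_num)
    refine ⟨_, key (y2 x z + ((-B + s) / A) • y1 x z) (h.dir_mem hQ hz _) (h.li_dir hz _) ?_⟩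
    simp only [tens_add3, tens_add4, tens_smul3, tens_smul4]
    rw [tens_swap34 Q (x z) (x z) (y1 x z) (y2 x z), ← hA, ← hB, ← hC]
    field_simp
    linear_combination hs

/-- A4 (case (b) core): a holomorphic field of multiple roots with `q2 ≠ 0` is impossible -/
theorem multField_contra (hQ : SmoothQuartic Q) (h : IsChart Q W x) (hne : W.Nonempty)
    (hgr : ∀ z ∈ W, GRank Q x z) {e : ℂ × ℂ → Fin 4 → ℂ} (he : DifferentiableOn ℂ e W)
    (heT : ∀ z ∈ W, e z ∈ Tg Q (x z)) (heli : ∀ z ∈ W, LinearIndependent ℂ ![x z, e z])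
    (h6 : ∀ z ∈ W, g6 Q (x z) (e z) = 0)
    (hd : ∀ z ∈ W, ∀ w ∈ Tg Q (x z), dg6 Q (x z) (e z) w = 0)
    (h2 : ∀ z ∈ W, q2 Q (x z) (e z) ≠ 0) : False := by
  obtain ⟨z, hz⟩ := hne
  set l : ℂ × ℂ → ℂ := fun z => -(q3 Q (x z) (e z) / (2 * q2 Q (x z) (e z))) with hl
  set v : ℂ × ℂ → Fin 4 → ℂ := fun z => l z • x z + e z with hv
  have hld : DifferentiableOn ℂ l W := by
    have e1 : DifferentiableOn ℂ (fun z => q3 Q (x z) (e z)) W :=
      (differentiableOn_tens h.diff he he he).const_mul 4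
    have e2 : DifferentiableOn ℂ (fun z => q2 Q (x z) (e z)) W :=
      (differentiableOn_tens h.diff h.diff he he).const_mul 6
    have e3 : DifferentiableOn ℂ (fun z => q3 Q (x z) (e z) / (2 * q2 Q (x z) (e z))) W := by
      simp only [div_eq_mul_inv]
      exact e1.mul ((e2.const_mul 2).inv (fun w hw => mul_ne_zero two_ne_zero (h2 w hw)))
    exact e3.neg
  have hvd : DifferentiableOn ℂ v W := (hld.smul h.diff).add he
  have hva : DifferentiableAt ℂ v z := (hvd z hz).differentiableAt (h.isOpen.mem_nhds hz)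
  have hxa := h.differentiableAt hz
  have hsp := fun w (hw : w ∈ W) => second_point hQ.hom (h.zero w hw) (heT w hw) (h6 w hw)
    (hd w hw) (h2 w hw) (l := l w) rfl
  -- `v` is in the tangent space
  have hvT : ∀ w ∈ W, tens Q (x w) (x w) (x w) (v w) = 0 := by
    intro w hw
    simp only [hv]
    rw [tens_add4, tens_smul4, h.tens_self hQ.hom hw, tens_of_mem_Tg (heT w hw)]
    ring
  have hvli : LinearIndependent ℂ ![x z, v z] := by
    rw [LinearIndependent.pair_iff]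
    intro s t hst
    have h1 : (s + t * l z) • x z + t • e z = 0 := by rw [← hst]; simp only [hv]; module
    obtain ⟨h3, h4⟩ := LinearIndependent.pair_iff.1 (heli z hz) _ _ h1
    rw [h4, zero_mul, add_zero] at h3
    exact ⟨h3, h4⟩
  have hv0 : v z ≠ 0 := hvli.ne_zero 1
  -- derivative of `Q (v z) = 0`
  have hder : ∀ e' : ℂ × ℂ, tens Q (v z) (v z) (v z) (fderiv ℂ v z e') = 0 := by
    intro e'
    have h1 := fderiv_tens (Q := Q) hva hva hva hva e'
    have h3 : fderiv ℂ (fun z => tens Q (v z) (v z) (v z) (v z)) z = 0 := by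
      have h4 : (fun z => tens Q (v z) (v z) (v z) (v z)) =ᶠ[𝓝 z] fun _ => (0 : ℂ) := by
        filter_upwards [h.isOpen.mem_nhds hz] with w hw
        exact (hsp w hw).1
      rw [h4.fderiv_eq, fderiv_fun_const]; rfl
    rw [h3, tens_swap14 Q (fderiv ℂ v z e'), tens_swap24 Q (v z) (fderiv ℂ v z e'),
      tens_swap34 Q (v z) (v z) (fderiv ℂ v z e')] at h1
    have h4 : (4 : ℂ) * tens Q (v z) (v z) (v z) (fderiv ℂ v z e') = 0 := by
      rw [_root_.zero_apply] at h1
      linear_combination -h1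
    simpa using h4
  -- kernel of `grad (v z)` is contained in `T_x`
  have hker : ∀ w, tens Q (v z) (v z) (v z) w = 0 → tens Q (x z) (x z) (x z) w = 0 := by
    intro w hw
    by_contra hne
    apply hQ.grad_ne hv0
    funext i
    rw [grad_apply hQ.hom]
    set y : Fin 4 → ℂ := Pi.single i 1 with hy
    set s : ℂ := tens Q (x z) (x z) (x z) y / tens Q (x z) (x z) (x z) w with hs
    have h1 : y - s • w ∈ Tg Q (x z) := by
      apply mem_Tg_of_tens
      rw [tens_sub4, tens_smul4, hs]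
      field_simp
      ring
    have h3 := (hsp z hz).2 _ h1
    have h4 : tens Q (v z) (v z) (v z) y = 0 := by
      have h5 : tens Q (v z) (v z) (v z) (y - s • w) = 0 := h3
      rw [tens_sub4, tens_smul4, hw] at h5
      linear_combination h5
    rw [h4]; simp
  have hfin : ∀ e' : ℂ × ℂ, tens Q (x z) (x z) (fderiv ℂ x z e') (v z) = 0 := by
    intro e'
    have h1 := fderiv_tens (Q := Q) hxa hxa hxa hva e'
    have h3 : fderiv ℂ (fun z => tens Q (x z) (x z) (x z) (v z)) z = 0 := by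
      have h4 : (fun z => tens Q (x z) (x z) (x z) (v z)) =ᶠ[𝓝 z] fun _ => (0 : ℂ) := by
        filter_upwards [h.isOpen.mem_nhds hz] with w hw
        exact hvT w hw
      rw [h4.fderiv_eq, fderiv_fun_const]; rfl
    rw [h3, hker _ (hder e'), tens_swap13 Q (fderiv ℂ x z e') (x z) (x z) (v z),
      tens_swap23 Q (x z) (fderiv ℂ x z e') (x z) (v z)] at h1
    have h4 : (3 : ℂ) * tens Q (x z) (x z) (fderiv ℂ x z e') (v z) = 0 := by
      rw [_root_.zero_apply] at h1
      linear_combination -h1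
    simpa using h4
  exact (hgr z hz).elim hQ h hz (hvT z hz) (hfin (1, 0)) (hfin (0, 1)) hvli

/-- A4: `InD` fails at some point of every chart. -/
theorem exists_not_inD (hQ : SmoothQuartic Q) (h : IsChart Q W x) (hne : W.Nonempty) :
    ∃ z ∈ W, ¬ InD Q (x z) := by
  by_contra hcon
  push Not at hcon
  set W1 : Set (ℂ × ℂ) := {z ∈ W | GRank Q x z} with hW1
  have hW1o : IsOpen W1 := isOpen_gRank hQ h
  have hW1ne : W1.Nonempty := by
    obtain ⟨z, hz, hg⟩ := gauss_rank hQ h hne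
    exact ⟨z, hz, hg⟩
  have hW1s : W1 ⊆ W := fun z hz => hz.1
  -- a point where `g6` is not identically zero
  obtain ⟨z1, hz1, c1, hc1⟩ : ∃ z ∈ W1, ∃ c : ℂ, g6 Q (x z) (y2 x z + c • y1 x z) ≠ 0 := by
    by_contra hcon2
    push Not at hcon2
    obtain ⟨z, hz, hno⟩ := no_line hQ (h.mono hW1o hW1s) hW1ne
    exact hno (exists_line_of_g6_zero hQ h (hW1s hz) hz.2 (g6_zero_of_dir hQ h (hW1s hz)
      (hcon2 z hz)))
  set W2 : Set (ℂ × ℂ) := W1 ∩ (fun z => g6 Q (x z) (y2 x z + c1 • y1 x z)) ⁻¹' {0}ᶜ with hW2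
  have hx1 : DifferentiableOn ℂ x W1 := h.diff.mono hW1s
  have hy1 : DifferentiableOn ℂ (y1 x) W1 := h.diff_y1.mono hW1s
  have hy2 : DifferentiableOn ℂ (y2 x) W1 := h.diff_y2.mono hW1s
  have hW2o : IsOpen W2 :=
    (diffOn_g6 hx1 (hy2.add (hy1.const_smul c1))).continuousOn.isOpen_inter_preimage hW1o
      isOpen_compl_singleton
  have hW2ne : W2.Nonempty := ⟨z1, hz1, hc1⟩
  have hW2s : W2 ⊆ W1 := Set.inter_subset_left
  have hW2W : W2 ⊆ W := hW2s.trans hW1s
  -- a holomorphic multiple root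
  obtain ⟨W3, hW3s, hW3o, hW3ne, e, he, heT, heli, heG⟩ : ∃ W3 ⊆ W2, IsOpen W3 ∧ W3.Nonempty ∧
      ∃ e : ℂ × ℂ → Fin 4 → ℂ, DifferentiableOn ℂ e W3 ∧ (∀ z ∈ W3, e z ∈ Tg Q (x z)) ∧
        (∀ z ∈ W3, LinearIndependent ℂ ![x z, e z]) ∧ ∀ z ∈ W3, multG Q x z (e z) = 0 := by
    by_cases hall : ∀ z ∈ W2, multG Q x z (y1 x z) = 0
    · exact ⟨W2, subset_rfl, hW2o, hW2ne, y1 x, hy1.mono hW2s, fun z hz => h.y1_mem hQ (hW2W hz),
        fun z hz => h.li_y1 (hW2W hz), hall⟩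
    push Not at hall
    obtain ⟨z2, hz2, hn2⟩ := hall
    set W2' : Set (ℂ × ℂ) := W2 ∩ (fun z => multG Q x z (y1 x z)) ⁻¹' {0}ᶜ with hW2'
    have hcont : ContinuousOn (fun z => multG Q x z (y1 x z)) W2 :=
      (diffOn_g6 (hx1.mono hW2s) (hy1.mono hW2s)).continuousOn.prodMk
        ((diffOn_dg6 (hx1.mono hW2s) (hy1.mono hW2s) (hy1.mono hW2s)).continuousOn.prodMk
        (diffOn_dg6 (hx1.mono hW2s) (hy1.mono hW2s) (hy2.mono hW2s)).continuousOn)
    have hW2'o : IsOpen W2' := hcont.isOpen_inter_preimage hW2o isOpen_compl_singleton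
    have hW2'ne : W2'.Nonempty := ⟨z2, hz2, hn2⟩
    have hW2's : W2' ⊆ W2 := Set.inter_subset_left
    have hsW : W2' ⊆ W := hW2's.trans hW2W
    have e1 : DifferentiableOn ℂ (fun p : (ℂ × ℂ) × ℂ => y2 x p.1) (W2' ×ˢ Set.univ) :=
      (h.diff_y2.mono hsW).comp differentiable_fst.differentiableOn (fun p hp => hp.1)
    have e2 : DifferentiableOn ℂ (fun p : (ℂ × ℂ) × ℂ => y1 x p.1) (W2' ×ˢ Set.univ) :=
      (h.diff_y1.mono hsW).comp differentiable_fst.differentiableOn (fun p hp => hp.1)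
    have hdir : DifferentiableOn ℂ (fun p : (ℂ × ℂ) × ℂ => y2 x p.1 + p.2 • y1 x p.1)
        (W2' ×ˢ Set.univ) := e1.add (differentiable_snd.differentiableOn.smul e2)
    have hxp : DifferentiableOn ℂ (fun p : (ℂ × ℂ) × ℂ => x p.1) (W2' ×ˢ Set.univ) :=
      (h.diff.mono hsW).comp differentiable_fst.differentiableOn (fun p hp => hp.1)
    obtain ⟨W3, hW3s, hW3o, hW3ne, ρ, hρ, hsel⟩ := exists_selection hW2'o hW2'ne
      (N := fun p => g6 Q (x p.1) (y2 x p.1 + p.2 • y1 x p.1)) (diffOn_g6 hxp hdir)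
      (G := fun p => multG Q x p.1 (y2 x p.1 + p.2 • y1 x p.1)) (o := 0)
      ((diffOn_g6 hxp hdir).continuousOn.prodMk
        ((diffOn_dg6 hxp hdir e2).continuousOn.prodMk (diffOn_dg6 hxp hdir e1).continuousOn))
      (fun z _ c h0 => congrArg (fun p : ℂ × ℂ × ℂ => p.1) h0)
      (by
        intro z hz
        have hzW := hsW hz
        obtain ⟨u, huT, huli, hu6, hud⟩ := hcon z hzW
        obtain ⟨a, t, ht, hc⟩ := dir_cases hQ h hzW huT huli
        have hG : multG Q x z (t • (u + a • x z)) = 0 := by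
          have hmem : t • (u + a • x z) ∈ Tg Q (x z) :=
            Submodule.smul_mem _ _ (Submodule.add_mem _ huT
              (Submodule.smul_mem _ _ (self_mem_Tg hQ.hom (h.zero z hzW))))
          rw [multG_eq_zero_iff hQ h hzW hmem]
          refine ⟨?_, fun w hw => ?_⟩
          · rw [g6_smul_right, g6_add_smul hQ.hom (h.zero z hzW) huT, hu6, mul_zero]
          · rw [dg6_smul_mid, dg6_add_smul_mid hQ.hom (h.zero z hzW) huT hw, hud w hw, mul_zero]
        rcases hc with hc | ⟨c, hc⟩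
        · exfalso
          rw [hc] at hG
          exact hz.2 hG
        · rw [hc] at hG
          exact ⟨c, hG⟩)
      (fun z hz => ⟨c1, (hW2's hz).2⟩)
    refine ⟨W3, hW3s.trans hW2's, hW3o, hW3ne, fun z => y2 x z + ρ z • y1 x z, ?_, ?_, ?_, hsel⟩
    · exact (h.diff_y2.mono (hW3s.trans hsW)).add (hρ.smul (h.diff_y1.mono (hW3s.trans hsW)))
    · exact fun z hz => h.dir_mem hQ (hsW (hW3s hz)) _
    · exact fun z hz => h.li_dir (hsW (hW3s hz)) _
  have hW3W : W3 ⊆ W := hW3s.trans hW2W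
  -- `q2 ≠ 0` somewhere
  obtain ⟨z3, hz3, hno⟩ := no_line hQ (h.mono hW3o hW3W) hW3ne
  have hq2c : ContinuousOn (fun z => q2 Q (x z) (e z)) W3 :=
    ((differentiableOn_tens (h.diff.mono hW3W) (h.diff.mono hW3W) he he).const_mul 6).continuousOn
  set W4 : Set (ℂ × ℂ) := W3 ∩ (fun z => q2 Q (x z) (e z)) ⁻¹' {0}ᶜ with hW4
  have hW4o : IsOpen W4 := hq2c.isOpen_inter_preimage hW3o isOpen_compl_singleton
  have hW4s : W4 ⊆ W3 := Set.inter_subset_left
  have hz34 : z3 ∈ W4 := by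
    refine ⟨hz3, ?_⟩
    intro h0
    apply hno
    have hG := (multG_eq_zero_iff hQ h (hW3W hz3) (heT z3 hz3)).1 (heG z3 hz3)
    have h0' : q2 Q (x z3) (e z3) = 0 := h0
    refine ⟨e z3, isLine_of_multRoot hQ.hom (h.zero z3 (hW3W hz3))
      ((hW2s (hW3s hz3)).2.nonDeg hQ h (hW3W hz3)) (heT z3 hz3) (heli z3 hz3) hG.1 hG.2 ?_⟩
    rw [q2] at h0'
    simpa using h0'
  refine multField_contra hQ (h.mono hW4o (hW4s.trans hW3W)) ⟨z3, hz34⟩
    (fun z hz => (hW2s (hW3s (hW4s hz))).2) (he.mono hW4s) (fun z hz => heT z (hW4s hz))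
    (fun z hz => heli z (hW4s hz)) (fun z hz => ?_) (fun z hz => ?_) (fun z hz => hz.2)
  · exact ((multG_eq_zero_iff hQ h (hW3W (hW4s hz)) (heT z (hW4s hz))).1 (heG z (hW4s hz))).1
  · exact ((multG_eq_zero_iff hQ h (hW3W (hW4s hz)) (heT z (hW4s hz))).1 (heG z (hW4s hz))).2

/-- A4, for `DD Q` -/
theorem exists_not_mem_DD (hQ : SmoothQuartic Q) (h : IsChart Q W x) (hne : W.Nonempty) :
    ∃ z ∈ W, x z ∉ DD Q := by
  obtain ⟨z, hz, hn⟩ := exists_not_inD hQ h hne
  exact ⟨z, hz, fun hD => hn hD.2⟩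

end chart

end Crest.Agent.R279.Alg
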