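import Crest.Agent.R279.Alg712Defs
import Crest.Agent.R266.SCV
import Crest.Agent.R266.Osgood

/-!
# R279 (helper712): calculus of the quartic form along charts
-/

set_option autoImplicit false

namespace Crest.Agent.R279.Alg

open MvPolynomial Topology

section lin

variable {Q : MvPolynomial (Fin 4) ℂ}

theorem grad_dot (hQ : Q.IsHomogeneous 4) (p u : Fin 4 → ℂ) :
    grad Q p ⬝ᵥ u = 4 * tens Q p p p u := by
  rw [← q1, q1_eq hQ]; rfl

theorem grad_apply (hQ : Q.IsHomogeneous 4) (p : Fin 4 → ℂ) (i : Fin 4) :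
    grad Q p i = 4 * tens Q p p p (Pi.single i 1) := by
  rw [← grad_dot hQ, dotProduct_single_one]

theorem grad_smul (hQ : Q.IsHomogeneous 4) (c : ℂ) (v : Fin 4 → ℂ) :
    grad Q (c • v) = c ^ 3 • grad Q v := by
  funext i
  simp only [grad_apply hQ, Pi.smul_apply, tens_smul1, tens_smul2, tens_smul3, smul_eq_mul]
  ring

theorem mem_Tg_iff (hQ : Q.IsHomogeneous 4) {p u : Fin 4 → ℂ} :
    u ∈ Tg Q p ↔ grad Q p ⬝ᵥ u = 0 := by
  rw [mem_Tg, q1, grad_dot hQ]

theorem tens_of_mem_Tg {p u : Fin 4 → ℂ} (h : u ∈ Tg Q p) : tens Q p p p u = 0 := by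
  rw [mem_Tg, q1] at h; simpa using h

theorem mem_Tg_of_tens {p u : Fin 4 → ℂ} (h : tens Q p p p u = 0) : u ∈ Tg Q p := by
  rw [mem_Tg, q1, h, mul_zero]

/-- smoothness in terms of `grad` -/
theorem SmoothQuartic.grad_ne (hQ : SmoothQuartic Q) {v : Fin 4 → ℂ} (hv : v ≠ 0) :
    grad Q v ≠ 0 := by
  intro h
  have h0 : eval v Q = 0 := by
    rw [eval_eq_tens hQ.hom]
    have := grad_dot hQ.hom v v
    rw [h, zero_dotProduct] at this
    simpa using this.symm
  obtain ⟨i, hi⟩ := hQ.smooth v hv h0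
  exact hi (congrFun h i)

end lin

section calculus

variable {Q : MvPolynomial (Fin 4) ℂ} {E : Type*} [NormedAddCommGroup E] [NormedSpace ℂ E]

theorem hasFDerivAt_tens {a b c d : E → Fin 4 → ℂ} {a' b' c' d' : E →L[ℂ] (Fin 4 → ℂ)} {z : E}
    (ha : HasFDerivAt a a' z) (hb : HasFDerivAt b b' z) (hc : HasFDerivAt c c' z)
    (hd : HasFDerivAt d d' z) :
    ∃ L : E →L[ℂ] ℂ, HasFDerivAt (fun z => tens Q (a z) (b z) (c z) (d z)) L z ∧
      ∀ e, L e = tens Q (a' e) (b z) (c z) (d z) + tens Q (a z) (b' e) (c z) (d z) +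
        tens Q (a z) (b z) (c' e) (d z) + tens Q (a z) (b z) (c z) (d' e) := by
  have ha' := fun i => hasFDerivAt_pi'.1 ha i
  have hb' := fun i => hasFDerivAt_pi'.1 hb i
  have hc' := fun i => hasFDerivAt_pi'.1 hc i
  have hd' := fun i => hasFDerivAt_pi'.1 hd i
  have h := fun i j k l => ((((ha' i).mul (hb' j)).mul (hc' k)).mul (hd' l)).const_mul
    (tcoef Q i j k l)
  have hs := HasFDerivAt.fun_sum (u := Finset.univ) (fun i _ =>
    HasFDerivAt.fun_sum (u := Finset.univ) (fun j _ =>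
      HasFDerivAt.fun_sum (u := Finset.univ) (fun k _ =>
        HasFDerivAt.fun_sum (u := Finset.univ) (fun l _ => h i j k l))))
  refine ⟨_, hs, fun e => ?_⟩
  simp only [tens, _root_.sum_apply, _root_.smul_apply, _root_.add_apply,
    ContinuousLinearMap.comp_apply, ContinuousLinearMap.proj_apply, smul_eq_mul,
    ← Finset.sum_add_distrib, Pi.mul_apply]
  refine Finset.sum_congr rfl fun i _ => Finset.sum_congr rfl fun j _ =>
    Finset.sum_congr rfl fun k _ => Finset.sum_congr rfl fun l _ => ?_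
  ring

theorem fderiv_tens {a b c d : E → Fin 4 → ℂ} {z : E}
    (ha : DifferentiableAt ℂ a z) (hb : DifferentiableAt ℂ b z) (hc : DifferentiableAt ℂ c z)
    (hd : DifferentiableAt ℂ d z) (e : E) :
    fderiv ℂ (fun z => tens Q (a z) (b z) (c z) (d z)) z e =
      tens Q (fderiv ℂ a z e) (b z) (c z) (d z) + tens Q (a z) (fderiv ℂ b z e) (c z) (d z) +
        tens Q (a z) (b z) (fderiv ℂ c z e) (d z) + tens Q (a z) (b z) (c z) (fderiv ℂ d z e) := by
  obtain ⟨L, hL, h⟩ := hasFDerivAt_tens (Q := Q) ha.hasFDerivAt hb.hasFDerivAt hc.hasFDerivAt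
    hd.hasFDerivAt
  rw [hL.fderiv, h]

theorem differentiableAt_tens {a b c d : E → Fin 4 → ℂ} {z : E}
    (ha : DifferentiableAt ℂ a z) (hb : DifferentiableAt ℂ b z) (hc : DifferentiableAt ℂ c z)
    (hd : DifferentiableAt ℂ d z) :
    DifferentiableAt ℂ (fun z => tens Q (a z) (b z) (c z) (d z)) z := by
  obtain ⟨L, hL, h⟩ := hasFDerivAt_tens (Q := Q) ha.hasFDerivAt hb.hasFDerivAt hc.hasFDerivAt
    hd.hasFDerivAt
  exact hL.differentiableAt

theorem differentiableOn_tens {a b c d : E → Fin 4 → ℂ} {W : Set E}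
    (ha : DifferentiableOn ℂ a W) (hb : DifferentiableOn ℂ b W) (hc : DifferentiableOn ℂ c W)
    (hd : DifferentiableOn ℂ d W) :
    DifferentiableOn ℂ (fun z => tens Q (a z) (b z) (c z) (d z)) W := by
  have h1 := differentiable_tens Q
  have h2 : DifferentiableOn ℂ (fun z => (a z, b z, c z, d z)) W :=
    fun z hz => (ha z hz).prodMk ((hb z hz).prodMk ((hc z hz).prodMk (hd z hz)))
  exact Differentiable.comp_differentiableOn (g := fun z : (Fin 4 → ℂ) × (Fin 4 → ℂ) ×
    (Fin 4 → ℂ) × (Fin 4 → ℂ) => tens Q z.1 z.2.1 z.2.2.1 z.2.2.2)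
    (f := fun z => (a z, b z, c z, d z)) h1 h2

theorem differentiable_grad (hQ : Q.IsHomogeneous 4) : Differentiable ℂ (grad Q) := by
  intro v
  rw [differentiableAt_pi]
  intro i
  simp only [grad_apply hQ]
  exact (differentiableAt_tens differentiableAt_id differentiableAt_id differentiableAt_id
    (differentiableAt_const _)).const_mul _

/-- derivative of the gradient along `x` -/
theorem fderiv_grad_dot (hQ : Q.IsHomogeneous 4) {x : E → Fin 4 → ℂ} {z : E}
    (hx : DifferentiableAt ℂ x z) (e : E) (u : Fin 4 → ℂ) :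
    fderiv ℂ (fun z => grad Q (x z)) z e ⬝ᵥ u = 12 * tens Q (x z) (x z) (fderiv ℂ x z e) u := by
  have h1 : DifferentiableAt ℂ (fun z => grad Q (x z)) z :=
    (differentiable_grad hQ (x z)).comp z hx
  -- the function `z ↦ grad Q (x z) ⬝ᵥ u`
  have h2 : HasFDerivAt (fun z => grad Q (x z) ⬝ᵥ u)
      (∑ i, (u i) • ((ContinuousLinearMap.proj (R := ℂ) (φ := fun _ : Fin 4 => ℂ) i).comp
        (fderiv ℂ (fun z => grad Q (x z)) z))) z := by
    have h3 : ∀ i, HasFDerivAt (fun z => grad Q (x z) i * u i)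
      ((u i) • ((ContinuousLinearMap.proj (R := ℂ) (φ := fun _ : Fin 4 => ℂ) i).comp
        (fderiv ℂ (fun z => grad Q (x z)) z))) z := by
      intro i
      exact (hasFDerivAt_pi'.1 h1.hasFDerivAt i).mul_const (u i)
    exact HasFDerivAt.fun_sum fun i _ => h3 i
  have h4 : fderiv ℂ (fun z => grad Q (x z) ⬝ᵥ u) z e =
      fderiv ℂ (fun z => grad Q (x z)) z e ⬝ᵥ u := by
    rw [h2.fderiv]
    simp only [_root_.sum_apply, _root_.smul_apply,
      ContinuousLinearMap.comp_apply, ContinuousLinearMap.proj_apply, smul_eq_mul, dotProduct]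
    exact Finset.sum_congr rfl fun i _ => mul_comm _ _
  rw [← h4]
  have h5 : (fun z => grad Q (x z) ⬝ᵥ u) = fun z => 4 * tens Q (x z) (x z) (x z) u := by
    funext z; exact grad_dot hQ _ _
  rw [h5]
  have h6 : DifferentiableAt ℂ (fun z => tens Q (x z) (x z) (x z) u) z :=
    differentiableAt_tens hx hx hx (differentiableAt_const _)
  have h7 : fderiv ℂ (fun z => 4 * tens Q (x z) (x z) (x z) u) z e =
      4 * fderiv ℂ (fun z => tens Q (x z) (x z) (x z) u) z e := by
    rw [fderiv_const_mul h6]; rfl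
  rw [h7, fderiv_tens hx hx hx (differentiableAt_const _)]
  rw [fderiv_fun_const]
  simp only [Pi.zero_apply, _root_.zero_apply, tens_zero4, add_zero]
  rw [tens_swap13 Q (fderiv ℂ x z e) (x z) (x z) u, tens_swap23 Q (x z) (fderiv ℂ x z e) (x z) u]
  ring

end calculus

end Crest.Agent.R279.Alg
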