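import Crest.Agent.R279.AlgDefs149

/-!
# R279 (helper712), M10 (A1-A4): definitions, based on `AlgDefs149`

`grad Q v` the gradient; `NonDeg Q x`: the quadratic form `q2 Q x` is nondegenerate on `T_x / x`;
`IsLine Q x u`: the line through `x` and `u` lies on the surface; `IsChart Q W x`: a holomorphic
map `x : W → V*`, `W ⊆ ℂ²` open, with `x, ∂₁x, ∂₂x` independent.
-/

set_option autoImplicit false

namespace Crest.Agent.R279.Alg

open MvPolynomial

/-- the hypotheses on the quartic form of `S0422` -/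
structure SmoothQuartic (Q : MvPolynomial (Fin 4) ℂ) : Prop where
  hom : Q.IsHomogeneous 4
  smooth : ∀ p : Fin 4 → ℂ, p ≠ 0 → MvPolynomial.eval p Q = 0 →
    ∃ i : Fin 4, MvPolynomial.eval p (MvPolynomial.pderiv i Q) ≠ 0

/-- gradient of `Q` -/
noncomputable def grad (Q : MvPolynomial (Fin 4) ℂ) (v : Fin 4 → ℂ) : Fin 4 → ℂ :=
  fun i => eval v (pderiv i Q)

/-- `q2 Q x` is nondegenerate on `T_x / x` -/
def NonDeg (Q : MvPolynomial (Fin 4) ℂ) (x : Fin 4 → ℂ) : Prop :=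
  ∀ u ∈ Tg Q x, (∀ w ∈ Tg Q x, tens Q x x u w = 0) → ∃ c : ℂ, u = c • x

/-- the line through `x` and `u` lies on the surface -/
def IsLine (Q : MvPolynomial (Fin 4) ℂ) (x u : Fin 4 → ℂ) : Prop :=
  LinearIndependent ℂ ![x, u] ∧ ∀ a b : ℂ, eval (a • x + b • u) Q = 0

/-- local chart data: a holomorphic map `x : W → V*` with `rank (x, ∂₁x, ∂₂x) = 3` on the open
set `W ⊆ ℂ²` -/
structure IsChart (Q : MvPolynomial (Fin 4) ℂ) (W : Set (ℂ × ℂ)) (x : ℂ × ℂ → Fin 4 → ℂ) :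
    Prop where
  isOpen : IsOpen W
  diff : DifferentiableOn ℂ x W
  zero : ∀ z ∈ W, eval (x z) Q = 0
  indep : ∀ z ∈ W, LinearIndependent ℂ ![x z, fderiv ℂ x z (1, 0), fderiv ℂ x z (0, 1)]

end Crest.Agent.R279.Alg
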