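import Mathlib

/-!
# R279: the uniform holomorphic root lemma (helper477)

`exists_unif_root` : a map `G p : F → F` which is within `1/2` of the identity (in the Lipschitz
sense) on a closed ball of radius `r` and with `‖G p 0‖ < r / 2` has exactly one root in the ball;
the root depends differentiably on `p` wherever `G` is (jointly) differentiable.  No strict
differentiability, no implicit function theorem and no limit of holomorphic maps is needed.
-/

set_option autoImplicit false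

namespace Crest.Agent.R279.Spray

open Metric Filter Topology

section root

variable {P F : Type*} [NormedAddCommGroup P] [NormedSpace ℂ P]
  [NormedAddCommGroup F] [NormedSpace ℂ F]

omit [NormedSpace ℂ F] in
/-- a map close to the identity has a unique root in the ball -/
theorem exists_root [CompleteSpace F] {g : F → F} {r : ℝ} (hr : 0 < r)
    (hc : ∀ k₁ ∈ closedBall (0 : F) r, ∀ k₂ ∈ closedBall (0 : F) r,
      ‖(g k₁ - g k₂) - (k₁ - k₂)‖ ≤ 1 / 2 * ‖k₁ - k₂‖)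
    (h0 : ‖g 0‖ ≤ r / 2) :
    ∃ k ∈ closedBall (0 : F) r, g k = 0 := by
  have hmaps : Set.MapsTo (fun k => k - g k) (closedBall (0 : F) r) (closedBall (0 : F) r) := by
    intro k hk
    have h1 := hc k hk 0 (mem_closedBall_self hr.le)
    rw [mem_closedBall_zero_iff] at hk ⊢
    have h2 : k - g k = -((g k - g 0) - (k - 0)) - g 0 := by abel
    show ‖k - g k‖ ≤ r
    rw [h2]
    calc ‖-((g k - g 0) - (k - 0)) - g 0‖ ≤ ‖-((g k - g 0) - (k - 0))‖ + ‖g 0‖ := norm_sub_le _ _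
      _ = ‖(g k - g 0) - (k - 0)‖ + ‖g 0‖ := by rw [norm_neg]
      _ ≤ 1 / 2 * ‖k - 0‖ + r / 2 := by gcongr
      _ ≤ r := by rw [sub_zero]; linarith
  have hcon : ContractingWith (1 / 2 : NNReal) (hmaps.restrict (fun k => k - g k)
      (closedBall (0 : F) r) (closedBall (0 : F) r)) := by
    refine ⟨by rw [← NNReal.coe_lt_coe]; norm_num, ?_⟩
    refine LipschitzWith.of_dist_le_mul ?_
    rintro ⟨k₁, h₁⟩ ⟨k₂, h₂⟩
    have h := hc k₁ h₁ k₂ h₂
    rw [Subtype.dist_eq, Subtype.dist_eq, dist_eq_norm, dist_eq_norm]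
    simp only [Set.MapsTo.val_restrict_apply]
    have e : k₁ - g k₁ - (k₂ - g k₂) = -((g k₁ - g k₂) - (k₁ - k₂)) := by abel
    rw [e, norm_neg]
    refine h.trans (le_of_eq ?_)
    norm_num
  obtain ⟨k, hk, hfix, -⟩ := ContractingWith.exists_fixedPoint' (isClosed_closedBall.isComplete)
    hmaps hcon (mem_closedBall_self hr.le) (edist_ne_top _ _)
  refine ⟨k, hk, ?_⟩
  have : k - g k = k := hfix
  have h3 : g k = k - (k - g k) := by abel
  rw [h3, this, sub_self]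

omit [NormedSpace ℂ F] in
/-- roots are controlled by values -/
theorem norm_sub_root_le {g : F → F} {r : ℝ}
    (hc : ∀ k₁ ∈ closedBall (0 : F) r, ∀ k₂ ∈ closedBall (0 : F) r,
      ‖(g k₁ - g k₂) - (k₁ - k₂)‖ ≤ 1 / 2 * ‖k₁ - k₂‖)
    {k₁ k₂ : F} (h₁ : k₁ ∈ closedBall (0 : F) r) (h₂ : k₂ ∈ closedBall (0 : F) r) :
    ‖k₁ - k₂‖ ≤ 2 * ‖g k₁ - g k₂‖ := by
  have h := hc k₁ h₁ k₂ h₂
  have h1 : k₁ - k₂ = (g k₁ - g k₂) - ((g k₁ - g k₂) - (k₁ - k₂)) := by abel
  have h2 : ‖k₁ - k₂‖ ≤ ‖g k₁ - g k₂‖ + ‖(g k₁ - g k₂) - (k₁ - k₂)‖ := by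
    calc ‖k₁ - k₂‖ = ‖(g k₁ - g k₂) - ((g k₁ - g k₂) - (k₁ - k₂))‖ := by rw [← h1]
      _ ≤ _ := norm_sub_le _ _
  linarith

/-- an operator within `1/2` of the identity is invertible -/
theorem exists_equiv_of_close [CompleteSpace F] {B : F →L[ℂ] F}
    (hB : ‖B - ContinuousLinearMap.id ℂ F‖ ≤ 1 / 2) :
    ∃ e : F ≃L[ℂ] F, (e : F →L[ℂ] F) = B := by
  have h1 : ‖(1 : F →L[ℂ] F) - B‖ < 1 := by
    have : ‖(1 : F →L[ℂ] F) - B‖ = ‖B - ContinuousLinearMap.id ℂ F‖ := norm_sub_rev _ _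
    rw [this]
    linarith
  have h2 : IsUnit B := by
    have := isUnit_one_sub_of_norm_lt_one h1
    rwa [sub_sub_cancel] at this
  obtain ⟨u, hu⟩ := h2
  exact ⟨ContinuousLinearEquiv.ofUnit u, hu⟩

/-- differentiability of the root at a point -/
theorem differentiableAt_root [CompleteSpace F] {G : P → F → F} {κ : P → F} {p₀ : P} {r : ℝ}
    (hκ₀ : ‖κ p₀‖ < r)
    (hev : ∀ᶠ p in 𝓝 p₀, κ p ∈ closedBall (0 : F) r ∧ G p (κ p) = 0 ∧
      ∀ k₁ ∈ closedBall (0 : F) r, ∀ k₂ ∈ closedBall (0 : F) r,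
      ‖(G p k₁ - G p k₂) - (k₁ - k₂)‖ ≤ 1 / 2 * ‖k₁ - k₂‖)
    (hG : DifferentiableAt ℂ (fun z : P × F => G z.1 z.2) (p₀, κ p₀)) :
    DifferentiableAt ℂ κ p₀ := by
  set k₀ := κ p₀ with hk₀
  obtain ⟨L, hL⟩ := hG
  set A : P →L[ℂ] F := L.comp (ContinuousLinearMap.inl ℂ P F) with hA
  set B : F →L[ℂ] F := L.comp (ContinuousLinearMap.inr ℂ P F) with hB
  have hself := hev.self_of_nhds
  obtain ⟨hmem₀, hroot₀, hc₀⟩ := hself
  -- the partial derivative is close to the identity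
  have hBd : HasFDerivAt (fun k => G p₀ k) B k₀ := by
    have h1 : HasFDerivAt (fun k : F => ((p₀, k) : P × F)) (ContinuousLinearMap.inr ℂ P F) k₀ :=
      hasFDerivAt_prodMk_right p₀ k₀
    exact HasFDerivAt.comp k₀ (g := fun z : P × F => G z.1 z.2) hL h1
  have hBid : HasFDerivAt (fun k => G p₀ k - k) (B - ContinuousLinearMap.id ℂ F) k₀ :=
    hBd.sub (hasFDerivAt_id k₀)
  have hball : closedBall (0 : F) r ∈ 𝓝 k₀ := by
    refine mem_of_superset (isOpen_ball.mem_nhds ?_) ball_subset_closedBall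
    rwa [mem_ball_zero_iff]
  have hBn : ‖B - ContinuousLinearMap.id ℂ F‖ ≤ 1 / 2 := by
    refine hBid.le_of_lip' (by norm_num) ?_
    filter_upwards [hball] with k hk
    have := hc₀ k hk k₀ hmem₀
    have e : G p₀ k - k - (G p₀ k₀ - k₀) = (G p₀ k - G p₀ k₀) - (k - k₀) := by abel
    rw [e]
    exact this
  obtain ⟨e, he⟩ := exists_equiv_of_close hBn
  -- Lipschitz at the point
  have hAd : HasFDerivAt (fun p => G p k₀) A p₀ := by
    have h1 : HasFDerivAt (fun p : P => ((p, k₀) : P × F)) (ContinuousLinearMap.inl ℂ P F) p₀ :=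
      hasFDerivAt_prodMk_left p₀ k₀
    exact HasFDerivAt.comp p₀ (g := fun z : P × F => G z.1 z.2) hL h1
  have hbig : (fun p => κ p - k₀) =O[𝓝 p₀] fun p => p - p₀ := by
    have h1 : (fun p => G p k₀ - G p₀ k₀) =O[𝓝 p₀] fun p => p - p₀ := hAd.isBigO_sub
    refine Asymptotics.IsBigO.trans (Asymptotics.IsBigO.of_bound 2 ?_) h1
    filter_upwards [hev] with p hp
    have h2 := norm_sub_root_le hp.2.2 hp.1 hmem₀
    have h3 : ‖G p (κ p) - G p k₀‖ = ‖G p k₀ - G p₀ k₀‖ := by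
      rw [hp.2.1, hroot₀, zero_sub, sub_zero, norm_neg]
    rw [h3] at h2
    exact h2
  have hbig2 : (fun p => ((p, κ p) : P × F) - (p₀, k₀)) =O[𝓝 p₀] fun p => p - p₀ := by
    have : (fun p => ((p, κ p) : P × F) - (p₀, k₀)) = fun p => ((p - p₀, κ p - k₀) : P × F) := by
      funext p
      rfl
    rw [this]
    exact (Asymptotics.isBigO_refl _ _).prod_left hbig
  have htend : Tendsto (fun p => ((p, κ p) : P × F)) (𝓝 p₀) (𝓝 (p₀, k₀)) := by
    have h1 : Tendsto (fun p => p - p₀) (𝓝 p₀) (𝓝 0) := by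
      have : Tendsto (fun p : P => p - p₀) (𝓝 p₀) (𝓝 (p₀ - p₀)) :=
        (continuous_id.sub continuous_const).tendsto p₀
      rwa [sub_self] at this
    have h2 := hbig2.trans_tendsto h1
    rwa [tendsto_sub_nhds_zero_iff] at h2
  have hlit : (fun p => G p (κ p) - G p₀ k₀ - L (((p, κ p) : P × F) - (p₀, k₀)))
      =o[𝓝 p₀] fun p => p - p₀ := by
    have h1 : (fun z : P × F => G z.1 z.2 - G p₀ k₀ - L (z - (p₀, k₀)))
        =o[𝓝 (p₀, k₀)] fun z => z - (p₀, k₀) := hL.isLittleO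
    exact (h1.comp_tendsto htend).trans_isBigO hbig2
  refine ⟨-((e.symm : F →L[ℂ] F).comp A), HasFDerivAt.of_isLittleO ?_⟩
  -- κ p - k₀ + B⁻¹ A (p - p₀) = - B⁻¹ (remainder)
  have hsplit : ∀ z : P × F, L z = A z.1 + B z.2 := by
    intro z
    have h1 : z = ContinuousLinearMap.inl ℂ P F z.1 + ContinuousLinearMap.inr ℂ P F z.2 := by
      simp
    rw [hA, hB]
    simp only [ContinuousLinearMap.comp_apply]
    rw [← map_add, ← h1]
  have hfin : (fun p => κ p - k₀ - (-((e.symm : F →L[ℂ] F).comp A)) (p - p₀)) =O[𝓝 p₀]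
      (fun p => G p (κ p) - G p₀ k₀ - L (((p, κ p) : P × F) - (p₀, k₀))) := by
    refine Asymptotics.IsBigO.of_bound ‖(e.symm : F →L[ℂ] F)‖ ?_
    filter_upwards [hev] with p hp
    have h1 : κ p - k₀ - (-((e.symm : F →L[ℂ] F).comp A)) (p - p₀) =
        -((e.symm : F →L[ℂ] F) (G p (κ p) - G p₀ k₀ - L (((p, κ p) : P × F) - (p₀, k₀)))) := by
      rw [hp.2.1, hroot₀, hsplit]
      have h2 : B (κ p - k₀) = e (κ p - k₀) := by rw [← he]; rfl
      simp only [Prod.fst_sub, Prod.snd_sub, h2, sub_self, zero_sub, neg_apply,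
        ContinuousLinearMap.comp_apply, map_neg, map_add, neg_neg, sub_neg_eq_add,
        ContinuousLinearEquiv.coe_coe, ContinuousLinearEquiv.symm_apply_apply]
      abel
    rw [h1, norm_neg]
    exact ContinuousLinearMap.le_opNorm _ _
  exact hfin.trans_isLittleO hlit

/-- the uniform holomorphic root lemma -/
theorem exists_unif_root [CompleteSpace F] (G : P → F → F) (D : Set P) {r : ℝ} (hr : 0 < r)
    (hc : ∀ p ∈ D, ∀ k₁ ∈ closedBall (0 : F) r, ∀ k₂ ∈ closedBall (0 : F) r,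
      ‖(G p k₁ - G p k₂) - (k₁ - k₂)‖ ≤ 1 / 2 * ‖k₁ - k₂‖)
    (h0 : ∀ p ∈ D, ‖G p 0‖ < r / 2) :
    ∃ κ : P → F,
      (∀ p ∈ D, G p (κ p) = 0 ∧ ‖κ p‖ ≤ 2 * ‖G p 0‖ ∧ ‖κ p‖ < r ∧
        ∀ k ∈ closedBall (0 : F) r, G p k = 0 → k = κ p) ∧
      ∀ p ∈ D, D ∈ 𝓝 p → DifferentiableAt ℂ (fun z : P × F => G z.1 z.2) (p, κ p) →
        DifferentiableAt ℂ κ p := by
  classical
  have hex : ∀ p ∈ D, ∃ k ∈ closedBall (0 : F) r, G p k = 0 := fun p hp =>
    exists_root hr (hc p hp) (h0 p hp).le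
  set κ : P → F := fun p => if hp : p ∈ D then (hex p hp).choose else 0 with hκ
  have hκmem : ∀ p ∈ D, κ p ∈ closedBall (0 : F) r ∧ G p (κ p) = 0 := by
    intro p hp
    have h1 : κ p = (hex p hp).choose := by simp only [hκ, dif_pos hp]
    rw [h1]
    exact (hex p hp).choose_spec
  have hbd : ∀ p ∈ D, ‖κ p‖ ≤ 2 * ‖G p 0‖ := by
    intro p hp
    have h1 := norm_sub_root_le (hc p hp) (hκmem p hp).1 (mem_closedBall_self hr.le)
    rw [sub_zero, (hκmem p hp).2, zero_sub, norm_neg] at h1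
    exact h1
  have hlt : ∀ p ∈ D, ‖κ p‖ < r := by
    intro p hp
    have h1 := hbd p hp
    have h2 := h0 p hp
    linarith
  refine ⟨κ, fun p hp => ⟨(hκmem p hp).2, hbd p hp, hlt p hp, fun k hk hk0 => ?_⟩,
    fun p hp hD hG => ?_⟩
  · have h1 := norm_sub_root_le (hc p hp) hk (hκmem p hp).1
    rw [hk0, (hκmem p hp).2, sub_zero, norm_zero, mul_zero] at h1
    exact sub_eq_zero.1 (norm_le_zero_iff.1 h1)
  · refine differentiableAt_root (r := r) (hlt p hp) ?_ hG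
    filter_upwards [hD] with p' hp'
    exact ⟨(hκmem p' hp').1, (hκmem p' hp').2, hc p' hp'⟩

end root

end Crest.Agent.R279.Spray
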