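import Mathlib
import Crest.Agent.R266.SCV
import Crest.Agent.R266.Osgood
import Crest.Agent.R279.Root477

/-!
# R279 (helper524): order stratification, part A

Partial derivatives in the last variable of a holomorphic function `N : E × ℂ → ℂ`, Taylor lower
bound in one variable, the implicit function lemma, and the local picture of the points where the
last-variable order equals `k`.
-/

set_option autoImplicit false

namespace Crest.Agent.R279.Strat

open Metric Filter Topology Set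

/-! ### Taylor lower bound -/

/-- If `f_j' = f_{j+1}` on a ball around `a`, `f_j(a) = 0` for `j < k` and `f_k` is `ε`-close to
`c`, then `f_0(w)` is close to `c (w-a)^k / k!`. -/
theorem taylor_close (k : ℕ) : ∀ (f : ℕ → ℂ → ℂ) (a c : ℂ) (r ε : ℝ),
    (∀ j < k, ∀ w ∈ ball a r, HasDerivAt (f j) (f (j + 1) w) w) →
    (∀ j < k, f j a = 0) → (∀ w ∈ ball a r, ‖f k w - c‖ ≤ ε) → 
    ∀ w ∈ ball a r, ‖f 0 w - c * (w - a) ^ k / (k.factorial : ℂ)‖ ≤ ε * ‖w - a‖ ^ k := by
  induction k with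
  | zero =>
    intro f a c r ε _ _ h w hw
    simpa using h w hw
  | succ k ih =>
    intro f a c r ε hd h0 h w hw
    have hr : 0 < r := pos_of_mem_ball hw
    have hε : 0 ≤ ε := (norm_nonneg _).trans (h a (mem_ball_self hr))
    have h1 := ih (fun j => f (j + 1)) a c r ε (fun j hj z hz => hd (j + 1) (by omega) z hz)
      (fun j hj => h0 (j + 1) (by omega)) h
    have hfac : ((k.factorial : ℕ) : ℂ) ≠ 0 := by exact_mod_cast k.factorial_ne_zero
    have hfac2 : (((k + 1).factorial : ℕ) : ℂ) ≠ 0 := by exact_mod_cast (k + 1).factorial_ne_zero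
    have hfs : (((k + 1).factorial : ℕ) : ℂ) = ((k : ℂ) + 1) * (k.factorial : ℂ) := by
      rw [Nat.factorial_succ]; push_cast; ring
    have hk1 : ((k : ℂ) + 1) ≠ 0 := by exact_mod_cast Nat.succ_ne_zero k
    set g : ℂ → ℂ := fun z => f 0 z - c * (z - a) ^ (k + 1) / (((k + 1).factorial : ℕ) : ℂ) with hg
    have hgd : ∀ z ∈ ball a r, HasDerivAt g (f 1 z - c * (z - a) ^ k / (k.factorial : ℂ)) z := by
      intro z hz
      have e1 : HasDerivAt (fun z : ℂ => (z - a) ^ (k + 1)) (((k + 1 : ℕ) : ℂ) * (z - a) ^ k * 1) z := by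
        simpa using ((hasDerivAt_id z).sub_const a).fun_pow (k + 1)
      have e2 := (hd 0 (by omega) z hz).fun_sub ((e1.const_mul c).div_const (((k + 1).factorial : ℕ) : ℂ))
      have e3 : f 1 z - c * (z - a) ^ k / (k.factorial : ℂ) =
          f (0 + 1) z - c * (((k + 1 : ℕ) : ℂ) * (z - a) ^ k * 1) / (((k + 1).factorial : ℕ) : ℂ) := by
        rw [hfs]
        field_simp
        push_cast
        ring
      rw [e3]
      exact e2
    have hsub : closedBall a ‖w - a‖ ⊆ ball a r := by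
      intro z hz
      rw [mem_closedBall, dist_eq_norm] at hz
      rw [mem_ball, dist_eq_norm] at hw ⊢
      exact lt_of_le_of_lt hz hw
    have hb : ∀ z ∈ closedBall a ‖w - a‖,
        ‖f 1 z - c * (z - a) ^ k / (k.factorial : ℂ)‖ ≤ ε * ‖w - a‖ ^ k := by
      intro z hz
      refine (h1 z (hsub hz)).trans ?_
      have hz' : ‖z - a‖ ≤ ‖w - a‖ := by rwa [mem_closedBall, dist_eq_norm] at hz
      gcongr
    have hmv := (convex_closedBall a ‖w - a‖).norm_image_sub_le_of_norm_hasDerivWithin_le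
      (f := g) (fun z hz => (hgd z (hsub hz)).hasDerivWithinAt) hb
      (mem_closedBall_self (norm_nonneg _)) (show w ∈ closedBall a ‖w - a‖ by
        rw [mem_closedBall, dist_eq_norm])
    have hga : g a = 0 := by
      simp only [hg, sub_self, h0 0 (by omega)]
      simp
    rw [hga, sub_zero] at hmv
    calc ‖f 0 w - c * (w - a) ^ (k + 1) / (((k + 1).factorial : ℕ) : ℂ)‖ = ‖g w‖ := rfl
      _ ≤ ε * ‖w - a‖ ^ k * ‖w - a‖ := hmv
      _ = ε * ‖w - a‖ ^ (k + 1) := by ring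

/-- consequence: the only zero near `a` is `a` -/
theorem eq_of_taylor {k : ℕ} {f : ℕ → ℂ → ℂ} {a c : ℂ} {r ε : ℝ}
    (hd : ∀ j < k, ∀ w ∈ ball a r, HasDerivAt (f j) (f (j + 1) w) w)
    (h0 : ∀ j < k, f j a = 0) (h : ∀ w ∈ ball a r, ‖f k w - c‖ ≤ ε)
    (hε : ε < ‖c‖ / k.factorial) {w : ℂ} (hw : w ∈ ball a r) (hfw : f 0 w = 0) : w = a := by
  by_contra hne
  have h1 := taylor_close k f a c r ε hd h0 h w hw
  rw [hfw, zero_sub, norm_neg, norm_div, norm_mul, norm_pow] at h1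
  have hpos : 0 < ‖w - a‖ := norm_pos_iff.2 (sub_ne_zero.2 hne)
  have h2 : ‖((k.factorial : ℕ) : ℂ)‖ = (k.factorial : ℝ) := by simp
  rw [h2] at h1
  have h3 : ε * ‖w - a‖ ^ k < ‖c‖ / k.factorial * ‖w - a‖ ^ k := by gcongr
  have h4 : ‖c‖ * ‖w - a‖ ^ k / (k.factorial : ℝ) = ‖c‖ / k.factorial * ‖w - a‖ ^ k := by ring
  rw [h4] at h1
  exact absurd h1 (not_le.2 h3)


/-! ### Partial derivatives in the last variable -/

section Partial

variable {E : Type*} [NormedAddCommGroup E] [NormedSpace ℂ E]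

/-- derivative in the last variable -/
noncomputable def Dw (N : E × ℂ → ℂ) : E × ℂ → ℂ := fun p => fderiv ℂ N p (0, 1)

theorem analytic_Dw {N : E × ℂ → ℂ} {U : Set (E × ℂ)} (hN : AnalyticOnNhd ℂ N U) :
    AnalyticOnNhd ℂ (Dw N) U := by
  intro p hp
  exact ((ContinuousLinearMap.apply ℂ ℂ ((0, 1) : E × ℂ)).analyticAt _).comp (hN.fderiv p hp)

theorem analytic_iter {N : E × ℂ → ℂ} {U : Set (E × ℂ)} (hN : AnalyticOnNhd ℂ N U) (j : ℕ) :
    AnalyticOnNhd ℂ (Dw^[j] N) U := by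
  induction j with
  | zero => exact hN
  | succ j ih =>
    rw [Function.iterate_succ_apply']
    exact analytic_Dw ih

theorem hasDerivAt_slice {N : E × ℂ → ℂ} {x : E} {w : ℂ} (hN : DifferentiableAt ℂ N (x, w)) :
    HasDerivAt (fun w' => N (x, w')) (Dw N (x, w)) w := by
  have h1 : HasFDerivAt (fun w' : ℂ => ((x, w') : E × ℂ)) (ContinuousLinearMap.inr ℂ E ℂ) w :=
    hasFDerivAt_prodMk_right x w
  have h2 := (HasFDerivAt.comp w (g := N) hN.hasFDerivAt h1).hasDerivAt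
  have e : ((fderiv ℂ N (x, w)).comp (ContinuousLinearMap.inr ℂ E ℂ)) 1 = Dw N (x, w) := by
    simp [Dw]
  rw [e] at h2
  exact h2

theorem hasDerivAt_iter {N : E × ℂ → ℂ} {U : Set (E × ℂ)} (hN : AnalyticOnNhd ℂ N U) (j : ℕ)
    {x : E} {w : ℂ} (h : (x, w) ∈ U) :
    HasDerivAt (fun w' => (Dw^[j] N) (x, w')) ((Dw^[j + 1] N) (x, w)) w := by
  rw [Function.iterate_succ_apply']
  exact hasDerivAt_slice ((analytic_iter hN j) _ h).differentiableAt

/-- the order of `N(x, ·)` at `c` is at least `k` -/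
def OrdGe (N : E × ℂ → ℂ) (k : ℕ) (p : E × ℂ) : Prop := ∀ j < k, (Dw^[j] N) p = 0

/-- the order of `N(x, ·)` at `c` is exactly `k` -/
def OrdEq (N : E × ℂ → ℂ) (k : ℕ) (p : E × ℂ) : Prop := OrdGe N k p ∧ (Dw^[k] N) p ≠ 0

theorem iteratedDeriv_slice {N : E × ℂ → ℂ} {U : Set (E × ℂ)} (hU : IsOpen U)
    (hN : AnalyticOnNhd ℂ N U) (x : E) (j : ℕ) : ∀ w : ℂ, (x, w) ∈ U →
    iteratedDeriv j (fun w' => N (x, w')) w = (Dw^[j] N) (x, w) := by
  induction j with
  | zero => intro w _; simp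
  | succ j ih =>
    intro w hw
    rw [iteratedDeriv_succ]
    have hev : iteratedDeriv j (fun w' => N (x, w')) =ᶠ[𝓝 w] fun w' => (Dw^[j] N) (x, w') := by
      have h1 : ∀ᶠ w' in 𝓝 w, (x, w') ∈ U := by
        have : ContinuousAt (fun w' : ℂ => ((x, w') : E × ℂ)) w := by fun_prop
        exact this (hU.mem_nhds hw)
      filter_upwards [h1] with w' hw'
      exact ih w' hw'
    rw [hev.deriv_eq]
    exact (hasDerivAt_iter hN j hw).deriv

theorem exists_ordEq {N : E × ℂ → ℂ} {U : Set (E × ℂ)} (hU : IsOpen U)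
    (hN : AnalyticOnNhd ℂ N U) {x : E} {w : ℂ} (h : (x, w) ∈ U)
    (hne : ¬ ∀ᶠ w' in 𝓝 w, N (x, w') = 0) : ∃ k, OrdEq N k (x, w) := by
  classical
  by_cases hall : ∃ k, (Dw^[k] N) (x, w) ≠ 0
  · refine ⟨Nat.find hall, fun j hj => ?_, Nat.find_spec hall⟩
    by_contra hj'
    exact Nat.find_min hall hj hj'
  · exfalso
    push Not at hall
    apply hne
    have h1 : AnalyticAt ℂ (fun w' => N (x, w')) w := by
      have h2 : AnalyticAt ℂ (fun w' : ℂ => ((x, w') : E × ℂ)) w := by fun_prop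
      exact (hN (x, w) h).comp h2
    have h3 := h1.hasFPowerSeriesAt
    have h4 : (FormalMultilinearSeries.ofScalars ℂ
        (fun n => iteratedDeriv n (fun w' => N (x, w')) w / n.factorial)) = 0 := by
      ext n
      simp [FormalMultilinearSeries.ofScalars, iteratedDeriv_slice hU hN x n w h, hall n]
    rw [h4] at h3
    exact h3.eventually_eq_zero

/-- LOCAL PICTURE at a point where the last-variable order is exactly `k ≥ 1`. -/
theorem local_order {N : E × ℂ → ℂ} {U : Set (E × ℂ)} (hU : IsOpen U)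
    (hN : AnalyticOnNhd ℂ N U) {x0 : E} {c0 : ℂ} (h : (x0, c0) ∈ U) {k : ℕ} (hk : 1 ≤ k)
    (ho : OrdEq N k (x0, c0)) :
    ∃ (A : Set E) (r : ℝ) (χ : E → ℂ), IsOpen A ∧ x0 ∈ A ∧ 0 < r ∧ A ×ˢ ball c0 r ⊆ U ∧
      DifferentiableOn ℂ χ A ∧ χ x0 = c0 ∧ (∀ x ∈ A, χ x ∈ ball c0 r) ∧
      (∀ x ∈ A, ∀ c ∈ ball c0 r, (Dw^[k - 1] N) (x, c) = 0 ↔ c = χ x) ∧
      (∀ x ∈ A, ∀ c ∈ ball c0 r, (Dw^[k] N) (x, c) ≠ 0) ∧
      (∀ x ∈ A, OrdGe N k (x, χ x) → ∀ c ∈ ball c0 r, N (x, c) = 0 → c = χ x) := by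
  obtain ⟨m, rfl⟩ : ∃ m, k = m + 1 := ⟨k - 1, by omega⟩
  simp only [Nat.add_sub_cancel]
  set c' : ℂ := (Dw^[m + 1] N) (x0, c0) with hc'
  have hc'0 : c' ≠ 0 := ho.2
  have hcpos : 0 < ‖c'‖ := norm_pos_iff.2 hc'0
  have hfacpos : (0 : ℝ) < (m + 1).factorial := by exact_mod_cast (m + 1).factorial_pos
  have hfac1 : (1 : ℝ) ≤ (m + 1).factorial := by exact_mod_cast (m + 1).factorial_pos
  set ε : ℝ := ‖c'‖ / (2 * (m + 1).factorial) with hε
  have hεpos : 0 < ε := by positivity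
  have hε1 : ε < ‖c'‖ / (m + 1).factorial := by
    rw [hε]
    apply div_lt_div_of_pos_left hcpos hfacpos
    linarith
  have hε2 : ε ≤ ‖c'‖ / 2 := by
    rw [hε]
    apply div_le_div_of_nonneg_left hcpos.le (by norm_num)
    linarith
  -- a good product ball
  have hcont : ContinuousAt (Dw^[m + 1] N) (x0, c0) := (analytic_iter hN (m + 1) _ h).continuousAt
  have hev : ∀ᶠ p in 𝓝 ((x0, c0) : E × ℂ), p ∈ U ∧ ‖(Dw^[m + 1] N) p - c'‖ < ε := by
    have h1 : ∀ᶠ p in 𝓝 ((x0, c0) : E × ℂ), p ∈ U := hU.mem_nhds h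
    have h2 := hcont.eventually (ball_mem_nhds _ hεpos)
    filter_upwards [h1, h2] with p hp1 hp
    refine ⟨hp1, ?_⟩
    rwa [dist_eq_norm] at hp
  obtain ⟨δ, hδ, hball⟩ := Metric.eventually_nhds_iff_ball.1 hev
  have hprod : ∀ x ∈ ball x0 δ, ∀ c ∈ ball c0 δ, (x, c) ∈ U ∧ ‖(Dw^[m + 1] N) (x, c) - c'‖ < ε := by
    intro x hx c hc
    apply hball
    rw [← ball_prod_same]
    exact ⟨hx, hc⟩
  set r : ℝ := δ / 3 with hr
  have hrpos : 0 < r := by positivity
  have hrδ : r < δ := by rw [hr]; linarith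
  set G : E → ℂ → ℂ := fun x k => (Dw^[m] N) (x, c0 + k) / c' with hG
  have hmem : ∀ k ∈ closedBall (0 : ℂ) r, c0 + k ∈ ball c0 δ := by
    intro k hk
    rw [mem_closedBall_zero_iff] at hk
    rw [mem_ball, dist_eq_norm, add_sub_cancel_left]
    linarith
  have hGcont : ContinuousOn (fun x => G x 0) (ball x0 δ) := by
    intro x hx
    have h1 : (x, c0 + 0) ∈ U := (hprod x hx _ (hmem 0 (mem_closedBall_self hrpos.le))).1
    have h2 : ContinuousAt (Dw^[m] N) (x, c0 + 0) := (analytic_iter hN m _ h1).continuousAt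
    have h3 : ContinuousAt (fun x : E => ((x, c0 + 0) : E × ℂ)) x := by fun_prop
    have h4 : ContinuousAt (fun x => (Dw^[m] N) (x, c0 + 0)) x :=
      ContinuousAt.comp (g := Dw^[m] N) (f := fun x : E => ((x, c0 + 0) : E × ℂ)) h2 h3
    exact (h4.div_const c').continuousWithinAt
  set A : Set E := ball x0 δ ∩ (fun x => G x 0) ⁻¹' (ball 0 (r / 2)) with hA
  have hAo : IsOpen A := hGcont.isOpen_inter_preimage isOpen_ball isOpen_ball
  have hx0A : x0 ∈ A := by
    refine ⟨mem_ball_self hδ, ?_⟩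
    have : G x0 0 = 0 := by
      simp only [hG, add_zero]
      rw [ho.1 m (by omega), zero_div]
    show G x0 0 ∈ ball 0 (r / 2)
    rw [this]
    exact mem_ball_self (by positivity)
  have hlip : ∀ p ∈ A, ∀ k₁ ∈ closedBall (0 : ℂ) r, ∀ k₂ ∈ closedBall (0 : ℂ) r,
      ‖(G p k₁ - G p k₂) - (k₁ - k₂)‖ ≤ 1 / 2 * ‖k₁ - k₂‖ := by
    intro p hp k₁ hk₁ k₂ hk₂
    have hd : ∀ k ∈ closedBall (0 : ℂ) r,
        HasDerivAt (fun k => G p k - k) ((Dw^[m + 1] N) (p, c0 + k) / c' - 1) k := by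
      intro k hk
      have h1 := hasDerivAt_iter hN m (hprod p hp.1 _ (hmem k hk)).1
      have h2 : HasDerivAt (fun k : ℂ => c0 + k) 1 k := by
        simpa using (hasDerivAt_id k).const_add c0
      have h3 : HasDerivAt (fun k : ℂ => (Dw^[m] N) (p, c0 + k))
          ((Dw^[m + 1] N) (p, c0 + k) * 1) k :=
        HasDerivAt.comp k (h₂ := fun w => (Dw^[m] N) (p, w)) h1 h2
      rw [mul_one] at h3
      exact (h3.div_const c').fun_sub (hasDerivAt_id k)
    have hb : ∀ k ∈ closedBall (0 : ℂ) r, ‖(Dw^[m + 1] N) (p, c0 + k) / c' - 1‖ ≤ 1 / 2 := by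
      intro k hk
      have h1 := (hprod p hp.1 _ (hmem k hk)).2
      have h2 : (Dw^[m + 1] N) (p, c0 + k) / c' - 1 = ((Dw^[m + 1] N) (p, c0 + k) - c') / c' := by
        field_simp
      rw [h2, norm_div, div_le_iff₀ hcpos]
      linarith
    have := (convex_closedBall (0 : ℂ) r).norm_image_sub_le_of_norm_hasDerivWithin_le
      (fun k hk => (hd k hk).hasDerivWithinAt) hb hk₂ hk₁
    calc ‖(G p k₁ - G p k₂) - (k₁ - k₂)‖ = ‖(G p k₁ - k₁) - (G p k₂ - k₂)‖ := by
          congr 1; ring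
      _ ≤ 1 / 2 * ‖k₁ - k₂‖ := this
  have hG0 : ∀ p ∈ A, ‖G p 0‖ < r / 2 := by
    intro p hp
    exact mem_ball_zero_iff.1 hp.2
  obtain ⟨κ, hκ, hκd⟩ := Spray.exists_unif_root G A hrpos hlip hG0
  have hχmem : ∀ x ∈ A, c0 + κ x ∈ ball c0 r := by
    intro x hx
    rw [mem_ball, dist_eq_norm, add_sub_cancel_left]
    exact (hκ x hx).2.2.1
  refine ⟨A, r, fun x => c0 + κ x, hAo, hx0A, hrpos, ?_, ?_, ?_, hχmem, ?_, ?_, ?_⟩
  · rintro ⟨x, c⟩ ⟨hx, hc⟩
    exact (hprod x hx.1 c (ball_subset_ball hrδ.le hc)).1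
  · intro x hx
    have h1 : DifferentiableAt ℂ (fun z : E × ℂ => G z.1 z.2) (x, κ x) := by
      have hk : κ x ∈ closedBall (0 : ℂ) r := by
        rw [mem_closedBall_zero_iff]; exact (hκ x hx).2.2.1.le
      have h2 : DifferentiableAt ℂ (Dw^[m] N) (x, c0 + κ x) :=
        (analytic_iter hN m _ (hprod x hx.1 _ (hmem _ hk)).1).differentiableAt
      have h3 : DifferentiableAt ℂ (fun z : E × ℂ => ((z.1, c0 + z.2) : E × ℂ)) (x, κ x) := by
        fun_prop
      have h4 : DifferentiableAt ℂ (fun z : E × ℂ => (Dw^[m] N) (z.1, c0 + z.2)) (x, κ x) :=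
        DifferentiableAt.comp (x, κ x) (g := Dw^[m] N)
          (f := fun z : E × ℂ => ((z.1, c0 + z.2) : E × ℂ)) h2 h3
      have e : (fun z : E × ℂ => G z.1 z.2) =
          fun z : E × ℂ => (Dw^[m] N) (z.1, c0 + z.2) * c'⁻¹ := by
        funext z
        simp only [hG, div_eq_mul_inv]
      rw [e]
      exact h4.mul_const c'⁻¹
    exact ((hκd x hx (hAo.mem_nhds hx) h1).const_add c0).differentiableWithinAt
  · -- value at x0
    have h1 := (hκ x0 hx0A).2.2.2 0 (mem_closedBall_self hrpos.le) (by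
      simp only [hG, add_zero]
      rw [ho.1 m (by omega), zero_div])
    show c0 + κ x0 = c0
    rw [← h1, add_zero]
  · intro x hx c hc
    have hk : c - c0 ∈ closedBall (0 : ℂ) r := by
      rw [mem_closedBall_zero_iff, ← dist_eq_norm]
      exact (mem_ball.1 hc).le
    constructor
    · intro h0
      have h1 := (hκ x hx).2.2.2 (c - c0) hk (by
        simp only [hG]
        rw [add_sub_cancel, h0, zero_div])
      show c = c0 + κ x
      rw [← h1, add_sub_cancel]
    · intro h0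
      have h1 := (hκ x hx).1
      simp only [hG] at h1
      have h0' : c = c0 + κ x := h0
      rw [h0']
      rcases div_eq_zero_iff.1 h1 with h2 | h2
      · exact h2
      · exact absurd h2 hc'0
  · intro x hx c hc h0
    have h1 := (hprod x hx.1 c (ball_subset_ball hrδ.le hc)).2
    rw [h0, zero_sub, norm_neg] at h1
    linarith
  · intro x hx hord c hc h0
    have hχ := hχmem x hx
    have hsub : ball (c0 + κ x) (2 * r) ⊆ ball c0 δ := by
      intro w hw
      rw [mem_ball] at hw hχ ⊢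
      calc dist w c0 ≤ dist w (c0 + κ x) + dist (c0 + κ x) c0 := dist_triangle _ _ _
        _ < 2 * r + r := by linarith
        _ = δ := by rw [hr]; ring
    refine eq_of_taylor (k := m + 1) (f := fun j w => (Dw^[j] N) (x, w)) (a := c0 + κ x) (c := c')
      (r := 2 * r) (ε := ε) ?_ ?_ ?_ hε1 (w := c) ?_ ?_
    · intro j _ w hw
      exact hasDerivAt_iter hN j (hprod x hx.1 w (hsub hw)).1
    · intro j hj
      exact hord j hj
    · intro w hw
      exact (hprod x hx.1 w (hsub hw)).2.le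
    · rw [mem_ball] at hc hχ ⊢
      calc dist c (c0 + κ x) ≤ dist c c0 + dist c0 (c0 + κ x) := dist_triangle _ _ _
        _ < r + r := by rw [dist_comm c0]; linarith
        _ = 2 * r := by ring
    · exact h0

end Partial

end Crest.Agent.R279.Strat
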