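import Crest.Agent.R279.Alg712A3
import Crest.Agent.R279.Strat524A
import Crest.Agent.R266.Osgood

/-!
# R279 (helper712): holomorphic selection of roots on a smaller open set
-/

set_option autoImplicit false

namespace Crest.Agent.R279.Alg

open Metric Set Filter Topology

/-- a relatively closed subset of an open set without interior is nowhere dense -/
theorem isNowhereDense_of_relClosed {X : Type*} [TopologicalSpace X] {A Z : Set X} (hA : IsOpen A)
    (hZA : Z ⊆ A) (hc : IsOpen (A \ Z)) (hint : interior Z = ∅) : IsNowhereDense Z := by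
  rw [IsNowhereDense]
  by_contra hne
  rw [← Ne, ← nonempty_iff_ne_empty] at hne
  obtain ⟨y, hy⟩ := hne
  have hy' : y ∈ closure Z := interior_subset hy
  obtain ⟨a, haV, haZ⟩ := mem_closure_iff.1 hy' _ isOpen_interior hy
  have hsub : interior (closure Z) ∩ A ⊆ Z := by
    rintro w ⟨hw1, hw2⟩
    by_contra hwZ
    obtain ⟨b, hb1, hb2⟩ := mem_closure_iff.1 (interior_subset hw1) _ hc ⟨hw2, hwZ⟩
    exact hb1.2 hb2
  have : interior (closure Z) ∩ A ⊆ interior Z :=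
    interior_maximal hsub (isOpen_interior.inter hA)
  rw [hint] at this
  exact this ⟨haV, hZA haZ⟩

/-- SELECTION LEMMA.  If for every `z ∈ W` the closed condition `G (z, ·) = o` has a solution, all
solutions are zeros of the holomorphic function `N (z, ·) ≢ 0`, then on some nonempty open subset
there is a holomorphic solution. -/
theorem exists_selection {W : Set (ℂ × ℂ)} (hW : IsOpen W) (hne : W.Nonempty)
    {N : (ℂ × ℂ) × ℂ → ℂ} (hN : DifferentiableOn ℂ N (W ×ˢ univ))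
    {F : Type*} [TopologicalSpace F] [T1Space F] {G : (ℂ × ℂ) × ℂ → F} {o : F}
    (hG : ContinuousOn G (W ×ˢ univ))
    (hGN : ∀ z ∈ W, ∀ c : ℂ, G (z, c) = o → N (z, c) = 0)
    (hex : ∀ z ∈ W, ∃ c : ℂ, G (z, c) = o)
    (hnz : ∀ z ∈ W, ∃ c : ℂ, N (z, c) ≠ 0) :
    ∃ W' ⊆ W, IsOpen W' ∧ W'.Nonempty ∧ ∃ ρ : ℂ × ℂ → ℂ, DifferentiableOn ℂ ρ W' ∧
      ∀ z ∈ W', G (z, ρ z) = o := by
  set U : Set ((ℂ × ℂ) × ℂ) := W ×ˢ univ with hU
  have hUo : IsOpen U := hW.prod isOpen_univ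
  have hNa : AnalyticOnNhd ℂ N U := R266.SCV.analyticOnNhd_of_differentiableOn hUo hN
  have hord : ∀ z ∈ W, ∀ c, ∃ k, Strat.OrdEq N k (z, c) := by
    intro z hz c
    apply Strat.exists_ordEq hUo hNa ⟨hz, mem_univ _⟩
    intro hev
    have h1 : AnalyticOnNhd ℂ (fun w => N (z, w)) univ := by
      intro w _
      have h2 : AnalyticAt ℂ (fun w' : ℂ => ((z, w') : (ℂ × ℂ) × ℂ)) w := by fun_prop
      exact (hNa (z, w) ⟨hz, mem_univ _⟩).comp h2
    obtain ⟨c', hc'⟩ := hnz z hz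
    apply hc'
    have h2 : AnalyticOnNhd ℂ (fun _ : ℂ => (0 : ℂ)) univ := fun _ _ => analyticAt_const
    have h3 := h1.eqOn_of_preconnected_of_eventuallyEq h2 isPreconnected_univ (mem_univ c) hev
    exact h3 (mem_univ c')
  set M : ℕ → Set ((ℂ × ℂ) × ℂ) := fun k => {p | p ∈ U ∧ G p = o ∧ Strat.OrdEq N (k + 1) p} with hM
  have hloc : ∀ k, ∀ p ∈ M k, ∃ (A : Set (ℂ × ℂ)) (r : ℝ) (χ : ℂ × ℂ → ℂ), IsOpen A ∧ p.1 ∈ A ∧
      0 < r ∧ A ⊆ W ∧ DifferentiableOn ℂ χ A ∧
      ∀ q ∈ M k, q.1 ∈ A → q.2 ∈ ball p.2 r → q.2 = χ q.1 := by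
    rintro k ⟨z, c⟩ ⟨hp1, hp2, hp3⟩
    obtain ⟨A, r, χ, hA, hzA, hr, hsub, hχ, _, _, hiff, _, _⟩ :=
      Strat.local_order hUo hNa hp1 (Nat.succ_le_succ (Nat.zero_le k)) hp3
    refine ⟨A, r, χ, hA, hzA, hr, ?_, hχ, ?_⟩
    · intro w hw
      exact (hsub ⟨hw, mem_ball_self hr⟩ : (w, c) ∈ U).1
    · rintro ⟨w, c'⟩ ⟨_, _, hq3⟩ hw hc'
      refine (hiff w hw c' hc').1 ?_
      exact hq3.1 k (by omega)
  choose! A r χ hA hpA hr hAW hχ hgraph using hloc
  have hcov : ∀ k, ∃ t ⊆ M k, t.Countable ∧ M k ⊆ ⋃ p ∈ t, (A k p) ×ˢ ball p.2 (r k p) := by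
    intro k
    refine TopologicalSpace.countable_cover_nhdsWithin fun p hp => ?_
    refine mem_nhdsWithin_of_mem_nhds ?_
    exact ((hA k p hp).prod isOpen_ball).mem_nhds ⟨hpA k p hp, mem_ball_self (hr k p hp)⟩
  choose t htM htc htcov using hcov
  set Z : ℕ → (ℂ × ℂ) × ℂ → Set (ℂ × ℂ) := fun k p => {z ∈ A k p | G (z, χ k p z) = o} with hZ
  by_contra hcon
  have hnd : ∀ k, ∀ p ∈ t k, IsNowhereDense (Z k p) := by
    intro k p hp
    have hpM := htM k hp
    have hcontG : ContinuousOn (fun z => G (z, χ k p z)) (A k p) := by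
      refine hG.comp (continuousOn_id.prodMk (hχ k p hpM).continuousOn) ?_
      intro z hz
      exact ⟨hAW k p hpM hz, mem_univ _⟩
    refine isNowhereDense_of_relClosed (hA k p hpM) (fun z hz => hz.1) ?_ ?_
    · have h1 := hcontG.isOpen_inter_preimage (hA k p hpM) (isOpen_compl_singleton (x := o))
      convert h1 using 1
      ext z
      constructor
      · rintro ⟨hz1, hz2⟩
        exact ⟨hz1, fun h0 => hz2 ⟨hz1, h0⟩⟩
      · rintro ⟨hz1, hz2⟩
        exact ⟨hz1, fun h0 => hz2 h0.2⟩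
    · by_contra hint
      rw [← Ne, ← nonempty_iff_ne_empty] at hint
      apply hcon
      refine ⟨interior (Z k p), ?_, isOpen_interior, hint, χ k p, ?_, ?_⟩
      · intro z hz
        exact hAW k p hpM (interior_subset hz).1
      · exact (hχ k p hpM).mono fun z hz => (interior_subset hz).1
      · intro z hz
        exact (interior_subset hz).2
  have hWsub : W ⊆ ⋃ k, ⋃ p : t k, Z k p.1 := by
    intro z hz
    obtain ⟨c, hc⟩ := hex z hz
    obtain ⟨k, hk⟩ := hord z hz c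
    obtain ⟨k, rfl⟩ : ∃ m, k = m + 1 := by
      refine ⟨k - 1, ?_⟩
      rcases Nat.eq_zero_or_pos k with h0 | h0
      · exfalso
        rw [h0] at hk
        exact hk.2 (hGN z hz c hc)
      · omega
    have hmem : (z, c) ∈ M k := ⟨⟨hz, mem_univ _⟩, hc, hk⟩
    obtain ⟨p, hp, hpz⟩ := mem_iUnion₂.1 (htcov k hmem)
    refine mem_iUnion.2 ⟨k, mem_iUnion.2 ⟨⟨p, hp⟩, hpz.1, ?_⟩⟩
    have h1 := hgraph k p (htM k hp) (z, c) hmem hpz.1 hpz.2
    simp only at h1
    rw [← h1]; exact hc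
  have hmeag : IsMeagre W := by
    have h1 : IsMeagre (⋃ k, ⋃ p : t k, Z k p.1) := by
      refine isMeagre_iUnion fun k => ?_
      have : Countable (t k) := (htc k).to_subtype
      exact isMeagre_iUnion fun p => (hnd k p.1 p.2).isMeagre
    exact h1.mono hWsub
  exact not_isMeagre_of_isOpen hW hne hmeag

end Crest.Agent.R279.Alg
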