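import Mathlib

/-!
# R279: the symmetric 4-linear form of a quartic and the binary sextic of a tangent plane section

Everything is for `Q : MvPolynomial (Fin 4) ℂ`, homogeneous of degree 4 (hypothesis `hQ`).
-/

set_option autoImplicit false

namespace Crest.Agent.R279

open MvPolynomial

theorem pderiv_comm149 (i j : Fin 4) (P : MvPolynomial (Fin 4) ℂ) :
    pderiv i (pderiv j P) = pderiv j (pderiv i P) := by
  have h : ⁅(pderiv i : Derivation ℂ (MvPolynomial (Fin 4) ℂ) (MvPolynomial (Fin 4) ℂ)),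
      (pderiv j : Derivation ℂ (MvPolynomial (Fin 4) ℂ) (MvPolynomial (Fin 4) ℂ))⁆ = 0 := by
    apply MvPolynomial.derivation_ext
    intro k
    rw [Derivation.commutator_apply, pderiv_X, pderiv_X]
    by_cases h1 : j = k <;> by_cases h2 : i = k <;> simp [h1, h2]
  have h2 := congrArg (fun D : Derivation ℂ (MvPolynomial (Fin 4) ℂ) (MvPolynomial (Fin 4) ℂ) =>
    D P) h
  simp only [Derivation.commutator_apply] at h2
  exact sub_eq_zero.mp h2

/-- coefficients of the polarised form -/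
noncomputable def tcoef (Q : MvPolynomial (Fin 4) ℂ) (i j k l : Fin 4) : ℂ :=
  (1 / 24) * eval (0 : Fin 4 → ℂ) (pderiv l (pderiv k (pderiv j (pderiv i Q))))

/-- The symmetric 4-linear form with `tens Q v v v v = Q v`. -/
noncomputable def tens (Q : MvPolynomial (Fin 4) ℂ) (a b c d : Fin 4 → ℂ) : ℂ :=
  ∑ i, ∑ j, ∑ k, ∑ l, tcoef Q i j k l * (a i * b j * c k * d l)

section lin

variable (Q : MvPolynomial (Fin 4) ℂ) (a a' b b' c c' d d' : Fin 4 → ℂ) (t : ℂ)

@[simp] theorem tens_add1 : tens Q (a + a') b c d = tens Q a b c d + tens Q a' b c d := by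
  simp only [tens, Pi.add_apply, ← Finset.sum_add_distrib]
  refine Finset.sum_congr rfl fun i _ => Finset.sum_congr rfl fun j _ =>
    Finset.sum_congr rfl fun k _ => Finset.sum_congr rfl fun l _ => ?_
  ring

@[simp] theorem tens_add2 : tens Q a (b + b') c d = tens Q a b c d + tens Q a b' c d := by
  simp only [tens, Pi.add_apply, ← Finset.sum_add_distrib]
  refine Finset.sum_congr rfl fun i _ => Finset.sum_congr rfl fun j _ =>
    Finset.sum_congr rfl fun k _ => Finset.sum_congr rfl fun l _ => ?_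
  ring

@[simp] theorem tens_add3 : tens Q a b (c + c') d = tens Q a b c d + tens Q a b c' d := by
  simp only [tens, Pi.add_apply, ← Finset.sum_add_distrib]
  refine Finset.sum_congr rfl fun i _ => Finset.sum_congr rfl fun j _ =>
    Finset.sum_congr rfl fun k _ => Finset.sum_congr rfl fun l _ => ?_
  ring

@[simp] theorem tens_add4 : tens Q a b c (d + d') = tens Q a b c d + tens Q a b c d' := by
  simp only [tens, Pi.add_apply, ← Finset.sum_add_distrib]
  refine Finset.sum_congr rfl fun i _ => Finset.sum_congr rfl fun j _ =>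
    Finset.sum_congr rfl fun k _ => Finset.sum_congr rfl fun l _ => ?_
  ring

@[simp] theorem tens_smul1 : tens Q (t • a) b c d = t * tens Q a b c d := by
  simp only [tens, Pi.smul_apply, smul_eq_mul, Finset.mul_sum]
  refine Finset.sum_congr rfl fun i _ => Finset.sum_congr rfl fun j _ =>
    Finset.sum_congr rfl fun k _ => Finset.sum_congr rfl fun l _ => ?_
  ring

@[simp] theorem tens_smul2 : tens Q a (t • b) c d = t * tens Q a b c d := by
  simp only [tens, Pi.smul_apply, smul_eq_mul, Finset.mul_sum]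
  refine Finset.sum_congr rfl fun i _ => Finset.sum_congr rfl fun j _ =>
    Finset.sum_congr rfl fun k _ => Finset.sum_congr rfl fun l _ => ?_
  ring

@[simp] theorem tens_smul3 : tens Q a b (t • c) d = t * tens Q a b c d := by
  simp only [tens, Pi.smul_apply, smul_eq_mul, Finset.mul_sum]
  refine Finset.sum_congr rfl fun i _ => Finset.sum_congr rfl fun j _ =>
    Finset.sum_congr rfl fun k _ => Finset.sum_congr rfl fun l _ => ?_
  ring

@[simp] theorem tens_smul4 : tens Q a b c (t • d) = t * tens Q a b c d := by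
  simp only [tens, Pi.smul_apply, smul_eq_mul, Finset.mul_sum]
  refine Finset.sum_congr rfl fun i _ => Finset.sum_congr rfl fun j _ =>
    Finset.sum_congr rfl fun k _ => Finset.sum_congr rfl fun l _ => ?_
  ring

@[simp] theorem tens_zero1 : tens Q 0 b c d = 0 := by simp [tens]
@[simp] theorem tens_zero2 : tens Q a 0 c d = 0 := by simp [tens]
@[simp] theorem tens_zero3 : tens Q a b 0 d = 0 := by simp [tens]
@[simp] theorem tens_zero4 : tens Q a b c 0 = 0 := by simp [tens]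

@[simp] theorem tens_neg1 : tens Q (-a) b c d = -tens Q a b c d := by
  rw [← neg_one_smul ℂ a, tens_smul1]; ring
@[simp] theorem tens_neg2 : tens Q a (-b) c d = -tens Q a b c d := by
  rw [← neg_one_smul ℂ b, tens_smul2]; ring
@[simp] theorem tens_neg3 : tens Q a b (-c) d = -tens Q a b c d := by
  rw [← neg_one_smul ℂ c, tens_smul3]; ring
@[simp] theorem tens_neg4 : tens Q a b c (-d) = -tens Q a b c d := by
  rw [← neg_one_smul ℂ d, tens_smul4]; ring

@[simp] theorem tens_sub1 : tens Q (a - a') b c d = tens Q a b c d - tens Q a' b c d := by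
  rw [sub_eq_add_neg, tens_add1, tens_neg1, sub_eq_add_neg]
@[simp] theorem tens_sub2 : tens Q a (b - b') c d = tens Q a b c d - tens Q a b' c d := by
  rw [sub_eq_add_neg, tens_add2, tens_neg2, sub_eq_add_neg]
@[simp] theorem tens_sub3 : tens Q a b (c - c') d = tens Q a b c d - tens Q a b c' d := by
  rw [sub_eq_add_neg, tens_add3, tens_neg3, sub_eq_add_neg]
@[simp] theorem tens_sub4 : tens Q a b c (d - d') = tens Q a b c d - tens Q a b c d' := by
  rw [sub_eq_add_neg, tens_add4, tens_neg4, sub_eq_add_neg]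

end lin

section symm

variable (Q : MvPolynomial (Fin 4) ℂ) (a b c d : Fin 4 → ℂ)

theorem tcoef_swap12 (i j k l : Fin 4) : tcoef Q i j k l = tcoef Q j i k l := by
  simp only [tcoef]; rw [pderiv_comm149 j i Q]

theorem tcoef_swap23 (i j k l : Fin 4) : tcoef Q i j k l = tcoef Q i k j l := by
  simp only [tcoef]; rw [pderiv_comm149 k j (pderiv i Q)]

theorem tcoef_swap34 (i j k l : Fin 4) : tcoef Q i j k l = tcoef Q i j l k := by
  simp only [tcoef]; rw [pderiv_comm149 l k (pderiv j (pderiv i Q))]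

theorem tens_swap12 : tens Q a b c d = tens Q b a c d := by
  simp only [tens]
  rw [Finset.sum_comm]
  refine Finset.sum_congr rfl fun i _ => Finset.sum_congr rfl fun j _ =>
    Finset.sum_congr rfl fun k _ => Finset.sum_congr rfl fun l _ => ?_
  rw [tcoef_swap12]; ring

theorem tens_swap23 : tens Q a b c d = tens Q a c b d := by
  simp only [tens]
  refine Finset.sum_congr rfl fun i _ => ?_
  rw [Finset.sum_comm]
  refine Finset.sum_congr rfl fun j _ =>
    Finset.sum_congr rfl fun k _ => Finset.sum_congr rfl fun l _ => ?_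
  rw [tcoef_swap23]; ring

theorem tens_swap34 : tens Q a b c d = tens Q a b d c := by
  simp only [tens]
  refine Finset.sum_congr rfl fun i _ => Finset.sum_congr rfl fun j _ => ?_
  rw [Finset.sum_comm]
  refine Finset.sum_congr rfl fun k _ => Finset.sum_congr rfl fun l _ => ?_
  rw [tcoef_swap34]; ring

theorem tens_swap13 : tens Q a b c d = tens Q c b a d := by
  rw [tens_swap12, tens_swap23, tens_swap12]
theorem tens_swap24 : tens Q a b c d = tens Q a d c b := by
  rw [tens_swap23, tens_swap34, tens_swap23]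
theorem tens_swap14 : tens Q a b c d = tens Q d b c a := by
  rw [tens_swap12, tens_swap24, tens_swap12]

end symm

section euler

variable {Q : MvPolynomial (Fin 4) ℂ}

theorem eval_of_deg0 {P : MvPolynomial (Fin 4) ℂ} (hP : P.IsHomogeneous 0) (v : Fin 4 → ℂ) :
    eval v P = eval 0 P := by
  obtain ⟨c, hc⟩ : ∃ c, P = C c := by
    refine ⟨coeff 0 P, ?_⟩
    exact totalDegree_eq_zero_iff_eq_C.mp (Nat.le_zero.mp hP.totalDegree_le)
  rw [hc]; simp

theorem eval_euler {P : MvPolynomial (Fin 4) ℂ} {n : ℕ} (hP : P.IsHomogeneous n)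
    (v : Fin 4 → ℂ) : ∑ i, v i * eval v (pderiv i P) = n * eval v P := by
  have h := congrArg (eval v) hP.sum_X_mul_pderiv
  simpa [nsmul_eq_mul] using h

/-- the third derivative along `v` -/
theorem eval_d3 (hQ : Q.IsHomogeneous 4) (v : Fin 4 → ℂ) (i j k : Fin 4) :
    eval v (pderiv k (pderiv j (pderiv i Q))) = ∑ l, 24 * tcoef Q i j k l * v l := by
  have h3 : (pderiv k (pderiv j (pderiv i Q))).IsHomogeneous 1 := (hQ.pderiv.pderiv.pderiv)
  have h := eval_euler h3 v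
  rw [Nat.cast_one, one_mul] at h
  rw [← h]
  refine Finset.sum_congr rfl fun l _ => ?_
  have h4 : (pderiv l (pderiv k (pderiv j (pderiv i Q)))).IsHomogeneous 0 := h3.pderiv
  rw [eval_of_deg0 h4 v]
  simp only [tcoef]; ring

theorem eval_d2 (hQ : Q.IsHomogeneous 4) (v : Fin 4 → ℂ) (i j : Fin 4) :
    eval v (pderiv j (pderiv i Q)) = ∑ k, ∑ l, 12 * tcoef Q i j k l * (v k * v l) := by
  have h3 : (pderiv j (pderiv i Q)).IsHomogeneous 2 := (hQ.pderiv.pderiv)
  have h := eval_euler h3 v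
  have : eval v (pderiv j (pderiv i Q)) = (1/2) * ∑ k, v k * eval v (pderiv k (pderiv j (pderiv i Q))) := by
    rw [h]; push_cast; ring
  rw [this, Finset.mul_sum]
  refine Finset.sum_congr rfl fun k _ => ?_
  rw [eval_d3 hQ, Finset.mul_sum, Finset.mul_sum]
  refine Finset.sum_congr rfl fun l _ => ?_
  ring

theorem eval_d1 (hQ : Q.IsHomogeneous 4) (v : Fin 4 → ℂ) (i : Fin 4) :
    eval v (pderiv i Q) = ∑ j, ∑ k, ∑ l, 4 * tcoef Q i j k l * (v j * v k * v l) := by
  have h3 : (pderiv i Q).IsHomogeneous 3 := (hQ.pderiv)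
  have h := eval_euler h3 v
  have : eval v (pderiv i Q) = (1/3) * ∑ k, v k * eval v (pderiv k (pderiv i Q)) := by
    rw [h]; push_cast; ring
  rw [this, Finset.mul_sum]
  refine Finset.sum_congr rfl fun k _ => ?_
  rw [eval_d2 hQ, Finset.mul_sum, Finset.mul_sum]
  refine Finset.sum_congr rfl fun l _ => ?_
  rw [Finset.mul_sum, Finset.mul_sum]
  refine Finset.sum_congr rfl fun l _ => ?_
  ring

theorem eval_eq_tens (hQ : Q.IsHomogeneous 4) (v : Fin 4 → ℂ) :
    eval v Q = tens Q v v v v := by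
  have h := eval_euler hQ v
  have : eval v Q = (1/4) * ∑ k, v k * eval v (pderiv k Q) := by
    rw [h]; push_cast; ring
  rw [this, Finset.mul_sum, tens]
  refine Finset.sum_congr rfl fun i _ => ?_
  rw [eval_d1 hQ, Finset.mul_sum, Finset.mul_sum]
  refine Finset.sum_congr rfl fun j _ => ?_
  rw [Finset.mul_sum, Finset.mul_sum]
  refine Finset.sum_congr rfl fun k _ => ?_
  rw [Finset.mul_sum, Finset.mul_sum]
  refine Finset.sum_congr rfl fun l _ => ?_
  ring

end euler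

/-! ### the forms `q1, q2, q3, q4` -/

/-- `q1 p u = ∑ Q_i(p) u_i` -/
noncomputable def q1 (Q : MvPolynomial (Fin 4) ℂ) (p u : Fin 4 → ℂ) : ℂ := 4 * tens Q p p p u
/-- `q2 p u = (1/2) ∑ Q_ij(p) u_i u_j` -/
noncomputable def q2 (Q : MvPolynomial (Fin 4) ℂ) (p u : Fin 4 → ℂ) : ℂ := 6 * tens Q p p u u
/-- `q3 p u = ∑ Q_i(u) p_i` -/
noncomputable def q3 (Q : MvPolynomial (Fin 4) ℂ) (p u : Fin 4 → ℂ) : ℂ := 4 * tens Q p u u u
/-- `q4 u = Q(u)` -/
noncomputable def q4 (Q : MvPolynomial (Fin 4) ℂ) (u : Fin 4 → ℂ) : ℂ := tens Q u u u u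

/-- the binary sextic of the tangent plane section at `p` -/
noncomputable def g6 (Q : MvPolynomial (Fin 4) ℂ) (p u : Fin 4 → ℂ) : ℂ :=
  q3 Q p u ^ 2 - 4 * q2 Q p u * q4 Q u

/-- the `u`-derivatives in direction `w` -/
noncomputable def dq2 (Q : MvPolynomial (Fin 4) ℂ) (p u w : Fin 4 → ℂ) : ℂ := 12 * tens Q p p u w
noncomputable def dq3 (Q : MvPolynomial (Fin 4) ℂ) (p u w : Fin 4 → ℂ) : ℂ := 12 * tens Q p u u w
noncomputable def dq4 (Q : MvPolynomial (Fin 4) ℂ) (u w : Fin 4 → ℂ) : ℂ := 4 * tens Q u u u w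

/-- the `u`-derivative of `g6 p ·` at `u` in direction `w` -/
noncomputable def dg6 (Q : MvPolynomial (Fin 4) ℂ) (p u w : Fin 4 → ℂ) : ℂ :=
  2 * q3 Q p u * dq3 Q p u w - 4 * (dq2 Q p u w * q4 Q u + q2 Q p u * dq4 Q u w)

section forms

variable {Q : MvPolynomial (Fin 4) ℂ}

theorem q4_eq (hQ : Q.IsHomogeneous 4) (u : Fin 4 → ℂ) : q4 Q u = eval u Q :=
  (eval_eq_tens hQ u).symm

theorem q1_eq (hQ : Q.IsHomogeneous 4) (p u : Fin 4 → ℂ) :
    q1 Q p u = ∑ i, eval p (pderiv i Q) * u i := by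
  rw [q1, tens_swap14, tens, Finset.mul_sum]
  refine Finset.sum_congr rfl fun i _ => ?_
  rw [eval_d1 hQ, Finset.mul_sum, Finset.sum_mul]
  refine Finset.sum_congr rfl fun j _ => ?_
  rw [Finset.mul_sum, Finset.sum_mul]
  refine Finset.sum_congr rfl fun k _ => ?_
  rw [Finset.mul_sum, Finset.sum_mul]
  refine Finset.sum_congr rfl fun l _ => ?_
  ring

theorem q2_eq (hQ : Q.IsHomogeneous 4) (p u : Fin 4 → ℂ) :
    q2 Q p u = (1 / 2) * ∑ i, ∑ j, eval p (pderiv j (pderiv i Q)) * u i * u j := by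
  rw [q2, tens_swap13, tens_swap24, tens, Finset.mul_sum, Finset.mul_sum]
  refine Finset.sum_congr rfl fun i _ => ?_
  rw [Finset.mul_sum, Finset.mul_sum]
  refine Finset.sum_congr rfl fun j _ => ?_
  rw [eval_d2 hQ, Finset.mul_sum, Finset.sum_mul, Finset.sum_mul, Finset.mul_sum]
  refine Finset.sum_congr rfl fun k _ => ?_
  rw [Finset.mul_sum, Finset.sum_mul, Finset.sum_mul, Finset.mul_sum]
  refine Finset.sum_congr rfl fun l _ => ?_
  ring

theorem q3_eq (hQ : Q.IsHomogeneous 4) (p u : Fin 4 → ℂ) :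
    q3 Q p u = ∑ i, eval u (pderiv i Q) * p i := by
  rw [q3, tens_swap14, ← q1_eq hQ, q1]

/-- the second derivative form: `12 tens p p u w = ∑ Q_ij(p) u_i w_j` -/
theorem hess_eq (hQ : Q.IsHomogeneous 4) (p u w : Fin 4 → ℂ) :
    12 * tens Q p p u w = ∑ i, ∑ j, eval p (pderiv j (pderiv i Q)) * u i * w j := by
  rw [tens_swap13, tens_swap24, tens, Finset.mul_sum]
  refine Finset.sum_congr rfl fun i _ => ?_
  rw [Finset.mul_sum]
  refine Finset.sum_congr rfl fun j _ => ?_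
  rw [eval_d2 hQ, Finset.mul_sum, Finset.sum_mul, Finset.sum_mul]
  refine Finset.sum_congr rfl fun k _ => ?_
  rw [Finset.mul_sum, Finset.sum_mul, Finset.sum_mul]
  refine Finset.sum_congr rfl fun l _ => ?_
  ring

theorem tens_comb (p u : Fin 4 → ℂ) (a b : ℂ) :
    tens Q (a • p + b • u) (a • p + b • u) (a • p + b • u) (a • p + b • u) =
      a ^ 4 * tens Q p p p p + a ^ 3 * b * q1 Q p u + a ^ 2 * b ^ 2 * q2 Q p u +
        a * b ^ 3 * q3 Q p u + b ^ 4 * q4 Q u := by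
  simp only [tens_add1, tens_add2, tens_add3, tens_add4, tens_smul1, tens_smul2, tens_smul3,
    tens_smul4, q1, q2, q3, q4]
  have e1 : tens Q p p u p = tens Q p p p u := tens_swap34 _ _ _ _ _
  have e2 : tens Q p u p p = tens Q p p p u := tens_swap24 _ _ _ _ _
  have e3 : tens Q u p p p = tens Q p p p u := tens_swap14 _ _ _ _ _
  have f1 : tens Q p u p u = tens Q p p u u := tens_swap23 _ _ _ _ _
  have f2 : tens Q p u u p = tens Q p p u u := tens_swap24 _ _ _ _ _
  have f3 : tens Q u p p u = tens Q p p u u := tens_swap13 _ _ _ _ _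
  have f4 : tens Q u p u p = tens Q p p u u := by rw [tens_swap14]
  have f5 : tens Q u u p p = tens Q p p u u := by rw [tens_swap14, tens_swap23]
  have g1 : tens Q u p u u = tens Q p u u u := tens_swap12 _ _ _ _ _
  have g2 : tens Q u u p u = tens Q p u u u := tens_swap13 _ _ _ _ _
  have g3 : tens Q u u u p = tens Q p u u u := tens_swap14 _ _ _ _ _
  rw [e1, e2, e3, f1, f2, f3, f4, f5, g1, g2, g3]
  ring

/-- Taylor expansion of the quartic on the line through `p`, `u`. -/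
theorem eval_comb (hQ : Q.IsHomogeneous 4) (p u : Fin 4 → ℂ) (a b : ℂ) :
    eval (a • p + b • u) Q =
      a ^ 4 * eval p Q + a ^ 3 * b * q1 Q p u + a ^ 2 * b ^ 2 * q2 Q p u +
        a * b ^ 3 * q3 Q p u + b ^ 4 * q4 Q u := by
  rw [eval_eq_tens hQ, eval_eq_tens hQ, tens_comb]

theorem q1_self (hQ : Q.IsHomogeneous 4) (p : Fin 4 → ℂ) : q1 Q p p = 4 * eval p Q := by
  rw [q1, eval_eq_tens hQ]

/-- the tangent hyperplane -/
noncomputable def Tg (Q : MvPolynomial (Fin 4) ℂ) (p : Fin 4 → ℂ) : Submodule ℂ (Fin 4 → ℂ) where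
  carrier := {u | q1 Q p u = 0}
  add_mem' := by
    intro a b ha hb
    simp only [Set.mem_ofPred_eq, q1, tens_add4] at *
    linear_combination ha + hb
  zero_mem' := by simp [q1]
  smul_mem' := by
    intro c a ha
    simp only [Set.mem_ofPred_eq, q1, tens_smul4] at *
    linear_combination c * ha

theorem mem_Tg {p u : Fin 4 → ℂ} : u ∈ Tg Q p ↔ q1 Q p u = 0 := Iff.rfl

theorem self_mem_Tg (hQ : Q.IsHomogeneous 4) {p : Fin 4 → ℂ} (hp : eval p Q = 0) :
    p ∈ Tg Q p := by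
  rw [mem_Tg, q1_self hQ, hp, mul_zero]

/-- `Q (λ p + μ u) = μ² (λ² q2 + λ μ q3 + μ² q4)` for `p ∈ X`, `u ∈ T_p`. -/
theorem eval_comb_tangent (hQ : Q.IsHomogeneous 4) {p u : Fin 4 → ℂ} (hp : eval p Q = 0)
    (hu : u ∈ Tg Q p) (a b : ℂ) :
    eval (a • p + b • u) Q =
      b ^ 2 * (a ^ 2 * q2 Q p u + a * b * q3 Q p u + b ^ 2 * q4 Q u) := by
  rw [eval_comb hQ, hp, mem_Tg.mp hu]; ring

theorem q2_add_smul (hQ : Q.IsHomogeneous 4) {p u : Fin 4 → ℂ} (hp : eval p Q = 0)
    (hu : u ∈ Tg Q p) (c : ℂ) : q2 Q p (u + c • p) = q2 Q p u := by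
  have hu' : tens Q p p p u = 0 := by
    have := mem_Tg.mp hu; rw [q1] at this; simpa using this
  have hp' : tens Q p p p p = 0 := by rw [← eval_eq_tens hQ]; exact hp
  simp only [q2, tens_add3, tens_add4, tens_smul3, tens_smul4]
  rw [tens_swap34 Q p p u p, hu', hp']; ring

theorem q3_add_smul (hQ : Q.IsHomogeneous 4) {p u : Fin 4 → ℂ} (hp : eval p Q = 0)
    (hu : u ∈ Tg Q p) (c : ℂ) : q3 Q p (u + c • p) = q3 Q p u + 2 * c * q2 Q p u := by
  have hu' : tens Q p p p u = 0 := by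
    have := mem_Tg.mp hu; rw [q1] at this; simpa using this
  have hp' : tens Q p p p p = 0 := by rw [← eval_eq_tens hQ]; exact hp
  simp only [q3, q2, tens_add2, tens_smul2, tens_add3, tens_add4, tens_smul3, tens_smul4]
  rw [tens_swap34 Q p u u p, tens_swap34 Q p p u p, tens_swap24 Q p u p p, tens_swap23 Q p u p u,
    hu', hp']
  ring

theorem q4_add_smul (hQ : Q.IsHomogeneous 4) {p u : Fin 4 → ℂ} (hp : eval p Q = 0)
    (hu : u ∈ Tg Q p) (c : ℂ) :
    q4 Q (u + c • p) = q4 Q u + c * q3 Q p u + c ^ 2 * q2 Q p u := by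
  have h := eval_comb_tangent hQ hp hu c 1
  rw [one_smul, add_comm, ← q4_eq hQ] at h
  rw [h]; ring

/-- `g6` descends to `T_p / p`. -/
theorem g6_add_smul (hQ : Q.IsHomogeneous 4) {p u : Fin 4 → ℂ} (hp : eval p Q = 0)
    (hu : u ∈ Tg Q p) (c : ℂ) : g6 Q p (u + c • p) = g6 Q p u := by
  rw [g6, g6, q2_add_smul hQ hp hu, q3_add_smul hQ hp hu, q4_add_smul hQ hp hu]
  ring

theorem q2_smul_right (p u : Fin 4 → ℂ) (c : ℂ) : q2 Q p (c • u) = c ^ 2 * q2 Q p u := by
  simp only [q2, tens_smul3, tens_smul4]; ring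
theorem q3_smul_right (p u : Fin 4 → ℂ) (c : ℂ) : q3 Q p (c • u) = c ^ 3 * q3 Q p u := by
  simp only [q3, tens_smul2, tens_smul3, tens_smul4]; ring
theorem q4_smul (u : Fin 4 → ℂ) (c : ℂ) : q4 Q (c • u) = c ^ 4 * q4 Q u := by
  simp only [q4, tens_smul1, tens_smul2, tens_smul3, tens_smul4]; ring
theorem g6_smul_right (p u : Fin 4 → ℂ) (c : ℂ) : g6 Q p (c • u) = c ^ 6 * g6 Q p u := by
  rw [g6, g6, q2_smul_right, q3_smul_right, q4_smul]; ring

theorem q1_smul_left (p u : Fin 4 → ℂ) (c : ℂ) : q1 Q (c • p) u = c ^ 3 * q1 Q p u := by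
  simp only [q1, tens_smul1, tens_smul2, tens_smul3]; ring
theorem q2_smul_left (p u : Fin 4 → ℂ) (c : ℂ) : q2 Q (c • p) u = c ^ 2 * q2 Q p u := by
  simp only [q2, tens_smul1, tens_smul2]; ring
theorem q3_smul_left (p u : Fin 4 → ℂ) (c : ℂ) : q3 Q (c • p) u = c * q3 Q p u := by
  simp only [q3, tens_smul1]; ring
theorem g6_smul_left (p u : Fin 4 → ℂ) (c : ℂ) : g6 Q (c • p) u = c ^ 2 * g6 Q p u := by
  rw [g6, g6, q2_smul_left, q3_smul_left]; ring

theorem Tg_smul {c : ℂ} (hc : c ≠ 0) (p : Fin 4 → ℂ) : Tg Q (c • p) = Tg Q p := by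
  ext u
  rw [mem_Tg, mem_Tg, q1_smul_left]
  simp [hc]

theorem dg6_smul_left (p u w : Fin 4 → ℂ) (c : ℂ) : dg6 Q (c • p) u w = c ^ 2 * dg6 Q p u w := by
  simp only [dg6, q3_smul_left, q2_smul_left, dq3, dq2, tens_smul1, tens_smul2]; ring

theorem dg6_add_right (p u w w' : Fin 4 → ℂ) :
    dg6 Q p u (w + w') = dg6 Q p u w + dg6 Q p u w' := by
  simp only [dg6, dq2, dq3, dq4, tens_add4]; ring

theorem dg6_smul_right (p u w : Fin 4 → ℂ) (c : ℂ) : dg6 Q p u (c • w) = c * dg6 Q p u w := by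
  simp only [dg6, dq2, dq3, dq4, tens_smul4]; ring

/-- Euler: `dg6 p u u = 6 g6 p u`. -/
theorem dg6_self (p u : Fin 4 → ℂ) : dg6 Q p u u = 6 * g6 Q p u := by
  simp only [dg6, g6, dq2, dq3, dq4, q2, q3, q4]; ring

/-- exact expansion of `g6 p (u + t w)` to first order: the remainder is `t²` times a polynomial. -/
theorem g6_add_smul_dir (p u w : Fin 4 → ℂ) : ∃ r : ℂ → ℂ, Differentiable ℂ r ∧
    ∀ t : ℂ, g6 Q p (u + t • w) = g6 Q p u + t * dg6 Q p u w + t ^ 2 * r t := by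
  have hw3 : ∀ t : ℂ, q3 Q p (u + t • w) = q3 Q p u + t * dq3 Q p u w +
      t ^ 2 * (12 * tens Q p u w w) + t ^ 3 * q3 Q p w := by
    intro t
    simp only [q3, dq3, tens_add2, tens_add3, tens_add4, tens_smul2, tens_smul3, tens_smul4]
    rw [tens_swap34 Q p u w u, tens_swap24 Q p w u u, tens_swap23 Q p w u w, tens_swap24 Q p w w u]
    ring
  have hw2 : ∀ t : ℂ, q2 Q p (u + t • w) = q2 Q p u + t * dq2 Q p u w + t ^ 2 * q2 Q p w := by
    intro t
    simp only [q2, dq2, tens_add3, tens_add4, tens_smul3, tens_smul4]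
    rw [tens_swap34 Q p p w u]
    ring
  have hw4 : ∀ t : ℂ, q4 Q (u + t • w) = q4 Q u + t * dq4 Q u w +
      t ^ 2 * q2 Q u w + t ^ 3 * q3 Q u w + t ^ 4 * q4 Q w := by
    intro t
    have h := tens_comb (Q := Q) u w 1 t
    rw [one_smul] at h
    rw [q4, h]
    simp only [q1, dq4, q4]; ring
  refine ⟨fun t => (dq3 Q p u w ^ 2 + 2 * q3 Q p u * ((12 * tens Q p u w w) + t * q3 Q p w)
      + 2 * t * dq3 Q p u w * ((12 * tens Q p u w w) + t * q3 Q p w)
      + t ^ 2 * ((12 * tens Q p u w w) + t * q3 Q p w) ^ 2)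
      - 4 * ((q2 Q p u) * (q2 Q u w + t * q3 Q u w + t ^ 2 * q4 Q w)
      + dq2 Q p u w * (dq4 Q u w + t * q2 Q u w + t ^ 2 * q3 Q u w + t ^ 3 * q4 Q w)
      + q2 Q p w * (q4 Q u + t * dq4 Q u w +
      t ^ 2 * q2 Q u w + t ^ 3 * q3 Q u w + t ^ 4 * q4 Q w)), by fun_prop, ?_⟩
  intro t
  rw [g6, hw3, hw2, hw4, g6, dg6]
  ring

theorem hasDerivAt_g6 (p u w : Fin 4 → ℂ) :
    HasDerivAt (fun t : ℂ => g6 Q p (u + t • w)) (dg6 Q p u w) 0 := by
  obtain ⟨r, hr, h⟩ := g6_add_smul_dir (Q := Q) p u w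
  have h1 : (fun t : ℂ => g6 Q p (u + t • w)) =
      fun t => g6 Q p u + t * dg6 Q p u w + t ^ 2 * r t := funext h
  rw [h1]
  have h2 : HasDerivAt (fun t : ℂ => g6 Q p u + t * dg6 Q p u w + t ^ 2 * r t)
      (0 + 1 * dg6 Q p u w + ((2 : ℕ) * (0:ℂ) ^ (2 - 1) * r 0 + (0:ℂ) ^ 2 * deriv r 0)) 0 := by
    refine HasDerivAt.add (HasDerivAt.add (hasDerivAt_const _ _) ?_) ?_
    · exact (hasDerivAt_id (0:ℂ)).mul_const _
    · exact (hasDerivAt_pow 2 (0:ℂ)).mul (hr 0).hasDerivAt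
  convert h2 using 1
  simp

/-- `tens` is jointly differentiable. -/
theorem differentiable_tens (Q : MvPolynomial (Fin 4) ℂ) :
    Differentiable ℂ (fun z : (Fin 4 → ℂ) × (Fin 4 → ℂ) × (Fin 4 → ℂ) × (Fin 4 → ℂ) =>
      tens Q z.1 z.2.1 z.2.2.1 z.2.2.2) := by
  unfold tens; fun_prop

theorem continuous_tens (Q : MvPolynomial (Fin 4) ℂ) :
    Continuous (fun z : (Fin 4 → ℂ) × (Fin 4 → ℂ) × (Fin 4 → ℂ) × (Fin 4 → ℂ) =>
      tens Q z.1 z.2.1 z.2.2.1 z.2.2.2) := (differentiable_tens Q).continuous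

theorem differentiable_g6 (Q : MvPolynomial (Fin 4) ℂ) :
    Differentiable ℂ (fun z : (Fin 4 → ℂ) × (Fin 4 → ℂ) => g6 Q z.1 z.2) := by
  unfold g6 q3 q2 q4 tens; fun_prop

end forms

/-- `p ∈ D`: the binary sextic `g6 p ·` on `T_p / p` is zero or has a multiple root. -/
def InD (Q : MvPolynomial (Fin 4) ℂ) (p : Fin 4 → ℂ) : Prop :=
  ∃ u ∈ Tg Q p, LinearIndependent ℂ ![p, u] ∧ g6 Q p u = 0 ∧ ∀ w ∈ Tg Q p, dg6 Q p u w = 0

/-- the cone over the curve of two-nodal (or worse) tangent plane sections -/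
def DD (Q : MvPolynomial (Fin 4) ℂ) : Set (Fin 4 → ℂ) :=
  {p | (p ≠ 0 ∧ eval p Q = 0) ∧ InD Q p}

theorem InD_smul {Q : MvPolynomial (Fin 4) ℂ} {c : ℂ} (hc : c ≠ 0) {p : Fin 4 → ℂ}
    (h : InD Q p) : InD Q (c • p) := by
  obtain ⟨u, hu, hl, h0, hd⟩ := h
  refine ⟨u, by rwa [Tg_smul hc], ?_, by rw [g6_smul_left, h0, mul_zero], fun w hw => ?_⟩
  · rw [LinearIndependent.pair_iff] at hl ⊢
    intro s t hst
    have := hl (s * c) t (by rw [mul_smul]; exact hst)
    exact ⟨by simpa [hc] using this.1, this.2⟩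
  · rw [Tg_smul hc] at hw
    rw [dg6_smul_left, hd w hw, mul_zero]

end Crest.Agent.R279
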