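import Mathlib

/-!
# R279: the differential of a polynomial in four variables, Euler's identity
-/

set_option autoImplicit false

namespace Crest.Agent.R279

open MvPolynomial

/-- the differential of `Q` at `v` -/
noncomputable def dQ (Q : MvPolynomial (Fin 4) ℂ) (v : Fin 4 → ℂ) : (Fin 4 → ℂ) →L[ℂ] ℂ :=
  ∑ i, (MvPolynomial.eval v (MvPolynomial.pderiv i Q)) • ContinuousLinearMap.proj i

theorem dQ_apply (Q : MvPolynomial (Fin 4) ℂ) (v w : Fin 4 → ℂ) :
    dQ Q v w = ∑ i, MvPolynomial.eval v (MvPolynomial.pderiv i Q) * w i := by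
  simp [dQ]

theorem hasStrictFDerivAt_eval (Q : MvPolynomial (Fin 4) ℂ) (v : Fin 4 → ℂ) :
    HasStrictFDerivAt (fun y : Fin 4 → ℂ => MvPolynomial.eval y Q) (dQ Q v) v := by
  induction Q using MvPolynomial.induction_on with
  | C a =>
    have h : dQ (C a) v = 0 := by
      ext w
      simp [dQ_apply]
    rw [h]
    simpa using hasStrictFDerivAt_const (𝕜 := ℂ) a v
  | add p q hp hq =>
    have h : dQ (p + q) v = dQ p v + dQ q v := by
      ext w
      simp only [dQ_apply, add_apply, map_add, add_mul, Finset.sum_add_distrib]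
    have e : (fun y : Fin 4 → ℂ => MvPolynomial.eval y (p + q)) =
        (fun y => MvPolynomial.eval y p) + fun y => MvPolynomial.eval y q := by
      funext y
      simp
    rw [h, e]
    exact hp.add hq
  | mul_X p n hp =>
    have hX : HasStrictFDerivAt (fun y : Fin 4 → ℂ => y n)
        (ContinuousLinearMap.proj (R := ℂ) n) v :=
      (ContinuousLinearMap.proj (R := ℂ) (φ := fun _ : Fin 4 => ℂ) n).hasStrictFDerivAt
    have h1 := hp.mul hX
    have h : dQ (p * X n) v = MvPolynomial.eval v p • ContinuousLinearMap.proj (R := ℂ) n +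
        v n • dQ p v := by
      ext w
      simp only [dQ_apply, add_apply, smul_apply,
        ContinuousLinearMap.proj_apply, Derivation.leibniz, pderiv_X, smul_eq_mul, map_add,
        map_mul, eval_X, add_mul, Finset.sum_add_distrib, Finset.mul_sum]
      congr 1
      · rw [Finset.sum_eq_single n]
        · simp
        · intro b _ hb
          simp [hb.symm]
        · simp
      · refine Finset.sum_congr rfl fun i _ => ?_
        ring
    have e : (fun y : Fin 4 → ℂ => MvPolynomial.eval y (p * X n)) =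
        (fun y => MvPolynomial.eval y p) * fun y => y n := by
      funext y
      simp
    rw [h, e]
    exact h1

theorem hasFDerivAt_eval (Q : MvPolynomial (Fin 4) ℂ) (v : Fin 4 → ℂ) :
    HasFDerivAt (fun y : Fin 4 → ℂ => MvPolynomial.eval y Q) (dQ Q v) v :=
  (hasStrictFDerivAt_eval Q v).hasFDerivAt

theorem differentiable_eval (Q : MvPolynomial (Fin 4) ℂ) :
    Differentiable ℂ (fun y : Fin 4 → ℂ => MvPolynomial.eval y Q) :=
  fun v => (hasFDerivAt_eval Q v).differentiableAt

theorem continuous_eval (Q : MvPolynomial (Fin 4) ℂ) :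
    Continuous (fun y : Fin 4 → ℂ => MvPolynomial.eval y Q) :=
  (differentiable_eval Q).continuous

theorem eval_smul {Q : MvPolynomial (Fin 4) ℂ} {n : ℕ} (hQ : Q.IsHomogeneous n) (t : ℂ)
    (v : Fin 4 → ℂ) : MvPolynomial.eval (t • v) Q = t ^ n * MvPolynomial.eval v Q := by
  rw [MvPolynomial.eval_eq', MvPolynomial.eval_eq', Finset.mul_sum]
  refine Finset.sum_congr rfl fun d hd => ?_
  have h1 : d.sum (fun _ k => k) = n := by
    have := hQ (MvPolynomial.mem_support_iff.mp hd)
    rw [Finsupp.weight_apply] at this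
    simpa using this
  have h2 : ∏ i, (t • v) i ^ d i = t ^ n * ∏ i, v i ^ d i := by
    simp only [Pi.smul_apply, smul_eq_mul, mul_pow, Finset.prod_mul_distrib,
      Finset.prod_pow_eq_pow_sum]
    congr 2
    rw [← h1, Finsupp.sum_fintype _ _ (fun _ => rfl)]
  rw [h2]
  ring

/-- Euler: `dQ(v) v = n Q(v)` -/
theorem dQ_self {Q : MvPolynomial (Fin 4) ℂ} {n : ℕ} (hQ : Q.IsHomogeneous n)
    (v : Fin 4 → ℂ) : dQ Q v v = n * MvPolynomial.eval v Q := by
  have h := congrArg (MvPolynomial.eval v) hQ.sum_X_mul_pderiv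
  simp only [map_sum, map_mul, eval_X, nsmul_eq_mul, map_natCast] at h
  rw [dQ_apply, ← h]
  refine Finset.sum_congr rfl fun i _ => ?_
  ring

theorem dQ_ne_zero {Q : MvPolynomial (Fin 4) ℂ} {v : Fin 4 → ℂ}
    (h : ∃ i, MvPolynomial.eval v (MvPolynomial.pderiv i Q) ≠ 0) : dQ Q v ≠ 0 := by
  obtain ⟨i, hi⟩ := h
  intro h0
  apply hi
  have h1 : dQ Q v (Pi.single i 1) = 0 := by rw [h0]; rfl
  rw [dQ_apply, Finset.sum_eq_single i] at h1
  · simpa using h1
  · intro b _ hb
    simp [hb]
  · simp

end Crest.Agent.R279
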