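import Mathlib

/-!
# R279: thin sets and conic charts (Part 7 and the calculus used by Parts 8, 9)

`V = Fin 4 → ℂ`.  `S` is the punctured cone `V* = {v ≠ 0, Q v = 0}` (any set here).
-/

namespace Crest.Agent.R279

open Metric Set

/-- `Z` is thin in the cone `S`: `Z ∩ S` is covered by the cones over countably many holomorphic
arcs (images of the unit disc) contained in `S`.  Constant arcs are allowed. -/
def Thin (S Z : Set (Fin 4 → ℂ)) : Prop :=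
  ∃ A : Set (ℂ → (Fin 4 → ℂ)), A.Countable ∧
    (∀ a ∈ A, DifferentiableOn ℂ a (ball 0 1) ∧ ∀ c ∈ ball (0 : ℂ) 1, a c ∈ S) ∧
    ∀ z ∈ Z, z ∈ S → ∃ a ∈ A, ∃ c ∈ ball (0 : ℂ) 1, ∃ t : ℂ, t ≠ 0 ∧ z = t • a c

/-- A conic chart of the cone `S` at `v`, normalised by the linear form `a` (so `a (x z) = 1`),
with inverse given by the linear map `b` (so `b (x z) = z`). -/
structure Chart (S : Set (Fin 4 → ℂ)) (v : Fin 4 → ℂ) where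
  a : (Fin 4 → ℂ) →L[ℂ] ℂ
  b : (Fin 4 → ℂ) →L[ℂ] ℂ × ℂ
  r : ℝ
  x : ℂ × ℂ → (Fin 4 → ℂ)
  O : Set (Fin 4 → ℂ)
  r_pos : 0 < r
  diff_x : DifferentiableOn ℂ x (ball 0 r)
  x_zero : x 0 = v
  x_mem : ∀ z ∈ ball (0 : ℂ × ℂ) r, x z ∈ S ∧ x z ∈ O
  a_x : ∀ z ∈ ball (0 : ℂ × ℂ) r, a (x z) = 1
  b_x : ∀ z ∈ ball (0 : ℂ × ℂ) r, b (x z) = z
  isOpen_O : IsOpen O
  smul_O : ∀ y ∈ O, ∀ t : ℂ, t ≠ 0 → t • y ∈ O
  a_ne : ∀ y ∈ O, a y ≠ 0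
  b_mem : ∀ y ∈ O, (a y)⁻¹ • b y ∈ ball (0 : ℂ × ℂ) r
  eq_x : ∀ y ∈ O, y ∈ S → y = a y • x ((a y)⁻¹ • b y)

end Crest.Agent.R279
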