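import Mathlib
import Crest.Agent.R279.Root477
import Crest.Agent.R279.Thin556
import Crest.Agent.R279.Deriv556

/-!
# R279: existence of conic charts of the smooth quartic cone
-/

set_option autoImplicit false

namespace Crest.Agent.R279.Boot

open Metric Set Filter Topology MvPolynomial

/-- linear splitting `y = a y • v + ι (b y) + lam y • n` adapted to a vector `v ≠ 0` and a linear
form `lam ≠ 0` with `lam v = 0`. -/
theorem exists_split {v : Fin 4 → ℂ} (hv : v ≠ 0) (lam : (Fin 4 → ℂ) →L[ℂ] ℂ) (hlam : lam ≠ 0)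
    (hlv : lam v = 0) :
    ∃ (a : (Fin 4 → ℂ) →L[ℂ] ℂ) (b : (Fin 4 → ℂ) →L[ℂ] ℂ × ℂ) (ι : ℂ × ℂ →L[ℂ] (Fin 4 → ℂ))
      (n : Fin 4 → ℂ), a v = 1 ∧ b v = 0 ∧ lam n = 1 ∧ a n = 0 ∧ b n = 0 ∧
      (∀ z, a (ι z) = 0) ∧ (∀ z, b (ι z) = z) ∧ (∀ z, lam (ι z) = 0) ∧
      ∀ y, y = a y • v + ι (b y) + lam y • n := by
  -- `n` with `lam n = 1`
  obtain ⟨w, hw⟩ : ∃ w, lam w ≠ 0 := by
    by_contra h
    push Not at h
    exact hlam (by ext1 i; simpa using h i)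
  set n : Fin 4 → ℂ := (lam w)⁻¹ • w with hn
  have hln : lam n = 1 := by
    rw [hn, map_smul, smul_eq_mul, inv_mul_cancel₀ hw]
  -- a functional `a₀` with `a₀ v = 1`
  obtain ⟨i, hi⟩ : ∃ i, v i ≠ 0 := by
    by_contra h
    push Not at h
    exact hv (funext h)
  set a₀ : (Fin 4 → ℂ) →L[ℂ] ℂ := (v i)⁻¹ • ContinuousLinearMap.proj i with ha₀
  have ha₀v : a₀ v = 1 := by
    simp [ha₀, hi]
  set a : (Fin 4 → ℂ) →L[ℂ] ℂ := a₀ - a₀ n • lam with ha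
  have hav : a v = 1 := by
    simp [ha, hlv, ha₀v]
  have han : a n = 0 := by
    simp [ha, hln]
  -- the common kernel
  set T : (Fin 4 → ℂ) →ₗ[ℂ] ℂ × ℂ := (a : (Fin 4 → ℂ) →ₗ[ℂ] ℂ).prod (lam : (Fin 4 → ℂ) →ₗ[ℂ] ℂ)
    with hT
  have hTsurj : LinearMap.range T = ⊤ := by
    rw [LinearMap.range_eq_top]
    rintro ⟨α, β⟩
    refine ⟨α • v + β • n, ?_⟩
    simp [hT, hav, han, hlv, hln]
  have hdim : Module.finrank ℂ (LinearMap.ker T) = Module.finrank ℂ (ℂ × ℂ) := by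
    have h := LinearMap.finrank_range_add_finrank_ker T
    rw [hTsurj, finrank_top] at h
    have h2 : Module.finrank ℂ (ℂ × ℂ) = 2 := by simp
    have h4 : Module.finrank ℂ (Fin 4 → ℂ) = 4 := by simp
    omega
  obtain ⟨e⟩ : Nonempty (LinearMap.ker T ≃ₗ[ℂ] (ℂ × ℂ)) :=
    FiniteDimensional.nonempty_linearEquiv_of_finrank_eq hdim
  -- projection to the kernel
  set P₀ : (Fin 4 → ℂ) →ₗ[ℂ] (Fin 4 → ℂ) :=
    LinearMap.id - (a : (Fin 4 → ℂ) →ₗ[ℂ] ℂ).smulRight v - (lam : (Fin 4 → ℂ) →ₗ[ℂ] ℂ).smulRight n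
    with hP₀
  have hP₀mem : ∀ y, P₀ y ∈ LinearMap.ker T := by
    intro y
    rw [LinearMap.mem_ker]
    simp [hP₀, hT, hav, han, hlv, hln]
  set P : (Fin 4 → ℂ) →ₗ[ℂ] LinearMap.ker T := LinearMap.codRestrict _ P₀ hP₀mem with hP
  have hPval : ∀ y, ((P y : LinearMap.ker T) : Fin 4 → ℂ) = y - a y • v - lam y • n := by
    intro y
    simp [hP, hP₀]
  set b : (Fin 4 → ℂ) →L[ℂ] ℂ × ℂ := LinearMap.toContinuousLinearMap (e.toLinearMap.comp P) with hb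
  have hbval : ∀ y, b y = e (P y) := fun y => rfl
  set ι : ℂ × ℂ →L[ℂ] (Fin 4 → ℂ) :=
    LinearMap.toContinuousLinearMap ((LinearMap.ker T).subtype.comp e.symm.toLinearMap) with hι
  have hιval : ∀ z, ι z = (e.symm z : Fin 4 → ℂ) := fun z => rfl
  have hker : ∀ m : LinearMap.ker T, a (m : Fin 4 → ℂ) = 0 ∧ lam (m : Fin 4 → ℂ) = 0 := by
    rintro ⟨m, hm⟩
    rw [LinearMap.mem_ker] at hm
    exact ⟨congrArg Prod.fst hm, congrArg Prod.snd hm⟩
  refine ⟨a, b, ι, n, hav, ?_, hln, han, ?_, ?_, ?_, ?_, ?_⟩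
  · have : P v = 0 := by
      apply Subtype.ext
      rw [hPval]
      simp [hav, hlv]
    rw [hbval, this, map_zero]
  · have : P n = 0 := by
      apply Subtype.ext
      rw [hPval]
      simp [han, hln]
    rw [hbval, this, map_zero]
  · intro z
    rw [hιval]
    exact (hker _).1
  · intro z
    have : P (ι z) = e.symm z := by
      apply Subtype.ext
      rw [hPval, hιval, (hker _).1, (hker _).2]
      simp
    rw [hbval, this, LinearEquiv.apply_symm_apply]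
  · intro z
    rw [hιval]
    exact (hker _).2
  · intro y
    rw [hιval, hbval, LinearEquiv.symm_apply_apply, hPval]
    abel

/-- the polynomial is uniformly close to the identity in a direction `n` with `dQ(v) n = 1` -/
theorem exists_close (Q : MvPolynomial (Fin 4) ℂ) (v : Fin 4 → ℂ)
    (ι : ℂ × ℂ →L[ℂ] (Fin 4 → ℂ)) (n : Fin 4 → ℂ) (hn : dQ Q v n = 1) :
    ∃ δ > 0, ∀ z ∈ ball (0 : ℂ × ℂ) δ, ∀ k₁ ∈ closedBall (0 : ℂ) δ,
      ∀ k₂ ∈ closedBall (0 : ℂ) δ,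
      ‖(MvPolynomial.eval (v + ι z + k₁ • n) Q - MvPolynomial.eval (v + ι z + k₂ • n) Q)
        - (k₁ - k₂)‖ ≤ 1 / 2 * ‖k₁ - k₂‖ := by
  have hn1 : 0 < ‖n‖ + 1 := by positivity
  have h1 := (hasStrictFDerivAt_eval Q v).isLittleO
  have h2 := h1.def (c := 1 / (2 * (‖n‖ + 1))) (by positivity)
  have hcont : Tendsto (fun p : (ℂ × ℂ) × ℂ × ℂ =>
      ((v + ι p.1 + p.2.1 • n, v + ι p.1 + p.2.2 • n) : (Fin 4 → ℂ) × (Fin 4 → ℂ)))
      (𝓝 (0, 0, 0)) (𝓝 (v, v)) := by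
    have : Continuous (fun p : (ℂ × ℂ) × ℂ × ℂ =>
      ((v + ι p.1 + p.2.1 • n, v + ι p.1 + p.2.2 • n) : (Fin 4 → ℂ) × (Fin 4 → ℂ))) := by
      fun_prop
    have h := this.tendsto (0, 0, 0)
    simpa using h
  have h3 := hcont.eventually h2
  obtain ⟨δ, hδ, hδ'⟩ := Metric.eventually_nhds_iff_ball.mp h3
  refine ⟨δ / 2, by positivity, fun z hz k₁ hk₁ k₂ hk₂ => ?_⟩
  have hmem : ((z, k₁, k₂) : (ℂ × ℂ) × ℂ × ℂ) ∈ ball ((0, 0, 0) : (ℂ × ℂ) × ℂ × ℂ) δ := by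
    rw [mem_ball, dist_eq_norm]
    rw [mem_ball_zero_iff] at hz
    rw [mem_closedBall_zero_iff] at hk₁ hk₂
    have : ((z, k₁, k₂) : (ℂ × ℂ) × ℂ × ℂ) - (0, 0, 0) = (z, k₁, k₂) := by simp
    rw [this]
    simp only [Prod.norm_def] at hz ⊢
    refine max_lt (by linarith) (max_lt (by linarith) (by linarith))
  have h4 := hδ' _ hmem
  simp only at h4
  have h5 : v + ι z + k₁ • n - (v + ι z + k₂ • n) = (k₁ - k₂) • n := by
    rw [sub_smul]
    abel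
  rw [h5, map_smul, hn, smul_eq_mul, mul_one, norm_smul] at h4
  refine h4.trans ?_
  have h6 : ‖n‖ ≤ ‖n‖ + 1 := by linarith
  have h7 : 1 / (2 * (‖n‖ + 1)) * (‖k₁ - k₂‖ * (‖n‖ + 1)) = 1 / 2 * ‖k₁ - k₂‖ := by
    rw [one_div, mul_inv, one_div, mul_assoc]
    congr 1
    rw [mul_comm ‖k₁ - k₂‖, ← mul_assoc, inv_mul_cancel₀ hn1.ne', one_mul]
  rw [← h7]
  have h8 : 0 ≤ 1 / (2 * (‖n‖ + 1)) := by positivity
  exact mul_le_mul_of_nonneg_left (mul_le_mul_of_nonneg_left h6 (norm_nonneg _)) h8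

/-- existence of conic charts, of arbitrarily small radius -/
theorem exists_chart {Q : MvPolynomial (Fin 4) ℂ} {d : ℕ} (hQ : Q.IsHomogeneous d)
    {v : Fin 4 → ℂ} (hv : v ≠ 0) (hQv : MvPolynomial.eval v Q = 0)
    (hsm : ∃ i, MvPolynomial.eval v (MvPolynomial.pderiv i Q) ≠ 0) {ε : ℝ} (hε : 0 < ε) :
    ∃ C : Chart {v | v ≠ 0 ∧ MvPolynomial.eval v Q = 0} v, C.r < ε := by
  obtain ⟨a, b, ι, n, hav, hbv, hln, han, hbn, haι, hbι, hlι, hsplit⟩ :=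
    exists_split hv (dQ Q v) (dQ_ne_zero hsm) (by rw [dQ_self hQ, hQv, mul_zero])
  have hlv : dQ Q v v = 0 := by rw [dQ_self hQ, hQv, mul_zero]
  obtain ⟨δ, hδ, hδ'⟩ := exists_close Q v ι n hln
  -- the function whose root is the chart
  obtain ⟨G, hG⟩ : ∃ G : ℂ × ℂ → ℂ → ℂ, ∀ z k, G z k = MvPolynomial.eval (v + ι z + k • n) Q :=
    ⟨_, fun z k => rfl⟩
  have hGdiff : Differentiable ℂ (fun p : (ℂ × ℂ) × ℂ => G p.1 p.2) := by
    simp only [hG]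
    refine (differentiable_eval Q).comp ?_
    fun_prop
  have hG0 : G 0 0 = 0 := by simp [hG, hQv]
  simp only [← hG] at hδ'
  -- shrink `z`
  have hsmall : ∀ᶠ z in 𝓝 (0 : ℂ × ℂ), ‖G z 0‖ < δ / 2 := by
    have hc : Continuous (fun z : ℂ × ℂ => ‖G z 0‖) := by
      have h1 : Continuous (fun z : ℂ × ℂ => G z 0) :=
        (hGdiff.continuous).comp (continuous_id.prodMk continuous_const)
      exact h1.norm
    have : ‖G 0 0‖ < δ / 2 := by rw [hG0, norm_zero]; positivity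
    exact hc.continuousAt.eventually_lt continuousAt_const this
  obtain ⟨r₁, hr₁, hr₁'⟩ := Metric.eventually_nhds_iff_ball.mp hsmall
  obtain ⟨r, hr0, hrε, hrδ', hrr₁'⟩ : ∃ r : ℝ, 0 < r ∧ r < ε ∧ r ≤ δ ∧ r ≤ r₁ :=
    ⟨min (min r₁ δ) (ε / 2), lt_min (lt_min hr₁ hδ) (by positivity),
      lt_of_le_of_lt (min_le_right _ _) (by linarith),
      (min_le_left _ _).trans (min_le_right _ _), (min_le_left _ _).trans (min_le_left _ _)⟩
  have hrδ : ball (0 : ℂ × ℂ) r ⊆ ball 0 δ := ball_subset_ball hrδ'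
  have hrr₁ : ball (0 : ℂ × ℂ) r ⊆ ball 0 r₁ := ball_subset_ball hrr₁'
  obtain ⟨κ, hκ, hκd⟩ := Spray.exists_unif_root G (ball (0 : ℂ × ℂ) r) hδ
    (fun z hz => hδ' z (hrδ hz)) (fun z hz => hr₁' z (hrr₁ hz))
  -- the chart
  have hlamx : ∀ z, dQ Q v (v + ι z + κ z • n) = κ z := by
    intro z
    simp [hlv, hlι, hln]
  have hax : ∀ z, a (v + ι z + κ z • n) = 1 := by
    intro z
    simp [hav, haι, han]
  have hbx : ∀ z, b (v + ι z + κ z • n) = z := by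
    intro z
    rw [map_add, map_add, map_smul, hbv, hbι, hbn]
    simp
  refine ⟨⟨a, b, r, fun z => v + ι z + κ z • n,
    {y | a y ≠ 0} ∩ {y | (a y)⁻¹ • b y ∈ ball (0 : ℂ × ℂ) r ∧ (a y)⁻¹ * dQ Q v y ∈ ball (0:ℂ) δ},
    hr0, ?_, ?_, ?_, ?_, ?_, ?_, ?_, ?_, ?_, ?_⟩, hrε⟩
  · -- diff_x
    intro z hz
    have h1 := hκd z hz (isOpen_ball.mem_nhds hz) (hGdiff _)
    refine DifferentiableAt.differentiableWithinAt ?_
    fun_prop
  · -- x_zero
    have h1 : (0 : ℂ) = κ 0 :=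
      (hκ 0 (mem_ball_self hr0)).2.2.2 0 (mem_closedBall_self hδ.le) hG0
    simp [← h1]
  · -- x_mem
    intro z hz
    refine ⟨⟨?_, ?_⟩, ?_, ?_, ?_⟩
    · intro h0
      have := hax z
      rw [h0, map_zero] at this
      exact zero_ne_one this
    · rw [← hG]
      exact (hκ z hz).1
    · show a _ ≠ 0
      rw [hax]
      exact one_ne_zero
    · rw [hax, hbx, inv_one, one_smul]
      exact hz
    · rw [hax, hlamx, inv_one, one_mul, mem_ball_zero_iff]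
      exact (hκ z hz).2.2.1
  · intro z _
    exact hax z
  · intro z _
    exact hbx z
  · -- isOpen_O
    have hopen : IsOpen {y : Fin 4 → ℂ | a y ≠ 0} :=
      isOpen_ne_fun a.continuous continuous_const
    have hinv : ContinuousOn (fun y => (a y)⁻¹) {y : Fin 4 → ℂ | a y ≠ 0} :=
      a.continuous.continuousOn.inv₀ (fun y hy => hy)
    have h1 : ContinuousOn (fun y => ((a y)⁻¹ • b y, (a y)⁻¹ * dQ Q v y))
        {y : Fin 4 → ℂ | a y ≠ 0} :=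
      (hinv.smul b.continuous.continuousOn).prodMk (hinv.mul (dQ Q v).continuous.continuousOn)
    have h2 := h1.isOpen_inter_preimage hopen (isOpen_ball.prod isOpen_ball :
      IsOpen (ball (0 : ℂ × ℂ) r ×ˢ ball (0:ℂ) δ))
    exact h2
  · -- smul_O
    rintro y ⟨hy1, hy2, hy3⟩ t ht
    refine ⟨?_, ?_, ?_⟩
    · show a _ ≠ 0
      rw [map_smul, smul_eq_mul]
      exact mul_ne_zero ht hy1
    · rw [map_smul, map_smul, smul_smul, smul_eq_mul, mul_inv, mul_comm t⁻¹, mul_assoc,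
        inv_mul_cancel₀ ht, mul_one]
      exact hy2
    · rw [map_smul, map_smul, smul_eq_mul, smul_eq_mul, mul_inv, mul_comm t⁻¹, mul_assoc,
        ← mul_assoc t⁻¹, inv_mul_cancel₀ ht, one_mul]
      exact hy3
  · rintro y ⟨hy1, -⟩
    exact hy1
  · rintro y ⟨-, hy2, -⟩
    exact hy2
  · -- eq_x
    rintro y ⟨hy1, hy2, hy3⟩ ⟨-, hyQ⟩
    replace hy1 : a y ≠ 0 := hy1
    have h1 : (a y)⁻¹ • y = v + ι ((a y)⁻¹ • b y) + ((a y)⁻¹ * dQ Q v y) • n := by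
      have h0 := congrArg (fun w => (a y)⁻¹ • w) (hsplit y)
      simp only [smul_add, smul_smul, inv_mul_cancel₀ hy1, one_smul] at h0
      rw [map_smul]
      exact h0
    have h2 : G ((a y)⁻¹ • b y) ((a y)⁻¹ * dQ Q v y) = 0 := by
      rw [hG, ← h1, eval_smul hQ, hyQ, mul_zero]
    have h3 := (hκ _ hy2).2.2.2 _ (ball_subset_closedBall hy3) h2
    rw [← h3, ← h1, smul_smul, mul_inv_cancel₀ hy1, one_smul]

end Crest.Agent.R279.Boot
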