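import Mathlib

/-!
R279 (S0422), Part 4 interface (helper765): goodness, sprays, planar crosses.
Everything is for an abstract target set `V ⊆ Fin 4 → ℂ` (in the application `V = Vstar Q`).
-/

set_option autoImplicit false

namespace Crest.Agent.R279

open Metric Set

/-- The value space `ℂ^4` of all maps and also the parameter space of all sprays. -/
abbrev C4 : Type := Fin 4 → ℂ

/-- The punctured cone over the quartic. -/
def Vstar (Q : MvPolynomial (Fin 4) ℂ) : Set C4 := {v | v ≠ 0 ∧ MvPolynomial.eval v Q = 0}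

section Good

variable {E : Type*} [NormedAddCommGroup E] [NormedSpace ℂ E]

/-- `f` is holomorphic with values in `V` on an open neighbourhood of `K`. -/
def HolNear (V : Set C4) (f : E → C4) (K : Set E) : Prop :=
  ∃ O : Set E, IsOpen O ∧ K ⊆ O ∧ DifferentiableOn ℂ f O ∧ MapsTo f O V

/-- The approximation property with a radius `ρ` in the parameter directions which does not
depend on `R`, `ε`. -/
def ApproxAlong {W : Type*} [NormedAddCommGroup W] [NormedSpace ℂ W]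
    (V : Set C4) (K : Set E) (F : E × W → C4) : Prop :=
  ∃ ρ : ℝ, 0 < ρ ∧ ∀ R : ℝ, ∀ ε : ℝ, 0 < ε → ∃ G : E × W → C4,
    DifferentiableOn ℂ G (ball 0 R) ∧ MapsTo G (ball 0 R) V ∧
      ∀ x ∈ K, ∀ w ∈ closedBall (0 : W) ρ, ‖G (x, w) - F (x, w)‖ < ε

/-- `f` is good on `K` (only the restriction of `f` to `K` matters). -/
def Good (V : Set C4) (K : Set E) (f : E → C4) : Prop :=
  ∀ (N : ℕ) (F : E × (Fin N → ℂ) → C4), HolNear V F (K ×ˢ {0}) →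
    (∀ x ∈ K, F (x, 0) = f x) → ApproxAlong V K F

/-- `v` is a good point. -/
def GoodPt (V : Set C4) (v : C4) : Prop :=
  v ∈ V ∧ ∀ (N : ℕ) (F : (Fin N → ℂ) → C4), HolNear V F {0} → F 0 = v →
    ∃ ρ : ℝ, 0 < ρ ∧ ∀ R : ℝ, ∀ ε : ℝ, 0 < ε → ∃ G : (Fin N → ℂ) → C4,
      DifferentiableOn ℂ G (ball 0 R) ∧ MapsTo G (ball 0 R) V ∧
        ∀ w ∈ closedBall (0 : Fin N → ℂ) ρ, ‖G w - F w‖ < ε

/-- Plain approximation: every `R`, `ε`. -/
def CapOn (V : Set C4) (K : Set E) (f : E → C4) : Prop :=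
  ∀ R : ℝ, ∀ ε : ℝ, 0 < ε → ∃ G : E → C4,
    DifferentiableOn ℂ G (ball 0 R) ∧ MapsTo G (ball 0 R) V ∧ ∀ x ∈ K, ‖G x - f x‖ < ε

/-- A spray over `f` near `K` with free transitions (Part 3):
`s` is holomorphic on `O × ball 0 r`, `s(x,0) = f x`, and every point `y` of `V` close to
`s(x,t)` is `s(x, t + (y - s(x,t)))`. -/
structure SprayData (V : Set C4) (f : E → C4) (K : Set E) where
  s : E × C4 → C4
  O : Set E
  r : ℝ
  e : ℝ
  isOpen : IsOpen O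
  sub : K ⊆ O
  rpos : 0 < r
  epos : 0 < e
  diff : DifferentiableOn ℂ s (O ×ˢ ball (0 : C4) r)
  maps : MapsTo s (O ×ˢ ball (0 : C4) r) V
  zero : ∀ x ∈ O, s (x, 0) = f x
  trans : ∀ x ∈ O, ∀ t ∈ ball (0 : C4) (r / 2), ∀ y ∈ V, ‖y - s (x, t)‖ < e →
    t + (y - s (x, t)) ∈ ball (0 : C4) r ∧ s (x, t + (y - s (x, t))) = y

end Good

section Planar

/-- Closed rectangle `[a,b] + i[c,d]`. -/
def rect (a b c d : ℝ) : Set ℂ := {z | z.re ∈ Icc a b ∧ z.im ∈ Icc c d}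

/-- Topological boundary of the rectangle, written out. -/
def rectBd (a b c d : ℝ) : Set ℂ :=
  {z | z ∈ rect a b c d ∧ (z.re = a ∨ z.re = b ∨ z.im = c ∨ z.im = d)}

/-- nearest point projection onto the rectangle -/
noncomputable def clampQ (a b c d : ℝ) (z : ℂ) : ℂ :=
  ⟨max a (min b z.re), max c (min d z.im)⟩

/-- The rectangle with finitely many full vertical lines `Re z = x`, `x ∈ X ⊆ (a,b)`, and
horizontal lines `Im z = y`, `y ∈ Y ⊆ (c,d)`. -/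
def cross (a b c d : ℝ) (X Y : Finset ℝ) : Set ℂ :=
  {z | z ∈ rect a b c d ∨ z.re ∈ X ∨ z.im ∈ Y}

/-- LEMMA E (planar): a polynomial close to the nearest point projection on a thin
neighbourhood of the cross. -/
def LemmaE : Prop :=
  ∀ (a b c d : ℝ) (X Y : Finset ℝ), a < b → c < d → (∀ x ∈ X, a < x ∧ x < b) →
    (∀ y ∈ Y, c < y ∧ y < d) → ∀ (η R : ℝ), 0 < η →
    ∃ (P : Polynomial ℂ) (δ : ℝ), 0 < δ ∧ ∀ z : ℂ, ‖z‖ ≤ R →
      infDist z (cross a b c d X Y) < δ → ‖P.eval z - clampQ a b c d z‖ < η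

/-- LEMMA K (kick). At least one line is needed. -/
def LemmaK : Prop :=
  ∀ (a b c d : ℝ) (X Y : Finset ℝ), a < b → c < d → (∀ x ∈ X, a < x ∧ x < b) →
    (∀ y ∈ Y, c < y ∧ y < d) → X.Nonempty → ∀ (δ ε R : ℝ) (L : ℂ), 0 < δ → 0 < ε →
    ∃ P : Polynomial ℂ, (∀ z ∈ rect a b c d, ‖P.eval z‖ < ε) ∧
      ∀ z : ℂ, ‖z‖ ≤ R → δ ≤ infDist z (cross a b c d X Y) → ‖P.eval z - L‖ < ε

end Planar

/-- PGL (1.4) in the form used by Part 4: the cut variable is the coordinate `i` of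
`Fin m → ℂ`, `T` is an open cylinder in direction `i`. The constant `K` depends only on
`A`, `B`. -/
def PGLTarget : Prop :=
  ∀ (A B : Set ℂ), IsOpen A → IsOpen B → Bornology.IsBounded (A ∪ B) →
    (∃ η : ℝ, 0 < η ∧ ∀ z ∈ A \ B, ∀ w ∈ B \ A, η ≤ dist z w) →
    ∃ K : ℝ, 0 < K ∧ ∀ (m : ℕ) (i : Fin m) (T : Set (Fin m → ℂ)), IsOpen T →
      (∀ x ∈ T, ∀ z : ℂ, Function.update x i z ∈ T) →
      ∀ (ρ ε : ℝ), 0 < ρ → 0 ≤ ε → K * ε ≤ ρ →
      ∀ gA gB : (Fin m → ℂ) × C4 → C4,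
        DifferentiableOn ℂ gA ({x | x ∈ T ∧ x i ∈ A ∩ B} ×ˢ ball (0 : C4) ρ) →
        DifferentiableOn ℂ gB ({x | x ∈ T ∧ x i ∈ A ∩ B} ×ˢ ball (0 : C4) ρ) →
        (∀ x ∈ T, x i ∈ A ∩ B → ∀ t ∈ ball (0 : C4) ρ, ‖gA (x, t) - t‖ ≤ ε) →
        (∀ x ∈ T, x i ∈ A ∩ B → ∀ t ∈ ball (0 : C4) ρ, ‖gB (x, t) - t‖ ≤ ε) →
        ∃ α β : (Fin m → ℂ) × C4 → C4,
          DifferentiableOn ℂ α ({x | x ∈ T ∧ x i ∈ A} ×ˢ ball (0 : C4) (ρ / 2)) ∧
          DifferentiableOn ℂ β ({x | x ∈ T ∧ x i ∈ B} ×ˢ ball (0 : C4) (ρ / 2)) ∧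
          (∀ x ∈ T, x i ∈ A → ∀ t ∈ ball (0 : C4) (ρ / 2),
            α (x, t) ∈ ball (0 : C4) ρ ∧ ‖α (x, t) - t‖ ≤ K * ε) ∧
          (∀ x ∈ T, x i ∈ B → ∀ t ∈ ball (0 : C4) (ρ / 2),
            β (x, t) ∈ ball (0 : C4) ρ ∧ ‖β (x, t) - t‖ ≤ K * ε) ∧
          ∀ x ∈ T, x i ∈ A ∩ B → ∀ t ∈ ball (0 : C4) (ρ / 2),
            gA (x, α (x, t)) = gB (x, β (x, t))

/-- Closed polyrectangle in `Fin n → ℂ`: `P i = (a,b,c,d)`. -/
def polyRect {n : ℕ} (P : Fin n → ℝ × ℝ × ℝ × ℝ) : Set (Fin n → ℂ) :=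
  {x | ∀ i, x i ∈ rect (P i).1 (P i).2.1 (P i).2.2.1 (P i).2.2.2}

/-- nondegenerate rectangle data -/
def RectOK (p : ℝ × ℝ × ℝ × ℝ) : Prop := p.1 < p.2.1 ∧ p.2.2.1 < p.2.2.2

/-- Part 2 + 3 output used by Part 4: sprays exist over every map near a polyrectangle. -/
def SprayTarget (V : Set C4) : Prop :=
  ∀ (n : ℕ) (P : Fin n → ℝ × ℝ × ℝ × ℝ), (∀ i, RectOK (P i)) →
    ∀ f : (Fin n → ℂ) → C4, HolNear V f (polyRect P) → Nonempty (SprayData V f (polyRect P))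

/-- (4.1): if all points of `V` are good, every map near a polyrectangle can be approximated. -/
def Cor41 (V : Set C4) : Prop :=
  (∀ v ∈ V, GoodPt V v) → ∀ (n : ℕ) (P : Fin n → ℝ × ℝ × ℝ × ℝ), (∀ i, RectOK (P i)) →
    ∀ f : (Fin n → ℂ) → C4, HolNear V f (polyRect P) → Good V (polyRect P) f

/-- (4.2): goodness on a bidisc (birectangle) from goodness on its distinguished boundary. -/
def Cor42 (V : Set C4) : Prop :=
  ∀ (P : Fin 2 → ℝ × ℝ × ℝ × ℝ), (∀ i, RectOK (P i)) →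
    ∀ f : (Fin 2 → ℂ) → C4, HolNear V f (polyRect P) →
    (∀ x ∈ polyRect P, (∀ i, x i ∈ rectBd (P i).1 (P i).2.1 (P i).2.2.1 (P i).2.2.2) →
      GoodPt V (f x)) → Good V (polyRect P) f

end Crest.Agent.R279
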