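import Mathlib
import Crest.Agent.R279.Defs765
import Crest.Agent.R279.Deriv556
import Crest.Agent.R279.Thin556

/-!
# R279, A7 (helper545): embedded arcs of a conic set, regular points; definitions
-/

set_option autoImplicit false

namespace Crest.Agent.R279.Reg

open Metric Set

/-- `D` (a conic set in `ℂ⁴`) is one embedded holomorphic arc near `p`. -/
structure ArcAt (D : Set C4) (p : C4) where
  /-- the arc -/
  a : ℂ → C4
  /-- the arc parameter as a function of the point, homogeneous of degree `0` -/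
  k : C4 → ℂ
  /-- conic neighbourhood of `p` -/
  O : Set C4
  diff_a : DifferentiableOn ℂ a (ball 0 1)
  a_mem : ∀ c ∈ ball (0 : ℂ) 1, a c ∈ D ∧ a c ∈ O
  a_zero : a 0 = p
  isOpen_O : IsOpen O
  smul_O : ∀ y ∈ O, ∀ t : ℂ, t ≠ 0 → t • y ∈ O
  diff_k : DifferentiableOn ℂ k O
  k_smul : ∀ y ∈ O, ∀ t : ℂ, t ≠ 0 → k (t • y) = k y
  k_mem : ∀ y ∈ O, k y ∈ ball (0 : ℂ) 1
  k_a : ∀ c ∈ ball (0 : ℂ) 1, k (a c) = c
  cover : ∀ y ∈ O, y ∈ D → ∃ t : ℂ, t ≠ 0 ∧ y = t • a (k y)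

/-- The structure of `D` (output of A5): outside a (projectively) countable set `D` is locally an
embedded arc. -/
def ArcStructure (D : Set C4) : Prop :=
  ∃ E₀ : Set C4, E₀.Countable ∧
    ∀ p ∈ D, (∃ e ∈ E₀, ∃ t : ℂ, t ≠ 0 ∧ p = t • e) ∨ Nonempty (ArcAt D p)

/-- `x` is regular: at every `p ∈ D` with `x ∈ T_p` the set `D` is an embedded arc `a` and
`c ↦ ⟨H(a c), x⟩` has a simple zero. -/
def IsReg (Q : MvPolynomial (Fin 4) ℂ) (D : Set C4) (x : C4) : Prop :=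
  ∀ p ∈ D, dQ Q p x = 0 → ∃ A : ArcAt D p, deriv (fun c => dQ Q (A.a c) x) 0 ≠ 0

/-- the arc `c ↦ t • a (c₁ + ε c)` -/
noncomputable def ArcAt.recenter {D : Set C4} (hD : ∀ y ∈ D, ∀ t : ℂ, t ≠ 0 → t • y ∈ D)
    {p : C4} (A : ArcAt D p) {c₁ : ℂ} {ε : ℝ} (hε : 0 < ε) (hc : ball c₁ ε ⊆ ball (0 : ℂ) 1)
    {t : ℂ} (ht : t ≠ 0) {q : C4} (hq : q = t • A.a c₁) : ArcAt D q where
  a c := t • A.a (c₁ + (ε : ℂ) * c)
  k y := (A.k y - c₁) / (ε : ℂ)
  O := A.O ∩ A.k ⁻¹' (ball c₁ ε)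
  diff_a := by
    have hmaps : MapsTo (fun c : ℂ => c₁ + (ε : ℂ) * c) (ball 0 1) (ball (0 : ℂ) 1) := by
      intro c hc'
      apply hc
      rw [mem_ball_zero_iff] at hc'
      rw [mem_ball, dist_eq_norm, add_sub_cancel_left, norm_mul, Complex.norm_real,
        Real.norm_of_nonneg hε.le]
      nlinarith
    have h1 : DifferentiableOn ℂ (fun c : ℂ => c₁ + (ε : ℂ) * c) (ball 0 1) := by fun_prop
    exact (A.diff_a.comp h1 hmaps).const_smul t
  a_mem := by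
    intro c hc'
    have hmem : c₁ + (ε : ℂ) * c ∈ ball c₁ ε := by
      rw [mem_ball_zero_iff] at hc'
      rw [mem_ball, dist_eq_norm, add_sub_cancel_left, norm_mul, Complex.norm_real,
        Real.norm_of_nonneg hε.le]
      nlinarith
    obtain ⟨h1, h2⟩ := A.a_mem _ (hc hmem)
    refine ⟨hD _ h1 t ht, A.smul_O _ h2 t ht, ?_⟩
    show A.k _ ∈ ball c₁ ε
    rw [A.k_smul _ h2 t ht, A.k_a _ (hc hmem)]
    exact hmem
  a_zero := by simp [hq]
  isOpen_O := A.diff_k.continuousOn.isOpen_inter_preimage A.isOpen_O isOpen_ball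
  smul_O := by
    rintro y ⟨hy1, hy2⟩ s hs
    refine ⟨A.smul_O y hy1 s hs, ?_⟩
    show A.k _ ∈ ball c₁ ε
    rw [A.k_smul _ hy1 s hs]
    exact hy2
  diff_k := by
    have h1 := ((A.diff_k.mono (inter_subset_left (t := A.k ⁻¹' (ball c₁ ε)))).sub_const
      c₁).mul_const ((ε : ℂ)⁻¹)
    simpa only [div_eq_mul_inv] using h1
  k_smul := by
    rintro y ⟨hy1, hy2⟩ s hs
    show (A.k (s • y) - c₁) / (ε : ℂ) = (A.k y - c₁) / (ε : ℂ)
    rw [A.k_smul _ hy1 s hs]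
  k_mem := by
    rintro y ⟨hy1, hy2⟩
    have hy3 : A.k y ∈ ball c₁ ε := hy2
    rw [mem_ball, dist_eq_norm] at hy3
    rw [mem_ball_zero_iff, norm_div, Complex.norm_real, Real.norm_of_nonneg hε.le,
      div_lt_one hε]
    exact hy3
  k_a := by
    intro c hc'
    have hmem : c₁ + (ε : ℂ) * c ∈ ball c₁ ε := by
      rw [mem_ball_zero_iff] at hc'
      rw [mem_ball, dist_eq_norm, add_sub_cancel_left, norm_mul, Complex.norm_real,
        Real.norm_of_nonneg hε.le]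
      nlinarith
    have hε' : (ε : ℂ) ≠ 0 := by exact_mod_cast hε.ne'
    rw [A.k_smul _ (A.a_mem _ (hc hmem)).2 t ht, A.k_a _ (hc hmem), add_sub_cancel_left,
      mul_div_cancel_left₀ _ hε']
  cover := by
    rintro y ⟨hy1, hy2⟩ hyD
    obtain ⟨s, hs, hys⟩ := A.cover y hy1 hyD
    have hε' : (ε : ℂ) ≠ 0 := by exact_mod_cast hε.ne'
    refine ⟨s / t, div_ne_zero hs ht, ?_⟩
    have h1 : c₁ + (ε : ℂ) * ((A.k y - c₁) / (ε : ℂ)) = A.k y := by
      field_simp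
      ring
    rw [h1, smul_smul, div_mul_cancel₀ _ ht]
    exact hys

end Crest.Agent.R279.Reg
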