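import Mathlib
import Crest.Agent.R279.Strat524A

/-!
# R279 (helper524): order stratification, part B

Zero sets of holomorphic functions of two variables: outside a countable set they are locally
embedded arcs; they have no isolated points; they are covered by countably many arcs.
-/

set_option autoImplicit false

namespace Crest.Agent.R279.Strat

open Metric Filter Topology Set

theorem countable_of_isolated {X : Type*} [TopologicalSpace X] [SecondCountableTopology X]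
    {S : Set X} (h : ∀ p ∈ S, ∃ W ∈ 𝓝 p, S ∩ W ⊆ {p}) : S.Countable := by
  have hf : ∀ x ∈ S, ({x} : Set X) ∈ 𝓝[S] x := by
    intro x hx
    obtain ⟨W, hW, hSW⟩ := h x hx
    exact mem_of_superset (inter_mem_nhdsWithin S hW) hSW
  obtain ⟨t, hts, htc, hst⟩ := TopologicalSpace.countable_cover_nhdsWithin hf
  refine htc.mono ?_
  intro x hx
  obtain ⟨y, hy, hxy⟩ := mem_iUnion₂.1 (hst hx)
  rw [mem_singleton_iff.1 hxy]
  exact hy

/-- Local graph structure of the zero set, all slices being nowhere locally zero. -/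
theorem bidisc_strat {U : Set (ℂ × ℂ)} (hU : IsOpen U) {F : ℂ × ℂ → ℂ}
    (hF : AnalyticOnNhd ℂ F U) (hs : ∀ p ∈ U, ¬ ∀ᶠ w in 𝓝 p.2, F (p.1, w) = 0) :
    ∃ E0 : Set (ℂ × ℂ), E0.Countable ∧ ∀ p ∈ U, F p = 0 → p ∉ E0 →
      ∃ (A : Set ℂ) (r : ℝ) (χ : ℂ → ℂ), IsOpen A ∧ p.1 ∈ A ∧ 0 < r ∧ A ×ˢ ball p.2 r ⊆ U ∧
        DifferentiableOn ℂ χ A ∧ χ p.1 = p.2 ∧ (∀ z ∈ A, χ z ∈ ball p.2 r) ∧
        ∀ z ∈ A, ∀ w ∈ ball p.2 r, F (z, w) = 0 ↔ w = χ z := by
  classical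
  set Z : ℕ → Set (ℂ × ℂ) := fun k => {p | p ∈ U ∧ OrdEq F k p} with hZ
  set I : ℕ → Set (ℂ × ℂ) := fun k => {p | p ∈ Z k ∧ ∃ W ∈ 𝓝 p, Z k ∩ W ⊆ {p}} with hI
  have hIc : ∀ k, (I k).Countable := by
    intro k
    apply countable_of_isolated
    rintro p ⟨_, W, hW, hZW⟩
    exact ⟨W, hW, fun q hq => hZW ⟨hq.1.1, hq.2⟩⟩
  refine ⟨⋃ k, I k, countable_iUnion hIc, ?_⟩
  rintro ⟨x0, c0⟩ hp hF0 hE
  obtain ⟨k, hk⟩ := exists_ordEq hU hF hp (hs _ hp)
  have hk1 : 1 ≤ k := by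
    rcases Nat.eq_zero_or_pos k with h | h
    · exfalso
      subst h
      exact hk.2 hF0
    · exact h
  obtain ⟨A, r, χ, hAo, hx0, hr, hAU, hχd, hχ0, hχm, hroot, hne, huniq⟩ :=
    local_order hU hF hp hk1 hk
  have hχA : ∀ z ∈ A, AnalyticAt ℂ χ z := fun z hz =>
    hχd.analyticAt (hAo.mem_nhds hz)
  -- the functions m_j
  have hmem : ∀ z ∈ A, (z, χ z) ∈ U := fun z hz => hAU ⟨hz, hχm z hz⟩
  have hm : ∀ j, AnalyticAt ℂ (fun z => (Dw^[j] F) (z, χ z)) x0 := by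
    intro j
    have h1 : AnalyticAt ℂ (fun z => ((z, χ z) : ℂ × ℂ)) x0 :=
      analyticAt_id.prod (hχA x0 hx0)
    exact AnalyticAt.fun_comp (g := Dw^[j] F) (f := fun z => ((z, χ z) : ℂ × ℂ))
      (analytic_iter hF j _ (hmem x0 hx0)) h1
  by_cases hall : ∀ j < k, ∀ᶠ z in 𝓝 x0, (Dw^[j] F) (z, χ z) = 0
  · -- good case
    have hev : ∀ᶠ z in 𝓝 x0, OrdGe F k (z, χ z) := by
      have h1 : ∀ᶠ z in 𝓝 x0, ∀ j ∈ Finset.range k, (Dw^[j] F) (z, χ z) = 0 := by
        rw [Filter.eventually_all_finset]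
        intro j hj
        exact hall j (Finset.mem_range.1 hj)
      filter_upwards [h1] with z hz j hj
      exact hz j (Finset.mem_range.2 hj)
    obtain ⟨A', hA'sub, hA'o, hx0'⟩ := _root_.eventually_nhds_iff.1
      (hev.and (hAo.mem_nhds hx0 : ∀ᶠ z in 𝓝 x0, z ∈ A))
    refine ⟨A', r, χ, hA'o, hx0', hr, ?_, ?_, hχ0, ?_, ?_⟩
    · rintro ⟨z, w⟩ ⟨hz, hw⟩
      exact hAU ⟨(hA'sub z hz).2, hw⟩
    · exact hχd.mono fun z hz => (hA'sub z hz).2
    · exact fun z hz => hχm z (hA'sub z hz).2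
    · intro z hz w hw
      constructor
      · intro h0
        exact huniq z (hA'sub z hz).2 (hA'sub z hz).1 w hw h0
      · intro h0
        rw [h0]
        exact (hA'sub z hz).1 0 hk1
  · -- isolated case
    exfalso
    push Not at hall
    obtain ⟨j, hj, hjne⟩ := hall
    apply hE
    refine mem_iUnion.2 ⟨k, ⟨hp, hk⟩, ?_⟩
    have h1 : ∀ᶠ z in 𝓝[≠] x0, (Dw^[j] F) (z, χ z) ≠ 0 := by
      rcases (hm j).eventually_eq_zero_or_eventually_ne_zero with h | h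
      · exact absurd h (by simpa using hjne)
      · exact h
    rw [eventually_nhdsWithin_iff] at h1
    obtain ⟨A', hA'sub, hA'o, hx0'⟩ := _root_.eventually_nhds_iff.1
      (h1.and (hAo.mem_nhds hx0 : ∀ᶠ z in 𝓝 x0, z ∈ A))
    refine ⟨A' ×ˢ ball c0 r, (hA'o.prod isOpen_ball).mem_nhds ⟨hx0', mem_ball_self hr⟩, ?_⟩
    rintro ⟨z, w⟩ ⟨hzw, hz, hw⟩
    have hz2 := hA'sub z hz
    have hw' : w = χ z := (hroot z hz2.2 w hw).1 (hzw.2.1 (k - 1) (by omega))
    have hzx : z = x0 := by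
      by_contra hne'
      refine hz2.1 hne' ?_
      rw [← hw']
      exact hzw.2.1 j hj
    rw [mem_singleton_iff, hw', hzx, hχ0]

/-- zero sets have no isolated points: every slice near a zero has a zero near it -/
theorem exists_zero_nearby {U : Set (ℂ × ℂ)} (hU : IsOpen U) {F : ℂ × ℂ → ℂ}
    (hF : AnalyticOnNhd ℂ F U) {z0 w0 : ℂ} (hp : (z0, w0) ∈ U) (h0 : F (z0, w0) = 0)
    (hs : ¬ ∀ᶠ w in 𝓝 w0, F (z0, w) = 0) {ε : ℝ} (hε : 0 < ε) :
    ∀ᶠ z in 𝓝 z0, ∃ w ∈ ball w0 ε, (z, w) ∈ U ∧ F (z, w) = 0 := by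
  -- a good circle
  have hsl : AnalyticAt ℂ (fun w => F (z0, w)) w0 := by
    have h2 : AnalyticAt ℂ (fun w' : ℂ => ((z0, w') : ℂ × ℂ)) w0 := by fun_prop
    exact (hF _ hp).comp h2
  have hne : ∀ᶠ w in 𝓝[≠] w0, F (z0, w) ≠ 0 := by
    rcases hsl.eventually_eq_zero_or_eventually_ne_zero with h | h
    · exact absurd h hs
    · exact h
  rw [eventually_nhdsWithin_iff] at hne
  obtain ⟨δ, hδ, hball⟩ := Metric.eventually_nhds_iff_ball.1
    ((hU.mem_nhds hp : ∀ᶠ p in 𝓝 ((z0, w0) : ℂ × ℂ), p ∈ U))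
  obtain ⟨δ', hδ', hball'⟩ := Metric.eventually_nhds_iff_ball.1 hne
  set r : ℝ := min (min δ δ') ε / 2 with hr
  have hrpos : 0 < r := by positivity
  have hr1 : r < δ := by
    have : min (min δ δ') ε ≤ δ := (min_le_left _ _).trans (min_le_left _ _)
    have h3 : 0 < min (min δ δ') ε := by positivity
    rw [hr]; linarith
  have hr2 : r < δ' := by
    have : min (min δ δ') ε ≤ δ' := (min_le_left _ _).trans (min_le_right _ _)
    have h3 : 0 < min (min δ δ') ε := by positivity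
    rw [hr]; linarith
  have hr3 : r < ε := by
    have : min (min δ δ') ε ≤ ε := min_le_right _ _
    have h3 : 0 < min (min δ δ') ε := by positivity
    rw [hr]; linarith
  have hprodU : ∀ z ∈ ball z0 δ, ∀ w ∈ ball w0 δ, (z, w) ∈ U := by
    intro z hz w hw
    apply hball
    rw [← ball_prod_same]
    exact ⟨hz, hw⟩
  -- minimum on the circle
  have hcirc : ∀ w ∈ sphere w0 r, F (z0, w) ≠ 0 := by
    intro w hw
    apply hball'
    · rw [mem_ball]; rw [mem_sphere] at hw; rw [hw]; exact hr2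
    · rintro rfl
      rw [mem_sphere, dist_self] at hw
      linarith
  have hcontF : ContinuousOn F U := hF.continuousOn
  obtain ⟨w1, hw1, hmin⟩ := (isCompact_sphere w0 r).exists_isMinOn
    (NormedSpace.sphere_nonempty.2 hrpos.le)
    (show ContinuousOn (fun w => ‖F (z0, w)‖) (sphere w0 r) from by
      refine (hcontF.comp (by fun_prop : ContinuousOn (fun w : ℂ => ((z0, w) : ℂ × ℂ)) _) ?_).norm
      intro w hw
      exact hprodU z0 (mem_ball_self hδ) w (by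
        rw [mem_ball]; rw [mem_sphere] at hw; rw [hw]; exact hr1))
  set m : ℝ := ‖F (z0, w1)‖ with hm
  have hmpos : 0 < m := norm_pos_iff.2 (hcirc w1 hw1)
  -- uniform closeness
  have hunif : ∀ᶠ z in 𝓝 z0, ∀ w ∈ closedBall w0 r, ‖F (z, w) - F (z0, w)‖ < m / 2 := by
    have hK : IsCompact (closedBall w0 r) := isCompact_closedBall w0 r
    have h1 : ∀ w ∈ closedBall w0 r, ∀ᶠ q in 𝓝 ((z0, w) : ℂ × ℂ), 
        ‖F (q.1, q.2) - F (z0, q.2)‖ < m / 2 := by
      intro w hw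
      have hwU : (z0, w) ∈ U := hprodU z0 (mem_ball_self hδ) w (by
        rw [mem_ball]; rw [mem_closedBall] at hw; linarith)
      have c1 : ContinuousAt (fun q : ℂ × ℂ => F (q.1, q.2)) (z0, w) :=
        hcontF.continuousAt (hU.mem_nhds hwU)
      have c2 : ContinuousAt (fun q : ℂ × ℂ => F (z0, q.2)) (z0, w) := by
        have c3 : ContinuousAt (fun q : ℂ × ℂ => ((z0, q.2) : ℂ × ℂ)) (z0, w) := by fun_prop
        exact ContinuousAt.comp (g := F) (f := fun q : ℂ × ℂ => ((z0, q.2) : ℂ × ℂ))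
          (hcontF.continuousAt (hU.mem_nhds hwU)) c3
      have c4 : ContinuousAt (fun q : ℂ × ℂ => ‖F (q.1, q.2) - F (z0, q.2)‖) (z0, w) :=
        (c1.sub c2).norm
      have h5 : ‖F (((z0, w) : ℂ × ℂ).1, ((z0, w) : ℂ × ℂ).2) - F (z0, ((z0, w) : ℂ × ℂ).2)‖
          < m / 2 := by
        simp only [sub_self, norm_zero]
        positivity
      exact c4.eventually (gt_mem_nhds h5)
    have h3 := hK.eventually_forall_of_forall_eventually (x₀ := z0)
      (P := fun (z : ℂ) (w : ℂ) => ‖F (z, w) - F (z0, w)‖ < m / 2) h1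
    exact h3
  filter_upwards [hunif, ball_mem_nhds z0 hδ] with z hz hzδ
  by_contra hno
  push Not at hno
  have hUz : ∀ w ∈ closedBall w0 r, (z, w) ∈ U := fun w hw => hprodU z hzδ w (by
    rw [mem_ball]; rw [mem_closedBall] at hw; linarith)
  have hnz : ∀ w ∈ closedBall w0 r, F (z, w) ≠ 0 := fun w hw =>
    hno w (by rw [mem_ball]; rw [mem_closedBall] at hw; linarith) (hUz w hw)
  have hd : DiffContOnCl ℂ (fun w => (F (z, w))⁻¹) (ball w0 r) := by
    apply DifferentiableOn.diffContOnCl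
    rw [closure_ball w0 hrpos.ne']
    intro w hw
    have h2 : DifferentiableAt ℂ (fun w' : ℂ => ((z, w') : ℂ × ℂ)) w := by fun_prop
    have h3 : DifferentiableAt ℂ (fun w' => F (z, w')) w :=
      DifferentiableAt.comp w (g := F) (hF _ (hUz w hw)).differentiableAt h2
    exact (h3.inv (hnz w hw)).differentiableWithinAt
  have hbd : ∀ w ∈ frontier (ball w0 r), ‖(F (z, w))⁻¹‖ ≤ 2 / m := by
    intro w hw
    rw [frontier_ball w0 hrpos.ne'] at hw
    have h1 : m ≤ ‖F (z0, w)‖ := hmin hw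
    have h2 := hz w (sphere_subset_closedBall hw)
    have h3 : m / 2 ≤ ‖F (z, w)‖ := by
      have := norm_sub_norm_le (F (z0, w)) (F (z, w))
      rw [norm_sub_rev] at h2
      linarith
    rw [norm_inv, inv_le_comm₀ (by linarith) (by positivity)]
    rw [inv_div]
    exact h3
  have hfin := Complex.norm_le_of_forall_mem_frontier_norm_le isBounded_ball hd hbd
    (z := w0) (subset_closure (mem_ball_self hrpos))
  have h4 := hz w0 (mem_closedBall_self hrpos.le)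
  rw [h0, sub_zero] at h4
  have h5 : 0 < ‖F (z, w0)‖ := norm_pos_iff.2 (hnz w0 (mem_closedBall_self hrpos.le))
  rw [norm_inv, inv_le_comm₀ h5 (by positivity), inv_div] at hfin
  linarith

/-- an open bidisc neighbourhood on which no slice is locally zero anywhere -/
theorem exists_bidisc {U : Set (ℂ × ℂ)} (hU : IsOpen U) {F : ℂ × ℂ → ℂ}
    (hF : AnalyticOnNhd ℂ F U) {z0 w0 : ℂ} (hp : (z0, w0) ∈ U)
    (hs : ¬ ∀ᶠ w in 𝓝 w0, F (z0, w) = 0) :
    ∃ (A : Set ℂ) (r : ℝ), IsOpen A ∧ z0 ∈ A ∧ 0 < r ∧ A ×ˢ ball w0 r ⊆ U ∧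
      ∀ p ∈ A ×ˢ ball w0 r, ¬ ∀ᶠ w in 𝓝 p.2, F (p.1, w) = 0 := by
  have hsl : AnalyticAt ℂ (fun w => F (z0, w)) w0 := by
    have h2 : AnalyticAt ℂ (fun w' : ℂ => ((z0, w') : ℂ × ℂ)) w0 := by fun_prop
    exact (hF _ hp).comp h2
  have hne : ∀ᶠ w in 𝓝[≠] w0, F (z0, w) ≠ 0 := by
    rcases hsl.eventually_eq_zero_or_eventually_ne_zero with h | h
    · exact absurd h hs
    · exact h
  rw [eventually_nhdsWithin_iff] at hne
  obtain ⟨δ, hδ, hball⟩ := Metric.eventually_nhds_iff_ball.1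
    ((hU.mem_nhds hp : ∀ᶠ p in 𝓝 ((z0, w0) : ℂ × ℂ), p ∈ U))
  obtain ⟨δ', hδ', hball'⟩ := Metric.eventually_nhds_iff_ball.1 hne
  have hprodU : ∀ z ∈ ball z0 δ, ∀ w ∈ ball w0 δ, (z, w) ∈ U := by
    intro z hz w hw
    apply hball
    rw [← ball_prod_same]
    exact ⟨hz, hw⟩
  set r : ℝ := min δ δ' / 2 with hr
  have h3 : 0 < min δ δ' := by positivity
  have hrpos : 0 < r := by positivity
  have hr1 : r < δ := by
    have : min δ δ' ≤ δ := min_le_left _ _
    rw [hr]; linarith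
  have hr2 : r < δ' := by
    have : min δ δ' ≤ δ' := min_le_right _ _
    rw [hr]; linarith
  -- a single point on the circle is enough
  set w1 : ℂ := w0 + (r : ℂ) with hw1
  have hw1d : dist w1 w0 = r := by
    rw [hw1, dist_eq_norm, add_sub_cancel_left, Complex.norm_real, Real.norm_eq_abs,
      abs_of_pos hrpos]
  have hw1δ : w1 ∈ ball w0 δ := by rw [mem_ball, hw1d]; exact hr1
  have hF1 : F (z0, w1) ≠ 0 := by
    apply hball'
    · rw [mem_ball, hw1d]; exact hr2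
    · intro h
      rw [mem_singleton_iff] at h
      rw [h, dist_self] at hw1d
      linarith
  have hev : ∀ᶠ z in 𝓝 z0, F (z, w1) ≠ 0 := by
    have c1 : ContinuousAt (fun z : ℂ => F (z, w1)) z0 := by
      have c3 : ContinuousAt (fun z : ℂ => ((z, w1) : ℂ × ℂ)) z0 := by fun_prop
      exact ContinuousAt.comp (g := F) (f := fun z : ℂ => ((z, w1) : ℂ × ℂ))
        (hF _ (hprodU z0 (mem_ball_self hδ) w1 hw1δ)).continuousAt c3
    exact c1.eventually_ne hF1
  obtain ⟨A, hA, hAo, hzA⟩ := _root_.eventually_nhds_iff.1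
    (hev.and (ball_mem_nhds z0 hδ : ∀ᶠ z in 𝓝 z0, z ∈ ball z0 δ))
  refine ⟨A, δ, hAo, hzA, hδ, ?_, ?_⟩
  · rintro ⟨z, w⟩ ⟨hz, hw⟩
    exact hprodU z (hA z hz).2 w hw
  · rintro ⟨z, w⟩ ⟨hz, hw⟩ h
    have han : AnalyticOnNhd ℂ (fun w => F (z, w)) (ball w0 δ) := by
      intro w' hw'
      have h2 : AnalyticAt ℂ (fun w' : ℂ => ((z, w') : ℂ × ℂ)) w' := by fun_prop
      exact (hF _ (hprodU z (hA z hz).2 w' hw')).comp h2
    have := han.eqOn_zero_of_preconnected_of_eventuallyEq_zero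
      (convex_ball w0 δ).isPreconnected hw h
    exact (hA z hz).1 (this hw1δ)

/-- if `F` is not locally zero at `p0` there is a direction in which it is not locally zero -/
theorem exists_direction {U : Set (ℂ × ℂ)} (hU : IsOpen U) {F : ℂ × ℂ → ℂ}
    (hF : AnalyticOnNhd ℂ F U) {p0 : ℂ × ℂ} (hp : p0 ∈ U)
    (hne : ¬ ∀ᶠ q in 𝓝 p0, F q = 0) :
    ∃ e : ℂ × ℂ, e ≠ 0 ∧ ¬ ∀ᶠ t in 𝓝 (0 : ℂ), F (p0 + t • e) = 0 := by
  by_contra hcon
  push Not at hcon
  obtain ⟨δ, hδ, hball⟩ := Metric.isOpen_iff.1 hU p0 hp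
  apply hne
  filter_upwards [ball_mem_nhds p0 hδ] with q hq
  by_cases hq0 : q = p0
  · have h1 := (hcon (1, 0) (by simp)).self_of_nhds
    rw [zero_smul, add_zero] at h1
    rw [hq0]
    exact h1
  · set e : ℂ × ℂ := q - p0 with he
    have he0 : e ≠ 0 := sub_ne_zero.2 hq0
    have hepos : 0 < ‖e‖ := norm_pos_iff.2 he0
    have heδ : ‖e‖ < δ := by rw [he, ← dist_eq_norm]; exact mem_ball.1 hq
    set R : ℝ := δ / ‖e‖ with hR
    have hR1 : 1 < R := by rw [hR, lt_div_iff₀ hepos]; linarith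
    have han : AnalyticOnNhd ℂ (fun t : ℂ => F (p0 + t • e)) (ball 0 R) := by
      intro t ht
      have hmem : p0 + t • e ∈ U := by
        apply hball
        rw [mem_ball, dist_eq_norm, add_sub_cancel_left, norm_smul]
        rw [mem_ball_zero_iff, hR, lt_div_iff₀ hepos] at ht
        exact ht
      have h2 : AnalyticAt ℂ (fun t : ℂ => p0 + t • e) t := by fun_prop
      exact AnalyticAt.fun_comp (g := F) (f := fun t : ℂ => p0 + t • e) (hF _ hmem) h2
    have := han.eqOn_zero_of_preconnected_of_eventuallyEq_zero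
      (convex_ball (0 : ℂ) R).isPreconnected (mem_ball_self (by positivity)) (hcon e he0)
    have h1 := this (show (1 : ℂ) ∈ ball (0 : ℂ) R by
      rw [mem_ball_zero_iff, norm_one]; exact hR1)
    simpa [he] using h1

/-- The zero set of `F` near `p` is an embedded holomorphic arc inside the open set `W ⊆ U`,
parametrised by `a` on `ball 0 r`; `ℓ` is a linear functional with `ℓ (a c) = ℓ p + c`. -/
def EmbArc (F : ℂ × ℂ → ℂ) (U : Set (ℂ × ℂ)) (p : ℂ × ℂ) : Prop :=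
  ∃ (ℓ : ℂ × ℂ →L[ℂ] ℂ) (a : ℂ → ℂ × ℂ) (r : ℝ) (W : Set (ℂ × ℂ)), 0 < r ∧ IsOpen W ∧ p ∈ W ∧
    W ⊆ U ∧ DifferentiableOn ℂ a (ball 0 r) ∧ a 0 = p ∧
    (∀ c ∈ ball (0 : ℂ) r, a c ∈ W ∧ ℓ (a c) = ℓ p + c) ∧
    ∀ q ∈ W, F q = 0 ↔ ∃ c ∈ ball (0 : ℂ) r, a c = q

/-- **ORDER STRATIFICATION**: outside a countable set the zero set of a holomorphic function of
two variables (nowhere locally zero) is locally an embedded arc. -/
theorem strat {U : Set (ℂ × ℂ)} (hU : IsOpen U) {F : ℂ × ℂ → ℂ}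
    (hF : AnalyticOnNhd ℂ F U) (hne : ∀ p ∈ U, ¬ ∀ᶠ q in 𝓝 p, F q = 0) :
    ∃ E0 : Set (ℂ × ℂ), E0.Countable ∧ ∀ p ∈ U, F p = 0 → p ∉ E0 → EmbArc F U p := by
  classical
  -- local version
  have hloc : ∀ p0 ∈ U, ∃ N ∈ 𝓝 p0, ∃ E0 : Set (ℂ × ℂ), E0.Countable ∧
      ∀ p ∈ N, F p = 0 → p ∉ E0 → EmbArc F U p := by
    intro p0 hp0
    obtain ⟨e, he0, he⟩ := exists_direction hU hF hp0 (hne p0 hp0)
    obtain ⟨L, hL⟩ := SeparatingDual.exists_continuousLinearEquiv_apply_eq (R := ℂ)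
      (V := ℂ × ℂ) (x := (0, 1)) (y := e) (by simp) he0
    set T : ℂ × ℂ → ℂ × ℂ := fun q => p0 + L q with hT
    have hTan : ∀ q, AnalyticAt ℂ T q := by
      intro q
      exact analyticAt_const.add ((L : ℂ × ℂ →L[ℂ] ℂ × ℂ).analyticAt q)
    have hTc : Continuous T := by
      simp only [hT]
      fun_prop
    set U' : Set (ℂ × ℂ) := T ⁻¹' U with hU'
    have hU'o : IsOpen U' := hU.preimage hTc
    set F' : ℂ × ℂ → ℂ := fun q => F (T q) with hF'
    have hF'an : AnalyticOnNhd ℂ F' U' := fun q hq =>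
      AnalyticAt.fun_comp (g := F) (f := T) (hF _ hq) (hTan q)
    have h00 : (((0 : ℂ), (0 : ℂ)) : ℂ × ℂ) ∈ U' := by
      show T (0, 0) ∈ U
      have : T (0, 0) = p0 := by simp [hT]
      rw [this]
      exact hp0
    have hs0 : ¬ ∀ᶠ w in 𝓝 (0 : ℂ), F' (0, w) = 0 := by
      intro h
      apply he
      filter_upwards [h] with t ht
      have h1 : T (0, t) = p0 + t • e := by
        simp only [hT]
        rw [← hL, ← map_smul]
        simp
      have h2 : F (T (0, t)) = 0 := ht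
      rw [← h1]
      exact h2
    obtain ⟨A, r, hAo, h0A, hr, hAU, hslice⟩ := exists_bidisc hU'o hF'an h00 hs0
    obtain ⟨E1, hE1, hgraph⟩ := bidisc_strat (U := A ×ˢ ball (0 : ℂ) r)
      (hAo.prod isOpen_ball) (hF'an.mono hAU) hslice
    have hsymm : ∀ q, T (L.symm (q - p0)) = q := by
      intro q
      simp [hT]
    refine ⟨(fun q => L.symm (q - p0)) ⁻¹' (A ×ˢ ball (0 : ℂ) r), ?_, T '' E1,
      hE1.image _, ?_⟩
    · apply IsOpen.mem_nhds
      · exact (hAo.prod isOpen_ball).preimage (by fun_prop)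
      · show L.symm (p0 - p0) ∈ A ×ˢ ball (0 : ℂ) r
        rw [sub_self, map_zero]
        exact ⟨h0A, mem_ball_self hr⟩
    · intro p hp hp0' hpE
      set q : ℂ × ℂ := L.symm (p - p0) with hq
      have hTq : T q = p := hsymm p
      have hqE : q ∉ E1 := fun h => hpE ⟨q, h, hTq⟩
      have hFq : F' q = 0 := by
        simp only [hF']
        rw [hTq]
        exact hp0'
      obtain ⟨A', r', χ, hA'o, hqA', hr', hA'U, hχd, hχq, hχm, hz⟩ := hgraph q hp hFq hqE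
      obtain ⟨ρ, hρ, hρA⟩ := Metric.isOpen_iff.1 hA'o q.1 hqA'
      have hsh : ∀ c ∈ ball (0 : ℂ) ρ, q.1 + c ∈ ball q.1 ρ := by
        intro c hc
        rw [mem_ball, dist_eq_norm, add_sub_cancel_left]
        exact mem_ball_zero_iff.1 hc
      refine ⟨(ContinuousLinearMap.fst ℂ ℂ ℂ).comp (L.symm : ℂ × ℂ →L[ℂ] ℂ × ℂ),
        fun c => T (q.1 + c, χ (q.1 + c)), ρ,
        (fun q => L.symm (q - p0)) ⁻¹' (ball q.1 ρ ×ˢ ball q.2 r'), hρ, ?_, ?_, ?_, ?_, ?_, ?_, ?_⟩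
      · exact (isOpen_ball.prod isOpen_ball).preimage (by fun_prop)
      · exact ⟨mem_ball_self hρ, mem_ball_self hr'⟩
      · intro y hy
        have h1 : L.symm (y - p0) ∈ A' ×ˢ ball q.2 r' := ⟨hρA hy.1, hy.2⟩
        have h2 := hAU (hA'U h1)
        have h3 : T (L.symm (y - p0)) ∈ U := h2
        rwa [hsymm] at h3
      · intro c hc
        have h1 : DifferentiableAt ℂ χ (q.1 + c) :=
          hχd.differentiableAt (hA'o.mem_nhds (hρA (hsh c hc)))
        have h2 : DifferentiableAt ℂ (fun c => χ (q.1 + c)) c := by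
          have h3 : DifferentiableAt ℂ (fun c : ℂ => q.1 + c) c := by fun_prop
          exact DifferentiableAt.fun_comp' c h1 h3
        have h4 : DifferentiableAt ℂ (fun c : ℂ => ((q.1 + c, χ (q.1 + c)) : ℂ × ℂ)) c :=
          DifferentiableAt.prodMk (by fun_prop) h2
        exact (DifferentiableAt.fun_comp' c (hTan _).differentiableAt h4).differentiableWithinAt
      · show T (q.1 + 0, χ (q.1 + 0)) = p
        rw [add_zero, hχq]
        exact hTq
      · intro c hc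
        have h1 := hρA (hsh c hc)
        have h2 : L.symm (T (q.1 + c, χ (q.1 + c)) - p0) = (q.1 + c, χ (q.1 + c)) := by
          simp [hT]
        constructor
        · show L.symm (T (q.1 + c, χ (q.1 + c)) - p0) ∈ ball q.1 ρ ×ˢ ball q.2 r'
          rw [h2]
          exact ⟨hsh c hc, hχm _ h1⟩
        · show (L.symm (T (q.1 + c, χ (q.1 + c)))).1 = (L.symm p).1 + c
          have h3 : L.symm (T (q.1 + c, χ (q.1 + c))) =
              L.symm p0 + (q.1 + c, χ (q.1 + c)) := by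
            have := h2
            rw [map_sub, sub_eq_iff_eq_add] at this
            rw [this, add_comm]
          rw [h3]
          have h4 : q = L.symm p - L.symm p0 := by rw [hq, map_sub]
          rw [h4]
          simp only [Prod.fst_add, Prod.fst_sub]
          ring
      · intro y hy
        set y' : ℂ × ℂ := L.symm (y - p0) with hy'
        have hTy : T y' = y := hsymm y
        have h1 := hz y'.1 (hρA hy.1) y'.2 hy.2
        have h2 : F' (y'.1, y'.2) = F y := by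
          simp only [hF']
          rw [show ((y'.1, y'.2) : ℂ × ℂ) = y' from rfl, hTy]
        rw [h2] at h1
        rw [h1]
        constructor
        · intro h
          refine ⟨y'.1 - q.1, ?_, ?_⟩
          · have := hy.1
            rw [mem_ball, dist_eq_norm] at this
            rw [mem_ball_zero_iff]
            exact this
          · show T (q.1 + (y'.1 - q.1), χ (q.1 + (y'.1 - q.1))) = y
            rw [add_sub_cancel, ← h]
            exact hTy
        · rintro ⟨c, hc, hcy⟩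
          have h3 : L.symm (y - p0) = (q.1 + c, χ (q.1 + c)) := by
            rw [← hcy]
            simp [hT]
          rw [← hy'] at h3
          rw [h3]
  choose! N hN E1 hE1 hmain using hloc
  obtain ⟨t, htU, htc, hUt⟩ := TopologicalSpace.countable_cover_nhdsWithin
    (s := U) (f := N) (fun x hx => mem_nhdsWithin_of_mem_nhds (hN x hx))
  refine ⟨⋃ x ∈ t, E1 x, htc.biUnion fun x hx => hE1 x (htU hx), ?_⟩
  intro p hp hp0 hpE
  obtain ⟨x, hx, hpx⟩ := mem_iUnion₂.1 (hUt hp)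
  exact hmain x (htU hx) p hpx hp0 fun h => hpE (mem_iUnion₂.2 ⟨x, hx, h⟩)

/-- zero sets of functions of two variables have no isolated points -/
theorem frequently_zero {U : Set (ℂ × ℂ)} (hU : IsOpen U) {F : ℂ × ℂ → ℂ}
    (hF : AnalyticOnNhd ℂ F U) {p : ℂ × ℂ} (hp : p ∈ U) (h0 : F p = 0) :
    ∃ᶠ q in 𝓝[≠] p, F q = 0 := by
  by_cases hne : ∀ᶠ q in 𝓝 p, F q = 0
  · exact (hne.filter_mono nhdsWithin_le_nhds).frequently
  obtain ⟨e, he0, he⟩ := exists_direction hU hF hp hne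
  obtain ⟨L, hL⟩ := SeparatingDual.exists_continuousLinearEquiv_apply_eq (R := ℂ)
    (V := ℂ × ℂ) (x := (0, 1)) (y := e) (by simp) he0
  set T : ℂ × ℂ → ℂ × ℂ := fun q => p + L q with hT
  have hTan : ∀ q, AnalyticAt ℂ T q := by
    intro q
    exact analyticAt_const.add ((L : ℂ × ℂ →L[ℂ] ℂ × ℂ).analyticAt q)
  have hTc : Continuous T := by
    simp only [hT]
    fun_prop
  have hT0 : T (0, 0) = p := by simp [hT]
  have hU'o : IsOpen (T ⁻¹' U) := hU.preimage hTc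
  have hF'an : AnalyticOnNhd ℂ (fun q => F (T q)) (T ⁻¹' U) := fun q hq =>
    AnalyticAt.fun_comp (g := F) (f := T) (hF _ hq) (hTan q)
  have h00 : (((0 : ℂ), (0 : ℂ)) : ℂ × ℂ) ∈ T ⁻¹' U := by
    show T (0, 0) ∈ U
    rw [hT0]
    exact hp
  have hs0 : ¬ ∀ᶠ w in 𝓝 (0 : ℂ), F (T (0, w)) = 0 := by
    intro h
    apply he
    filter_upwards [h] with t ht
    have h1 : T (0, t) = p + t • e := by
      simp only [hT]
      rw [← hL, ← map_smul]
      simp
    rw [← h1]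
    exact ht
  have h0' : F (T (0, 0)) = 0 := by rw [hT0]; exact h0
  rw [Filter.frequently_iff]
  intro W hW
  obtain ⟨W', hW'o, hpW', hW'⟩ := mem_nhdsWithin.1 hW
  have hpre : T ⁻¹' W' ∈ 𝓝 (((0 : ℂ), (0 : ℂ)) : ℂ × ℂ) :=
    (hW'o.preimage hTc).mem_nhds (by show T (0, 0) ∈ W'; rw [hT0]; exact hpW')
  obtain ⟨δ, hδ, hball⟩ := Metric.mem_nhds_iff.1 hpre
  have h1 := exists_zero_nearby hU'o hF'an h00 h0' hs0 hδ
  have h2 : ∀ᶠ z in 𝓝[≠] (0 : ℂ), (∃ w ∈ ball (0 : ℂ) δ, (z, w) ∈ T ⁻¹' U ∧ F (T (z, w)) = 0) ∧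
      z ∈ ball (0 : ℂ) δ ∧ z ≠ 0 := by
    have h2' : ∀ᶠ z in 𝓝 (0 : ℂ), z ∈ ball (0 : ℂ) δ := ball_mem_nhds (0 : ℂ) hδ
    filter_upwards [h1.filter_mono nhdsWithin_le_nhds,
      h2'.filter_mono nhdsWithin_le_nhds, self_mem_nhdsWithin] with z a b c
    exact ⟨a, b, c⟩
  obtain ⟨z, ⟨w, hw, _, hFzw⟩, hzδ, hz0⟩ := h2.exists
  refine ⟨T (z, w), hW' ⟨?_, ?_⟩, hFzw⟩
  · have : ((z, w) : ℂ × ℂ) ∈ ball (((0 : ℂ), (0 : ℂ)) : ℂ × ℂ) δ := by
      rw [← ball_prod_same]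
      exact ⟨hzδ, hw⟩
    exact hball this
  · intro h
    have h3 : T (z, w) = p := h
    have h4 : L (z, w) = 0 := by
      have : p + L (z, w) = p := h3
      simpa using this
    have h5 : ((z, w) : ℂ × ℂ) = 0 := by
      have := congrArg L.symm h4
      simpa using this
    exact hz0 (congrArg Prod.fst h5)

/-- countable cover of the zero set by the exceptional set and arcs contained in it -/
theorem strat_cover {U : Set (ℂ × ℂ)} (hU : IsOpen U) {F : ℂ × ℂ → ℂ}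
    (hF : AnalyticOnNhd ℂ F U) (hne : ∀ p ∈ U, ¬ ∀ᶠ q in 𝓝 p, F q = 0) :
    ∃ A : Set (ℂ → ℂ × ℂ), A.Countable ∧
      (∀ a ∈ A, DifferentiableOn ℂ a (ball 0 1) ∧ ∀ c ∈ ball (0 : ℂ) 1, a c ∈ U ∧ F (a c) = 0) ∧
      ∀ p ∈ U, F p = 0 → ∃ a ∈ A, ∃ c ∈ ball (0 : ℂ) 1, a c = p := by
  classical
  obtain ⟨E0, hE0, hmain⟩ := strat hU hF hne
  set S : Set (ℂ × ℂ) := {p | p ∈ U ∧ F p = 0 ∧ p ∉ E0} with hS
  have hex : ∀ p ∈ S, ∃ (a : ℂ → ℂ × ℂ) (W : Set (ℂ × ℂ)), W ∈ 𝓝 p ∧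
      DifferentiableOn ℂ a (ball 0 1) ∧ (∀ c ∈ ball (0 : ℂ) 1, a c ∈ U ∧ F (a c) = 0) ∧
      ∀ q ∈ W, F q = 0 → ∃ c ∈ ball (0 : ℂ) 1, a c = q := by
    rintro p ⟨hpU, hp0, hpE⟩
    obtain ⟨ℓ, a, r, W, hr, hWo, hpW, hWU, had, ha0, haW, hz⟩ := hmain p hpU hp0 hpE
    have hrc : (r : ℂ) ≠ 0 := by exact_mod_cast hr.ne'
    have hsc : ∀ c ∈ ball (0 : ℂ) 1, (r : ℂ) * c ∈ ball (0 : ℂ) r := by
      intro c hc
      rw [mem_ball_zero_iff] at hc ⊢
      rw [norm_mul, Complex.norm_real, Real.norm_eq_abs, abs_of_pos hr]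
      nlinarith
    refine ⟨fun c => a ((r : ℂ) * c), W, hWo.mem_nhds hpW, ?_, ?_, ?_⟩
    · intro c hc
      have h1 : DifferentiableAt ℂ a ((r : ℂ) * c) :=
        had.differentiableAt (isOpen_ball.mem_nhds (hsc c hc))
      exact (DifferentiableAt.fun_comp' c h1 (by fun_prop)).differentiableWithinAt
    · intro c hc
      have h1 := (haW _ (hsc c hc)).1
      exact ⟨hWU h1, (hz _ h1).2 ⟨_, hsc c hc, rfl⟩⟩
    · intro q hq hq0
      obtain ⟨c, hc, hcq⟩ := (hz q hq).1 hq0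
      refine ⟨c / (r : ℂ), ?_, ?_⟩
      · rw [mem_ball_zero_iff] at hc ⊢
        rw [norm_div, Complex.norm_real, Real.norm_eq_abs, abs_of_pos hr, div_lt_one hr]
        exact hc
      · show a ((r : ℂ) * (c / (r : ℂ))) = q
        rw [mul_div_cancel₀ c hrc]
        exact hcq
  choose! α W hW hαd hαU hαz using hex
  obtain ⟨t, htS, htc, hSt⟩ := TopologicalSpace.countable_cover_nhdsWithin
    (s := S) (f := W) (fun x hx => mem_nhdsWithin_of_mem_nhds (hW x hx))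
  refine ⟨α '' t ∪ (fun p : ℂ × ℂ => fun _ : ℂ => p) '' {p | p ∈ E0 ∧ p ∈ U ∧ F p = 0},
    (htc.image _).union ((hE0.mono fun p hp => hp.1).image _), ?_, ?_⟩
  · rintro a (⟨p, hp, rfl⟩ | ⟨p, hp, rfl⟩)
    · exact ⟨hαd p (htS hp), hαU p (htS hp)⟩
    · exact ⟨differentiableOn_const p, fun c _ => hp.2⟩
  · intro p hpU hp0
    by_cases hpE : p ∈ E0
    · exact ⟨fun _ => p, Or.inr ⟨p, ⟨hpE, hpU, hp0⟩, rfl⟩, 0, mem_ball_self one_pos, rfl⟩
    · obtain ⟨x, hx, hpx⟩ := mem_iUnion₂.1 (hSt (show p ∈ S from ⟨hpU, hp0, hpE⟩))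
      obtain ⟨c, hc, hcp⟩ := hαz x (htS hx) p hpx hp0
      exact ⟨α x, Or.inl ⟨x, hx, rfl⟩, c, hc, hcp⟩

end Crest.Agent.R279.Strat
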