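import Mathlib
import Crest.Agent.R279.Thin556

/-!
# R279: calculus of thin sets (helper556)
-/

set_option autoImplicit false

namespace Crest.Agent.R279

open Metric Set Filter Topology

/-! ### one variable -/

/-- zeros of a nonzero holomorphic function on a connected open set are countable -/
theorem countable_zeros {g : ℂ → ℂ} {B : Set ℂ} (hB : IsOpen B) (hBc : IsPreconnected B)
    (hg : DifferentiableOn ℂ g B) (hne : ∃ c ∈ B, g c ≠ 0) : {c | c ∈ B ∧ g c = 0}.Countable := by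
  have hga : AnalyticOnNhd ℂ g B := hg.analyticOnNhd hB
  have h1 : ∀ c ∈ B, ∀ᶠ z in 𝓝[≠] c, g z ≠ 0 := by
    intro c hc
    by_contra h
    have h2 : ∃ᶠ z in 𝓝[≠] c, g z = 0 := fun h' => h (h'.mono fun _ hx => hx)
    have h3 := hga.eqOn_zero_of_preconnected_of_frequently_eq_zero hBc hc h2
    obtain ⟨d, hd, hd'⟩ := hne
    exact hd' (h3 hd)
  have h2 : ∀ c ∈ B, {z | z ≠ c → g z ≠ 0} ∈ 𝓝[B] c := by
    intro c hc
    have := h1 c hc
    rw [eventually_nhdsWithin_iff] at this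
    exact mem_nhdsWithin_of_mem_nhds this
  obtain ⟨t, htB, htc, hcov⟩ := TopologicalSpace.countable_cover_nhdsWithin h2
  refine htc.mono ?_
  rintro c ⟨hcB, hgc⟩
  obtain ⟨d, hd, hcd⟩ := mem_iUnion₂.mp (hcov hcB)
  by_cases h : c = d
  · rwa [h]
  · exact absurd hgc (hcd h)

/-- zeros of a holomorphic function on an open set, which vanishes identically on no ball, are
countable -/
theorem countable_zeros_of_open {g : ℂ → ℂ} {B : Set ℂ} (hB : IsOpen B)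
    (hg : DifferentiableOn ℂ g B)
    (hne : ∀ c ∈ B, ∀ ε > 0, ball c ε ⊆ B → ∃ d ∈ ball c ε, g d ≠ 0) :
    {c | c ∈ B ∧ g c = 0}.Countable := by
  have h1 : ∀ c ∈ B, ∃ ε > 0, ball c ε ⊆ B := fun c hc => Metric.isOpen_iff.mp hB c hc
  choose! ε hε hεB using h1
  obtain ⟨t, htB, htc, hcov⟩ := TopologicalSpace.countable_cover_nhdsWithin
    (f := fun c => ball c (ε c)) (s := B)
    (fun c hc => mem_nhdsWithin_of_mem_nhds (ball_mem_nhds c (hε c hc)))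
  refine (htc.biUnion (t := fun c _ => {z | z ∈ ball c (ε c) ∧ g z = 0}) ?_).mono ?_
  · intro c hc
    exact countable_zeros isOpen_ball (convex_ball _ _).isPreconnected
      (hg.mono (hεB c (htB hc))) (hne c (htB hc) _ (hε c (htB hc)) (hεB c (htB hc)))
  · rintro z ⟨hz, hgz⟩
    obtain ⟨c, hc, hzc⟩ := mem_iUnion₂.mp (hcov hz)
    exact mem_iUnion₂.mpr ⟨c, hc, hzc, hgz⟩

/-! ### closure properties -/

theorem Thin.mono {S Z Z' : Set (Fin 4 → ℂ)} (h : Thin S Z) (hZ : Z' ∩ S ⊆ Z) : Thin S Z' := by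
  obtain ⟨A, hA, hA1, hA2⟩ := h
  exact ⟨A, hA, hA1, fun z hz hzS => hA2 z (hZ ⟨hz, hzS⟩) hzS⟩

theorem thin_empty (S : Set (Fin 4 → ℂ)) : Thin S ∅ :=
  ⟨∅, countable_empty, by simp, by simp⟩

theorem Thin.iUnion {S : Set (Fin 4 → ℂ)} {ι : Type*} [Countable ι] {Z : ι → Set (Fin 4 → ℂ)}
    (h : ∀ i, Thin S (Z i)) : Thin S (⋃ i, Z i) := by
  choose A hA hA1 hA2 using h
  refine ⟨⋃ i, A i, countable_iUnion hA, ?_, ?_⟩
  · intro a ha
    obtain ⟨i, hi⟩ := mem_iUnion.mp ha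
    exact hA1 i a hi
  · intro z hz hzS
    obtain ⟨i, hi⟩ := mem_iUnion.mp hz
    obtain ⟨a, ha, h⟩ := hA2 i z hi hzS
    exact ⟨a, mem_iUnion.mpr ⟨i, ha⟩, h⟩

theorem Thin.biUnion {S : Set (Fin 4 → ℂ)} {ι : Type*} {T : Set ι} (hT : T.Countable)
    {Z : ι → Set (Fin 4 → ℂ)} (h : ∀ i ∈ T, Thin S (Z i)) : Thin S (⋃ i ∈ T, Z i) := by
  have := hT.to_subtype
  rw [biUnion_eq_iUnion]
  exact Thin.iUnion fun i => h i i.2

theorem Thin.union {S Z Z' : Set (Fin 4 → ℂ)} (h : Thin S Z) (h' : Thin S Z') :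
    Thin S (Z ∪ Z') := by
  rw [union_eq_iUnion]
  refine Thin.iUnion fun b => ?_
  cases b
  · exact h'
  · exact h

/-- the cone over a holomorphic map on any open subset of `ℂ` is thin -/
theorem thin_arc {S : Set (Fin 4 → ℂ)} {D : Set ℂ} (hD : IsOpen D) {a : ℂ → (Fin 4 → ℂ)}
    (ha : DifferentiableOn ℂ a D) (haS : ∀ c ∈ D, a c ∈ S) :
    Thin S {z | ∃ c ∈ D, ∃ t : ℂ, t ≠ 0 ∧ z = t • a c} := by
  have h1 : ∀ c ∈ D, ∃ ε > 0, ball c ε ⊆ D := fun c hc => Metric.isOpen_iff.mp hD c hc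
  choose! ε hε hεD using h1
  obtain ⟨t, htD, htc, hcov⟩ := TopologicalSpace.countable_cover_nhdsWithin
    (f := fun c => ball c (ε c)) (s := D)
    (fun c hc => mem_nhdsWithin_of_mem_nhds (ball_mem_nhds c (hε c hc)))
  have hmaps : ∀ c ∈ D, ∀ w ∈ ball (0 : ℂ) 1, c + ε c * w ∈ ball c (ε c) := by
    intro c hc w hw
    rw [mem_ball_zero_iff] at hw
    rw [mem_ball, dist_eq_norm, add_sub_cancel_left, norm_mul, Complex.norm_real,
      Real.norm_of_nonneg (hε c hc).le]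
    have := hε c hc
    nlinarith
  refine ⟨(fun c => fun w => a (c + ε c * w)) '' t, htc.image _, ?_, ?_⟩
  · rintro _ ⟨c, hc, rfl⟩
    have hcD := htD hc
    refine ⟨?_, fun w hw => haS _ (hεD c hcD (hmaps c hcD w hw))⟩
    refine ha.comp (t := D) ?_ (fun w hw => hεD c hcD (hmaps c hcD w hw))
    fun_prop
  · rintro z ⟨d, hd, s, hs, rfl⟩ -
    obtain ⟨c, hc, hdc⟩ := mem_iUnion₂.mp (hcov hd)
    have hε' := hε c (htD hc)
    have hε0 : ((ε c : ℝ) : ℂ) ≠ 0 := by exact_mod_cast hε'.ne'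
    refine ⟨_, ⟨c, hc, rfl⟩, (d - c) / ε c, ?_, s, hs, ?_⟩
    · rw [mem_ball_zero_iff, norm_div, Complex.norm_real, Real.norm_of_nonneg hε'.le,
        div_lt_one hε', ← dist_eq_norm]
      exact hdc
    · simp only
      rw [mul_div_cancel₀ _ hε0, add_sub_cancel]

/-- a ray is thin -/
theorem thin_ray {S : Set (Fin 4 → ℂ)} (v : Fin 4 → ℂ) :
    Thin S {z | ∃ t : ℂ, t ≠ 0 ∧ z = t • v} := by
  by_cases h : ∃ t₀ : ℂ, t₀ ≠ 0 ∧ t₀ • v ∈ S
  · obtain ⟨t₀, ht₀, hS⟩ := h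
    refine ⟨{fun _ => t₀ • v}, countable_singleton _, ?_, ?_⟩
    · rintro a rfl
      exact ⟨differentiableOn_const _, fun c _ => hS⟩
    · rintro z ⟨t, ht, rfl⟩ -
      refine ⟨_, rfl, 0, by simp, t / t₀, div_ne_zero ht ht₀, ?_⟩
      rw [smul_smul, div_mul_cancel₀ _ ht₀]
  · refine ⟨∅, countable_empty, by simp, ?_⟩
    rintro z ⟨t, ht, rfl⟩ hz
    exact absurd ⟨t, ht, hz⟩ h

/-- cone over a countable set -/
theorem thin_of_countable {S T : Set (Fin 4 → ℂ)} (hT : T.Countable) :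
    Thin S {z | ∃ v ∈ T, ∃ t : ℂ, t ≠ 0 ∧ z = t • v} := by
  refine (Thin.biUnion hT fun v _ => thin_ray (S := S) v).mono ?_
  rintro z ⟨⟨v, hv, h⟩, -⟩
  exact mem_iUnion₂.mpr ⟨v, hv, h⟩

/-- thinness is local (Lindelöf) -/
theorem thin_of_locally {S Z : Set (Fin 4 → ℂ)}
    (h : ∀ z ∈ Z, z ∈ S → ∃ O : Set (Fin 4 → ℂ), IsOpen O ∧ z ∈ O ∧ Thin S (Z ∩ O)) :
    Thin S Z := by
  have h' : ∀ z ∈ Z ∩ S, ∃ O : Set (Fin 4 → ℂ), IsOpen O ∧ z ∈ O ∧ Thin S (Z ∩ O) :=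
    fun z hz => h z hz.1 hz.2
  choose! O hO hzO hT using h'
  obtain ⟨t, htZ, htc, hcov⟩ := TopologicalSpace.countable_cover_nhdsWithin
    (f := O) (s := Z ∩ S) (fun z hz => mem_nhdsWithin_of_mem_nhds ((hO z hz).mem_nhds (hzO z hz)))
  refine (Thin.biUnion htc fun z hz => hT z (htZ hz)).mono ?_
  rintro z hz
  obtain ⟨w, hw, hzw⟩ := mem_iUnion₂.mp (hcov hz)
  exact mem_iUnion₂.mpr ⟨w, hw, hz.1, hzw⟩

/-! ### charts and planar families -/

/-- a family of holomorphic arcs in the plane, seen through a chart -/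
theorem thin_chart {S : Set (Fin 4 → ℂ)} {v : Fin 4 → ℂ} (C : Chart S v) {Γ : Set (ℂ → ℂ × ℂ)}
    (hΓ : Γ.Countable) (hΓd : ∀ γ ∈ Γ, DifferentiableOn ℂ γ (ball 0 1) ∧
      ∀ c ∈ ball (0 : ℂ) 1, γ c ∈ ball (0 : ℂ × ℂ) C.r) :
    Thin S {y | y ∈ C.O ∧ ∃ γ ∈ Γ, ∃ c ∈ ball (0 : ℂ) 1, (C.a y)⁻¹ • C.b y = γ c} := by
  refine ⟨(fun γ c => C.x (γ c)) '' Γ, hΓ.image _, ?_, ?_⟩
  · rintro _ ⟨γ, hγ, rfl⟩
    exact ⟨C.diff_x.comp (hΓd γ hγ).1 (hΓd γ hγ).2, fun c hc => (C.x_mem _ ((hΓd γ hγ).2 c hc)).1⟩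
  · rintro y ⟨hyO, γ, hγ, c, hc, h⟩ hyS
    refine ⟨_, ⟨γ, hγ, rfl⟩, c, hc, C.a y, C.a_ne y hyO, ?_⟩
    simp only
    rw [← h]
    exact C.eq_x y hyO hyS

/-- the trace of a thin set in a chart is covered by countably many holomorphic arcs of the
plane -/
theorem Thin.planar {S Z : Set (Fin 4 → ℂ)} {v : Fin 4 → ℂ} (hZ : Thin S Z) (C : Chart S v) :
    ∃ Γ : Set (ℂ → ℂ × ℂ), Γ.Countable ∧ (∀ γ ∈ Γ, DifferentiableOn ℂ γ (ball 0 1)) ∧
      ∀ z ∈ ball (0 : ℂ × ℂ) C.r, C.x z ∈ Z → ∃ γ ∈ Γ, ∃ c ∈ ball (0 : ℂ) 1, z = γ c := by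
  obtain ⟨A, hA, hA1, hA2⟩ := hZ
  -- the domain of the projected arc
  have key : ∀ a ∈ A, ∃ Γ : Set (ℂ → ℂ × ℂ), Γ.Countable ∧
      (∀ γ ∈ Γ, DifferentiableOn ℂ γ (ball 0 1)) ∧
      ∀ c ∈ ball (0 : ℂ) 1, C.a (a c) ≠ 0 → ∃ γ ∈ Γ, ∃ d ∈ ball (0 : ℂ) 1,
        (C.a (a c))⁻¹ • C.b (a c) = γ d := by
    intro a ha
    obtain ⟨had, -⟩ := hA1 a ha
    have hco : ContinuousOn (fun c => C.a (a c)) (ball (0 : ℂ) 1) :=
      C.a.continuous.comp_continuousOn had.continuousOn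
    set D : Set ℂ := ball (0 : ℂ) 1 ∩ (fun c => C.a (a c)) ⁻¹' {0}ᶜ with hD
    have hDo : IsOpen D := hco.isOpen_inter_preimage isOpen_ball isOpen_compl_singleton
    have hDsub : D ⊆ ball 0 1 := inter_subset_left
    have h1 : ∀ c ∈ D, ∃ ε > 0, ball c ε ⊆ D := fun c hc => Metric.isOpen_iff.mp hDo c hc
    choose! ε hε hεD using h1
    obtain ⟨t, htD, htc, hcov⟩ := TopologicalSpace.countable_cover_nhdsWithin
      (f := fun c => ball c (ε c)) (s := D)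
      (fun c hc => mem_nhdsWithin_of_mem_nhds (ball_mem_nhds c (hε c hc)))
    have hmaps : ∀ c ∈ D, ∀ w ∈ ball (0 : ℂ) 1, c + ε c * w ∈ D := by
      intro c hc w hw
      refine hεD c hc ?_
      rw [mem_ball_zero_iff] at hw
      rw [mem_ball, dist_eq_norm, add_sub_cancel_left, norm_mul, Complex.norm_real,
        Real.norm_of_nonneg (hε c hc).le]
      have := hε c hc
      nlinarith
    have hpd : DifferentiableOn ℂ (fun c => (C.a (a c))⁻¹ • C.b (a c)) D := by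
      have hd1 : DifferentiableOn ℂ (fun c => C.a (a c)) D :=
        C.a.differentiable.comp_differentiableOn (had.mono hDsub)
      have hd2 : DifferentiableOn ℂ (fun c => C.b (a c)) D :=
        C.b.differentiable.comp_differentiableOn (had.mono hDsub)
      exact (hd1.inv (fun c hc => hc.2)).smul hd2
    refine ⟨(fun c => fun w => (C.a (a (c + ε c * w)))⁻¹ • C.b (a (c + ε c * w))) '' t,
      htc.image _, ?_, ?_⟩
    · rintro _ ⟨c, hc, rfl⟩
      have hcD := htD hc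
      refine hpd.comp (t := D) (g := fun c => (C.a (a c))⁻¹ • C.b (a c))
        (f := fun w => c + ε c * w) ?_ (fun w hw => hmaps c hcD w hw)
      fun_prop
    · intro d hd hda
      have hdD : d ∈ D := ⟨hd, hda⟩
      obtain ⟨c, hc, hdc⟩ := mem_iUnion₂.mp (hcov hdD)
      have hε' := hε c (htD hc)
      have hε0 : ((ε c : ℝ) : ℂ) ≠ 0 := by exact_mod_cast hε'.ne'
      refine ⟨_, ⟨c, hc, rfl⟩, (d - c) / ε c, ?_, ?_⟩
      · rw [mem_ball_zero_iff, norm_div, Complex.norm_real, Real.norm_of_nonneg hε'.le,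
          div_lt_one hε', ← dist_eq_norm]
        exact hdc
      · simp only
        rw [mul_div_cancel₀ _ hε0, add_sub_cancel]
  choose! Γ hΓc hΓd hΓ using key
  refine ⟨⋃ a ∈ A, Γ a, hA.biUnion hΓc, ?_, ?_⟩
  · intro γ hγ
    obtain ⟨a, ha, h⟩ := mem_iUnion₂.mp hγ
    exact hΓd a ha γ h
  · intro z hz hxz
    obtain ⟨hxS, hxO⟩ := C.x_mem z hz
    obtain ⟨a, ha, c, hc, t, ht, hxa⟩ := hA2 _ hxz hxS
    have h1 : t * C.a (a c) = 1 := by
      have := C.a_x z hz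
      rw [hxa, map_smul, smul_eq_mul] at this
      exact this
    have h2 : C.a (a c) ≠ 0 := right_ne_zero_of_mul_eq_one h1
    have h3 : z = t • C.b (a c) := by
      have := C.b_x z hz
      rw [hxa, map_smul] at this
      exact this.symm
    obtain ⟨γ, hγ, d, hd, h4⟩ := hΓ a ha c hc h2
    refine ⟨γ, mem_iUnion₂.mpr ⟨a, ha, hγ⟩, d, hd, ?_⟩
    rw [← h4, h3]
    congr 1
    exact eq_inv_of_mul_eq_one_left h1

/-- all but countably many complex lines through `z₀` meet a countable family of holomorphic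
arcs in a countable set -/
theorem countable_bad_directions {Γ : Set (ℂ → ℂ × ℂ)} (hΓ : Γ.Countable)
    (hΓd : ∀ γ ∈ Γ, DifferentiableOn ℂ γ (ball 0 1)) (z₀ : ℂ × ℂ) :
    {τ : ℂ | ¬ {s : ℂ | ∃ γ ∈ Γ, ∃ c ∈ ball (0 : ℂ) 1,
      z₀ + s • ((1 : ℂ), τ) = γ c}.Countable}.Countable := by
  -- one arc
  have h1 : ∀ γ ∈ Γ, {τ : ℂ | ¬ {s : ℂ | ∃ c ∈ ball (0 : ℂ) 1,
      z₀ + s • ((1 : ℂ), τ) = γ c}.Countable}.Countable := by
    intro γ hγ
    have hd := hΓd γ hγ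
    have hd1 : DifferentiableOn ℂ (fun c => (γ c).1) (ball 0 1) := hd.fst
    have hd2 : DifferentiableOn ℂ (fun c => (γ c).2) (ball 0 1) := hd.snd
    have h2 : ∀ τ : ℂ, ¬ {s : ℂ | ∃ c ∈ ball (0 : ℂ) 1,
        z₀ + s • ((1 : ℂ), τ) = γ c}.Countable →
        ∀ c ∈ ball (0 : ℂ) 1, (γ c).2 - z₀.2 - τ * ((γ c).1 - z₀.1) = 0 := by
      intro τ hτ
      by_contra hne
      push Not at hne
      apply hτ
      have h3 : {c | c ∈ ball (0 : ℂ) 1 ∧ (γ c).2 - z₀.2 - τ * ((γ c).1 - z₀.1) = 0}.Countable :=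
        countable_zeros isOpen_ball (convex_ball _ _).isPreconnected
          ((hd2.sub_const _).sub ((hd1.sub_const _).const_mul _)) hne
      refine (h3.image (fun c => (γ c).1 - z₀.1)).mono ?_
      rintro s ⟨c, hc, h⟩
      have e1 : z₀.1 + s = (γ c).1 := by
        rw [← h]
        simp
      have e2 : z₀.2 + s * τ = (γ c).2 := by
        rw [← h]
        simp
      refine ⟨c, ⟨hc, ?_⟩, ?_⟩
      · rw [← e1, ← e2]
        ring
      · simp only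
        rw [← e1]
        ring
    refine Set.Subsingleton.countable ?_
    intro τ hτ τ' hτ'
    by_contra hne
    have e1 := h2 τ hτ
    have e2 := h2 τ' hτ'
    apply hτ
    refine (countable_singleton (0 : ℂ)).mono ?_
    rintro s ⟨c, hc, h⟩
    have e3 := e1 c hc
    have e4 := e2 c hc
    have e5 : (τ - τ') * ((γ c).1 - z₀.1) = 0 := by linear_combination e4 - e3
    have e6 : (γ c).1 - z₀.1 = 0 := by
      rcases mul_eq_zero.mp e5 with h' | h'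
      · exact absurd (sub_eq_zero.mp h') hne
      · exact h'
    have e7 : z₀.1 + s = (γ c).1 := by
      rw [← h]
      simp
    rw [mem_singleton_iff]
    rw [← e7] at e6
    linear_combination e6
  refine (hΓ.biUnion h1).mono ?_
  intro τ hτ
  by_contra hcon
  apply hτ
  have h2 : ∀ γ ∈ Γ, {s : ℂ | ∃ c ∈ ball (0 : ℂ) 1,
      z₀ + s • ((1 : ℂ), τ) = γ c}.Countable := by
    intro γ hγ
    by_contra h
    exact hcon (mem_iUnion₂.mpr ⟨γ, hγ, h⟩)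
  refine (hΓ.biUnion h2).mono ?_
  rintro s ⟨γ, hγ, h⟩
  exact mem_iUnion₂.mpr ⟨γ, hγ, h⟩

/-- **Direction lemma.**  All but countably many complex lines `z₀ + ℂ (1, τ)` of a chart meet a
thin set in a countable set. -/
theorem Thin.directions {S Z : Set (Fin 4 → ℂ)} {v : Fin 4 → ℂ} (hZ : Thin S Z) (C : Chart S v)
    (z₀ : ℂ × ℂ) :
    {τ : ℂ | ¬ {s : ℂ | z₀ + s • ((1 : ℂ), τ) ∈ ball (0 : ℂ × ℂ) C.r ∧
      C.x (z₀ + s • ((1 : ℂ), τ)) ∈ Z}.Countable}.Countable := by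
  obtain ⟨Γ, hΓ, hΓd, hcov⟩ := hZ.planar C
  refine (countable_bad_directions hΓ hΓd z₀).mono ?_
  intro τ hτ h
  apply hτ
  refine h.mono ?_
  rintro s ⟨hs, hsZ⟩
  exact hcov _ hs hsZ

/-- a direction with countable trace exists -/
theorem Thin.exists_direction {S Z : Set (Fin 4 → ℂ)} {v : Fin 4 → ℂ} (hZ : Thin S Z)
    (C : Chart S v) (z₀ : ℂ × ℂ) :
    ∃ τ : ℂ, {s : ℂ | z₀ + s • ((1 : ℂ), τ) ∈ ball (0 : ℂ × ℂ) C.r ∧
      C.x (z₀ + s • ((1 : ℂ), τ)) ∈ Z}.Countable := by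
  by_contra h
  push Not at h
  refine not_countable_complex ((hZ.directions C z₀).mono ?_)
  intro τ _
  exact h τ

/-- a nonempty open subset of `ℂ` is uncountable -/
theorem not_countable_of_open {U : Set ℂ} (hU : IsOpen U) (hne : U.Nonempty) :
    ¬ U.Countable := by
  intro h
  obtain ⟨c, hc⟩ := hne
  have h1 := h.measure_zero (MeasureTheory.volume : MeasureTheory.Measure ℂ)
  exact (hU.measure_pos MeasureTheory.volume ⟨c, hc⟩).ne' h1

/-- thin sets have empty interior (in a chart) -/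
theorem Thin.exists_notMem {S Z : Set (Fin 4 → ℂ)} {v : Fin 4 → ℂ} (hZ : Thin S Z)
    (C : Chart S v) {W : Set (ℂ × ℂ)} (hW : IsOpen W) (hWr : W ⊆ ball 0 C.r)
    (hne : W.Nonempty) : ∃ z ∈ W, C.x z ∉ Z := by
  obtain ⟨z₀, hz₀⟩ := hne
  obtain ⟨τ, hτ⟩ := hZ.exists_direction C z₀
  by_contra h
  push Not at h
  have hc : Continuous (fun s : ℂ => z₀ + s • ((1 : ℂ), τ)) := by fun_prop
  refine not_countable_of_open (hW.preimage hc) ⟨0, ?_⟩ (hτ.mono ?_)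
  · show z₀ + (0 : ℂ) • ((1 : ℂ), τ) ∈ W
    rwa [zero_smul, add_zero]
  intro s hs
  exact ⟨hWr hs, h _ hs⟩

end Crest.Agent.R279
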