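import Crest.Agent.R279.Indep28
import Crest.Agent.R279.Impl545
import Crest.Agent.R279.Strat524C
import Crest.Agent.R279.ThinCalc556
import Crest.Agent.R279.Boot556

/-!
# R279, M14 (helper28): branch functions, charts, exceptional sets
-/

set_option autoImplicit false

namespace Crest.Agent.R279.Gen

open MvPolynomial Set Filter Topology Metric EllAlg

variable {Q : MvPolynomial (Fin 4) ℂ}

section chart

variable {W : Set (ℂ × ℂ)} {X : ℂ × ℂ → Fin 4 → ℂ} {b b' : ℂ → Fin 4 → ℂ} {γ γ' : ℂ × ℂ → ℂ}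

/-- the branch function is not constant -/
theorem exists_ne_const (hQ : Alg.SmoothQuartic Q) (hC : Alg.IsChart Q W X)
    (hne : W.Nonempty) (h : ChartBranch Q W X b γ) (n : ℂ) : ∃ z ∈ W, γ z ≠ n := by
  by_contra hcon
  push Not at hcon
  obtain ⟨z, hz, hzn⟩ := exists_trans hQ hC hne h
  apply hzn
  have hp := h.mem_b _ (h.maps hz)
  -- the kernels agree
  have hle : LinearMap.ker (q1L Q (X z)) ≤ LinearMap.ker (q1L Q (b (γ z))) := by
    intro v hv
    obtain ⟨s, ξ, rfl⟩ := exists_coord_chart hQ hC hz hv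
    change q1 Q (b (γ z)) (s • X z + fderiv ℂ X z ξ) = 0
    rw [q1_add, q1_smul, h.zero z hz, mul_zero, zero_add]
    have hX := hasDerivAt_comp_line ξ (hC.diff.differentiableAt (hC.isOpen.mem_nhds hz))
    have hcst := hasDerivAt_const (0 : ℂ) (b n)
    have h1 := hasDerivAt_tens (Q := Q) hcst hcst hcst hX
    have h2 := deriv_eq_zero_of_eventually (f := fun y => tens Q (b n) (b n) (b n) (X y))
      ((hC.isOpen.eventually_mem hz).mono fun y hy => by
        have := h.zero y hy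
        rw [hcon y hy, q1] at this
        simpa using this) h1
    simp only [tens_zero1, tens_zero2, tens_zero3, zero_add] at h2
    rw [hcon z hz, q1, h2, mul_zero]
  have heq := Submodule.eq_of_le_of_finrank_eq hle (by
    rw [finrank_ker_q1L hQ (chart_ne_zero hC hz) (hC.zero z hz), finrank_ker_q1L hQ hp.1 hp.2])
  have hmem : b (γ z) ∈ LinearMap.ker (q1L Q (b (γ z))) := by
    change q1 Q (b (γ z)) (b (γ z)) = 0
    rw [q1_self hQ.hom, hp.2, mul_zero]
  rw [← heq] at hmem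
  exact hmem

end chart

/-- derivative of `γ ↦ ⟨H(b γ), x⟩` -/
theorem hasDerivAt_q1_arc {b : ℂ → Fin 4 → ℂ} {x b₁ : Fin 4 → ℂ} {c : ℂ}
    (hb : HasDerivAt b b₁ c) :
    HasDerivAt (fun γ => q1 Q (b γ) x) (12 * tens Q b₁ (b c) (b c) x) c := by
  have h := (hasDerivAt_tens (Q := Q) hb hb hb (hasDerivAt_const c x)).const_mul 4
  have e : 4 * (tens Q b₁ (b c) (b c) x + tens Q (b c) b₁ (b c) x + tens Q (b c) (b c) b₁ x
      + tens Q (b c) (b c) (b c) 0) = 12 * tens Q b₁ (b c) (b c) x := by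
    rw [tens_swap12 Q (b c) b₁, tens_swap13 Q (b c) (b c) b₁, tens_zero4]
    ring
  rw [e] at h
  exact h

/-- the branch function given by the implicit function theorem in `ℂ⁴` -/
theorem exists_branch {x₀ : C4} {b : ℂ → C4} (h : ArcThrough Q x₀ b) :
    ∃ (O : Set C4) (c : C4 → ℂ), IsOpen O ∧ x₀ ∈ O ∧ DifferentiableOn ℂ c O ∧ c x₀ = 0 ∧
      MapsTo c O (ball 0 1) ∧ (∀ x ∈ O, q1 Q (b (c x)) x = 0) ∧
      ∀ x ∈ O, deriv (fun γ => q1 Q (b γ) x) (c x) ≠ 0 := by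
  have hb : ∀ γ ∈ ball (0 : ℂ) 1, HasDerivAt b (deriv b γ) γ := fun γ hγ =>
    (h.diff.differentiableAt (isOpen_ball.mem_nhds hγ)).hasDerivAt
  set n : C4 × ℂ → ℂ := fun z => q1 Q (b z.2) z.1 with hn
  have hO : IsOpen ((univ : Set C4) ×ˢ ball (0 : ℂ) 1) := isOpen_univ.prod isOpen_ball
  have hq1 : Differentiable ℂ (fun z : C4 × C4 => q1 Q z.1 z.2) := by
    have h1 : Differentiable ℂ (fun z : C4 × C4 => ((z.1, z.1, z.1, z.2) : C4 × C4 × C4 × C4)) :=
      differentiable_fst.prodMk (differentiable_fst.prodMk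
        (differentiable_fst.prodMk differentiable_snd))
    exact ((differentiable_tens Q).comp h1).const_mul 4
  have hnd : DifferentiableOn ℂ n ((univ : Set C4) ×ˢ ball (0 : ℂ) 1) := by
    have h1 : DifferentiableOn ℂ (fun z : C4 × ℂ => (b z.2, z.1))
        ((univ : Set C4) ×ˢ ball (0 : ℂ) 1) :=
      (h.diff.comp differentiableOn_snd fun z hz => hz.2).prodMk differentiableOn_fst
    have h2 := hq1.comp_differentiableOn h1
    simpa only [Function.comp_def] using h2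
  have h0 : ((x₀, 0) : C4 × ℂ) ∈ (univ : Set C4) ×ˢ ball (0 : ℂ) 1 := ⟨mem_univ _, by simp⟩
  have hd : fderiv ℂ n (x₀, 0) (0, 1) ≠ 0 := by
    have h1 := (hnd.differentiableAt (hO.mem_nhds h0)).hasFDerivAt
    have h2 : HasDerivAt (fun γ : ℂ => ((x₀, γ) : C4 × ℂ)) (0, 1) 0 :=
      (hasDerivAt_const (0 : ℂ) x₀).prodMk (hasDerivAt_id (0 : ℂ))
    have h3 := h1.comp_hasDerivAt (0 : ℂ) h2
    have h4 := h.trans
    have h5 : deriv (fun γ => q1 Q (b γ) x₀) 0 = fderiv ℂ n (x₀, 0) (0, 1) := h3.deriv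
    rwa [h5] at h4
  obtain ⟨W, δ, χ, hWo, hxW, hδ, hχ, hχ0, hsub, hmaps, hiff⟩ :=
    Impl.exists_implicit hO hnd h0 h.zero hd
  have hball : ∀ x ∈ W, χ x ∈ ball (0 : ℂ) 1 := fun x hx => (hsub (⟨hx, hmaps x hx⟩ :
    (x, χ x) ∈ W ×ˢ ball (0 : ℂ) δ)).2
  -- the derivative stays nonzero
  have hcont : ContinuousOn (fun x => 12 * tens Q (deriv b (χ x)) (b (χ x)) (b (χ x)) x) W := by
    have hdb : ContinuousOn (deriv b) (ball 0 1) := (h.diff.deriv isOpen_ball).continuousOn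
    have h1 : ContinuousOn (fun x => deriv b (χ x)) W := hdb.comp hχ.continuousOn hball
    have h2 : ContinuousOn (fun x => b (χ x)) W := h.diff.continuousOn.comp hχ.continuousOn hball
    have h3 := (continuous_tens Q).comp_continuousOn
      (h1.prodMk (h2.prodMk (h2.prodMk (continuousOn_id (s := W)))))
    have h4 : ContinuousOn (fun x => tens Q (deriv b (χ x)) (b (χ x)) (b (χ x)) x) W := by
      simpa only [Function.comp_def, id_eq] using h3
    exact continuousOn_const.mul h4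
  have hopen := hcont.isOpen_inter_preimage hWo (isOpen_ne (x := (0 : ℂ)))
  refine ⟨W ∩ (fun x => 12 * tens Q (deriv b (χ x)) (b (χ x)) (b (χ x)) x) ⁻¹' {y | y ≠ 0}, χ,
    hopen, ⟨hxW, ?_⟩, hχ.mono inter_subset_left, hχ0, fun x hx => hball x hx.1, ?_, ?_⟩
  · show 12 * tens Q (deriv b (χ x₀)) (b (χ x₀)) (b (χ x₀)) x₀ ≠ 0
    rw [← (hasDerivAt_q1_arc (Q := Q) (x := x₀) (hb _ (hball x₀ hxW))).deriv, hχ0]
    exact h.trans
  · intro x hx
    exact (hiff x hx.1 _ (hmaps x hx.1)).mpr rfl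
  · intro x hx
    rw [(hasDerivAt_q1_arc (Q := Q) (x := x) (hb _ (hball x hx.1))).deriv]
    exact hx.2

/-- a transversal arc is projectively nonconstant -/
theorem ArcThrough.not_const {x₀ : C4} {b : ℂ → C4} (h : ArcThrough Q x₀ b) :
    ¬ ∃ p₀ : C4, ∀ γ ∈ ball (0 : ℂ) 1, ∃ s : ℂ, b γ = s • p₀ := by
  rintro ⟨p₀, hp⟩
  apply h.trans
  have h0 : (0 : ℂ) ∈ ball (0 : ℂ) 1 := by simp
  obtain ⟨s₀, hs₀⟩ := hp 0 h0
  have hz := h.zero
  have hb0 : b 0 ≠ 0 := (h.mem 0 h0).1.1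
  have hs0 : s₀ ≠ 0 := fun hh => hb0 (by rw [hs₀, hh, zero_smul])
  have hp0 : q1 Q p₀ x₀ = 0 := by
    rw [hs₀, q1_smul_left] at hz
    exact (mul_eq_zero.mp hz).resolve_left (pow_ne_zero _ hs0)
  have hev : (fun γ => q1 Q (b γ) x₀) =ᶠ[𝓝 0] fun _ => 0 := by
    filter_upwards [isOpen_ball.mem_nhds h0] with γ hγ
    obtain ⟨s, hs⟩ := hp γ hγ
    rw [hs, q1_smul_left, hp0, mul_zero]
  rw [hev.deriv_eq, deriv_const]

/-- the map of a `Chart` is a chart in the sense of `Alg.IsChart` -/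
theorem isChart_of_chart {v : Fin 4 → ℂ} (C : Chart (Vstar Q) v) :
    Alg.IsChart Q (ball 0 C.r) C.x := by
  refine ⟨isOpen_ball, C.diff_x, fun z hz => (C.x_mem z hz).1.2, fun z hz => ?_⟩
  have hda : ∀ ξ, C.a (fderiv ℂ C.x z ξ) = 0 := by
    intro ξ
    have h1 := hasDerivAt_comp_line ξ (C.diff_x.differentiableAt (isOpen_ball.mem_nhds hz))
    have h2 := C.a.hasFDerivAt.comp_hasDerivAt (0 : ℂ) h1
    have h3 : HasDerivAt (fun t : ℂ => (fun y => C.a (C.x y) - 1) (z + t • ξ))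
        (C.a (fderiv ℂ C.x z ξ)) 0 := h2.sub_const 1
    exact deriv_eq_zero_of_eventually (f := fun y => C.a (C.x y) - 1)
      ((isOpen_ball.eventually_mem hz).mono fun y hy => by rw [C.a_x y hy, sub_self]) h3
  have hdb : ∀ ξ, C.b (fderiv ℂ C.x z ξ) = ξ := by
    intro ξ
    have h1 := hasDerivAt_comp_line ξ (C.diff_x.differentiableAt (isOpen_ball.mem_nhds hz))
    have h2 := C.b.hasFDerivAt.comp_hasDerivAt (0 : ℂ) h1
    have h3 : HasDerivAt (fun t : ℂ => (fun y => C.b (C.x y) - y) (z + t • ξ))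
        (C.b (fderiv ℂ C.x z ξ) - ξ) 0 := h2.sub (hasDerivAt_line z ξ)
    have h4 := deriv_eq_zero_of_eventually (f := fun y => C.b (C.x y) - y)
      ((isOpen_ball.eventually_mem hz).mono fun y hy => by rw [C.b_x y hy, sub_self]) h3
    exact sub_eq_zero.mp h4
  rw [Fintype.linearIndependent_iff]
  intro g hg
  rw [Fin.sum_univ_three] at hg
  simp only [Matrix.cons_val_zero, Matrix.cons_val_one, Matrix.cons_val] at hg
  have ha := congrArg C.a hg
  simp only [map_add, map_smul, C.a_x z hz, hda, mul_zero, add_zero, map_zero, smul_eq_mul,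
    mul_one] at ha
  have hb := congrArg C.b hg
  simp only [map_add, map_smul, hdb, map_zero, ha, zero_smul, zero_add] at hb
  have hb1 := congrArg Prod.fst hb
  have hb2 := congrArg Prod.snd hb
  simp at hb1 hb2
  intro i
  fin_cases i
  · exact ha
  · exact hb1
  · exact hb2

/-- the branch over the chart -/
theorem chartBranch_of_arc {v : Fin 4 → ℂ} (C : Chart (Vstar Q) v) {x₀ : C4} {b : ℂ → C4}
    (h : ArcThrough Q x₀ b) {O : Set C4} {c : C4 → ℂ} (hc : DifferentiableOn ℂ c O)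
    (hmaps : MapsTo c O (ball 0 1)) (hz : ∀ x ∈ O, q1 Q (b (c x)) x = 0)
    (htr : ∀ x ∈ O, deriv (fun γ => q1 Q (b γ) x) (c x) ≠ 0) {ρ : ℝ} (hρ : ρ ≤ C.r)
    (hsub : ∀ z ∈ ball (0 : ℂ × ℂ) ρ, C.x z ∈ O) :
    ChartBranch Q (ball 0 ρ) C.x b (fun z => c (C.x z)) :=
  { diff_b := h.diff
    mem_b := fun c hc => (h.mem c hc).1
    diff := hc.comp (C.diff_x.mono (ball_subset_ball hρ)) hsub
    maps := fun z hz => hmaps (hsub z hz)
    zero := fun z hz' => hz _ (hsub z hz')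
    trans := fun z hz' => htr _ (hsub z hz') }

/-- thinness of the zero set of a function that is nowhere locally zero -/
theorem thin_zero_chart {S : Set (Fin 4 → ℂ)} {v : Fin 4 → ℂ} (C : Chart S v) {ρ : ℝ}
    (hρ : ρ ≤ C.r) {F : ℂ × ℂ → ℂ} (hF : DifferentiableOn ℂ F (ball 0 ρ))
    (hne : ∀ U : Set (ℂ × ℂ), IsOpen U → U ⊆ ball 0 ρ → U.Nonempty → ∃ z ∈ U, F z ≠ 0) :
    Thin S {y | y ∈ C.O ∧ Strat.coord C y ∈ ball (0 : ℂ × ℂ) ρ ∧ F (Strat.coord C y) = 0} := by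
  have hA : AnalyticOnNhd ℂ F (ball 0 ρ) :=
    Crest.Agent.R266.SCV.analyticOnNhd_of_differentiableOn isOpen_ball hF
  have hloc : ∀ p ∈ ball (0 : ℂ × ℂ) ρ, ¬ ∀ᶠ q in 𝓝 p, F q = 0 := by
    intro p hp hev
    obtain ⟨U, hU, hUo, hpU⟩ := _root_.eventually_nhds_iff.1 hev
    obtain ⟨z, hz, hzn⟩ := hne (U ∩ ball 0 ρ) (hUo.inter isOpen_ball) inter_subset_right
      ⟨p, hpU, hp⟩
    exact hzn (hU z hz.1)
  obtain ⟨A, hAc, hA1, hA2⟩ := Strat.strat_cover isOpen_ball hA hloc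
  refine (thin_chart C hAc fun a ha => ⟨(hA1 a ha).1, fun c hc =>
    ball_subset_ball hρ ((hA1 a ha).2 c hc).1⟩).mono ?_
  rintro y ⟨⟨hyO, hy1, hy2⟩, -⟩
  obtain ⟨a, ha, c, hc, hac⟩ := hA2 _ hy1 hy2
  exact ⟨hyO, a, ha, c, hc, hac.symm⟩

end Crest.Agent.R279.Gen
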