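import Crest.Agent.R279.Defs765

/-!
R279 (helper520, helper544), Part 6 interface: maps depending on a "large" variable `x ∈ ℂ²` and
on a small parameter `t ∈ E`, approximability in `x`, transitions.
-/

set_option autoImplicit false

namespace Crest.Agent.R279.Fam

open Metric Set

/-- `ℂ²`. -/
abbrev C2 : Type := Fin 2 → ℂ

variable {E : Type} [NormedAddCommGroup E] [NormedSpace ℂ E]

/-- `h(x,t)`, `x ∈ ℂ²` near `0`, `t ∈ E` near `0`, can be approximated by maps defined for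
`‖x‖ < R`, `‖t‖ < ρ` with `ρ` independent of `R` and `ε`. -/
def XApprox (S : Set C4) (h : C2 × E → C4) : Prop :=
  ∃ ρ : ℝ, 0 < ρ ∧ ∀ R : ℝ, ∀ ε : ℝ, 0 < ε → ∃ G : C2 × E → C4,
    DifferentiableOn ℂ G (ball (0 : C2) R ×ˢ ball (0 : E) ρ) ∧
    MapsTo G (ball (0 : C2) R ×ˢ ball (0 : E) ρ) S ∧
    ∀ p ∈ ball (0 : C2) ρ ×ˢ ball (0 : E) ρ, ‖G p - h p‖ < ε

/-- Transitions: every point `F ∈ S` close to `h p`, `p` near `0`, is `h (Γ (p, F))` with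
`Γ (p, F)` close to `p`, holomorphic in `(p, F)`. -/
def HasTrans (S : Set C4) (h : C2 × E → C4) : Prop :=
  ∃ r C : ℝ, 0 < r ∧ 0 < C ∧ ∃ Γ : (C2 × E) × C4 → C2 × E,
    DifferentiableOn ℂ Γ {z | ‖z.1‖ < r ∧ ‖z.2 - h z.1‖ < r} ∧
    ∀ (p : C2 × E) (F : C4), ‖p‖ < r → ‖F - h p‖ < r → F ∈ S →
      h (Γ (p, F)) = F ∧ ‖Γ (p, F) - p‖ ≤ C * ‖F - h p‖

/-- The data of Part 6 at a point `v₁` of the cone: a section `ψ` of the projection to the surface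
through `v₁` and two families of entire curves starting on the section, whose velocities at
`v₁` are independent modulo `v₁`. -/
def TwoFam (S : Set C4) (v₁ : C4) : Prop :=
  ∃ (r : ℝ) (ψ : C2 → C4) (L₁ L₂ : C2 × ℂ → C4), 0 < r ∧
    DifferentiableOn ℂ ψ (ball 0 r) ∧ MapsTo ψ (ball 0 r) S ∧ ψ 0 = v₁ ∧
    DifferentiableOn ℂ L₁ (ball 0 r ×ˢ univ) ∧ MapsTo L₁ (ball 0 r ×ˢ univ) S ∧
    DifferentiableOn ℂ L₂ (ball 0 r ×ˢ univ) ∧ MapsTo L₂ (ball 0 r ×ˢ univ) S ∧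
    (∀ z ∈ ball (0 : C2) r, L₁ (z, 0) = ψ z) ∧ (∀ z ∈ ball (0 : C2) r, L₂ (z, 0) = ψ z) ∧
    LinearIndependent ℂ ![v₁, fderiv ℂ ψ 0 ![1, 0], fderiv ℂ ψ 0 ![0, 1]] ∧
    LinearIndependent ℂ ![v₁, deriv (fun τ => L₁ (0, τ)) 0, deriv (fun τ => L₂ (0, τ)) 0]

/-- Output of the finite dimensional part (helper544), input of the transport lemma:
chains of homotopies `ψ ⇝ y ⇝ χ`. `E = ℂ³`, `t = (t₂, t₃)`. -/
def HasChain (S : Set C4) (ψ : C2 → C4) : Prop :=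
  ∃ (r : ℝ) (A₁ A₂ : (C2 × (Fin 3 → ℂ)) × ℂ → C4) (χ : (Fin 3 → ℂ) → C4), 0 < r ∧
    DifferentiableOn ℂ A₁ (ball 0 r ×ˢ univ) ∧ MapsTo A₁ (ball 0 r ×ˢ univ) S ∧
    DifferentiableOn ℂ A₂ (ball 0 r ×ˢ univ) ∧ MapsTo A₂ (ball 0 r ×ˢ univ) S ∧
    DifferentiableOn ℂ χ (ball 0 r) ∧ MapsTo χ (ball 0 r) S ∧
    (∀ p ∈ ball (0 : C2 × (Fin 3 → ℂ)) r, A₁ (p, 0) = ψ p.1) ∧
    (∀ p ∈ ball (0 : C2 × (Fin 3 → ℂ)) r, A₁ (p, 1) = A₂ (p, 0)) ∧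
    (∀ p ∈ ball (0 : C2 × (Fin 3 → ℂ)) r, A₂ (p, 1) = χ p.2) ∧
    HasTrans S (fun p => A₁ (p, 1)) ∧ HasTrans S (fun p => A₂ (p, 1))

end Crest.Agent.R279.Fam
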