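import Mathlib

/-!
R279 (S0422), Part 8: common definitions for the algebraic part (helper855).

`lin Q p u = Q(u + X p)` as a polynomial in `X`; its coefficients `q2, q3, q4` (numbering by the
degree in `u`), the sextic `g6 = q3 ^ 2 - 4 q2 q4`, its gradient `K` in `u`, the gradient `H` of `Q`
and the set `D` (`InD`).
-/

set_option autoImplicit false
set_option linter.all false

noncomputable section

open MvPolynomial Topology

namespace Crest.Agent.R279.G6

abbrev V : Type := Fin 4 → ℂ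

/-- bilinear pairing -/
def pair (a b : V) : ℂ := ∑ i, a i * b i

/-- gradient of `Q` at `p` -/
def H (Q : MvPolynomial (Fin 4) ℂ) (p : V) : V := fun i => eval p (pderiv i Q)

/-- `Q (u + X p)` as a polynomial in `X` -/
def lin (Q : MvPolynomial (Fin 4) ℂ) (p u : V) : Polynomial ℂ :=
  aeval (fun i => Polynomial.C (u i) + Polynomial.C (p i) * Polynomial.X) Q

/-- the universal version of `lin`: `inl` variables are `p`, `inr` variables are `u` -/
def linU (Q : MvPolynomial (Fin 4) ℂ) : Polynomial (MvPolynomial (Fin 4 ⊕ Fin 4) ℂ) :=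
  aeval (fun i => Polynomial.C (X (Sum.inr i)) + Polynomial.C (X (Sum.inl i)) * Polynomial.X) Q

/-- coefficient of `λ^2` in `Q(u + λ p)` (degree 2 in `u`) -/
def q2 (Q : MvPolynomial (Fin 4) ℂ) (p u : V) : ℂ := (lin Q p u).coeff 2
/-- coefficient of `λ` in `Q(u + λ p)` (degree 3 in `u`) -/
def q3 (Q : MvPolynomial (Fin 4) ℂ) (p u : V) : ℂ := (lin Q p u).coeff 1
/-- coefficient of `1` in `Q(u + λ p)` (degree 4 in `u`) -/
def q4 (Q : MvPolynomial (Fin 4) ℂ) (p u : V) : ℂ := (lin Q p u).coeff 0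

/-- the sextic -/
def g6 (Q : MvPolynomial (Fin 4) ℂ) (p u : V) : ℂ := q3 Q p u ^ 2 - 4 * q2 Q p u * q4 Q p u

/-- the sextic as a polynomial in `(p,u)` -/
def g6U (Q : MvPolynomial (Fin 4) ℂ) : MvPolynomial (Fin 4 ⊕ Fin 4) ℂ :=
  (linU Q).coeff 1 ^ 2 - 4 * (linU Q).coeff 2 * (linU Q).coeff 0

/-- the gradient of `g6` in the variable `u` -/
def K (Q : MvPolynomial (Fin 4) ℂ) (p u : V) : V :=
  fun i => eval (Sum.elim p u) (pderiv (Sum.inr i) (g6U Q))

/-- `p ∈ D`: the sextic `g6 (p; .)` on `T_p / p` has a multiple root or vanishes identically -/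
def InD (Q : MvPolynomial (Fin 4) ℂ) (p : V) : Prop :=
  ∃ u : V, (∀ c : ℂ, u ≠ c • p) ∧ pair (H Q p) u = 0 ∧ g6 Q p u = 0 ∧
    ∀ w : V, pair (H Q p) w = 0 → pair (K Q p u) w = 0

/-! ### bilinearity of the pairing -/

lemma pair_add_right (a b c : V) : pair a (b + c) = pair a b + pair a c := by
  simp [pair, mul_add, Finset.sum_add_distrib]

lemma pair_add_left (a b c : V) : pair (a + b) c = pair a c + pair b c := by
  simp [pair, add_mul, Finset.sum_add_distrib]

lemma pair_smul_right (a b : V) (c : ℂ) : pair a (c • b) = c * pair a b := by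
  simp only [pair, Finset.mul_sum, Pi.smul_apply, smul_eq_mul]
  exact Finset.sum_congr rfl (fun i _ => by ring)

lemma pair_smul_left (a b : V) (c : ℂ) : pair (c • a) b = c * pair a b := by
  simp only [pair, Finset.mul_sum, Pi.smul_apply, smul_eq_mul]
  exact Finset.sum_congr rfl (fun i _ => by ring)

lemma pair_sub_right (a b c : V) : pair a (b - c) = pair a b - pair a c := by
  simp [pair, mul_sub, Finset.sum_sub_distrib]

lemma pair_sub_left (a b c : V) : pair (a - b) c = pair a c - pair b c := by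
  simp [pair, sub_mul, Finset.sum_sub_distrib]

@[simp] lemma pair_zero_right (a : V) : pair a 0 = 0 := by simp [pair]
@[simp] lemma pair_zero_left (a : V) : pair 0 a = 0 := by simp [pair]

lemma pair_comm (a b : V) : pair a b = pair b a := by
  simp only [pair]; exact Finset.sum_congr rfl (fun i _ => by ring)

@[simp] lemma pair_single (a : V) (i : Fin 4) : pair a (Pi.single i 1) = a i := by
  simp [pair, Pi.single_apply]

/-! ### the polynomial `lin` -/

lemma eval_lin (Q : MvPolynomial (Fin 4) ℂ) (p u : V) (c : ℂ) :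
    (lin Q p u).eval c = eval (u + c • p) Q := by
  have h : (Polynomial.evalRingHom c).comp
      ((aeval (fun i => Polynomial.C (u i) + Polynomial.C (p i) * Polynomial.X) :
        MvPolynomial (Fin 4) ℂ →ₐ[ℂ] Polynomial ℂ) : MvPolynomial (Fin 4) ℂ →+* Polynomial ℂ) =
      eval (u + c • p) := by
    apply MvPolynomial.ringHom_ext
    · intro r
      simp [Polynomial.algebraMap_eq]
    · intro i
      simp only [RingHom.coe_comp, Function.comp_apply, RingHom.coe_coe, aeval_X,
        Polynomial.coe_evalRingHom, Polynomial.eval_add, Polynomial.eval_C, Polynomial.eval_mul,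
        Polynomial.eval_X, eval_X, Pi.add_apply, Pi.smul_apply, smul_eq_mul]
      ring
  have := congrArg (fun f => f Q) h
  simpa [lin] using this

lemma lin_eq_map (Q : MvPolynomial (Fin 4) ℂ) (p u : V) :
    lin Q p u = (linU Q).map (eval (Sum.elim p u)) := by
  have h : (Polynomial.mapRingHom (eval (Sum.elim p u))).comp
      ((aeval (fun i => Polynomial.C (X (Sum.inr i)) + Polynomial.C (X (Sum.inl i)) * Polynomial.X) :
        MvPolynomial (Fin 4) ℂ →ₐ[ℂ] Polynomial (MvPolynomial (Fin 4 ⊕ Fin 4) ℂ)) :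
          MvPolynomial (Fin 4) ℂ →+* Polynomial (MvPolynomial (Fin 4 ⊕ Fin 4) ℂ)) =
      ((aeval (fun i => Polynomial.C (u i) + Polynomial.C (p i) * Polynomial.X) :
        MvPolynomial (Fin 4) ℂ →ₐ[ℂ] Polynomial ℂ) : MvPolynomial (Fin 4) ℂ →+* Polynomial ℂ) := by
    apply MvPolynomial.ringHom_ext
    · intro r
      simp only [RingHom.coe_comp, Function.comp_apply, RingHom.coe_coe, aeval_C,
        Polynomial.coe_mapRingHom, Polynomial.algebraMap_apply, MvPolynomial.algebraMap_eq,
        Polynomial.map_C, eval_C]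
      rfl
    · intro i
      simp
  have := congrArg (fun f => f Q) h
  simpa [lin, linU] using this.symm

lemma coeff_lin (Q : MvPolynomial (Fin 4) ℂ) (p u : V) (j : ℕ) :
    (lin Q p u).coeff j = eval (Sum.elim p u) ((linU Q).coeff j) := by
  rw [lin_eq_map, Polynomial.coeff_map]

lemma g6_eq_eval (Q : MvPolynomial (Fin 4) ℂ) (p u : V) :
    g6 Q p u = eval (Sum.elim p u) (g6U Q) := by
  simp [g6, g6U, q2, q3, q4, coeff_lin]

lemma poly_ext {f g : Polynomial ℂ} (h : ∀ c : ℂ, c ≠ 0 → f.eval c = g.eval c) : f = g := by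
  refine Polynomial.eq_of_infinite_eval_eq f g ?_
  have : ({0}ᶜ : Set ℂ) ⊆ {x | f.eval x = g.eval x} := fun c hc => h c hc
  exact ((Set.finite_singleton (0:ℂ)).infinite_compl).mono this

lemma lin_add_smul (Q : MvPolynomial (Fin 4) ℂ) (p u : V) (m : ℂ) :
    lin Q p (u + m • p) = (lin Q p u).comp (Polynomial.X + Polynomial.C m) := by
  apply poly_ext
  intro c _
  rw [eval_lin, Polynomial.eval_comp, eval_lin]
  simp only [Polynomial.eval_add, Polynomial.eval_X, Polynomial.eval_C]
  congr 2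
  ext i
  simp; ring

lemma lin_smul_left (Q : MvPolynomial (Fin 4) ℂ) (p u : V) (m : ℂ) :
    lin Q (m • p) u = (lin Q p u).comp (Polynomial.C m * Polynomial.X) := by
  apply poly_ext
  intro c _
  rw [eval_lin, Polynomial.eval_comp, eval_lin]
  simp only [Polynomial.eval_mul, Polynomial.eval_X, Polynomial.eval_C]
  congr 2
  ext i
  simp; ring

lemma coeff_lin_smul_left (Q : MvPolynomial (Fin 4) ℂ) (p u : V) (m : ℂ) (j : ℕ) :
    (lin Q (m • p) u).coeff j = m ^ j * (lin Q p u).coeff j := by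
  rw [lin_smul_left, Polynomial.comp_C_mul_X_coeff, mul_comm]

/-! ### homogeneity -/

/-! ### derivatives of polynomial functions -/

section Deriv

variable {σ : Type*} [Fintype σ]

/-- the differential of a polynomial function -/
def dP (P : MvPolynomial σ ℂ) (x : σ → ℂ) : (σ → ℂ) →L[ℂ] ℂ :=
  ∑ i, eval x (pderiv i P) • (ContinuousLinearMap.proj i : (σ → ℂ) →L[ℂ] ℂ)

lemma dP_apply (P : MvPolynomial σ ℂ) (x w : σ → ℂ) :
    dP P x w = ∑ i, eval x (pderiv i P) * w i := by
  simp [dP]

lemma hasStrictFDerivAt_eval (P : MvPolynomial σ ℂ) (x : σ → ℂ) :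
    HasStrictFDerivAt (fun y : σ → ℂ => eval y P) (dP P x) x := by
  classical
  induction P using MvPolynomial.induction_on with
  | C a =>
    have h := hasStrictFDerivAt_const (𝕜 := ℂ) a x
    simp only [eval_C]
    refine h.congr_fderiv ?_
    ext w
    simp [dP_apply]
  | add P R hP hR =>
    have h := hP.fun_add hR
    simp only [map_add]
    refine h.congr_fderiv ?_
    ext w
    simp [dP_apply, add_mul, Finset.sum_add_distrib]
  | mul_X P i hP =>
    have h1 : HasStrictFDerivAt (fun y : σ → ℂ => y i)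
        (ContinuousLinearMap.proj i : (σ → ℂ) →L[ℂ] ℂ) x :=
      (ContinuousLinearMap.proj i : (σ → ℂ) →L[ℂ] ℂ).hasStrictFDerivAt
    have h := hP.fun_mul h1
    simp only [map_mul, eval_X]
    refine h.congr_fderiv ?_
    ext w
    rw [dP_apply]
    have h2 : ∀ j, eval x (pderiv j (P * X i)) * w j =
        (if j = i then eval x P * w i else 0) + x i * (eval x (pderiv j P) * w j) := by
      intro j
      rw [Derivation.leibniz, pderiv_X]
      by_cases hj : j = i
      · subst hj; simp; ring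
      · simp [hj, Pi.single_apply, Ne.symm hj]; ring
    rw [Finset.sum_congr rfl (fun j _ => h2 j), Finset.sum_add_distrib, ← Finset.mul_sum,
      ← dP_apply]
    simp

lemma analyticAt_eval (P : MvPolynomial σ ℂ) (x : σ → ℂ) :
    AnalyticAt ℂ (fun y : σ → ℂ => eval y P) x := by
  have := AnalyticAt.aeval_mvPolynomial (𝕜 := ℂ) (A := ℂ) (f := fun y : σ → ℂ => y) (z := x)
    (fun i => (ContinuousLinearMap.proj i : (σ → ℂ) →L[ℂ] ℂ).analyticAt x) P
  simpa [MvPolynomial.aeval_eq_eval] using this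

end Deriv

section Homog

variable {Q : MvPolynomial (Fin 4) ℂ} (hQ : Q.IsHomogeneous 4)

include hQ

lemma eval_smul (c : ℂ) (v : V) : eval (c • v) Q = c ^ 4 * eval v Q := by
  rw [MvPolynomial.IsHomogeneous] at hQ
  simp only [MvPolynomial.eval_eq, Finset.mul_sum]
  refine Finset.sum_congr rfl (fun d hd => ?_)
  have h1 : ∑ i ∈ d.support, d i = 4 := by
    have := hQ (MvPolynomial.mem_support_iff.1 hd)
    rw [Finsupp.weight_apply] at this
    simpa [Finsupp.sum] using this
  simp only [Pi.smul_apply, smul_eq_mul, mul_pow, Finset.prod_mul_distrib]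
  rw [Finset.prod_pow_eq_pow_sum, h1]
  ring


lemma totalDegree_le : Q.totalDegree ≤ 4 := hQ.totalDegree_le

lemma natDegree_lin_le (p u : V) : (lin Q p u).natDegree ≤ 4 := by
  have := MvPolynomial.aeval_natDegree_le (m := 4) (n := 1) Q hQ.totalDegree_le
    (fun i => Polynomial.C (u i) + Polynomial.C (p i) * Polynomial.X) (fun i => by
      refine (Polynomial.natDegree_add_le _ _).trans ?_
      simp only [Polynomial.natDegree_C, zero_le, sup_of_le_right]
      exact (Polynomial.natDegree_C_mul_le _ _).trans Polynomial.natDegree_X_le)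
  simpa [lin] using this

lemma lin_eq_reflect (p u : V) : lin Q p u = Polynomial.reflect 4 (lin Q u p) := by
  apply poly_ext
  intro c hc
  have hinv : Invertible (c⁻¹) := invertibleOfNonzero (inv_ne_zero hc)
  have h := Polynomial.eval₂_reflect_mul_pow (RingHom.id ℂ) (c⁻¹) 4 (lin Q u p)
    (natDegree_lin_le hQ u p)
  have h1 : ⅟(c⁻¹) = c := by simp
  rw [h1, Polynomial.eval₂_id, Polynomial.eval₂_id, eval_lin] at h
  rw [eval_lin]
  have h2 : u + c • p = c • (p + c⁻¹ • u) := by
    rw [smul_add, smul_smul, mul_inv_cancel₀ hc, one_smul, add_comm]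
  rw [h2, eval_smul hQ, ← h, mul_comm, mul_assoc, ← mul_pow, inv_mul_cancel₀ hc, one_pow, mul_one]

lemma coeff_lin_symm (p u : V) {j : ℕ} (hj : j ≤ 4) :
    (lin Q p u).coeff j = (lin Q u p).coeff (4 - j) := by
  rw [lin_eq_reflect hQ, Polynomial.coeff_reflect, Polynomial.revAt_le hj]

lemma coeff_lin_smul_right (p u : V) (m : ℂ) {j : ℕ} (hj : j ≤ 4) :
    (lin Q p (m • u)).coeff j = m ^ (4 - j) * (lin Q p u).coeff j := by
  rw [coeff_lin_symm hQ _ _ hj, coeff_lin_smul_left, coeff_lin_symm hQ p u hj]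

end Homog

lemma q4_eq (Q : MvPolynomial (Fin 4) ℂ) (p u : V) : q4 Q p u = eval u Q := by
  rw [q4, Polynomial.coeff_zero_eq_eval_zero, eval_lin]; simp

lemma derivative_lin (Q : MvPolynomial (Fin 4) ℂ) (p u : V) :
    Polynomial.derivative (lin Q p u) = ∑ i, Polynomial.C (p i) * lin (pderiv i Q) p u := by
  induction Q using MvPolynomial.induction_on with
  | C a => simp [lin, Polynomial.algebraMap_eq]
  | add P R hP hR =>
    have e1 : lin (P + R) p u = lin P p u + lin R p u := by simp [lin]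
    have e2 : ∀ i, lin (pderiv i (P + R)) p u = lin (pderiv i P) p u + lin (pderiv i R) p u := by
      intro i; simp [lin]
    simp only [e1, e2, Polynomial.derivative_add, hP, hR, mul_add, Finset.sum_add_distrib]
  | mul_X P i hP =>
    have e1 : lin (P * X i) p u =
        lin P p u * (Polynomial.C (u i) + Polynomial.C (p i) * Polynomial.X) := by simp [lin]
    have e2 : ∀ j, Polynomial.C (p j) * lin (pderiv j (P * X i)) p u =
        (if j = i then Polynomial.C (p i) * lin P p u else 0) +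
        Polynomial.C (p j) * lin (pderiv j P) p u *
          (Polynomial.C (u i) + Polynomial.C (p i) * Polynomial.X) := by
      intro j
      rw [Derivation.leibniz, pderiv_X]
      by_cases hj : j = i
      · subst hj; simp [lin]; ring
      · simp [hj, Pi.single_apply, Ne.symm hj, lin]; ring
    rw [Finset.sum_congr rfl (fun j _ => e2 j), Finset.sum_add_distrib, ← Finset.sum_mul, ← hP, e1,
      Polynomial.derivative_mul]
    simp
    ring

lemma q3_eq (Q : MvPolynomial (Fin 4) ℂ) (p u : V) : q3 Q p u = pair (H Q u) p := by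
  have h := congrArg (fun f => f.coeff 0) (derivative_lin Q p u)
  simp only [Polynomial.coeff_derivative, Polynomial.finset_sum_coeff, Polynomial.coeff_C_mul] at h
  rw [q3, pair]
  simp only [zero_add, Nat.cast_zero, mul_one] at h
  rw [h]
  refine Finset.sum_congr rfl (fun i _ => ?_)
  rw [Polynomial.coeff_zero_eq_eval_zero, eval_lin, H]
  simp [mul_comm]

section Homog2

variable {Q : MvPolynomial (Fin 4) ℂ} (hQ : Q.IsHomogeneous 4)

include hQ

lemma coeff3_eq (p u : V) : (lin Q p u).coeff 3 = pair (H Q p) u := by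
  rw [coeff_lin_symm hQ _ _ (by norm_num)]
  exact q3_eq Q u p

lemma coeff4_eq (p u : V) : (lin Q p u).coeff 4 = eval p Q := by
  rw [coeff_lin_symm hQ _ _ (le_refl _)]
  exact q4_eq Q u p

/-- the restriction of `Q` to the plane spanned by `p` and a tangent vector `u` -/
lemma lin_eq_quadratic {p u : V} (hp : eval p Q = 0) (hu : pair (H Q p) u = 0) :
    lin Q p u = Polynomial.C (q2 Q p u) * Polynomial.X ^ 2 + Polynomial.C (q3 Q p u) * Polynomial.X
      + Polynomial.C (q4 Q p u) := by
  ext j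
  have h3 := coeff3_eq hQ p u
  have h4 := coeff4_eq hQ p u
  rw [hu] at h3
  rw [hp] at h4
  by_cases hj : 4 < j
  · rw [Polynomial.coeff_eq_zero_of_natDegree_lt ((natDegree_lin_le hQ p u).trans_lt hj)]
    have a1 : j ≠ 2 := by omega
    have a2 : j ≠ 1 := by omega
    have a3 : j ≠ 0 := by omega
    simp [Polynomial.coeff_X_pow, Polynomial.coeff_X, Polynomial.coeff_C, a1, a2, a3, Ne.symm a2]
  · interval_cases j <;>
      simp [Polynomial.coeff_X_pow, Polynomial.coeff_X, Polynomial.coeff_C, q2, q3, q4, h3, h4]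

lemma eval_add_smul {p u : V} (hp : eval p Q = 0) (hu : pair (H Q p) u = 0) (c : ℂ) :
    eval (u + c • p) Q = c ^ 2 * q2 Q p u + c * q3 Q p u + q4 Q p u := by
  rw [← eval_lin, lin_eq_quadratic hQ hp hu]
  simp; ring

lemma lin_shift {p u : V} (hp : eval p Q = 0) (hu : pair (H Q p) u = 0) (m : ℂ) :
    lin Q p (u + m • p) = Polynomial.C (q2 Q p u) * Polynomial.X ^ 2 +
      Polynomial.C (2 * m * q2 Q p u + q3 Q p u) * Polynomial.X
      + Polynomial.C (m ^ 2 * q2 Q p u + m * q3 Q p u + q4 Q p u) := by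
  rw [lin_add_smul, lin_eq_quadratic hQ hp hu]
  simp only [Polynomial.add_comp, Polynomial.mul_comp, Polynomial.C_comp, Polynomial.X_comp,
    Polynomial.pow_comp, map_add, map_mul, map_pow, map_ofNat]
  ring

lemma q2_add_smul {p u : V} (hp : eval p Q = 0) (hu : pair (H Q p) u = 0) (m : ℂ) :
    q2 Q p (u + m • p) = q2 Q p u := by
  rw [q2, lin_shift hQ hp hu]
  simp [Polynomial.coeff_X, Polynomial.coeff_C, -map_add, -map_mul]

lemma q3_add_smul {p u : V} (hp : eval p Q = 0) (hu : pair (H Q p) u = 0) (m : ℂ) :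
    q3 Q p (u + m • p) = 2 * m * q2 Q p u + q3 Q p u := by
  rw [q3, lin_shift hQ hp hu]
  simp [Polynomial.coeff_X, Polynomial.coeff_C, Polynomial.coeff_X_pow, -map_add, -map_mul]

lemma q4_add_smul {p u : V} (hp : eval p Q = 0) (hu : pair (H Q p) u = 0) (m : ℂ) :
    q4 Q p (u + m • p) = m ^ 2 * q2 Q p u + m * q3 Q p u + q4 Q p u := by
  rw [q4, lin_shift hQ hp hu]
  simp [Polynomial.coeff_X, Polynomial.coeff_C, Polynomial.coeff_X_pow, -map_add, -map_mul]

lemma g6_add_smul {p u : V} (hp : eval p Q = 0) (hu : pair (H Q p) u = 0) (m : ℂ) :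
    g6 Q p (u + m • p) = g6 Q p u := by
  rw [g6, q2_add_smul hQ hp hu, q3_add_smul hQ hp hu, q4_add_smul hQ hp hu, g6]
  ring

lemma q2_smul_right (p u : V) (m : ℂ) : q2 Q p (m • u) = m ^ 2 * q2 Q p u :=
  coeff_lin_smul_right hQ p u m (by norm_num)

lemma q3_smul_right (p u : V) (m : ℂ) : q3 Q p (m • u) = m ^ 3 * q3 Q p u :=
  coeff_lin_smul_right hQ p u m (by norm_num)

lemma q4_smul_right (p u : V) (m : ℂ) : q4 Q p (m • u) = m ^ 4 * q4 Q p u :=
  coeff_lin_smul_right hQ p u m (by norm_num)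

lemma g6_smul_right (p u : V) (m : ℂ) : g6 Q p (m • u) = m ^ 6 * g6 Q p u := by
  rw [g6, q2_smul_right hQ, q3_smul_right hQ, q4_smul_right hQ, g6]; ring

/-- Euler -/
lemma pair_H_self (p : V) : pair (H Q p) p = 4 * eval p Q := by
  have h := congrArg (eval p) (hQ.sum_X_mul_pderiv)
  simp only [map_sum, map_mul, eval_X, map_nsmul, nsmul_eq_mul, Nat.cast_ofNat, map_ofNat] at h
  rw [pair, ← h]
  exact Finset.sum_congr rfl (fun i _ => by rw [H, mul_comm])

lemma H_smul (p : V) (m : ℂ) : H Q (m • p) = m ^ 3 • H Q p := by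
  ext i
  have h1 : pair (H Q (m • p)) (Pi.single i 1) = m ^ 3 * pair (H Q p) (Pi.single i 1) := by
    rw [← coeff3_eq hQ, ← coeff3_eq hQ, coeff_lin_smul_left]
  simpa using h1

end Homog2

lemma q2_smul_left (Q : MvPolynomial (Fin 4) ℂ) (p u : V) (m : ℂ) :
    q2 Q (m • p) u = m ^ 2 * q2 Q p u := coeff_lin_smul_left Q p u m 2

lemma q3_smul_left (Q : MvPolynomial (Fin 4) ℂ) (p u : V) (m : ℂ) :
    q3 Q (m • p) u = m * q3 Q p u := by
  simpa [q3] using coeff_lin_smul_left Q p u m 1

lemma q4_smul_left (Q : MvPolynomial (Fin 4) ℂ) (p u : V) (m : ℂ) :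
    q4 Q (m • p) u = q4 Q p u := by
  simpa [q4] using coeff_lin_smul_left Q p u m 0

lemma g6_smul_left (Q : MvPolynomial (Fin 4) ℂ) (p u : V) (m : ℂ) :
    g6 Q (m • p) u = m ^ 2 * g6 Q p u := by
  rw [g6, q2_smul_left, q3_smul_left, q4_smul_left, g6]; ring

/-! ### the gradient `K` -/

/-- the differential of `g6` in `u` -/
lemma hasFDerivAt_g6 (Q : MvPolynomial (Fin 4) ℂ) (p u : V) :
    HasFDerivAt (fun u : V => g6 Q p u)
      (∑ i, K Q p u i • (ContinuousLinearMap.proj i : V →L[ℂ] ℂ)) u := by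
  have h1 := (hasStrictFDerivAt_eval (g6U Q) (Sum.elim p u)).hasFDerivAt
  have h2 : HasFDerivAt (fun u : V => (Sum.elim p u : Fin 4 ⊕ Fin 4 → ℂ))
      (ContinuousLinearMap.pi (fun j => Sum.rec (fun _ => (0 : V →L[ℂ] ℂ))
        (fun i => (ContinuousLinearMap.proj i : V →L[ℂ] ℂ)) j)) u := by
    rw [hasFDerivAt_pi']
    intro j
    rcases j with j | j
    · simpa using hasFDerivAt_const (p j) u
    · exact ((ContinuousLinearMap.proj j : V →L[ℂ] ℂ)).hasFDerivAt (x := u)
  have h3 := h1.comp u h2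
  have h4 : (fun u : V => g6 Q p u) = (fun y => eval y (g6U Q)) ∘ (fun u : V => (Sum.elim p u)) := by
    ext u; simp [g6_eq_eval]
  rw [h4]
  refine h3.congr_fderiv ?_
  ext w
  simp [dP_apply, K, Fintype.sum_sum_type]

lemma fderiv_g6 (Q : MvPolynomial (Fin 4) ℂ) (p u w : V) :
    fderiv ℂ (fun u : V => g6 Q p u) u w = pair (K Q p u) w := by
  rw [(hasFDerivAt_g6 Q p u).fderiv]
  simp [pair]

/-- derivative of `g6` along a line -/
lemma hasDerivAt_g6_line (Q : MvPolynomial (Fin 4) ℂ) (p u w : V) (s : ℂ) :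
    HasDerivAt (fun s : ℂ => g6 Q p (u + s • w)) (pair (K Q p (u + s • w)) w) s := by
  have h1 : HasDerivAt (fun s : ℂ => u + s • w) w s := by
    simpa using ((hasDerivAt_id s).smul_const w).const_add u
  have h2 := (hasFDerivAt_g6 Q p (u + s • w)).comp_hasDerivAt s h1
  simpa [pair, Function.comp_def] using h2


lemma pair_ext {a b : V} (h : ∀ w, pair a w = pair b w) : a = b := by
  ext i
  simpa using h (Pi.single i 1)

lemma K_smul_left (Q : MvPolynomial (Fin 4) ℂ) (p u : V) (m : ℂ) :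
    K Q (m • p) u = m ^ 2 • K Q p u := by
  apply pair_ext
  intro w
  have h1 := hasDerivAt_g6_line Q (m • p) u w 0
  have h2 := (hasDerivAt_g6_line Q p u w 0).const_mul (m ^ 2)
  simp only [g6_smul_left] at h1
  have := h1.unique h2
  simpa [pair_smul_left] using this

section Homog3

variable {Q : MvPolynomial (Fin 4) ℂ} (hQ : Q.IsHomogeneous 4)

include hQ

lemma K_smul_right (p u : V) {m : ℂ} (hm : m ≠ 0) : K Q p (m • u) = m ^ 5 • K Q p u := by
  apply pair_ext
  intro w
  have h1 := hasDerivAt_g6_line Q p (m • u) (m • w) 0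
  have h2 := (hasDerivAt_g6_line Q p u w 0).const_mul (m ^ 6)
  have h3 : (fun s : ℂ => g6 Q p (m • u + s • m • w)) = fun s : ℂ => m ^ 6 * g6 Q p (u + s • w) := by
    ext s
    rw [← g6_smul_right hQ, smul_add, smul_comm]
  rw [h3] at h1
  have h4 := h1.unique h2
  rw [zero_smul, zero_smul, add_zero, add_zero, pair_smul_right] at h4
  rw [pair_smul_left]
  have : m * (pair (K Q p (m • u)) w - m ^ 5 * pair (K Q p u) w) = 0 := by linear_combination h4
  rcases mul_eq_zero.1 this with h | h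
  · exact absurd h hm
  · exact sub_eq_zero.1 h

/-- Euler for `g6` -/
lemma pair_K_self (p u : V) : pair (K Q p u) u = 6 * g6 Q p u := by
  have h1 := hasDerivAt_g6_line Q p u u 0
  have h3 : (fun s : ℂ => g6 Q p (u + s • u)) = fun s : ℂ => (1 + s) ^ 6 * g6 Q p u := by
    ext s
    rw [← g6_smul_right hQ, add_smul, one_smul]
  rw [h3] at h1
  have h2 : HasDerivAt (fun s : ℂ => (1 + s) ^ 6 * g6 Q p u) (6 * g6 Q p u) 0 := by
    have := (((hasDerivAt_id (0:ℂ)).const_add 1).pow 6).mul_const (g6 Q p u)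
    simpa using this
  have := h1.unique h2
  simpa using this

/-- `g6` does not depend on the representative mod `p` -/
lemma pair_K_base {p u : V} (hp : eval p Q = 0) (hu : pair (H Q p) u = 0) :
    pair (K Q p u) p = 0 := by
  have h1 := hasDerivAt_g6_line Q p u p 0
  have h3 : (fun s : ℂ => g6 Q p (u + s • p)) = fun _ : ℂ => g6 Q p u := by
    ext s
    rw [g6_add_smul hQ hp hu]
  rw [h3] at h1
  have := h1.unique (hasDerivAt_const (0:ℂ) (g6 Q p u))
  simpa using this

lemma pair_H_base {p : V} (hp : eval p Q = 0) : pair (H Q p) p = 0 := by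
  rw [pair_H_self hQ, hp, mul_zero]

/-- moving the representative changes `K` only by a multiple of `H` -/
lemma pair_K_shift {p u : V} (hp : eval p Q = 0) (hu : pair (H Q p) u = 0) (m : ℂ) {w : V}
    (hw : pair (H Q p) w = 0) : pair (K Q p (u + m • p)) w = pair (K Q p u) w := by
  have h1 := hasDerivAt_g6_line Q p (u + m • p) w 0
  have h2 := hasDerivAt_g6_line Q p u w 0
  have h3 : (fun s : ℂ => g6 Q p (u + m • p + s • w)) = fun s : ℂ => g6 Q p (u + s • w) := by
    ext s
    have hus : pair (H Q p) (u + s • w) = 0 := by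
      rw [pair_add_right, hu, pair_smul_right, hw]; ring
    rw [← g6_add_smul hQ hp hus m]
    congr 1
    abel
  rw [h3] at h1
  simpa using h1.unique h2

lemma inD_smul {p : V} {c : ℂ} (hc : c ≠ 0) (h : InD Q p) : InD Q (c • p) := by
  obtain ⟨u, hu, hu1, hu2, hu3⟩ := h
  refine ⟨u, fun d hd => hu (d * c) (by rw [hd, smul_smul]), ?_, ?_, ?_⟩
  · rw [H_smul hQ, pair_smul_left, hu1, mul_zero]
  · rw [g6_smul_left, hu2, mul_zero]
  · intro w hw
    rw [H_smul hQ, pair_smul_left] at hw
    have : pair (H Q p) w = 0 := (mul_eq_zero.1 hw).resolve_left (pow_ne_zero 3 hc)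
    rw [K_smul_left, pair_smul_left, hu3 w this, mul_zero]

end Homog3

/-! ### analyticity in `(p, u)` -/

lemma analyticAt_evalPU (P : MvPolynomial (Fin 4 ⊕ Fin 4) ℂ) (z : V × V) :
    AnalyticAt ℂ (fun z : V × V => eval (Sum.elim z.1 z.2) P) z := by
  have h1 := analyticAt_eval P (Sum.elim z.1 z.2)
  have h2 : AnalyticAt ℂ (fun z : V × V => (Sum.elim z.1 z.2 : Fin 4 ⊕ Fin 4 → ℂ)) z := by
    rw [analyticAt_pi_iff]
    intro j
    rcases j with j | j
    · exact (((ContinuousLinearMap.proj j : V →L[ℂ] ℂ)).comp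
        (ContinuousLinearMap.fst ℂ V V)).analyticAt z
    · exact (((ContinuousLinearMap.proj j : V →L[ℂ] ℂ)).comp
        (ContinuousLinearMap.snd ℂ V V)).analyticAt z
  exact AnalyticAt.comp' (g := fun y : Fin 4 ⊕ Fin 4 → ℂ => eval y P) h1 h2

lemma analyticAt_g6 (Q : MvPolynomial (Fin 4) ℂ) (z : V × V) :
    AnalyticAt ℂ (fun z : V × V => g6 Q z.1 z.2) z := by
  simpa only [g6_eq_eval] using analyticAt_evalPU (g6U Q) z

lemma analyticAt_K (Q : MvPolynomial (Fin 4) ℂ) (z : V × V) :
    AnalyticAt ℂ (fun z : V × V => K Q z.1 z.2) z := by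
  rw [analyticAt_pi_iff]
  intro i
  exact analyticAt_evalPU _ z

lemma analyticAt_q2 (Q : MvPolynomial (Fin 4) ℂ) (z : V × V) :
    AnalyticAt ℂ (fun z : V × V => q2 Q z.1 z.2) z := by
  simpa only [q2, coeff_lin] using analyticAt_evalPU _ z

lemma analyticAt_q3 (Q : MvPolynomial (Fin 4) ℂ) (z : V × V) :
    AnalyticAt ℂ (fun z : V × V => q3 Q z.1 z.2) z := by
  simpa only [q3, coeff_lin] using analyticAt_evalPU _ z

lemma analyticAt_q4 (Q : MvPolynomial (Fin 4) ℂ) (z : V × V) :
    AnalyticAt ℂ (fun z : V × V => q4 Q z.1 z.2) z := by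
  simpa only [q4, coeff_lin] using analyticAt_evalPU _ z

lemma analyticAt_H (Q : MvPolynomial (Fin 4) ℂ) (p : V) : AnalyticAt ℂ (fun p : V => H Q p) p := by
  rw [analyticAt_pi_iff]
  intro i
  exact analyticAt_eval _ p

lemma hasStrictFDerivAt_Q (Q : MvPolynomial (Fin 4) ℂ) (p : V) :
    HasStrictFDerivAt (fun p : V => eval p Q) (dP Q p) p := hasStrictFDerivAt_eval Q p

lemma dP_eq_pair (Q : MvPolynomial (Fin 4) ℂ) (p w : V) : dP Q p w = pair (H Q p) w := by
  rw [dP_apply]; rfl

lemma analyticAt_pair {E : Type*} [NormedAddCommGroup E] [NormedSpace ℂ E] {f g : E → V} {z : E}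
    (hf : AnalyticAt ℂ f z) (hg : AnalyticAt ℂ g z) :
    AnalyticAt ℂ (fun z => pair (f z) (g z)) z := by
  unfold pair
  rw [analyticAt_pi_iff] at hf hg
  exact Finset.analyticAt_fun_sum _ (fun i _ => (hf i).mul (hg i))

end Crest.Agent.R279.G6
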