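import Crest.Agent.R279.AlgDefs149
import Crest.Agent.R279.G6Defs855

/-!
# R279: helper855's definitions (`G6Defs855`) agree with `AlgDefs149`
-/

set_option autoImplicit false

namespace Crest.Agent.R279

open MvPolynomial

variable {Q : MvPolynomial (Fin 4) ℂ}

theorem g6_pair_H (hQ : Q.IsHomogeneous 4) (p u : Fin 4 → ℂ) :
    G6.pair (G6.H Q p) u = q1 Q p u := by
  rw [q1_eq hQ]; rfl

theorem g6_lin_eq (hQ : Q.IsHomogeneous 4) (p u : Fin 4 → ℂ) :
    G6.lin Q p u = Polynomial.C (eval p Q) * Polynomial.X ^ 4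
      + Polynomial.C (q1 Q p u) * Polynomial.X ^ 3
      + Polynomial.C (q2 Q p u) * Polynomial.X ^ 2
      + Polynomial.C (q3 Q p u) * Polynomial.X + Polynomial.C (q4 Q u) := by
  apply Polynomial.funext
  intro c
  have h := eval_comb hQ p u c 1
  rw [one_smul, add_comm (c • p) u] at h
  rw [G6.eval_lin, h]
  simp only [Polynomial.eval_add, Polynomial.eval_mul, Polynomial.eval_C, Polynomial.eval_pow,
    Polynomial.eval_X]
  ring

theorem G6_q2 (hQ : Q.IsHomogeneous 4) (p u : Fin 4 → ℂ) : G6.q2 Q p u = q2 Q p u := by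
  rw [G6.q2, g6_lin_eq hQ]
  simp [Polynomial.coeff_X, Polynomial.coeff_C, Polynomial.coeff_X_pow]

theorem G6_q3 (hQ : Q.IsHomogeneous 4) (p u : Fin 4 → ℂ) : G6.q3 Q p u = q3 Q p u := by
  rw [G6.q3, g6_lin_eq hQ]
  simp [Polynomial.coeff_X, Polynomial.coeff_C, Polynomial.coeff_X_pow]

theorem G6_q4 (hQ : Q.IsHomogeneous 4) (p u : Fin 4 → ℂ) : G6.q4 Q p u = q4 Q u := by
  rw [G6.q4, g6_lin_eq hQ]
  simp [Polynomial.coeff_X, Polynomial.coeff_C, Polynomial.coeff_X_pow]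

theorem G6_g6 (hQ : Q.IsHomogeneous 4) (p u : Fin 4 → ℂ) : G6.g6 Q p u = g6 Q p u := by
  rw [G6.g6, g6, G6_q2 hQ, G6_q3 hQ, G6_q4 hQ]

theorem G6_K (hQ : Q.IsHomogeneous 4) (p u w : Fin 4 → ℂ) :
    G6.pair (G6.K Q p u) w = dg6 Q p u w := by
  have h1 := G6.hasDerivAt_g6_line Q p u w 0
  have h2 := hasDerivAt_g6 (Q := Q) p u w
  have h3 : (fun t : ℂ => G6.g6 Q p (u + t • w)) = fun t : ℂ => g6 Q p (u + t • w) := by
    funext t; rw [G6_g6 hQ]
  rw [h3] at h1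
  have h4 := h1.unique h2
  simpa using h4

theorem G6_inD_iff (hQ : Q.IsHomogeneous 4) {p : Fin 4 → ℂ} (hp : p ≠ 0) :
    G6.InD Q p ↔ InD Q p := by
  constructor
  · rintro ⟨u, hu, h1, h2, h3⟩
    refine ⟨u, ?_, ?_, ?_, ?_⟩
    · rw [mem_Tg, ← g6_pair_H hQ]; exact h1
    · rw [LinearIndependent.pair_iff]
      intro s t hst
      have ht : t = 0 := by
        by_contra ht
        apply hu (-(t⁻¹ * s))
        have h5 : t • u = -(s • p) := by
          rw [eq_neg_iff_add_eq_zero, add_comm]; exact hst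
        calc u = t⁻¹ • (t • u) := by rw [smul_smul, inv_mul_cancel₀ ht, one_smul]
          _ = -(t⁻¹ * s) • p := by rw [h5, smul_neg, smul_smul, neg_smul]
      refine ⟨?_, ht⟩
      rw [ht, zero_smul, add_zero] at hst
      exact (smul_eq_zero.mp hst).resolve_right hp
    · rw [← G6_g6 hQ]; exact h2
    · intro w hw
      rw [← G6_K hQ]
      apply h3
      rw [g6_pair_H hQ]; exact hw
  · rintro ⟨u, h0, h1, h2, h3⟩
    refine ⟨u, ?_, ?_, ?_, ?_⟩
    · rintro c rfl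
      rw [LinearIndependent.pair_iff] at h1
      have := (h1 c (-1) (by simp)).2
      simp at this
    · rw [g6_pair_H hQ]; exact h0
    · rw [G6_g6 hQ]; exact h2
    · intro w hw
      rw [G6_K hQ]
      apply h3
      rw [mem_Tg, ← g6_pair_H hQ]; exact hw

theorem mem_DD_iff_G6 (hQ : Q.IsHomogeneous 4) (p : Fin 4 → ℂ) :
    p ∈ DD Q ↔ (p ≠ 0 ∧ eval p Q = 0) ∧ G6.InD Q p := by
  constructor
  · rintro ⟨h1, h2⟩; exact ⟨h1, (G6_inD_iff hQ h1.1).2 h2⟩
  · rintro ⟨h1, h2⟩; exact ⟨h1, (G6_inD_iff hQ h1.1).1 h2⟩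

end Crest.Agent.R279
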