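import Crest.Agent.R279.AlgDefs149
import Crest.Agent.R279.Alg712Defs

/-!
# R279, M14 (helper28): the line lemma

If `X` is a holomorphic map into `{Q = 0}` and `v` is holomorphic with
`v = s X + dX ξ`, `dv ξ = 0` (for some `s`, `ξ` at every point), then `Q (a X + b v) = 0`.
-/

set_option autoImplicit false

namespace Crest.Agent.R279.Gen

open MvPolynomial Set Filter Topology

variable {Q : MvPolynomial (Fin 4) ℂ}

theorem hasDerivAt_tens {a b c d : ℂ → Fin 4 → ℂ} {a' b' c' d' : Fin 4 → ℂ} {t : ℂ}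
    (ha : HasDerivAt a a' t) (hb : HasDerivAt b b' t) (hc : HasDerivAt c c' t)
    (hd : HasDerivAt d d' t) :
    HasDerivAt (fun s => tens Q (a s) (b s) (c s) (d s))
      (tens Q a' (b t) (c t) (d t) + tens Q (a t) b' (c t) (d t) + tens Q (a t) (b t) c' (d t)
        + tens Q (a t) (b t) (c t) d') t := by
  have ha1 := hasDerivAt_pi.mp ha
  have hb1 := hasDerivAt_pi.mp hb
  have hc1 := hasDerivAt_pi.mp hc
  have hd1 := hasDerivAt_pi.mp hd
  have key : HasDerivAt (fun s => tens Q (a s) (b s) (c s) (d s))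
      (∑ i, ∑ j, ∑ k, ∑ l, tcoef Q i j k l *
        (((a' i * b t j + a t i * b' j) * c t k + a t i * b t j * c' k) * d t l +
          a t i * b t j * c t k * d' l)) t := by
    unfold tens
    refine HasDerivAt.fun_sum fun i _ => HasDerivAt.fun_sum fun j _ =>
      HasDerivAt.fun_sum fun k _ => HasDerivAt.fun_sum fun l _ => ?_
    exact ((((ha1 i).mul (hb1 j)).mul (hc1 k)).mul (hd1 l)).const_mul _
  convert key using 1
  simp only [tens, ← Finset.sum_add_distrib]
  refine Finset.sum_congr rfl fun i _ => Finset.sum_congr rfl fun j _ =>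
    Finset.sum_congr rfl fun k _ => Finset.sum_congr rfl fun l _ => ?_
  ring

section

variable {E F : Type*} [NormedAddCommGroup E] [NormedSpace ℂ E]
  [NormedAddCommGroup F] [NormedSpace ℂ F]

theorem hasDerivAt_line (z ξ : E) : HasDerivAt (fun t : ℂ => z + t • ξ) ξ 0 := by
  simpa using ((hasDerivAt_id (0 : ℂ)).smul_const ξ).const_add z

theorem hasDerivAt_comp_line {X : E → F} {z : E} (ξ : E) (h : DifferentiableAt ℂ X z) :
    HasDerivAt (fun t : ℂ => X (z + t • ξ)) (fderiv ℂ X z ξ) 0 := by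
  have h2 : HasFDerivAt X (fderiv ℂ X z) (z + (0 : ℂ) • ξ) := by simpa using h.hasFDerivAt
  exact h2.comp_hasDerivAt (0 : ℂ) (hasDerivAt_line z ξ)

/-- derivative zero if the function vanishes near the point -/
theorem deriv_eq_zero_of_eventually {f : E → F} {z ξ : E} {D : F}
    (h0 : ∀ᶠ y in 𝓝 z, f y = 0) (h : HasDerivAt (fun t : ℂ => f (z + t • ξ)) D 0) : D = 0 := by
  have hc : Tendsto (fun t : ℂ => z + t • ξ) (𝓝 0) (𝓝 z) := by
    have := (hasDerivAt_line z ξ).continuousAt.tendsto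
    simpa using this
  have h1 : (fun t : ℂ => f (z + t • ξ)) =ᶠ[𝓝 0] fun _ => 0 := hc.eventually h0
  exact h.unique ((hasDerivAt_const (0 : ℂ) (0 : F)).congr_of_eventuallyEq h1)

/-- **Line lemma.** -/
theorem line_lemma (hQ : Q.IsHomogeneous 4) {W : Set E} (hW : IsOpen W)
    {X v : E → Fin 4 → ℂ} (hX : DifferentiableOn ℂ X W) (hv : DifferentiableOn ℂ v W)
    (h0 : ∀ z ∈ W, eval (X z) Q = 0)
    (hξ : ∀ z ∈ W, ∃ s : ℂ, ∃ ξ : E, v z = s • X z + fderiv ℂ X z ξ ∧ fderiv ℂ v z ξ = 0) :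
    ∀ z ∈ W, ∀ a b : ℂ, eval (a • X z + b • v z) Q = 0 := by
  -- the four coefficients
  have A0 : ∀ z ∈ W, tens Q (X z) (X z) (X z) (X z) = 0 := fun z hz => by
    rw [← eval_eq_tens hQ]; exact h0 z hz
  have main : ∀ z ∈ W, ∃ s : ℂ, ∃ ξ : E,
      HasDerivAt (fun t : ℂ => X (z + t • ξ)) (v z - s • X z) 0 ∧
      HasDerivAt (fun t : ℂ => v (z + t • ξ)) 0 0 := by
    intro z hz
    obtain ⟨s, ξ, h1, h2⟩ := hξ z hz
    refine ⟨s, ξ, ?_, ?_⟩
    · have := hasDerivAt_comp_line ξ (hX.differentiableAt (hW.mem_nhds hz))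
      rwa [show fderiv ℂ X z ξ = v z - s • X z by rw [h1]; abel] at this
    · have := hasDerivAt_comp_line ξ (hv.differentiableAt (hW.mem_nhds hz))
      rwa [h2] at this
  have A1 : ∀ z ∈ W, tens Q (X z) (X z) (X z) (v z) = 0 := by
    intro z hz
    obtain ⟨s, ξ, hX', hv'⟩ := main z hz
    have h := hasDerivAt_tens (Q := Q) hX' hX' hX' hX'
    have h1 := deriv_eq_zero_of_eventually (f := fun y => tens Q (X y) (X y) (X y) (X y))
      ((hW.eventually_mem hz).mono A0) h
    simp only [zero_smul, add_zero, tens_sub1, tens_sub2, tens_sub3, tens_sub4, tens_smul1,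
      tens_smul2, tens_smul3, tens_smul4, A0 z hz, mul_zero, sub_zero] at h1
    rw [tens_swap14 Q (v z), tens_swap24 Q (X z) (v z), tens_swap34 Q (X z) (X z) (v z)] at h1
    linear_combination (1 / 4) * h1
  have A2 : ∀ z ∈ W, tens Q (X z) (X z) (v z) (v z) = 0 := by
    intro z hz
    obtain ⟨s, ξ, hX', hv'⟩ := main z hz
    have h := hasDerivAt_tens (Q := Q) hX' hX' hX' hv'
    have h1 := deriv_eq_zero_of_eventually (f := fun y => tens Q (X y) (X y) (X y) (v y))
      ((hW.eventually_mem hz).mono A1) h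
    simp only [zero_smul, add_zero, tens_sub1, tens_sub2, tens_sub3, tens_sub4, tens_smul1,
      tens_smul2, tens_smul3, tens_smul4, A1 z hz, mul_zero, sub_zero, tens_zero4] at h1
    rw [tens_swap13 Q (v z), tens_swap23 Q (X z) (v z) (X z)] at h1
    linear_combination (1 / 3) * h1
  have A3 : ∀ z ∈ W, tens Q (X z) (v z) (v z) (v z) = 0 := by
    intro z hz
    obtain ⟨s, ξ, hX', hv'⟩ := main z hz
    have h := hasDerivAt_tens (Q := Q) hX' hX' hv' hv'
    have h1 := deriv_eq_zero_of_eventually (f := fun y => tens Q (X y) (X y) (v y) (v y))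
      ((hW.eventually_mem hz).mono A2) h
    simp only [zero_smul, add_zero, tens_sub1, tens_sub2, tens_sub3, tens_sub4, tens_smul1,
      tens_smul2, tens_smul3, tens_smul4, A2 z hz, mul_zero, sub_zero, tens_zero4, tens_zero3] at h1
    rw [tens_swap12 Q (v z)] at h1
    linear_combination (1 / 2) * h1
  have A4 : ∀ z ∈ W, tens Q (v z) (v z) (v z) (v z) = 0 := by
    intro z hz
    obtain ⟨s, ξ, hX', hv'⟩ := main z hz
    have h := hasDerivAt_tens (Q := Q) hX' hv' hv' hv'
    have h1 := deriv_eq_zero_of_eventually (f := fun y => tens Q (X y) (v y) (v y) (v y))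
      ((hW.eventually_mem hz).mono A3) h
    simpa only [zero_smul, add_zero, tens_sub1, tens_sub2, tens_sub3, tens_sub4, tens_smul1,
      tens_smul2, tens_smul3, tens_smul4, A3 z hz, mul_zero, sub_zero, tens_zero4, tens_zero3,
      tens_zero2] using h1
  intro z hz a b
  rw [eval_eq_tens hQ, tens_comb]
  simp only [q1, q2, q3, q4, A0 z hz, A1 z hz, A2 z hz, A3 z hz, A4 z hz, mul_zero, add_zero]

end

end Crest.Agent.R279.Gen
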