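import Crest.Agent.R279.GenDefs28
import Crest.Agent.R279.Line28
import Crest.Agent.R279.Alg712Rig

/-!
# R279, M14 (helper28): `⟨H(x), p⟩ ≠ 0` and independence of `H(p), H(p'), H(x)` at some point of
every chart
-/

set_option autoImplicit false

namespace Crest.Agent.R279.Gen

open MvPolynomial Set Filter Topology Metric

variable {Q : MvPolynomial (Fin 4) ℂ}

/-- `u ↦ ⟨H(p), u⟩` as a linear functional. -/
noncomputable def q1L (Q : MvPolynomial (Fin 4) ℂ) (p : Fin 4 → ℂ) : (Fin 4 → ℂ) →ₗ[ℂ] ℂ where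
  toFun := q1 Q p
  map_add' := fun a b => by simp only [q1, tens_add4]; ring
  map_smul' := fun t a => by simp only [q1, tens_smul4, smul_eq_mul, RingHom.id_apply]; ring

@[simp] theorem q1L_apply (p u : Fin 4 → ℂ) : q1L Q p u = q1 Q p u := rfl

theorem q1_add (p u v : Fin 4 → ℂ) : q1 Q p (u + v) = q1 Q p u + q1 Q p v := (q1L Q p).map_add u v
theorem q1_smul (p u : Fin 4 → ℂ) (t : ℂ) : q1 Q p (t • u) = t * q1 Q p u :=
  (q1L Q p).map_smul t u

theorem q1_eq_pr (hQ : Q.IsHomogeneous 4) (p u : Fin 4 → ℂ) :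
    q1 Q p u = EllAlg.pr (EllAlg.grad Q p) u := q1_eq hQ p u

theorem q1L_ne_zero (hQ : Alg.SmoothQuartic Q) {p : Fin 4 → ℂ} (hp : p ≠ 0)
    (h0 : eval p Q = 0) : q1L Q p ≠ 0 := by
  obtain ⟨i, hi⟩ := hQ.smooth p hp h0
  intro h
  apply hi
  have h1 : q1 Q p (Pi.single i 1) = 0 := by rw [← q1L_apply, h]; rfl
  rw [q1_eq hQ.hom, Finset.sum_eq_single i] at h1
  · simpa using h1
  · intro b _ hb; simp [hb]
  · simp

theorem finrank_ker_q1L (hQ : Alg.SmoothQuartic Q) {p : Fin 4 → ℂ} (hp : p ≠ 0)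
    (h0 : eval p Q = 0) : Module.finrank ℂ (LinearMap.ker (q1L Q p)) = 3 := by
  have h := Module.Dual.finrank_ker_add_one_of_ne_zero (q1L_ne_zero hQ hp h0)
  rw [Module.finrank_fintype_fun_eq_card, Fintype.card_fin] at h
  omega

section chart

variable {W : Set (ℂ × ℂ)} {X : ℂ × ℂ → Fin 4 → ℂ}

theorem chart_ne_zero (hC : Alg.IsChart Q W X) {z : ℂ × ℂ} (hz : z ∈ W) : X z ≠ 0 :=
  (hC.indep z hz).ne_zero 0

theorem chart_tangent (hQ : Alg.SmoothQuartic Q) (hC : Alg.IsChart Q W X) {z : ℂ × ℂ}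
    (hz : z ∈ W) (ξ : ℂ × ℂ) : q1 Q (X z) (fderiv ℂ X z ξ) = 0 := by
  have hX := hasDerivAt_comp_line ξ (hC.diff.differentiableAt (hC.isOpen.mem_nhds hz))
  have h := hasDerivAt_tens (Q := Q) hX hX hX hX
  have h1 := deriv_eq_zero_of_eventually (f := fun y => tens Q (X y) (X y) (X y) (X y))
    ((hC.isOpen.eventually_mem hz).mono fun y hy => by
      rw [← eval_eq_tens hQ.hom]; exact hC.zero y hy) h
  simp only [zero_smul, add_zero] at h1
  rw [tens_swap14 Q (fderiv ℂ X z ξ), tens_swap24 Q (X z) (fderiv ℂ X z ξ),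
    tens_swap34 Q (X z) (X z) (fderiv ℂ X z ξ)] at h1
  rw [q1]
  linear_combination h1

/-- `T_X = span (X, ∂₁X, ∂₂X)` -/
theorem exists_coord_chart (hQ : Alg.SmoothQuartic Q) (hC : Alg.IsChart Q W X) {z : ℂ × ℂ}
    (hz : z ∈ W) {v : Fin 4 → ℂ} (hv : q1 Q (X z) v = 0) :
    ∃ (s : ℂ) (ξ : ℂ × ℂ), v = s • X z + fderiv ℂ X z ξ := by
  set w : Fin 3 → Fin 4 → ℂ := ![X z, fderiv ℂ X z (1, 0), fderiv ℂ X z (0, 1)] with hw
  have hind : LinearIndependent ℂ w := hC.indep z hz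
  have hle : Submodule.span ℂ (range w) ≤ LinearMap.ker (q1L Q (X z)) := by
    rw [Submodule.span_le]
    rintro _ ⟨i, rfl⟩
    fin_cases i
    · change q1 Q (X z) (X z) = 0
      rw [q1_self hQ.hom, hC.zero z hz, mul_zero]
    · exact chart_tangent hQ hC hz (1, 0)
    · exact chart_tangent hQ hC hz (0, 1)
  have heq : Submodule.span ℂ (range w) = LinearMap.ker (q1L Q (X z)) := by
    apply Submodule.eq_of_le_of_finrank_eq hle
    rw [finrank_span_eq_card hind, finrank_ker_q1L hQ (chart_ne_zero hC hz) (hC.zero z hz)]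
    rfl
  have hmem : v ∈ Submodule.span ℂ (range w) := by rw [heq]; exact hv
  obtain ⟨c, hc⟩ := (Submodule.mem_span_range_iff_exists_fun ℂ).mp hmem
  refine ⟨c 0, (c 1, c 2), ?_⟩
  have h2 : fderiv ℂ X z (c 1, c 2) =
      c 1 • fderiv ℂ X z (1, 0) + c 2 • fderiv ℂ X z (0, 1) := by
    rw [← map_smul, ← map_smul, ← map_add]
    simp
  rw [h2, ← hc, Fin.sum_univ_three]
  simp only [hw, Matrix.cons_val_zero, Matrix.cons_val_one, Matrix.cons_val]
  abel

/-- restriction of a chart -/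
theorem chart_mono (hC : Alg.IsChart Q W X) {W' : Set (ℂ × ℂ)} (hW' : IsOpen W')
    (h : W' ⊆ W) : Alg.IsChart Q W' X :=
  ⟨hW', hC.diff.mono h, fun z hz => hC.zero z (h hz), fun z hz => hC.indep z (h hz)⟩

/-- A branch over the chart. -/
structure ChartBranch (Q : MvPolynomial (Fin 4) ℂ) (W : Set (ℂ × ℂ)) (X : ℂ × ℂ → Fin 4 → ℂ)
    (b : ℂ → Fin 4 → ℂ) (γ : ℂ × ℂ → ℂ) : Prop where
  diff_b : DifferentiableOn ℂ b (ball 0 1)
  mem_b : ∀ c ∈ ball (0 : ℂ) 1, b c ≠ 0 ∧ eval (b c) Q = 0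
  diff : DifferentiableOn ℂ γ W
  maps : MapsTo γ W (ball 0 1)
  zero : ∀ z ∈ W, q1 Q (b (γ z)) (X z) = 0
  trans : ∀ z ∈ W, deriv (fun c => q1 Q (b c) (X z)) (γ z) ≠ 0

variable {b b' : ℂ → Fin 4 → ℂ} {γ γ' : ℂ × ℂ → ℂ}

theorem ChartBranch.mono (h : ChartBranch Q W X b γ) {W' : Set (ℂ × ℂ)} (h' : W' ⊆ W) :
    ChartBranch Q W' X b γ :=
  ⟨h.diff_b, h.mem_b, h.diff.mono h', h.maps.mono_left h', fun z hz => h.zero z (h' hz),
    fun z hz => h.trans z (h' hz)⟩

theorem ChartBranch.hasDerivAt_comp (hC : Alg.IsChart Q W X) (h : ChartBranch Q W X b γ)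
    {z : ℂ × ℂ} (hz : z ∈ W) (ξ : ℂ × ℂ) :
    HasDerivAt (fun t : ℂ => b (γ (z + t • ξ))) (fderiv ℂ γ z ξ • deriv b (γ z)) 0 := by
  have h1 := hasDerivAt_comp_line ξ (h.diff.differentiableAt (hC.isOpen.mem_nhds hz))
  have h2 : HasDerivAt b (deriv b (γ z)) (γ (z + (0 : ℂ) • ξ)) := by
    simpa using (h.diff_b.differentiableAt (isOpen_ball.mem_nhds (h.maps hz))).hasDerivAt
  exact h2.scomp (0 : ℂ) h1

/-- if `dX ξ` is tangent to the plane `T_p` then the branch does not move in the direction `ξ` -/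
theorem ChartBranch.fderiv_eq_zero (hC : Alg.IsChart Q W X)
    (h : ChartBranch Q W X b γ) {z : ℂ × ℂ} (hz : z ∈ W) {ξ : ℂ × ℂ}
    (hξ : q1 Q (b (γ z)) (fderiv ℂ X z ξ) = 0) : fderiv ℂ γ z ξ = 0 := by
  have hX := hasDerivAt_comp_line ξ (hC.diff.differentiableAt (hC.isOpen.mem_nhds hz))
  have hb := h.hasDerivAt_comp hC hz ξ
  have h1 := hasDerivAt_tens (Q := Q) hb hb hb hX
  have h2 := deriv_eq_zero_of_eventually
    (f := fun y => tens Q (b (γ y)) (b (γ y)) (b (γ y)) (X y))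
    ((hC.isOpen.eventually_mem hz).mono fun y hy => by
      have := h.zero y hy; rw [q1] at this; simpa using this) h1
  have h3 : HasDerivAt (fun c => q1 Q (b c) (X z)) (4 * (tens Q (deriv b (γ z)) (b (γ z)) (b (γ z))
      (X z) + tens Q (b (γ z)) (deriv b (γ z)) (b (γ z)) (X z) + tens Q (b (γ z)) (b (γ z))
      (deriv b (γ z)) (X z) + tens Q (b (γ z)) (b (γ z)) (b (γ z)) 0)) (γ z) := by
    have h4 := (h.diff_b.differentiableAt (isOpen_ball.mem_nhds (h.maps hz))).hasDerivAt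
    exact (hasDerivAt_tens (Q := Q) h4 h4 h4 (hasDerivAt_const (γ z) (X z))).const_mul 4
  have h5 := h.trans z hz
  rw [h3.deriv] at h5
  simp only [zero_smul, add_zero, tens_smul1, tens_smul2, tens_smul3] at h2
  rw [q1] at hξ
  have h6 : fderiv ℂ γ z ξ * (4 * (tens Q (deriv b (γ z)) (b (γ z)) (b (γ z))
      (X z) + tens Q (b (γ z)) (deriv b (γ z)) (b (γ z)) (X z) + tens Q (b (γ z)) (b (γ z))
      (deriv b (γ z)) (X z) + tens Q (b (γ z)) (b (γ z)) (b (γ z)) 0)) = 0 := by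
    rw [tens_zero4]
    linear_combination 4 * h2 - hξ
  exact (mul_eq_zero.mp h6).resolve_right h5

theorem ChartBranch.diff_comp (h : ChartBranch Q W X b γ) :
    DifferentiableOn ℂ (fun z => b (γ z)) W := h.diff_b.comp h.diff h.maps

theorem ChartBranch.fderiv_comp (hC : Alg.IsChart Q W X)
    (h : ChartBranch Q W X b γ) {z : ℂ × ℂ} (hz : z ∈ W) {ξ : ℂ × ℂ}
    (hξ : fderiv ℂ γ z ξ = 0) : fderiv ℂ (fun z => b (γ z)) z ξ = 0 := by
  have h1 := h.hasDerivAt_comp hC hz ξ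
  have h2 := hasDerivAt_comp_line ξ
    (h.diff_comp.differentiableAt (hC.isOpen.mem_nhds hz))
  rw [h2.unique h1, hξ, zero_smul]

/-- a nonzero direction in the kernel of a functional on `ℂ × ℂ` -/
theorem exists_ker_dir (L : ℂ × ℂ →L[ℂ] ℂ) : ∃ ξ : ℂ × ℂ, ξ ≠ 0 ∧ L ξ = 0 := by
  have hL : ∀ a b : ℂ, L (a, b) = a * L (1, 0) + b * L (0, 1) := by
    intro a b
    have : ((a, b) : ℂ × ℂ) = a • ((1, 0) : ℂ × ℂ) + b • ((0, 1) : ℂ × ℂ) := by simp
    rw [this, map_add, map_smul, map_smul, smul_eq_mul, smul_eq_mul]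
  by_cases h : L (0, 1) = 0
  · exact ⟨(0, 1), by simp, h⟩
  · refine ⟨(L (0, 1), -L (1, 0)), ?_, ?_⟩
    · simp [Prod.ext_iff, h]
    · rw [hL]; ring

/-- two parallel vectors, one of them nonzero -/
theorem exists_smul_of_not_indep {u v : Fin 4 → ℂ} (hv : v ≠ 0)
    (h : ¬ LinearIndependent ℂ ![v, u]) : ∃ c : ℂ, u = c • v := by
  rw [LinearIndependent.pair_iff' hv] at h
  push Not at h
  obtain ⟨a, ha⟩ := h
  exact ⟨a, ha.symm⟩

/-- openness of independence of two holomorphic vectors -/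
theorem isOpen_indep (hW : IsOpen W) {u v : ℂ × ℂ → Fin 4 → ℂ} (hu : ContinuousOn u W)
    (hv : ContinuousOn v W) : IsOpen {z | z ∈ W ∧ LinearIndependent ℂ ![u z, v z]} := by
  have h1 : IsOpen {w : (Fin 2 → Fin 4 → ℂ) | LinearIndependent ℂ w} :=
    isOpen_setOfPred_linearIndependent
  have h2 : ContinuousOn (fun z => (![u z, v z] : Fin 2 → Fin 4 → ℂ)) W := by
    rw [continuousOn_pi]
    intro i
    fin_cases i
    · exact hu
    · exact hv
  exact h2.isOpen_inter_preimage hW h1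

/-- **A10 (ii)**: `⟨H(x), p⟩` is not identically zero. -/
theorem exists_trans (hQ : Alg.SmoothQuartic Q) (hC : Alg.IsChart Q W X)
    (hne : W.Nonempty) (h : ChartBranch Q W X b γ) : ∃ z ∈ W, q1 Q (X z) (b (γ z)) ≠ 0 := by
  by_contra hcon
  push Not at hcon
  -- the line lemma for `v = b ∘ γ`
  have hline : ∀ z ∈ W, ∀ s t : ℂ, eval (s • X z + t • b (γ z)) Q = 0 := by
    refine line_lemma (v := fun z => b (γ z)) hQ.hom hC.isOpen hC.diff h.diff_comp hC.zero ?_
    intro z hz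
    obtain ⟨s, ξ, hs⟩ := exists_coord_chart hQ hC hz (hcon z hz)
    refine ⟨s, ξ, hs, h.fderiv_comp hC hz (h.fderiv_eq_zero hC hz ?_)⟩
    have h1 : q1 Q (b (γ z)) (b (γ z)) = 0 := by
      rw [q1_self hQ.hom, (h.mem_b _ (h.maps hz)).2, mul_zero]
    rw [show fderiv ℂ X z ξ = b (γ z) + (-s) • X z by rw [hs]; module, q1_add, q1_smul, h1,
      h.zero z hz, mul_zero, add_zero]
  -- the open set where the two points are different is empty
  have hpar : ∀ z ∈ W, ¬ LinearIndependent ℂ ![X z, b (γ z)] := by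
    intro z hz hind
    have ho := isOpen_indep hC.isOpen hC.diff.continuousOn h.diff_comp.continuousOn
    exact Alg.no_line_family hQ (chart_mono hC ho fun z hz => hz.1) ⟨z, hz, hind⟩
      (u := fun z => b (γ z)) (h.diff_comp.mono fun z hz => hz.1)
      fun z' hz' => ⟨hz'.2, hline z' hz'.1⟩
  -- rank
  obtain ⟨z, hz⟩ := hne
  obtain ⟨ξ, hξ0, hξ⟩ := exists_ker_dir (fderiv ℂ γ z)
  have hXne := chart_ne_zero hC hz
  have hbne := (h.mem_b _ (h.maps hz)).1
  have hv := h.hasDerivAt_comp hC hz ξ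
  rw [hξ, zero_smul] at hv
  have hX := hasDerivAt_comp_line ξ (hC.diff.differentiableAt (hC.isOpen.mem_nhds hz))
  have hv' := hasDerivAt_pi.mp hv
  have hX' := hasDerivAt_pi.mp hX
  have hwedge : ∀ i j : Fin 4, fderiv ℂ X z ξ i * b (γ z) j = fderiv ℂ X z ξ j * b (γ z) i := by
    intro i j
    have hd := ((hX' i).mul (hv' j)).sub ((hX' j).mul (hv' i))
    have h0 := deriv_eq_zero_of_eventually
      (f := fun y => X y i * b (γ y) j - X y j * b (γ y) i) ?_ hd
    · simp only [zero_smul, add_zero, Pi.zero_apply, mul_zero] at h0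
      linear_combination h0
    · refine (hC.isOpen.eventually_mem hz).mono fun y hy => ?_
      obtain ⟨c, hc⟩ := exists_smul_of_not_indep (chart_ne_zero hC hy) (hpar y hy)
      rw [hc]
      simp only [Pi.smul_apply, smul_eq_mul]
      ring
  obtain ⟨c, hc⟩ := exists_smul_of_not_indep hXne (hpar z hz)
  have hc0 : c ≠ 0 := fun h => hbne (by rw [hc, h, zero_smul])
  obtain ⟨j, hj⟩ : ∃ j, X z j ≠ 0 := Function.ne_iff.mp hXne
  have hpar2 : fderiv ℂ X z ξ = (fderiv ℂ X z ξ j / X z j) • X z := by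
    funext i
    have := hwedge i j
    rw [hc] at this
    simp only [Pi.smul_apply, smul_eq_mul] at this ⊢
    field_simp
    have h3 : c * (fderiv ℂ X z ξ i * X z j - fderiv ℂ X z ξ j * X z i) = 0 := by
      linear_combination this
    have h4 := (mul_eq_zero.mp h3).resolve_left hc0
    linear_combination h4
  -- contradiction with the chart
  have hind := hC.indep z hz
  rw [Fintype.linearIndependent_iff] at hind
  have h5 := hind ![-(fderiv ℂ X z ξ j / X z j), ξ.1, ξ.2] (by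
    rw [Fin.sum_univ_three]
    simp only [Matrix.cons_val_zero, Matrix.cons_val_one, Matrix.cons_val]
    have h2 : fderiv ℂ X z ξ =
        ξ.1 • fderiv ℂ X z (1, 0) + ξ.2 • fderiv ℂ X z (0, 1) := by
      rw [← map_smul, ← map_smul, ← map_add]
      simp
    rw [neg_smul, ← hpar2, h2]
    abel)
  have h6 := h5 1
  have h7 := h5 2
  simp only [Matrix.cons_val_one, Matrix.cons_val, Matrix.cons_val_zero] at h6 h7
  exact hξ0 (Prod.ext h6 h7)

end chart

end Crest.Agent.R279.Gen
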