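import Crest.Agent.R279.H488Defs
import Crest.Agent.R080.Pompeiu

/-!
Row 279, (1.2): Runge's theorem (polynomial approximation on compact sets with the escape property).
-/

set_option autoImplicit false

open MeasureTheory Filter Set Topology
open scoped ContDiff Manifold

noncomputable section
namespace Crest.Agent.R279.Planar

/-! ### The closed algebra of polynomials -/

variable (K : Set ℂ)

open Classical in
/-- `z ↦ (z - a)⁻¹` on `K` for `a ∉ K`, `0` for `a ∈ K` -/
def gK (a : ℂ) : C(K, ℂ) :=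
  if h : a ∉ K then
    ⟨fun z => ((z : ℂ) - a)⁻¹, Continuous.inv₀ (by fun_prop) (fun z hz => h (by
      rw [sub_eq_zero] at hz; rw [← hz]; exact z.2))⟩
  else 0

variable {K}

theorem gK_apply {a : ℂ} (ha : a ∉ K) (z : K) : gK K a z = ((z : ℂ) - a)⁻¹ := by
  unfold gK
  rw [dif_pos ha]
  rfl

theorem sub_ne {a : ℂ} (ha : a ∉ K) (z : K) : (z : ℂ) - a ≠ 0 := by
  intro h
  rw [sub_eq_zero] at h
  exact ha (h ▸ z.2)

variable [CompactSpace K]

variable (K) in
/-- closure of the polynomials in `C(K)` -/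
def PK : Subalgebra ℂ C(K, ℂ) := (polynomialFunctions K).topologicalClosure

theorem isClosed_PK : IsClosed (PK K : Set C(K, ℂ)) := Subalgebra.isClosed_topologicalClosure _

theorem poly_mem_PK (p : Polynomial ℂ) : p.toContinuousMapOn K ∈ PK K := by
  apply Subalgebra.le_topologicalClosure
  rw [← SetLike.mem_coe, polynomialFunctions_coe]
  exact ⟨p, rfl⟩

/-- geometric series stay in the closed algebra -/
theorem inverse_one_sub_mem {x : C(K, ℂ)} (hx : x ∈ PK K) (hn : ‖x‖ < 1) :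
    Ring.inverse (1 - x) ∈ PK K := by
  have h : HasSum (fun n : ℕ => x ^ n) (Ring.inverse (1 - x)) := hasSum_geom_series_inverse x hn
  exact isClosed_PK.mem_of_tendsto h (Eventually.of_forall fun s =>
    Subalgebra.sum_mem _ fun n _ => Subalgebra.pow_mem _ hx n)

theorem gK_mem_of_near {a b : ℂ} (ha : a ∉ K) (hb : b ∉ K) (h : gK K a ∈ PK K)
    (hn : ‖b - a‖ * ‖gK K a‖ < 1) : gK K b ∈ PK K := by
  have h1 : ‖(b - a) • gK K a‖ < 1 := by rwa [norm_smul]
  have hx : (b - a) • gK K a ∈ PK K := Subalgebra.smul_mem _ h _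
  have h2 := inverse_one_sub_mem hx h1
  have h3 : gK K b = gK K a * Ring.inverse (1 - (b - a) • gK K a) := by
    have hu : IsUnit (1 - (b - a) • gK K a) := isUnit_one_sub_of_norm_lt_one h1
    have h4 : gK K b * (1 - (b - a) • gK K a) = gK K a := by
      ext z
      simp only [ContinuousMap.mul_apply, ContinuousMap.sub_apply, ContinuousMap.one_apply,
        ContinuousMap.smul_apply, smul_eq_mul, gK_apply ha, gK_apply hb]
      have := sub_ne ha z
      have := sub_ne hb z
      field_simp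
      ring
    calc gK K b = gK K b * (1 - (b - a) • gK K a) * Ring.inverse (1 - (b - a) • gK K a) := by
          rw [mul_assoc, Ring.mul_inverse_cancel _ hu, mul_one]
      _ = _ := by rw [h4]
  rw [h3]
  exact Subalgebra.mul_mem _ h h2

theorem norm_gK_le {a : ℂ} {r : ℝ} (hr : 0 < r) (h : ∀ z ∈ K, r ≤ ‖z - a‖) : ‖gK K a‖ ≤ r⁻¹ := by
  have ha : a ∉ K := fun ha => by
    have := h a ha
    simp at this
    linarith
  rw [ContinuousMap.norm_le _ (by positivity)]
  intro z
  rw [gK_apply ha, norm_inv]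
  exact inv_anti₀ hr (h z z.2)

theorem gK_mem_of_large {a : ℂ} {M : ℝ} (hM : ∀ z ∈ K, ‖z‖ ≤ M) (hM0 : 0 ≤ M) (ha : M < ‖a‖) :
    gK K a ∈ PK K := by
  have haK : a ∉ K := fun h => absurd (hM a h) (not_le.2 ha)
  have ha0 : a ≠ 0 := by
    rw [← norm_pos_iff]; linarith
  set x : C(K, ℂ) := (Polynomial.C a⁻¹ * Polynomial.X).toContinuousMapOn K with hxdef
  have hxa : ∀ z : K, x z = a⁻¹ * z := fun z => by
    simp [hxdef]
  have hx : x ∈ PK K := poly_mem_PK _
  have hn : ‖x‖ < 1 := by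
    rcases isEmpty_or_nonempty K with he | he
    · have : x = 0 := by ext z; exact (he.false z).elim
      rw [this]; simp
    · rw [ContinuousMap.norm_lt_iff_of_nonempty]
      intro z
      rw [hxa, norm_mul, norm_inv, inv_mul_lt_iff₀ (by positivity), mul_one]
      exact lt_of_le_of_lt (hM z z.2) ha
  have h2 := inverse_one_sub_mem hx hn
  have h3 : gK K a = (-a⁻¹) • Ring.inverse (1 - x) := by
    have hu : IsUnit (1 - x) := isUnit_one_sub_of_norm_lt_one hn
    have h4 : gK K a * (1 - x) = (-a⁻¹) • (1 : C(K, ℂ)) := by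
      ext z
      simp only [ContinuousMap.mul_apply, ContinuousMap.sub_apply, ContinuousMap.one_apply,
        ContinuousMap.smul_apply, smul_eq_mul, gK_apply haK, hxa]
      have := sub_ne haK z
      field_simp
      ring
    calc gK K a = gK K a * (1 - x) * Ring.inverse (1 - x) := by
          rw [mul_assoc, Ring.mul_inverse_cancel _ hu, mul_one]
      _ = _ := by rw [h4, smul_mul_assoc, one_mul]
  rw [h3]
  exact Subalgebra.smul_mem _ h2 _

/-- pole pushing -/
theorem gK_mem (hK : IsCompact K)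
    (hesc : ∀ a ∉ K, ∃ C : Set ℂ, IsPreconnected C ∧ a ∈ C ∧ Disjoint C K ∧ ¬ Bornology.IsBounded C)
    {a : ℂ} (ha : a ∉ K) : gK K a ∈ PK K := by
  by_contra hcon
  obtain ⟨C, hC, haC, hd, hub⟩ := hesc a ha
  obtain ⟨M, hM0, hM⟩ : ∃ M : ℝ, 0 ≤ M ∧ ∀ z ∈ K, ‖z‖ ≤ M := by
    obtain ⟨M, hM⟩ := hK.isBounded.exists_norm_le
    exact ⟨max M 0, le_max_right _ _, fun z hz => (hM z hz).trans (le_max_left _ _)⟩
  obtain ⟨b, hbC, hb⟩ : ∃ b ∈ C, M < ‖b‖ := by
    by_contra hne
    push Not at hne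
    exact hub (isBounded_iff_forall_norm_le.2 ⟨M, hne⟩)
  set S : Set ℂ := {x | x ∉ K ∧ gK K x ∈ PK K} with hS
  set S' : Set ℂ := {x | x ∉ K ∧ gK K x ∉ PK K} with hS'
  have hKc : IsClosed K := hK.isClosed
  -- distance to `K`
  have hdist : ∀ x ∉ K, ∃ r : ℝ, 0 < r ∧ ∀ z ∈ K, r ≤ ‖z - x‖ := by
    intro x hx
    obtain ⟨r, hr, hball⟩ := Metric.isOpen_iff.1 hKc.isOpen_compl x hx
    refine ⟨r, hr, fun z hz => ?_⟩
    by_contra hlt
    push Not at hlt
    exact hball (by rw [Metric.mem_ball, dist_eq_norm]; exact hlt) hz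
  -- key: within `r/2` of `x`, membership is constant
  have key : ∀ x ∉ K, ∀ r : ℝ, 0 < r → (∀ z ∈ K, r ≤ ‖z - x‖) → ∀ y, ‖y - x‖ < r / 2 →
      (y ∉ K ∧ (gK K x ∈ PK K ↔ gK K y ∈ PK K)) := by
    intro x hx r hr hrx y hy
    have hry : ∀ z ∈ K, r / 2 ≤ ‖z - y‖ := by
      intro z hz
      have h1 := hrx z hz
      have h2 : ‖z - x‖ ≤ ‖z - y‖ + ‖y - x‖ := by
        have := norm_add_le (z - y) (y - x)
        rwa [sub_add_sub_cancel] at this
      linarith
    have hyK : y ∉ K := fun h => by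
      have := hry y h
      simp at this
      linarith
    refine ⟨hyK, fun h => ?_, fun h => ?_⟩
    · refine gK_mem_of_near hx hyK h ?_
      have h1 : ‖gK K x‖ ≤ r⁻¹ := norm_gK_le hr hrx
      calc ‖y - x‖ * ‖gK K x‖ ≤ r / 2 * r⁻¹ := by gcongr
        _ < 1 := by field_simp; linarith
    · refine gK_mem_of_near hyK hx h ?_
      have h1 : ‖gK K y‖ ≤ (r / 2)⁻¹ := norm_gK_le (by positivity) hry
      rcases eq_or_ne (‖gK K y‖) 0 with h0 | h0
      · rw [h0]; simp
      have hpos : 0 < ‖gK K y‖ := lt_of_le_of_ne (norm_nonneg _) (Ne.symm h0)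
      calc ‖x - y‖ * ‖gK K y‖ < r / 2 * ‖gK K y‖ := by
            rw [norm_sub_rev]
            gcongr
        _ ≤ r / 2 * (r / 2)⁻¹ := by gcongr
        _ = 1 := by field_simp
  have hSo : IsOpen S := by
    rw [Metric.isOpen_iff]
    rintro x ⟨hx, hx2⟩
    obtain ⟨r, hr, hrx⟩ := hdist x hx
    refine ⟨r / 2, by positivity, fun y hy => ?_⟩
    rw [Metric.mem_ball, dist_eq_norm] at hy
    obtain ⟨h1, h2⟩ := key x hx r hr hrx y hy
    exact ⟨h1, h2.1 hx2⟩
  have hSo' : IsOpen S' := by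
    rw [Metric.isOpen_iff]
    rintro x ⟨hx, hx2⟩
    obtain ⟨r, hr, hrx⟩ := hdist x hx
    refine ⟨r / 2, by positivity, fun y hy => ?_⟩
    rw [Metric.mem_ball, dist_eq_norm] at hy
    obtain ⟨h1, h2⟩ := key x hx r hr hrx y hy
    exact ⟨h1, fun h3 => hx2 (h2.2 h3)⟩
  have hcov : C ⊆ S ∪ S' := by
    intro x hx
    have hxK : x ∉ K := fun h => Set.disjoint_left.1 hd hx h
    by_cases h : gK K x ∈ PK K
    · exact Or.inl ⟨hxK, h⟩
    · exact Or.inr ⟨hxK, h⟩
  have hbK : b ∉ K := fun h => Set.disjoint_left.1 hd hbC h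
  obtain ⟨x, -, h1, h2⟩ := hC S S' hSo hSo' hcov
    ⟨b, hbC, hbK, gK_mem_of_large hM hM0 hb⟩ ⟨a, haC, ha, hcon⟩
  exact h2.2 h1.2

theorem continuousAt_gK (hK : IsCompact K) {a : ℂ} (ha : a ∉ K) : ContinuousAt (gK K) a := by
  obtain ⟨r, hr, hball⟩ := Metric.isOpen_iff.1 hK.isClosed.isOpen_compl a ha
  have hrx : ∀ z ∈ K, r ≤ ‖z - a‖ := by
    intro z hz
    by_contra hlt
    push Not at hlt
    exact hball (by rw [Metric.mem_ball, dist_eq_norm]; exact hlt) hz
  have hbd : ∀ y, ‖y - a‖ < r / 2 → ‖gK K y - gK K a‖ ≤ ‖y - a‖ * ((r / 2)⁻¹ * r⁻¹) := by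
    intro y hy
    have hry : ∀ z ∈ K, r / 2 ≤ ‖z - y‖ := by
      intro z hz
      have h1 := hrx z hz
      have h2 : ‖z - a‖ ≤ ‖z - y‖ + ‖y - a‖ := by
        have := norm_add_le (z - y) (y - a)
        rwa [sub_add_sub_cancel] at this
      linarith
    have hyK : y ∉ K := fun h => by
      have := hry y h
      simp at this
      linarith
    have h1 : gK K y - gK K a = (y - a) • (gK K y * gK K a) := by
      ext z
      simp only [ContinuousMap.mul_apply, ContinuousMap.sub_apply,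
        ContinuousMap.smul_apply, smul_eq_mul, gK_apply ha, gK_apply hyK]
      have := sub_ne ha z
      have := sub_ne hyK z
      field_simp
      ring
    rw [h1, norm_smul]
    have h2 : ‖gK K a‖ ≤ r⁻¹ := norm_gK_le hr hrx
    have h3 : ‖gK K y‖ ≤ (r / 2)⁻¹ := norm_gK_le (by positivity) hry
    have h4 := norm_mul_le (gK K y) (gK K a)
    gcongr
    exact h4.trans (by gcongr)
  rw [ContinuousAt, tendsto_iff_norm_sub_tendsto_zero]
  have ht : Tendsto (fun y => ‖y - a‖ * ((r / 2)⁻¹ * r⁻¹)) (𝓝 a) (𝓝 0) := by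
    have : Tendsto (fun y => ‖y - a‖ * ((r / 2)⁻¹ * r⁻¹)) (𝓝 a)
        (𝓝 (‖a - a‖ * ((r / 2)⁻¹ * r⁻¹))) := by
      apply Continuous.tendsto
      fun_prop
    simpa using this
  refine squeeze_zero' (Eventually.of_forall fun y => norm_nonneg _) ?_ ht
  filter_upwards [Metric.ball_mem_nhds a (half_pos hr)] with y hy
  rw [Metric.mem_ball, dist_eq_norm] at hy
  exact hbd y hy

omit [CompactSpace K] in
/-- cutoff: a `C^1` compactly supported function which is `f` near `K` -/
theorem exists_cutoff (hK : IsCompact K) {U : Set ℂ} (hU : IsOpen U) (hKU : K ⊆ U) {f : ℂ → ℂ}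
    (hf : DifferentiableOn ℂ f U) :
    ∃ F : ℂ → ℂ, ContDiff ℝ 1 F ∧ HasCompactSupport F ∧ (∀ᶠ z in 𝓝ˢ K, F z = f z) := by
  obtain ⟨L, hL, hKL, hLU⟩ := exists_compact_between hK hU hKU
  obtain ⟨χ, h1, h0, -⟩ := exists_contMDiffMap_one_nhds_of_subset_interior (n := (1 : ℕ∞)) 𝓘(ℝ, ℂ)
    hK.isClosed hKL
  have hχ : ContDiff ℝ 1 (χ : ℂ → ℝ) := χ.contMDiff.contDiff
  have hχc : ContDiff ℝ 1 (fun z : ℂ => ((χ z : ℝ) : ℂ)) := Complex.ofRealCLM.contDiff.comp hχ
  refine ⟨fun z => (χ z : ℂ) * f z, ?_, ?_, ?_⟩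
  · rw [contDiff_iff_contDiffAt]
    intro z
    by_cases hz : z ∈ U
    · have hfz : ContDiffAt ℝ 1 f z := by
        have : AnalyticAt ℂ f z := hf.analyticAt (hU.mem_nhds hz)
        exact (this.contDiffAt (n := 1)).restrict_scalars ℝ
      exact hχc.contDiffAt.mul hfz
    · have hz' : z ∉ L := fun h => hz (hLU h)
      have hev : (fun z => (χ z : ℂ) * f z) =ᶠ[𝓝 z] fun _ => 0 := by
        filter_upwards [hL.isClosed.isOpen_compl.mem_nhds hz'] with y hy
        simp [h0 y hy]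
      exact (contDiffAt_const (c := (0 : ℂ))).congr_of_eventuallyEq hev
  · refine HasCompactSupport.intro hL fun z hz => ?_
    simp [h0 z hz]
  · filter_upwards [h1] with z hz
    simp [hz]

/-- (1.2) Runge -/
theorem runge : RungeTarget := by
  intro K hK hesc U hU hKU f hf ε hε
  have : CompactSpace K := isCompact_iff_compactSpace.1 hK
  obtain ⟨F, hF, hFs, hFf⟩ := exists_cutoff hK hU hKU hf
  set D : ℂ → ℂ := R080.Dp (ContinuousLinearMap.id ℝ ℂ) F with hD
  have hcont : ∀ v, Continuous fun z => fderiv ℝ F z v := fun v =>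
    (hF.continuous_fderiv one_ne_zero).clm_apply continuous_const
  have hDc : Continuous D := by
    show Continuous fun z => fderiv ℝ F z _ + Complex.I * fderiv ℝ F z _
    exact (hcont _).add (continuous_const.mul (hcont _))
  have hsup : ∀ v, HasCompactSupport fun z => fderiv ℝ F z v := fun v => by
    exact (hFs.fderiv ℝ).comp_left (g := fun L : ℂ →L[ℝ] ℂ => L v) (by simp)
  have hDs : HasCompactSupport D := by
    show HasCompactSupport fun z => fderiv ℝ F z _ + Complex.I * fderiv ℝ F z _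
    exact (hsup _).add ((hsup _).mul_left)
  -- `D` vanishes near `K`
  have hD0 : ∀ᶠ z in 𝓝ˢ K, D z = 0 := by
    have h1 : ∀ᶠ z in 𝓝ˢ K, ∀ᶠ y in 𝓝 z, F y = f y := by
      obtain ⟨V, hVo, hKV, hV⟩ := eventually_nhdsSet_iff_exists.1 hFf
      rw [eventually_nhdsSet_iff_exists]
      exact ⟨V, hVo, hKV, fun z hz => eventually_of_mem (hVo.mem_nhds hz) hV⟩
    have h2 : ∀ᶠ z in 𝓝ˢ K, z ∈ U := hU.mem_nhdsSet.2 hKU
    filter_upwards [h1, h2] with z hz hzU
    have hfd : DifferentiableAt ℂ f z := hf.differentiableAt (hU.mem_nhds hzU)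
    have h3 : fderiv ℝ F z = fderiv ℝ f z := Filter.EventuallyEq.fderiv_eq hz
    have h4 : fderiv ℝ f z = (fderiv ℂ f z).restrictScalars ℝ :=
      (hfd.hasFDerivAt.restrictScalars ℝ).fderiv
    show fderiv ℝ F z 1 + Complex.I * fderiv ℝ F z Complex.I = 0
    rw [h3, h4]
    simp only [ContinuousLinearMap.coe_restrictScalars']
    have h5 : fderiv ℂ f z Complex.I = Complex.I * fderiv ℂ f z 1 := by
      have := (fderiv ℂ f z).map_smul Complex.I 1
      simpa using this
    rw [h5, ← mul_assoc, Complex.I_mul_I]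
    ring
  -- the vector valued integrand
  have hmem : ∀ w, D w • gK K w ∈ PK K := by
    intro w
    by_cases hw : w ∈ K
    · have : D w = 0 := hD0.self_of_nhdsSet w hw
      rw [this, zero_smul]
      exact Subalgebra.zero_mem _
    · exact Subalgebra.smul_mem _ (gK_mem hK hesc hw) _
  have hcontΦ : Continuous fun w => D w • gK K w := by
    rw [continuous_iff_continuousAt]
    intro w
    by_cases hw : w ∈ K
    · have : (fun w => D w • gK K w) =ᶠ[𝓝 w] fun _ => 0 := by
        filter_upwards [hD0.filter_mono (nhds_le_nhdsSet hw)] with y hy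
        rw [hy, zero_smul]
      exact continuousAt_const.congr this.symm
    · exact hDc.continuousAt.smul (continuousAt_gK hK hw)
  set P' : Submodule ℂ C(K, ℂ) := Subalgebra.toSubmodule (PK K) with hP'
  have : CompleteSpace P' := by
    have : IsClosed (P' : Set C(K, ℂ)) := isClosed_PK
    exact this.completeSpace_coe
  set Φ : ℂ → P' := fun w => ⟨D w • gK K w, hmem w⟩ with hΦ
  have hΦc : Continuous Φ := hcontΦ.subtype_mk _
  have hΦs : HasCompactSupport Φ := by
    refine hDs.mono fun w hw => ?_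
    rw [Function.mem_support] at hw ⊢
    intro h0
    apply hw
    apply Subtype.ext
    show D w • gK K w = 0
    rw [h0, zero_smul]
  have hΦi : Integrable Φ := hΦc.integrable_of_hasCompactSupport hΦs
  set T : P' := ∫ w, Φ w with hT
  -- evaluation
  have heval : ∀ z : K, (T : C(K, ℂ)) z = 2 * Real.pi * f z := by
    intro z
    have h1 : ((ContinuousMap.evalCLM ℂ z).comp P'.subtypeL) T =
        ∫ w, ((ContinuousMap.evalCLM ℂ z).comp P'.subtypeL) (Φ w) :=
      (ContinuousLinearMap.integral_comp_comm _ hΦi).symm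
    have h2 : ((ContinuousMap.evalCLM ℂ z).comp P'.subtypeL) T = (T : C(K, ℂ)) z := rfl
    rw [← h2, h1]
    have h3 : ∀ w, ((ContinuousMap.evalCLM ℂ z).comp P'.subtypeL) (Φ w) =
        -(D w * (w - z)⁻¹) := by
      intro w
      show D w * gK K w z = _
      by_cases hw : w ∈ K
      · have : D w = 0 := hD0.self_of_nhdsSet w hw
        rw [this]; simp
      · rw [gK_apply hw, ← neg_sub w (z : ℂ), inv_neg]
        ring
    simp_rw [h3]
    rw [integral_neg, R080.Pomp.pompeiu hF hFs z, hFf.self_of_nhdsSet z z.2]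
    ring
  have hTm : (T : C(K, ℂ)) ∈ PK K := T.2
  have hpi : (2 * Real.pi : ℂ) ≠ 0 := by
    have := Real.pi_ne_zero
    simp [this]
  have hfm : ((2 * Real.pi : ℂ)⁻¹ • (T : C(K, ℂ))) ∈ PK K := Subalgebra.smul_mem _ hTm _
  have hcl : ((2 * Real.pi : ℂ)⁻¹ • (T : C(K, ℂ))) ∈ closure (polynomialFunctions K : Set C(K, ℂ)) := by
    have := hfm
    unfold PK at this
    rwa [← SetLike.mem_coe, Subalgebra.topologicalClosure_coe] at this
  obtain ⟨g, hg, hgε⟩ := Metric.mem_closure_iff.1 hcl ε hε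
  rw [polynomialFunctions_coe] at hg
  obtain ⟨p, rfl⟩ := hg
  refine ⟨p, fun z hz => ?_⟩
  have h1 := lt_of_le_of_lt (ContinuousMap.dist_apply_le_dist (⟨z, hz⟩ : K)) hgε
  rw [dist_comm, dist_eq_norm] at h1
  have h2 : ((2 * Real.pi : ℂ)⁻¹ • (T : C(K, ℂ))) ⟨z, hz⟩ = f z := by
    rw [ContinuousMap.smul_apply, heval ⟨z, hz⟩, smul_eq_mul, ← mul_assoc, inv_mul_cancel₀ hpi, one_mul]
  rw [h2] at h1
  simpa using h1

end Crest.Agent.R279.Planar
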