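import Mathlib
import Crest.Agent.R080.Pompeiu
import Crest.Agent.R279.Hol806

/-!
R279 (helper806): Pompeiu formula with values in a normed space for cut-off holomorphic functions
and bounded splitting with parameters and no loss of domain (1.3).
-/

set_option autoImplicit false

open Set Metric Filter MeasureTheory
open scoped Topology ContDiff

noncomputable section
namespace Crest.Agent.R279.PSL

/-- `χ_x + i χ_y`. -/
def dbar (χ : ℂ → ℂ) (z : ℂ) : ℂ := fderiv ℝ χ z 1 + Complex.I * fderiv ℝ χ z Complex.I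

theorem continuous_dbar {χ : ℂ → ℂ} (hχ : ContDiff ℝ 1 χ) : Continuous (dbar χ) := by
  have hcont : ∀ v, Continuous fun z => fderiv ℝ χ z v := fun v =>
    (hχ.continuous_fderiv one_ne_zero).clm_apply continuous_const
  exact (hcont _).add (continuous_const.mul (hcont _))

theorem hasCompactSupport_dbar {χ : ℂ → ℂ} (hs : HasCompactSupport χ) :
    HasCompactSupport (dbar χ) := by
  have hsup : ∀ v, HasCompactSupport fun z => fderiv ℝ χ z v := fun v => by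
    exact (hs.fderiv ℝ).comp_left (g := fun L : ℂ →L[ℝ] ℂ => L v) (by simp)
  exact (hsup _).add ((hsup _).mul_left)

theorem dbar_congr {χ ψ : ℂ → ℂ} {z : ℂ} (h : χ =ᶠ[𝓝 z] ψ) : dbar χ z = dbar ψ z := by
  simp [dbar, h.fderiv_eq]

theorem dbar_eq_zero {χ : ℂ → ℂ} {z : ℂ} {c : ℂ} (h : ∀ᶠ w in 𝓝 z, χ w = c) : dbar χ z = 0 := by
  have h1 : χ =ᶠ[𝓝 z] fun _ => c := h
  rw [dbar_congr h1]
  simp [dbar]

theorem dbar_add {χ ψ : ℂ → ℂ} {z : ℂ} (h1 : DifferentiableAt ℝ χ z)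
    (h2 : DifferentiableAt ℝ ψ z) : dbar (fun w => χ w + ψ w) z = dbar χ z + dbar ψ z := by
  simp only [dbar, fderiv_fun_add h1 h2, ContinuousLinearMap.add_apply]
  ring

/-- Cauchy-Pompeiu (from R080). -/
theorem pompeiu {f : ℂ → ℂ} (hf : ContDiff ℝ 1 f) (hs : HasCompactSupport f) (u : ℂ) :
    ∫ z, dbar f z * (z - u)⁻¹ = -(2 * Real.pi * f u) :=
  Crest.Agent.R080.Pomp.pompeiu hf hs u

theorem pompeiu' {f : ℂ → ℂ} (hf : ContDiff ℝ 1 f) (hs : HasCompactSupport f) (u : ℂ) :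
    -(2 * Real.pi : ℂ)⁻¹ * ∫ z, dbar f z * (z - u)⁻¹ = f u := by
  rw [pompeiu hf hs]
  have : (Real.pi : ℂ) ≠ 0 := by exact_mod_cast Real.pi_ne_zero
  field_simp

theorem dbar_mul_holo {χ k : ℂ → ℂ} {z : ℂ} (h1 : DifferentiableAt ℝ χ z)
    (h2 : DifferentiableAt ℂ k z) : dbar (fun w => χ w * k w) z = dbar χ z * k z := by
  have h3 : fderiv ℝ k z = (fderiv ℂ k z).restrictScalars ℝ := h2.fderiv_restrictScalars ℝ
  have h4 : DifferentiableAt ℝ k z := h2.restrictScalars ℝ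
  have h5 : fderiv ℂ k z Complex.I = Complex.I * fderiv ℂ k z 1 := by
    simpa using (fderiv ℂ k z).map_smul Complex.I 1
  simp only [dbar, fderiv_fun_mul h1 h4, ContinuousLinearMap.add_apply,
    ContinuousLinearMap.smul_apply, h3, ContinuousLinearMap.coe_restrictScalars', h5, smul_eq_mul]
  ring_nf
  rw [Complex.I_sq]
  ring

variable {E F : Type*} [NormedAddCommGroup E] [NormedSpace ℂ E]
  [NormedAddCommGroup F] [NormedSpace ℂ F]

theorem dual_eq {x y : F} (h : ∀ l : F →L[ℂ] ℂ, l x = l y) : x = y :=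
  (SeparatingDual.eq_iff_forall_dual_eq (R := ℂ)).mpr h

/-- Pompeiu for a cut-off holomorphic function with values in a normed space. -/
theorem pompeiu_cut [CompleteSpace F] {W : Set ℂ} (hW : IsOpen W) {χ : ℂ → ℂ} (hχ : ContDiff ℝ 1 χ)
    (hs : HasCompactSupport χ) (hsW : tsupport χ ⊆ W) {k : ℂ → F} (hk : DifferentiableOn ℂ k W)
    (z : ℂ) :
    -(2 * Real.pi : ℂ)⁻¹ • ∫ ζ in W, (dbar χ ζ * (ζ - z)⁻¹) • k ζ = χ z • k z := by
  have hout : ∀ ζ, ζ ∉ tsupport χ → ∀ᶠ w in 𝓝 ζ, χ w = 0 := by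
    intro ζ hζ
    exact (notMem_tsupport_iff_eventuallyEq.mp hζ)
  have hkc : ContinuousOn k W := hk.continuousOn
  -- integrability
  have hint : Integrable (fun ζ => (dbar χ ζ * (ζ - z)⁻¹) • k ζ) (volume.restrict W) := by
    have h1 := Crest.Agent.R080.Pomp.integrable_div_sub (continuous_dbar hχ)
      (hasCompactSupport_dbar hs) z
    obtain ⟨C, hC⟩ := (hs.isCompact).exists_bound_of_continuousOn (hkc.mono hsW)
    have h2 : Integrable (fun ζ => (dbar χ ζ * (ζ - z)⁻¹)) (volume.restrict W) := h1.restrict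
    refine Integrable.mono' (h2.norm.mul_const C) ?_ ?_
    · exact h2.aestronglyMeasurable.smul (hkc.aestronglyMeasurable hW.measurableSet)
    · refine (ae_restrict_mem hW.measurableSet).mono fun ζ hζ => ?_
      rw [norm_smul]
      by_cases h : ζ ∈ tsupport χ
      · exact mul_le_mul_of_nonneg_left (hC ζ h) (norm_nonneg _)
      · rw [dbar_eq_zero (hout ζ h)]; simp
  refine dual_eq fun l => ?_
  rw [map_smul, map_smul, ← ContinuousLinearMap.integral_comp_comm l hint]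
  -- the scalar function
  set φ : ℂ → ℂ := fun ζ => χ ζ * l (k ζ) with hφ
  have hlk : ∀ ζ ∈ W, DifferentiableAt ℂ (fun ζ => l (k ζ)) ζ := fun ζ hζ =>
    l.differentiableAt.comp ζ (hk.differentiableAt (hW.mem_nhds hζ))
  have hlkW : ContDiffOn ℝ 1 (fun ζ => l (k ζ)) W := by
    have h1 : DifferentiableOn ℂ (fun ζ => l (k ζ)) W := fun ζ hζ =>
      (hlk ζ hζ).differentiableWithinAt
    exact (h1.contDiffOn hW).restrict_scalars ℝ
  have hφd : ContDiff ℝ 1 φ := by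
    rw [contDiff_iff_contDiffAt]
    intro ζ
    by_cases h : ζ ∈ tsupport χ
    · exact hχ.contDiffAt.mul (hlkW.contDiffAt (hW.mem_nhds (hsW h)))
    · have : φ =ᶠ[𝓝 ζ] fun _ => 0 := by
        filter_upwards [hout ζ h] with w hw
        simp [hφ, hw]
      exact contDiffAt_const.congr_of_eventuallyEq this
  have hφs : HasCompactSupport φ := hs.mul_right
  have hdb : ∀ ζ, dbar φ ζ = dbar χ ζ * l (k ζ) := by
    intro ζ
    by_cases h : ζ ∈ tsupport χ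
    · exact dbar_mul_holo (hχ.differentiable one_ne_zero ζ) (hlk ζ (hsW h))
    · rw [dbar_eq_zero (hout ζ h), zero_mul]
      refine dbar_eq_zero (c := 0) ?_
      filter_upwards [hout ζ h] with w hw
      simp [hφ, hw]
  have key := pompeiu' hφd hφs z
  have hset : ∫ ζ in W, l ((dbar χ ζ * (ζ - z)⁻¹) • k ζ) = ∫ ζ, dbar φ ζ * (ζ - z)⁻¹ := by
    rw [← setIntegral_eq_integral_of_forall_compl_eq_zero (s := W) (f := fun ζ => dbar φ ζ * (ζ - z)⁻¹)]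
    · refine integral_congr_ae (Eventually.of_forall fun ζ => ?_)
      simp only [map_smul, smul_eq_mul, hdb]
      ring
    · intro ζ hζ
      have : ζ ∉ tsupport χ := fun h => hζ (hsW h)
      rw [hdb, dbar_eq_zero (hout ζ this)]
      simp
  rw [hset, smul_eq_mul, smul_eq_mul, key]

/-- Holomorphic dependence of a Cauchy transform off the support of the density. -/
theorem differentiableAt_param {W : Set ℂ} (hW : IsOpen W) {T : Set E} (hT : IsOpen T)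
    {h : E × ℂ → F} (hh : DifferentiableOn ℂ h (T ×ˢ W)) {M : ℝ}
    (hM : ∀ x ∈ T ×ˢ W, ‖h x‖ ≤ M) {g : ℂ → ℂ} (hg : Continuous g) (hgs : HasCompactSupport g)
    {t₀ : E} {z₀ : ℂ} (ht₀ : t₀ ∈ T) {r : ℝ} (hr : 0 < r) (hg0 : ∀ ζ ∈ ball z₀ r, g ζ = 0) :
    DifferentiableAt ℂ (fun x : E × ℂ => ∫ ζ in W, (g ζ * (ζ - x.2)⁻¹) • h (x.1, ζ)) (t₀, z₀) := by
  obtain ⟨δ₀, hδ₀, hδT⟩ := Metric.isOpen_iff.mp hT t₀ ht₀
  set δ := min (δ₀ / 2) (r / 4) with hδdef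
  have hδ : 0 < δ := lt_min (by linarith) (by linarith)
  have hδ1 : 2 * δ ≤ δ₀ := by have := min_le_left (δ₀ / 2) (r / 4); linarith
  have hδ2 : 2 * δ ≤ r / 2 := by have := min_le_right (δ₀ / 2) (r / 4); linarith
  have hx1 : ∀ x ∈ ball (t₀, z₀) (2 * δ), x.1 ∈ T := by
    intro x hx
    apply hδT
    rw [mem_ball, Prod.dist_eq] at hx
    rw [mem_ball]
    exact lt_of_le_of_lt (le_max_left _ _) (lt_of_lt_of_le hx hδ1)
  have hx2 : ∀ x ∈ ball (t₀, z₀) (2 * δ), dist x.2 z₀ < r / 2 := by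
    intro x hx
    rw [mem_ball, Prod.dist_eq] at hx
    exact lt_of_le_of_lt (le_max_right _ _) (lt_of_lt_of_le hx hδ2)
  have hker : ∀ x ∈ ball (t₀, z₀) (2 * δ), ∀ ζ, ‖g ζ * (ζ - x.2)⁻¹‖ ≤ ‖g ζ‖ * (2 / r) := by
    intro x hx ζ
    by_cases hζ : ζ ∈ ball z₀ r
    · simp [hg0 ζ hζ]
    · rw [norm_mul, norm_inv]
      refine mul_le_mul_of_nonneg_left ?_ (norm_nonneg _)
      have h1 : r / 2 ≤ ‖ζ - x.2‖ := by
        rw [mem_ball, not_lt] at hζ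
        have h2 := dist_triangle ζ x.2 z₀
        have h3 := hx2 x hx
        rw [dist_eq_norm ζ x.2] at h2
        linarith
      calc ‖ζ - x.2‖⁻¹ ≤ (r / 2)⁻¹ := by gcongr
        _ = 2 / r := by rw [inv_div]
  have hne : ∀ x ∈ ball (t₀, z₀) (2 * δ), ∀ ζ, g ζ ≠ 0 → ζ - x.2 ≠ 0 := by
    intro x hx ζ hζ h0
    apply hζ
    apply hg0
    have : ζ = x.2 := sub_eq_zero.mp h0
    rw [this, mem_ball]
    have := hx2 x hx
    linarith
  set G : E × ℂ → ℂ → F := fun x ζ => (g ζ * (ζ - x.2)⁻¹) • h (x.1, ζ) with hG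
  have hGn : ∀ ζ ∈ W, ∀ x ∈ ball (t₀, z₀) (2 * δ), ‖G x ζ‖ ≤ ‖g ζ‖ * (2 / r) * M := by
    intro ζ hζ x hx
    rw [hG]
    simp only [norm_smul]
    exact mul_le_mul (hker x hx ζ) (hM _ ⟨hx1 x hx, hζ⟩) (norm_nonneg _) (by positivity)
  have hhd : ∀ ζ ∈ W, ∀ x ∈ ball (t₀, z₀) (2 * δ),
      HasFDerivAt (fun y : E × ℂ => h (y.1, ζ))
        ((fderiv ℂ h (x.1, ζ)).comp ((ContinuousLinearMap.fst ℂ E ℂ).prod 0)) x := by
    intro ζ hζ x hx
    have h1 : HasFDerivAt h (fderiv ℂ h (x.1, ζ)) (x.1, ζ) :=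
      (hh.differentiableAt ((hT.prod hW).mem_nhds
        (show ((x.1, ζ) : E × ℂ) ∈ T ×ˢ W from ⟨hx1 x hx, hζ⟩))).hasFDerivAt
    have h2 : HasFDerivAt (fun y : E × ℂ => (y.1, ζ))
        ((ContinuousLinearMap.fst ℂ E ℂ).prod 0) x := by
      exact (ContinuousLinearMap.fst ℂ E ℂ).hasFDerivAt.prodMk (hasFDerivAt_const ζ x)
    exact h1.comp x h2
  have hGd' : ∀ ζ ∈ W, ∀ x ∈ ball (t₀, z₀) (2 * δ), HasFDerivAt (fun y => G y ζ)
      ((g ζ * (ζ - x.2)⁻¹) • ((fderiv ℂ h (x.1, ζ)).comp ((ContinuousLinearMap.fst ℂ E ℂ).prod 0))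
        + (g ζ * ((ζ - x.2) ^ 2)⁻¹) •
          (ContinuousLinearMap.smulRightL ℂ (E × ℂ) F (ContinuousLinearMap.snd ℂ E ℂ))
            (h (x.1, ζ))) x := by
    intro ζ hζ x hx
    by_cases h0 : g ζ = 0
    · have : (fun y => G y ζ) = fun _ => 0 := by
        funext y; simp [hG, h0]
      rw [this, h0]
      simpa using hasFDerivAt_const (0 : F) x
    · have h1 := hne x hx ζ h0
      have h2 : HasFDerivAt (fun y : E × ℂ => ζ - y.2) (-(ContinuousLinearMap.snd ℂ E ℂ)) x := by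
        simpa using (ContinuousLinearMap.snd ℂ E ℂ).hasFDerivAt.const_sub ζ
      have h3 : HasFDerivAt (fun y : E × ℂ => g ζ * (ζ - y.2)⁻¹)
          ((g ζ * ((ζ - x.2) ^ 2)⁻¹) • (ContinuousLinearMap.snd ℂ E ℂ)) x := by
        have h4 := ((hasDerivAt_inv h1).comp_hasFDerivAt x h2).const_mul (g ζ)
        refine h4.congr_fderiv ?_
        ext v <;> simp [mul_comm, mul_left_comm]
      refine (h3.smul (hhd ζ hζ x hx)).congr_fderiv ?_
      ext v <;> simp [mul_smul]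
  have hGd : ∀ ζ ∈ W, ∀ x ∈ ball (t₀, z₀) (2 * δ), DifferentiableAt ℂ (fun y => G y ζ) x :=
    fun ζ hζ x hx => (hGd' ζ hζ x hx).differentiableAt
  have hx₀ : (t₀, z₀) ∈ ball (t₀, z₀) (2 * δ) := mem_ball_self (by linarith)
  have hgm : ∀ z : ℂ, Measurable fun ζ => g ζ * (ζ - z)⁻¹ := fun z => by
    have := hg.measurable
    fun_prop
  have hgm2 : Measurable fun ζ => g ζ * ((ζ - z₀) ^ 2)⁻¹ := by
    have := hg.measurable
    fun_prop
  have hhc : ∀ t ∈ T, ContinuousOn (fun ζ => h (t, ζ)) W := fun t ht =>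
    hh.continuousOn.comp (by fun_prop) fun ζ hζ => ⟨ht, hζ⟩
  have hfc : ContinuousOn (fun ζ => fderiv ℂ h (t₀, ζ)) W :=
    (Hol.continuousOn_fderiv (hT.prod hW) hh).comp (by fun_prop) fun ζ hζ => ⟨ht₀, hζ⟩
  have hb : Integrable (fun ζ => ‖g ζ‖ * (2 / r) * M / (2 * δ - δ)) (volume.restrict W) := by
    have h1 : Integrable g volume := hg.integrable_of_hasCompactSupport hgs
    exact (((h1.restrict (s := W)).norm.mul_const _).mul_const _).div_const _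
  have hmeas : ∀ x ∈ ball (t₀, z₀) (2 * δ), AEStronglyMeasurable (G x) (volume.restrict W) := by
    intro x hx
    exact (hgm x.2).aestronglyMeasurable.smul
      ((hhc x.1 (hx1 x hx)).aestronglyMeasurable hW.measurableSet)
  have hball : ball (t₀, z₀) (2 * δ) ∈ 𝓝 ((t₀, z₀) : E × ℂ) := isOpen_ball.mem_nhds hx₀
  have main := hasFDerivAt_integral_of_dominated_of_fderiv_le (𝕜 := ℂ) (μ := volume.restrict W)
    (F := G) (F' := fun x ζ => fderiv ℂ (fun y => G y ζ) x) (x₀ := (t₀, z₀))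
    (bound := fun ζ => ‖g ζ‖ * (2 / r) * M / (2 * δ - δ)) (s := ball (t₀, z₀) δ)
    (isOpen_ball.mem_nhds (mem_ball_self hδ))
    (by filter_upwards [hball] with x hx using hmeas x hx)
    (by
      refine Integrable.mono' (((hg.integrable_of_hasCompactSupport hgs).restrict
        (s := W)).norm.mul_const ((2 / r) * M)) (hmeas _ hx₀) ?_
      refine (ae_restrict_mem hW.measurableSet).mono fun ζ hζ => ?_
      rw [← mul_assoc]
      exact hGn ζ hζ _ hx₀)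
    (by
      have h1 : AEStronglyMeasurable (fun ζ =>
          (g ζ * (ζ - z₀)⁻¹) • ((fderiv ℂ h (t₀, ζ)).comp ((ContinuousLinearMap.fst ℂ E ℂ).prod 0))
          + (g ζ * ((ζ - z₀) ^ 2)⁻¹) •
            (ContinuousLinearMap.smulRightL ℂ (E × ℂ) F (ContinuousLinearMap.snd ℂ E ℂ))
              (h (t₀, ζ))) (volume.restrict W) := by
        refine AEStronglyMeasurable.add ?_ ?_
        · refine (hgm z₀).aestronglyMeasurable.smul ?_
          exact (hfc.clm_comp continuousOn_const).aestronglyMeasurable hW.measurableSet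
        · refine hgm2.aestronglyMeasurable.smul ?_
          exact ((ContinuousLinearMap.continuous _).comp_continuousOn
            (hhc t₀ ht₀)).aestronglyMeasurable hW.measurableSet
      refine h1.congr ?_
      refine (ae_restrict_mem hW.measurableSet).mono fun ζ hζ => ?_
      exact (hGd' ζ hζ _ hx₀).fderiv.symm)
    (by
      refine (ae_restrict_mem hW.measurableSet).mono fun ζ hζ x hx => ?_
      exact Hol.norm_fderiv_le_of_mem (by linarith)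
        (fun y hy => (hGd ζ hζ y hy).differentiableWithinAt) (fun y hy => hGn ζ hζ y hy)
        (mem_ball.mp hx).le)
    hb
    (by
      refine (ae_restrict_mem hW.measurableSet).mono fun ζ hζ x hx => ?_
      exact (hGd ζ hζ x (ball_subset_ball (by linarith) hx)).hasFDerivAt)
  exact main.differentiableAt

/-! ### Cut-off functions adapted to a pair of open sets -/

/-- `χ` is a cut-off for the pair `A, B`: it vanishes near `A \ B` and is `1` near `B \ A`. -/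
structure IsCut (A B : Set ℂ) (χ : ℂ → ℂ) : Prop where
  smooth : ContDiff ℝ 1 χ
  supp : HasCompactSupport χ
  zero : ∀ z ∈ A \ B, ∀ᶠ w in 𝓝 z, χ w = 0
  one : ∀ z ∈ B \ A, ∀ᶠ w in 𝓝 z, χ w = 1
  le_one : ∀ z, ‖χ z‖ ≤ 1
  le_one' : ∀ z, ‖χ z - 1‖ ≤ 1

theorem exists_isCut {A B : Set ℂ} (hbd : Bornology.IsBounded (A ∪ B))
    (hsep : ∃ δ > 0, ∀ a ∈ A \ B, ∀ b ∈ B \ A, δ ≤ dist a b) : ∃ χ, IsCut A B χ := by
  obtain ⟨δ, hδ, hsep⟩ := hsep
  obtain ⟨R, hR⟩ := hbd.subset_closedBall (0 : ℂ)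
  set s : Set ℂ := closure (A \ B) ∪ (ball 0 (R + 1))ᶜ with hs
  set t : Set ℂ := closure (B \ A) with ht
  have hsc : IsClosed s := isClosed_closure.union isOpen_ball.isClosed_compl
  have htc : IsClosed t := isClosed_closure
  have hd : Disjoint s t := by
    rw [Set.disjoint_left]
    intro x hx hxt
    rcases hx with hx | hx
    · obtain ⟨a, ha, hxa⟩ := Metric.mem_closure_iff.mp hx (δ / 2) (by linarith)
      obtain ⟨b, hb, hxb⟩ := Metric.mem_closure_iff.mp hxt (δ / 2) (by linarith)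
      have h1 := hsep a ha b hb
      have h2 := dist_triangle a x b
      rw [dist_comm a x] at h2
      linarith
    · apply hx
      have h1 : t ⊆ closedBall 0 R :=
        closure_minimal (fun y hy => hR (Or.inr hy.1)) isClosed_closedBall
      exact closedBall_subset_ball (by linarith) (h1 hxt)
  obtain ⟨f, hf0, hf1, hf⟩ := exists_contMDiffMap_zero_one_nhds_of_isClosed (n := 1)
    (modelWithCornersSelf ℝ ℂ) hsc htc hd
  have hfs : ContDiff ℝ 1 f := f.contMDiff.contDiff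
  refine ⟨fun z => (f z : ℂ), ?_, ?_, ?_, ?_, ?_, ?_⟩
  · exact Complex.ofRealCLM.contDiff.comp hfs
  · refine HasCompactSupport.intro (isCompact_closedBall (0 : ℂ) (R + 1)) fun x hx => ?_
    have : x ∈ s := Or.inr fun h => hx (ball_subset_closedBall h)
    simp [hf0.self_of_nhdsSet x this]
  · intro z hz
    have := (eventually_nhdsSet_iff_forall.mp hf0) z (Or.inl (subset_closure hz))
    filter_upwards [this] with w hw
    simp [hw]
  · intro z hz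
    have := (eventually_nhdsSet_iff_forall.mp hf1) z (subset_closure hz)
    filter_upwards [this] with w hw
    simp [hw]
  · intro z
    rw [Complex.norm_real, Real.norm_eq_abs, abs_le]
    have := hf z
    constructor <;> linarith [this.1, this.2]
  · intro z
    have h1 : ((f z : ℂ) - 1) = ((f z - 1 : ℝ) : ℂ) := by push_cast; ring
    rw [h1, Complex.norm_real, Real.norm_eq_abs, abs_le]
    have := hf z
    constructor <;> linarith [this.1, this.2]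

theorem exists_bump : ∃ g : ℂ → ℂ, Continuous g ∧ HasCompactSupport g ∧
    ∀ z : ℂ, ‖z‖ ≤ 1 → g z = 1 := by
  let b : ContDiffBump (0 : ℂ) := ⟨1, 2, one_pos, by norm_num⟩
  have h1 : Continuous (fun z => (b z : ℂ)) := Complex.continuous_ofReal.comp b.continuous
  have h2 : HasCompactSupport (fun z => (b z : ℂ)) := by
    refine HasCompactSupport.intro (isCompact_closedBall (0 : ℂ) 2) fun x hx => ?_
    have : b x = 0 := b.zero_of_le_dist (by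
      rw [mem_closedBall, not_le] at hx
      exact hx.le)
    rw [this, Complex.ofReal_zero]
  refine ⟨_, h1, h2, fun z hz => ?_⟩
  have h3 : z ∈ closedBall (0 : ℂ) 1 := by rw [mem_closedBall, dist_zero_right]; exact hz
  have : b z = 1 := b.one_of_mem_closedBall h3
  show (b z : ℂ) = 1
  rw [this, Complex.ofReal_one]

/-- The Cauchy transform of `dbar χ` is bounded, uniformly in the pole. -/
theorem exists_bound {χ : ℂ → ℂ} (hχ : ContDiff ℝ 1 χ) (hs : HasCompactSupport χ) :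
    ∃ K : ℝ, 0 ≤ K ∧ ∀ z, ∫ ζ, ‖dbar χ ζ * (ζ - z)⁻¹‖ ≤ K := by
  have hc := continuous_dbar hχ
  have hcs := hasCompactSupport_dbar hs
  have hI : Integrable (dbar χ) volume := hc.integrable_of_hasCompactSupport hcs
  have hC : ∃ C : ℝ, ∀ z, ‖dbar χ z‖ ≤ C := hc.bounded_above_of_compact_support hcs
  generalize dbar χ = d at hc hcs hI hC ⊢
  obtain ⟨C, hC⟩ := hC
  have hC0 : 0 ≤ C := (norm_nonneg _).trans (hC 0)
  obtain ⟨g, hgc, hgs, hg1⟩ := exists_bump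
  have hJ : Integrable (fun z => ‖g z * z⁻¹‖) volume :=
    (Crest.Agent.R080.Pomp.integrable_div hgc hgs).norm
  have hn1 : 0 ≤ ∫ z, ‖g z * z⁻¹‖ := integral_nonneg fun z => norm_nonneg _
  have hn2 : 0 ≤ ∫ ζ, ‖d ζ‖ := integral_nonneg fun z => norm_nonneg _
  refine ⟨C * (∫ z, ‖g z * z⁻¹‖) + ∫ ζ, ‖d ζ‖, by nlinarith, fun z => ?_⟩
  have h1 : ∫ ζ, ‖g (ζ - z) * (ζ - z)⁻¹‖ = ∫ ζ, ‖g ζ * ζ⁻¹‖ :=
    integral_sub_right_eq_self (fun ζ => ‖g ζ * ζ⁻¹‖) z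
  have hJz : Integrable (fun ζ => ‖g (ζ - z) * (ζ - z)⁻¹‖) volume := hJ.comp_sub_right z
  have hsum : Integrable (fun ζ => C * ‖g (ζ - z) * (ζ - z)⁻¹‖ + ‖d ζ‖) volume :=
    (hJz.const_mul C).add hI.norm
  have h2 : ∫ ζ, (C * ‖g (ζ - z) * (ζ - z)⁻¹‖ + ‖d ζ‖) =
      C * (∫ z, ‖g z * z⁻¹‖) + ∫ ζ, ‖d ζ‖ := by
    rw [integral_add (hJz.const_mul C) hI.norm, integral_const_mul, h1]
  rw [← h2]
  refine integral_mono_of_nonneg (Eventually.of_forall fun ζ => norm_nonneg _)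
    hsum (Eventually.of_forall fun ζ => ?_)
  show ‖d ζ * (ζ - z)⁻¹‖ ≤ C * ‖g (ζ - z) * (ζ - z)⁻¹‖ + ‖d ζ‖
  rcases le_total ‖ζ - z‖ 1 with h | h
  · rw [hg1 _ h, one_mul, norm_mul]
    have := mul_le_mul_of_nonneg_right (hC ζ) (norm_nonneg ((ζ - z)⁻¹))
    have := norm_nonneg (d ζ)
    linarith
  · rw [norm_mul, norm_inv]
    have h2 : ‖ζ - z‖⁻¹ ≤ 1 := inv_le_one_of_one_le₀ h
    have h3 := mul_le_mul_of_nonneg_left h2 (norm_nonneg (d ζ))
    have h4 : 0 ≤ C * ‖g (ζ - z) * (ζ - z)⁻¹‖ := mul_nonneg hC0 (norm_nonneg _)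
    linarith

/-- The Cauchy transform of `dbar χ * h` over `W`. -/
def cut (χ : ℂ → ℂ) (W : Set ℂ) (h : E × ℂ → F) (x : E × ℂ) : F :=
  -(2 * Real.pi : ℂ)⁻¹ • ∫ ζ in W, (dbar χ ζ * (ζ - x.2)⁻¹) • h (x.1, ζ)

/-- The component on `A`. -/
def SA (χ : ℂ → ℂ) (W : Set ℂ) (h : E × ℂ → F) (x : E × ℂ) : F := χ x.2 • h x - cut χ W h x

/-- The component on `B`. -/
def SB (χ : ℂ → ℂ) (W : Set ℂ) (h : E × ℂ → F) (x : E × ℂ) : F :=
  (χ x.2 - 1) • h x - cut χ W h x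

theorem SA_sub_SB (χ : ℂ → ℂ) (W : Set ℂ) (h : E × ℂ → F) (x : E × ℂ) :
    SA χ W h x - SB χ W h x = h x := by
  simp only [SA, SB, sub_smul, one_smul]
  abel

section props

variable {W : Set ℂ} {T : Set E} {h : E × ℂ → F} {M : ℝ} {χ : ℂ → ℂ}

theorem integrable_cut (hW : IsOpen W) (hh : DifferentiableOn ℂ h (T ×ˢ W))
    (hM : ∀ x ∈ T ×ˢ W, ‖h x‖ ≤ M) (hχ : ContDiff ℝ 1 χ) (hs : HasCompactSupport χ)
    {t : E} (ht : t ∈ T) (z : ℂ) :
    Integrable (fun ζ => (dbar χ ζ * (ζ - z)⁻¹) • h (t, ζ)) (volume.restrict W) := by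
  have h1 := Crest.Agent.R080.Pomp.integrable_div_sub (continuous_dbar hχ)
    (hasCompactSupport_dbar hs) z
  have h2 : Integrable (fun ζ => (dbar χ ζ * (ζ - z)⁻¹)) (volume.restrict W) := h1.restrict
  have hhc : ContinuousOn (fun ζ => h (t, ζ)) W :=
    hh.continuousOn.comp (by fun_prop) fun ζ hζ => ⟨ht, hζ⟩
  refine Integrable.mono' (h2.norm.mul_const M) ?_ ?_
  · exact h2.aestronglyMeasurable.smul (hhc.aestronglyMeasurable hW.measurableSet)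
  · refine (ae_restrict_mem hW.measurableSet).mono fun ζ hζ => ?_
    rw [norm_smul]
    exact mul_le_mul_of_nonneg_left (hM _ ⟨ht, hζ⟩) (norm_nonneg _)

theorem norm_cut_le (hW : IsOpen W) (hh : DifferentiableOn ℂ h (T ×ˢ W))
    (hM : ∀ x ∈ T ×ˢ W, ‖h x‖ ≤ M) (hM0 : 0 ≤ M) (hχ : ContDiff ℝ 1 χ) (hs : HasCompactSupport χ)
    {K : ℝ} (hK : ∀ z, ∫ ζ, ‖dbar χ ζ * (ζ - z)⁻¹‖ ≤ K) {x : E × ℂ} (hx : x.1 ∈ T) :
    ‖cut χ W h x‖ ≤ K * M := by
  have h1 := Crest.Agent.R080.Pomp.integrable_div_sub (continuous_dbar hχ)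
    (hasCompactSupport_dbar hs) x.2
  have h2 : ‖∫ ζ in W, (dbar χ ζ * (ζ - x.2)⁻¹) • h (x.1, ζ)‖ ≤ K * M := by
    calc ‖∫ ζ in W, (dbar χ ζ * (ζ - x.2)⁻¹) • h (x.1, ζ)‖
        ≤ ∫ ζ in W, ‖(dbar χ ζ * (ζ - x.2)⁻¹) • h (x.1, ζ)‖ := norm_integral_le_integral_norm _
      _ ≤ ∫ ζ in W, ‖dbar χ ζ * (ζ - x.2)⁻¹‖ * M := by
          refine integral_mono_ae (integrable_cut hW hh hM hχ hs hx x.2).norm
            ((h1.norm.mul_const M).restrict) ?_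
          refine (ae_restrict_mem hW.measurableSet).mono fun ζ hζ => ?_
          show ‖(dbar χ ζ * (ζ - x.2)⁻¹) • h (x.1, ζ)‖ ≤ ‖dbar χ ζ * (ζ - x.2)⁻¹‖ * M
          rw [norm_smul]
          exact mul_le_mul_of_nonneg_left (hM _ ⟨hx, hζ⟩) (norm_nonneg _)
      _ = (∫ ζ in W, ‖dbar χ ζ * (ζ - x.2)⁻¹‖) * M := integral_mul_const _ _
      _ ≤ K * M := by
          refine mul_le_mul_of_nonneg_right ?_ hM0
          refine le_trans ?_ (hK x.2)
          exact setIntegral_le_integral h1.norm (Eventually.of_forall fun ζ => norm_nonneg _)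
  have hKM : 0 ≤ K * M := (norm_nonneg _).trans h2
  have h3 : ‖(-(2 * Real.pi : ℂ)⁻¹)‖ ≤ 1 := by
    rw [norm_neg, norm_inv, norm_mul, Complex.norm_real, Real.norm_eq_abs,
      abs_of_pos Real.pi_pos]
    refine inv_le_one_of_one_le₀ ?_
    have := Real.pi_gt_three
    norm_num
    linarith
  rw [cut, norm_smul]
  calc _ ≤ 1 * (K * M) := mul_le_mul h3 h2 (norm_nonneg _) zero_le_one
    _ = K * M := one_mul _

theorem differentiableAt_cut (hW : IsOpen W) (hT : IsOpen T)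
    (hh : DifferentiableOn ℂ h (T ×ˢ W)) (hM : ∀ x ∈ T ×ˢ W, ‖h x‖ ≤ M)
    (hχ : ContDiff ℝ 1 χ) (hs : HasCompactSupport χ) {t₀ : E} {z₀ : ℂ} (ht₀ : t₀ ∈ T) {r : ℝ}
    (hr : 0 < r) (c : ℂ) (h0 : ∀ ζ ∈ ball z₀ r, χ ζ = c) :
    DifferentiableAt ℂ (cut χ W h) (t₀, z₀) := by
  have := differentiableAt_param hW hT hh hM (continuous_dbar hχ) (hasCompactSupport_dbar hs)
    ht₀ hr (z₀ := z₀) (fun ζ hζ => dbar_eq_zero (c := c)
      (by filter_upwards [isOpen_ball.mem_nhds hζ] with w hw using h0 w hw))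
  exact this.const_smul _

end props

section main

variable {A B : Set ℂ} {T : Set E} {h : E × ℂ → F} {M : ℝ} {χ : ℂ → ℂ}

theorem eventually_ball {P : ℂ → Prop} {z₀ : ℂ} (h : ∀ᶠ w in 𝓝 z₀, P w) :
    ∃ r > 0, ∀ w ∈ ball z₀ r, P w :=
  Metric.eventually_nhds_iff_ball.mp h

theorem nhds_snd {t₀ : E} {z₀ : ℂ} (hT : IsOpen T) (ht₀ : t₀ ∈ T) {r : ℝ} (hr : 0 < r) :
    ∀ᶠ x : E × ℂ in 𝓝 (t₀, z₀), x.1 ∈ T ∧ x.2 ∈ ball z₀ r := by
  have : T ×ˢ ball z₀ r ∈ 𝓝 (t₀, z₀) :=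
    prod_mem_nhds (hT.mem_nhds ht₀) (ball_mem_nhds z₀ hr)
  filter_upwards [this] with x hx using hx

theorem differentiableOn_SA [CompleteSpace F] (hA : IsOpen A) (hB : IsOpen B) (hc : IsCut A B χ)
    (hT : IsOpen T) (hh : DifferentiableOn ℂ h (T ×ˢ (A ∩ B)))
    (hM : ∀ x ∈ T ×ˢ (A ∩ B), ‖h x‖ ≤ M) :
    DifferentiableOn ℂ (SA χ (A ∩ B) h) (T ×ˢ A) := by
  rintro ⟨t₀, z₀⟩ ⟨ht₀, hz₀⟩
  refine DifferentiableAt.differentiableWithinAt ?_
  have hW : IsOpen (A ∩ B) := hA.inter hB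
  simp only at ht₀ hz₀
  by_cases hzB : z₀ ∈ B
  · obtain ⟨r₀, hr₀, hr₀W⟩ := Metric.isOpen_iff.mp hW z₀ ⟨hz₀, hzB⟩
    set ψ : ContDiffBump z₀ := ⟨r₀ / 4, r₀ / 2, by linarith, by linarith⟩ with hψ
    have hr : 0 < r₀ / 4 := by linarith
    set χ₁ : ℂ → ℂ := fun z => (ψ z : ℂ) * χ z with hχ₁
    set χ₂ : ℂ → ℂ := fun z => (1 - (ψ z : ℂ)) * χ z with hχ₂
    have hψc : ContDiff ℝ 1 fun z => (ψ z : ℂ) := Complex.ofRealCLM.contDiff.comp ψ.contDiff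
    have hχ₁c : ContDiff ℝ 1 χ₁ := hψc.mul hc.smooth
    have hχ₂c : ContDiff ℝ 1 χ₂ := (contDiff_const.sub hψc).mul hc.smooth
    have hχ₁s : HasCompactSupport χ₁ := hc.supp.mul_left
    have hχ₂s : HasCompactSupport χ₂ := hc.supp.mul_left
    have hsum : ∀ ζ, dbar χ ζ = dbar χ₁ ζ + dbar χ₂ ζ := by
      intro ζ
      rw [← dbar_add (hχ₁c.differentiable one_ne_zero ζ) (hχ₂c.differentiable one_ne_zero ζ)]
      congr 1
      funext w
      simp only [hχ₁, hχ₂]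
      ring
    have hts : tsupport χ₁ ⊆ A ∩ B := by
      have h1 : tsupport χ₁ ⊆ closedBall z₀ (r₀ / 2) := by
        refine closure_minimal (fun z hz => ?_) isClosed_closedBall
        by_contra hcon
        apply hz
        have : ψ z = 0 := ψ.zero_of_le_dist (by
          simp only [mem_closedBall, not_le] at hcon
          exact hcon.le)
        simp [hχ₁, this]
      exact h1.trans ((closedBall_subset_ball (by linarith)).trans hr₀W)
    have h2 : ∀ ζ ∈ ball z₀ (r₀ / 4), χ₂ ζ = 0 := by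
      intro ζ hζ
      have : ψ ζ = 1 := ψ.one_of_mem_closedBall (ball_subset_closedBall hζ)
      simp [hχ₂, this]
    have hev : SA χ (A ∩ B) h =ᶠ[𝓝 (t₀, z₀)] fun x => -cut χ₂ (A ∩ B) h x := by
      filter_upwards [nhds_snd hT ht₀ hr] with x hx
      have h3 : cut χ (A ∩ B) h x = χ₁ x.2 • h x + cut χ₂ (A ∩ B) h x := by
        have hk : DifferentiableOn ℂ (fun ζ => h (x.1, ζ)) (A ∩ B) :=
          hh.comp (by fun_prop) fun ζ hζ => ⟨hx.1, hζ⟩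
        have h4 := pompeiu_cut hW hχ₁c hχ₁s hts hk x.2
        rw [cut, cut, show χ₁ x.2 • h x = χ₁ x.2 • h (x.1, x.2) from rfl, ← h4, ← smul_add,
          ← integral_add (integrable_cut hW hh hM hχ₁c hχ₁s hx.1 x.2)
            (integrable_cut hW hh hM hχ₂c hχ₂s hx.1 x.2)]
        congr 1
        refine integral_congr_ae (Eventually.of_forall fun ζ => ?_)
        simp only [hsum, add_mul, add_smul]
      have h5 : χ₁ x.2 = χ x.2 := by
        have : ψ x.2 = 1 := ψ.one_of_mem_closedBall (ball_subset_closedBall hx.2)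
        simp [hχ₁, this]
      rw [SA, h3, h5]
      abel
    refine DifferentiableAt.congr_of_eventuallyEq ?_ hev
    exact (differentiableAt_cut hW hT hh hM hχ₂c hχ₂s ht₀ hr 0 h2).neg
  · obtain ⟨r, hr, h0⟩ := eventually_ball (hc.zero z₀ ⟨hz₀, hzB⟩)
    have hev : SA χ (A ∩ B) h =ᶠ[𝓝 (t₀, z₀)] fun x => -cut χ (A ∩ B) h x := by
      filter_upwards [nhds_snd hT ht₀ hr] with x hx
      rw [SA, h0 _ hx.2, zero_smul, zero_sub]
    refine DifferentiableAt.congr_of_eventuallyEq ?_ hev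
    exact (differentiableAt_cut hW hT hh hM hc.smooth hc.supp ht₀ hr 0 h0).neg

theorem differentiableOn_SB [CompleteSpace F] (hA : IsOpen A) (hB : IsOpen B) (hc : IsCut A B χ)
    (hT : IsOpen T) (hh : DifferentiableOn ℂ h (T ×ˢ (A ∩ B)))
    (hM : ∀ x ∈ T ×ˢ (A ∩ B), ‖h x‖ ≤ M) :
    DifferentiableOn ℂ (SB χ (A ∩ B) h) (T ×ˢ B) := by
  have hSA := differentiableOn_SA hA hB hc hT hh hM
  rintro ⟨t₀, z₀⟩ ⟨ht₀, hz₀⟩
  refine DifferentiableAt.differentiableWithinAt ?_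
  have hW : IsOpen (A ∩ B) := hA.inter hB
  simp only at ht₀ hz₀
  by_cases hzA : z₀ ∈ A
  · have h1 : DifferentiableAt ℂ (SA χ (A ∩ B) h) (t₀, z₀) :=
      hSA.differentiableAt ((hT.prod hA).mem_nhds ⟨ht₀, hzA⟩)
    have h2 : DifferentiableAt ℂ h (t₀, z₀) :=
      hh.differentiableAt ((hT.prod hW).mem_nhds ⟨ht₀, hzA, hz₀⟩)
    refine (h1.sub h2).congr_of_eventuallyEq (Eventually.of_forall fun x => ?_)
    show SB χ (A ∩ B) h x = SA χ (A ∩ B) h x - h x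
    rw [← SA_sub_SB χ (A ∩ B) h x]
    abel
  · obtain ⟨r, hr, h0⟩ := eventually_ball (hc.one z₀ ⟨hz₀, hzA⟩)
    have hev : SB χ (A ∩ B) h =ᶠ[𝓝 (t₀, z₀)] fun x => -cut χ (A ∩ B) h x := by
      filter_upwards [nhds_snd hT ht₀ hr] with x hx
      rw [SB, h0 _ hx.2, sub_self, zero_smul, zero_sub]
    refine DifferentiableAt.congr_of_eventuallyEq ?_ hev
    exact (differentiableAt_cut hW hT hh hM hc.smooth hc.supp ht₀ hr 1 h0).neg

/-- What the two splitting operators do. -/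
structure IsSplit (A B : Set ℂ) (K : ℝ) (PA PB : (E × ℂ → F) → E × ℂ → F) : Prop where
  pos : 0 < K
  diffA : ∀ (T : Set E) (h : E × ℂ → F) (M : ℝ), IsOpen T → DifferentiableOn ℂ h (T ×ˢ (A ∩ B)) →
    (∀ x ∈ T ×ˢ (A ∩ B), ‖h x‖ ≤ M) → DifferentiableOn ℂ (PA h) (T ×ˢ A)
  diffB : ∀ (T : Set E) (h : E × ℂ → F) (M : ℝ), IsOpen T → DifferentiableOn ℂ h (T ×ˢ (A ∩ B)) →
    (∀ x ∈ T ×ˢ (A ∩ B), ‖h x‖ ≤ M) → DifferentiableOn ℂ (PB h) (T ×ˢ B)
  boundA : ∀ (T : Set E) (h : E × ℂ → F) (M : ℝ), IsOpen T →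
    DifferentiableOn ℂ h (T ×ˢ (A ∩ B)) → (∀ x ∈ T ×ˢ (A ∩ B), ‖h x‖ ≤ M) → 0 ≤ M →
    ∀ x ∈ T ×ˢ A, ‖PA h x‖ ≤ K * M
  boundB : ∀ (T : Set E) (h : E × ℂ → F) (M : ℝ), IsOpen T →
    DifferentiableOn ℂ h (T ×ˢ (A ∩ B)) → (∀ x ∈ T ×ˢ (A ∩ B), ‖h x‖ ≤ M) → 0 ≤ M →
    ∀ x ∈ T ×ˢ B, ‖PB h x‖ ≤ K * M
  split : ∀ (h : E × ℂ → F) (x : E × ℂ), PA h x - PB h x = h x
  subA : ∀ (T : Set E) (h₁ h₂ : E × ℂ → F) (M : ℝ), IsOpen T →
    DifferentiableOn ℂ h₁ (T ×ˢ (A ∩ B)) → (∀ x ∈ T ×ˢ (A ∩ B), ‖h₁ x‖ ≤ M) →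
    DifferentiableOn ℂ h₂ (T ×ˢ (A ∩ B)) → (∀ x ∈ T ×ˢ (A ∩ B), ‖h₂ x‖ ≤ M) →
    ∀ x : E × ℂ, x.1 ∈ T → PA (fun y => h₁ y - h₂ y) x = PA h₁ x - PA h₂ x
  subB : ∀ (T : Set E) (h₁ h₂ : E × ℂ → F) (M : ℝ), IsOpen T →
    DifferentiableOn ℂ h₁ (T ×ˢ (A ∩ B)) → (∀ x ∈ T ×ˢ (A ∩ B), ‖h₁ x‖ ≤ M) →
    DifferentiableOn ℂ h₂ (T ×ˢ (A ∩ B)) → (∀ x ∈ T ×ˢ (A ∩ B), ‖h₂ x‖ ≤ M) →
    ∀ x : E × ℂ, x.1 ∈ T → PB (fun y => h₁ y - h₂ y) x = PB h₁ x - PB h₂ x
  congrA : ∀ (h₁ h₂ : E × ℂ → F) (x : E × ℂ), x.2 ∈ A →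
    (∀ ζ ∈ A ∩ B, h₁ (x.1, ζ) = h₂ (x.1, ζ)) → PA h₁ x = PA h₂ x
  congrB : ∀ (h₁ h₂ : E × ℂ → F) (x : E × ℂ), x.2 ∈ B →
    (∀ ζ ∈ A ∩ B, h₁ (x.1, ζ) = h₂ (x.1, ζ)) → PB h₁ x = PB h₂ x

theorem cut_sub {W : Set ℂ} (hW : IsOpen W) {h₁ h₂ : E × ℂ → F}
    (hh₁ : DifferentiableOn ℂ h₁ (T ×ˢ W)) (hM₁ : ∀ x ∈ T ×ˢ W, ‖h₁ x‖ ≤ M)
    (hh₂ : DifferentiableOn ℂ h₂ (T ×ˢ W)) (hM₂ : ∀ x ∈ T ×ˢ W, ‖h₂ x‖ ≤ M)
    (hχ : ContDiff ℝ 1 χ) (hs : HasCompactSupport χ) {x : E × ℂ} (hx : x.1 ∈ T) :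
    cut χ W (fun y => h₁ y - h₂ y) x = cut χ W h₁ x - cut χ W h₂ x := by
  rw [cut, cut, cut, ← smul_sub, ← integral_sub (integrable_cut hW hh₁ hM₁ hχ hs hx x.2)
    (integrable_cut hW hh₂ hM₂ hχ hs hx x.2)]
  simp only [smul_sub]

theorem cut_congr {W : Set ℂ} (hW : IsOpen W) {h₁ h₂ : E × ℂ → F} {x : E × ℂ}
    (h : ∀ ζ ∈ W, h₁ (x.1, ζ) = h₂ (x.1, ζ)) : cut χ W h₁ x = cut χ W h₂ x := by
  rw [cut, cut]
  congr 1
  exact setIntegral_congr_fun hW.measurableSet fun ζ hζ => by simp only [h ζ hζ]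

/-- **Bounded splitting with parameters and no loss of domain.** -/
theorem exists_isSplit.{u, v} {A B : Set ℂ} (hA : IsOpen A) (hB : IsOpen B)
    (hbd : Bornology.IsBounded (A ∪ B))
    (hsep : ∃ δ > 0, ∀ a ∈ A \ B, ∀ b ∈ B \ A, δ ≤ dist a b) :
    ∃ (χ : ℂ → ℂ) (K : ℝ), ∀ (E : Type u) (F : Type v) [NormedAddCommGroup E] [NormedSpace ℂ E]
      [NormedAddCommGroup F] [NormedSpace ℂ F] [CompleteSpace F],
      IsSplit (E := E) (F := F) A B K (SA χ (A ∩ B)) (SB χ (A ∩ B)) := by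
  obtain ⟨χ, hχ⟩ := exists_isCut hbd hsep
  obtain ⟨K₀, hK₀, hK⟩ := exists_bound hχ.smooth hχ.supp
  have hW : IsOpen (A ∩ B) := hA.inter hB
  refine ⟨χ, 1 + K₀, ?_⟩
  intro E F _ _ _ _ _
  refine ⟨by linarith, ?_, ?_, ?_, ?_, ?_, ?_, ?_, ?_, ?_⟩
  · intro T h M hT hh hM
    exact differentiableOn_SA hA hB hχ hT hh hM
  · intro T h M hT hh hM
    exact differentiableOn_SB hA hB hχ hT hh hM
  · intro T h M hT hh hM hM0 x hx
    have h1 := norm_cut_le hW hh hM hM0 hχ.smooth hχ.supp hK hx.1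
    have h2 : ‖χ x.2 • h x‖ ≤ M := by
      by_cases hxB : x.2 ∈ B
      · rw [norm_smul]
        calc _ ≤ 1 * M := mul_le_mul (hχ.le_one _) (hM x ⟨hx.1, hx.2, hxB⟩) (norm_nonneg _)
              zero_le_one
          _ = M := one_mul _
      · rw [(hχ.zero x.2 ⟨hx.2, hxB⟩).self_of_nhds, zero_smul, norm_zero]
        exact hM0
    calc ‖SA χ (A ∩ B) h x‖ ≤ ‖χ x.2 • h x‖ + ‖cut χ (A ∩ B) h x‖ := norm_sub_le _ _
      _ ≤ M + K₀ * M := add_le_add h2 h1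
      _ = (1 + K₀) * M := by ring
  · intro T h M hT hh hM hM0 x hx
    have h1 := norm_cut_le hW hh hM hM0 hχ.smooth hχ.supp hK hx.1
    have h2 : ‖(χ x.2 - 1) • h x‖ ≤ M := by
      by_cases hxA : x.2 ∈ A
      · rw [norm_smul]
        calc _ ≤ 1 * M := mul_le_mul (hχ.le_one' _) (hM x ⟨hx.1, hxA, hx.2⟩) (norm_nonneg _)
              zero_le_one
          _ = M := one_mul _
      · rw [(hχ.one x.2 ⟨hx.2, hxA⟩).self_of_nhds, sub_self, zero_smul, norm_zero]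
        exact hM0
    calc ‖SB χ (A ∩ B) h x‖ ≤ ‖(χ x.2 - 1) • h x‖ + ‖cut χ (A ∩ B) h x‖ := norm_sub_le _ _
      _ ≤ M + K₀ * M := add_le_add h2 h1
      _ = (1 + K₀) * M := by ring
  · intro h x
    exact SA_sub_SB χ _ h x
  · intro T h₁ h₂ M hT hh₁ hM₁ hh₂ hM₂ x hx
    simp only [SA, cut_sub hW hh₁ hM₁ hh₂ hM₂ hχ.smooth hχ.supp hx, smul_sub]
    abel
  · intro T h₁ h₂ M hT hh₁ hM₁ hh₂ hM₂ x hx
    simp only [SB, cut_sub hW hh₁ hM₁ hh₂ hM₂ hχ.smooth hχ.supp hx, smul_sub]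
    abel
  · intro h₁ h₂ x hx hcongr
    rw [SA, SA, cut_congr hW hcongr]
    by_cases hxB : x.2 ∈ B
    · rw [show h₁ x = h₂ x from hcongr x.2 ⟨hx, hxB⟩]
    · rw [(hχ.zero x.2 ⟨hx, hxB⟩).self_of_nhds, zero_smul, zero_smul]
  · intro h₁ h₂ x hx hcongr
    rw [SB, SB, cut_congr hW hcongr]
    by_cases hxA : x.2 ∈ A
    · rw [show h₁ x = h₂ x from hcongr x.2 ⟨hxA, hx⟩]
    · rw [(hχ.one x.2 ⟨hx, hxA⟩).self_of_nhds, sub_self, zero_smul, zero_smul]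

end main

end Crest.Agent.R279.PSL
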