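import Mathlib
import Crest.Agent.R279.PSL806
import Crest.Agent.R279.H488Runge

/-!
R279 (helper806): Hartogs-Rosenthal theorem (polynomial form) and the comb lemma of Part 5.
-/

set_option autoImplicit false

open Set Metric Filter MeasureTheory
open scoped Topology ContDiff

noncomputable section
namespace Crest.Agent.R279.HR

open Crest.Agent.R279.PSL

/-- the truncated kernel -/
theorem integrable_ball (ρ : ℝ) (z : ℂ) :
    Integrable (fun ζ : ℂ => (ball z ρ).indicator (fun w => ‖w - z‖⁻¹) ζ) volume ∧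
    (0 ≤ ρ → ∫ ζ : ℂ, (ball z ρ).indicator (fun w => ‖w - z‖⁻¹) ζ = 2 * Real.pi * ρ) := by
  set f : ℝ → ℝ := fun r => (Iio ρ).indicator (fun s => s⁻¹) r with hf
  have h1 : ∀ ζ : ℂ, (ball z ρ).indicator (fun w => ‖w - z‖⁻¹) ζ = f ‖ζ - z‖ := by
    intro ζ
    by_cases h : ζ ∈ ball z ρ
    · have h' : ‖ζ - z‖ ∈ Iio ρ := by rw [mem_ball, dist_eq_norm] at h; exact h
      rw [indicator_of_mem h, hf]
      simp only [indicator_of_mem h']
    · have h' : ‖ζ - z‖ ∉ Iio ρ := by rw [mem_ball, dist_eq_norm] at h; exact h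
      rw [indicator_of_notMem h, hf]
      simp only [indicator_of_notMem h']
  have h2 : ∀ y ∈ Ioi (0 : ℝ), y * f y = (Iio ρ).indicator (fun _ => (1 : ℝ)) y := by
    intro y hy
    have hy0 : y ≠ 0 := ne_of_gt hy
    by_cases h : y ∈ Iio ρ
    · simp only [hf, indicator_of_mem h]
      field_simp
    · simp only [hf, indicator_of_notMem h, mul_zero]
  have h3 : IntegrableOn (fun y => y * f y) (Ioi 0) := by
    have : IntegrableOn (fun y : ℝ => (Iio ρ).indicator (fun _ => (1 : ℝ)) y) (Ioi 0) := by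
      have h4 : IntegrableOn (fun _ : ℝ => (1 : ℝ)) (Ioi 0 ∩ Iio ρ) := by
        rw [Ioi_inter_Iio]
        exact integrableOn_const (by simp)
      rw [IntegrableOn, integrable_indicator_iff measurableSet_Iio, IntegrableOn,
        Measure.restrict_restrict measurableSet_Iio, inter_comm]
      exact h4
    exact this.congr_fun (fun y hy => (h2 y hy).symm) measurableSet_Ioi
  have h5 := Crest.Agent.R080.Pomp.integrable_radial h3
  refine ⟨?_, fun hρ => ?_⟩
  · have h6 : Integrable (fun ζ : ℂ => f ‖ζ - z‖) volume := h5.comp_sub_right z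
    exact h6.congr (Eventually.of_forall fun ζ => (h1 ζ).symm)
  · rw [integral_congr_ae (Eventually.of_forall h1)]
    rw [integral_sub_right_eq_self (fun ζ : ℂ => f ‖ζ‖) z, Crest.Agent.R080.Pomp.integral_radial,
      setIntegral_congr_fun measurableSet_Ioi h2, setIntegral_indicator measurableSet_Iio,
      Ioi_inter_Iio]
    simp [hρ]

/-- kernel estimate: `∫_S |ζ - z|⁻¹ ≤ 2πρ + |S|/ρ`. -/
theorem kernel_le {S : Set ℂ} (hS : MeasurableSet S) (hfin : volume S ≠ ⊤) {ρ : ℝ} (hρ : 0 < ρ)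
    (z : ℂ) :
    IntegrableOn (fun ζ : ℂ => ‖(ζ - z)⁻¹‖) S volume ∧
    ∫ ζ in S, ‖(ζ - z)⁻¹‖ ≤ 2 * Real.pi * ρ + volume.real S / ρ := by
  obtain ⟨hi, hv⟩ := integrable_ball ρ z
  have hv := hv hρ.le
  have hc : IntegrableOn (fun _ : ℂ => ρ⁻¹) S volume := integrableOn_const hfin
  have hsum : IntegrableOn (fun ζ : ℂ => (ball z ρ).indicator (fun w => ‖w - z‖⁻¹) ζ + ρ⁻¹) S
      volume := hi.integrableOn.add hc
  have hle : ∀ ζ : ℂ, ‖(ζ - z)⁻¹‖ ≤ (ball z ρ).indicator (fun w => ‖w - z‖⁻¹) ζ + ρ⁻¹ := by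
    intro ζ
    rw [norm_inv]
    by_cases h : ζ ∈ ball z ρ
    · rw [indicator_of_mem h]
      have : 0 ≤ ρ⁻¹ := by positivity
      linarith
    · rw [indicator_of_notMem h, zero_add]
      rw [mem_ball, not_lt, dist_eq_norm] at h
      exact inv_anti₀ hρ h
  have hint : IntegrableOn (fun ζ : ℂ => ‖(ζ - z)⁻¹‖) S volume := by
    refine Integrable.mono' hsum ?_ (Eventually.of_forall fun ζ => ?_)
    · exact (Measurable.norm (by fun_prop)).aestronglyMeasurable
    · rw [Real.norm_eq_abs, abs_of_nonneg (norm_nonneg _)]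
      exact hle ζ
  refine ⟨hint, ?_⟩
  calc ∫ ζ in S, ‖(ζ - z)⁻¹‖
      ≤ ∫ ζ in S, ((ball z ρ).indicator (fun w => ‖w - z‖⁻¹) ζ + ρ⁻¹) :=
        setIntegral_mono hint hsum hle
    _ = (∫ ζ in S, (ball z ρ).indicator (fun w => ‖w - z‖⁻¹) ζ) + volume.real S * ρ⁻¹ := by
        rw [integral_add hi.integrableOn hc, setIntegral_const, smul_eq_mul]
    _ ≤ 2 * Real.pi * ρ + volume.real S / ρ := by
        rw [← hv, div_eq_mul_inv]
        refine add_le_add ?_ le_rfl
        exact setIntegral_le_integral hi (Eventually.of_forall fun ζ =>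
          indicator_nonneg (fun w _ => by positivity) ζ)

/-- the Cauchy transform over a set is holomorphic off the set -/
theorem differentiableAt_transform {d : ℂ → ℂ} (hd : Integrable d volume) {W : Set ℂ}
    (hW : MeasurableSet W) {z₀ : ℂ} {r : ℝ} (hr : 0 < r) (hWr : ∀ ζ ∈ W, 2 * r ≤ dist ζ z₀) :
    DifferentiableAt ℂ (fun z => ∫ ζ in W, d ζ * (ζ - z)⁻¹) z₀ := by
  have hlow : ∀ ζ ∈ W, ∀ z ∈ ball z₀ r, r ≤ ‖ζ - z‖ := by
    intro ζ hζ z hz
    have h1 := hWr ζ hζ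
    have h2 := dist_triangle ζ z z₀
    rw [mem_ball] at hz
    rw [dist_eq_norm ζ z] at h2
    linarith
  have hz₀ : z₀ ∈ ball z₀ r := mem_ball_self hr
  have hmeas : ∀ z, AEStronglyMeasurable (fun ζ => d ζ * (ζ - z)⁻¹) (volume.restrict W) := by
    intro z
    refine hd.aestronglyMeasurable.restrict.mul ?_
    exact (by fun_prop : Measurable fun ζ : ℂ => (ζ - z)⁻¹).aestronglyMeasurable
  have main := hasDerivAt_integral_of_dominated_loc_of_deriv_le (𝕜 := ℂ)
    (μ := volume.restrict W) (F := fun z ζ => d ζ * (ζ - z)⁻¹)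
    (F' := fun z ζ => d ζ * ((ζ - z) ^ 2)⁻¹) (x₀ := z₀) (s := ball z₀ r)
    (bound := fun ζ => ‖d ζ‖ * (r ^ 2)⁻¹) (ball_mem_nhds z₀ hr)
    (Eventually.of_forall hmeas)
    (by
      refine Integrable.mono' ((hd.restrict (s := W)).norm.mul_const r⁻¹) (hmeas z₀) ?_
      refine (ae_restrict_mem hW).mono fun ζ hζ => ?_
      rw [norm_mul, norm_inv]
      exact mul_le_mul_of_nonneg_left (inv_anti₀ hr (hlow ζ hζ z₀ hz₀)) (norm_nonneg _))
    (by
      refine hd.aestronglyMeasurable.restrict.mul ?_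
      exact (by fun_prop : Measurable fun ζ : ℂ => ((ζ - z₀) ^ 2)⁻¹).aestronglyMeasurable)
    (by
      refine (ae_restrict_mem hW).mono fun ζ hζ z hz => ?_
      rw [norm_mul, norm_inv, norm_pow]
      refine mul_le_mul_of_nonneg_left (inv_anti₀ (by positivity) ?_) (norm_nonneg _)
      exact pow_le_pow_left₀ hr.le (hlow ζ hζ z hz) 2)
    ((hd.restrict (s := W)).norm.mul_const _)
    (by
      refine (ae_restrict_mem hW).mono fun ζ hζ z hz => ?_
      have hne : ζ - z ≠ 0 := by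
        intro h0
        have := hlow ζ hζ z hz
        rw [h0, norm_zero] at this
        linarith
      have h1 : HasDerivAt (fun z : ℂ => ζ - z) (-1) z := by
        simpa using (hasDerivAt_id z).const_sub ζ
      have h2 := (h1.fun_inv hne).const_mul (d ζ)
      refine h2.congr_deriv ?_
      simp)
  exact main.2.differentiableAt

/-- smooth approximation of a continuous function on a compact set -/
theorem exists_smooth {K : Set ℂ} (hK : IsCompact K) {g : ℂ → ℂ} (hg : Continuous g) {ε : ℝ}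
    (hε : 0 < ε) : ∃ G : ℂ → ℂ, ContDiff ℝ 1 G ∧ HasCompactSupport G ∧ ∀ z ∈ K, ‖G z - g z‖ < ε := by
  obtain ⟨g₁, hg₁⟩ := exists_contMDiffMap_forall_mem_convex_of_local_const (n := 1)
    (modelWithCornersSelf ℝ ℂ) (F := ℂ) (t := fun z : ℂ => ball (g z) ε)
    (fun z => convex_ball _ _)
    (fun z => ⟨g z, by
      have : ∀ᶠ y in 𝓝 z, g y ∈ ball (g z) ε := hg.continuousAt (ball_mem_nhds _ hε)
      filter_upwards [this] with y hy
      rwa [mem_ball, dist_comm]⟩)
  obtain ⟨R, hR⟩ := hK.isBounded.subset_closedBall (0 : ℂ)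
  have hR0 : 0 < max R 0 + 1 := by positivity
  let b : ContDiffBump (0 : ℂ) := ⟨max R 0 + 1, max R 0 + 2, hR0, by linarith⟩
  have hbc : ContDiff ℝ 1 (fun z => (b z : ℂ)) := Complex.ofRealCLM.contDiff.comp b.contDiff
  have h2 : HasCompactSupport (fun z => (b z : ℂ) * g₁ z) := by
    refine HasCompactSupport.intro (isCompact_closedBall (0 : ℂ) (max R 0 + 2)) fun x hx => ?_
    have : b x = 0 := b.zero_of_le_dist (by
      rw [mem_closedBall, not_le] at hx
      exact hx.le)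
    rw [this, Complex.ofReal_zero, zero_mul]
  refine ⟨fun z => (b z : ℂ) * g₁ z, hbc.mul g₁.contMDiff.contDiff, h2, fun z hz => ?_⟩
  have hz1 : z ∈ closedBall (0 : ℂ) (max R 0 + 1) := by
    refine closedBall_subset_closedBall ?_ (hR hz)
    have := le_max_left R 0
    linarith
  have hb1 : b z = 1 := b.one_of_mem_closedBall hz1
  show ‖(b z : ℂ) * g₁ z - g z‖ < ε
  rw [hb1, Complex.ofReal_one, one_mul, ← dist_eq_norm]
  exact hg₁ z

/-- **Hartogs-Rosenthal**, polynomial form: on a compact set of measure zero whose complement has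
no bounded components (escape hypothesis), polynomials approximate all continuous functions. -/
theorem hartogs_rosenthal {K : Set ℂ} (hK : IsCompact K) (h0 : volume K = 0)
    (hesc : ∀ a ∉ K, ∃ C : Set ℂ, IsPreconnected C ∧ a ∈ C ∧ Disjoint C K ∧
      ¬ Bornology.IsBounded C)
    {g : ℂ → ℂ} (hg : Continuous g) {ε : ℝ} (hε : 0 < ε) :
    ∃ p : Polynomial ℂ, ∀ z ∈ K, ‖p.eval z - g z‖ < ε := by
  obtain ⟨G, hG, hGs, hGg⟩ := exists_smooth hK hg (ε := ε / 2) (by linarith)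
  have hdc := continuous_dbar hG
  have hds := hasCompactSupport_dbar hGs
  obtain ⟨C, hC⟩ := hdc.bounded_above_of_compact_support hds
  have hC0 : 0 ≤ C := (norm_nonneg _).trans (hC 0)
  have hdi : Integrable (dbar G) volume := hdc.integrable_of_hasCompactSupport hds
  -- choose `ρ`, then `δ`
  set ρ : ℝ := ε / (32 * (C + 1)) with hρdef
  have hρ : 0 < ρ := by positivity
  have htend : Tendsto (fun δ : ℝ => volume (cthickening δ K)) (𝓝 0) (𝓝 0) := by
    have := tendsto_measure_cthickening_of_isCompact (μ := volume) hK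
    rwa [h0] at this
  have hev : ∀ᶠ δ in 𝓝[>] (0 : ℝ), volume (cthickening δ K) < ENNReal.ofReal (ρ ^ 2) := by
    refine (htend.mono_left nhdsWithin_le_nhds).eventually (gt_mem_nhds ?_)
    rw [ENNReal.ofReal_pos]
    positivity
  obtain ⟨δ, hδv, hδ⟩ := (hev.and self_mem_nhdsWithin).exists
  have hδ : 0 < δ := hδ
  set N : Set ℂ := thickening δ K with hN
  have hNo : IsOpen N := isOpen_thickening
  have hNK : K ⊆ N := self_subset_thickening hδ K
  have hNv : volume N < ENNReal.ofReal (ρ ^ 2) :=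
    lt_of_le_of_lt (measure_mono (thickening_subset_cthickening _ _)) hδv
  have hNfin : volume N ≠ ⊤ := (hNv.trans ENNReal.ofReal_lt_top).ne
  have hNreal : volume.real N ≤ ρ ^ 2 := by
    rw [Measure.real]
    exact ENNReal.toReal_le_of_le_ofReal (by positivity) hNv.le
  set H : ℂ → ℂ := fun z => -(2 * Real.pi : ℂ)⁻¹ * ∫ ζ in Nᶜ, dbar G ζ * (ζ - z)⁻¹ with hH
  have hHd : DifferentiableOn ℂ H N := by
    intro z₀ hz₀
    obtain ⟨r, hr, hrN⟩ := Metric.isOpen_iff.mp hNo z₀ hz₀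
    refine DifferentiableAt.differentiableWithinAt ?_
    refine (differentiableAt_transform hdi hNo.measurableSet.compl (r := r / 2) (by linarith)
      (fun ζ hζ => ?_)).const_mul _
    by_contra hcon
    push Not at hcon
    apply hζ
    apply hrN
    rw [mem_ball]
    linarith
  obtain ⟨p, hp⟩ := Planar.runge K hK hesc N hNo hNK H hHd (ε / 4) (by linarith)
  refine ⟨p, fun z hz => ?_⟩
  have hkey : ‖H z - G z‖ ≤ ε / 8 := by
    have h1 : G z = -(2 * Real.pi : ℂ)⁻¹ * ∫ ζ, dbar G ζ * (ζ - z)⁻¹ := (pompeiu' hG hGs z).symm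
    have hint := Crest.Agent.R080.Pomp.integrable_div_sub hdc hds z
    have h2 : ∫ ζ, dbar G ζ * (ζ - z)⁻¹ =
        (∫ ζ in N, dbar G ζ * (ζ - z)⁻¹) + ∫ ζ in Nᶜ, dbar G ζ * (ζ - z)⁻¹ :=
      (integral_add_compl hNo.measurableSet hint).symm
    have h3 : H z - G z = (2 * Real.pi : ℂ)⁻¹ * ∫ ζ in N, dbar G ζ * (ζ - z)⁻¹ := by
      rw [h1, h2, hH]
      ring
    obtain ⟨hi, hle⟩ := kernel_le hNo.measurableSet hNfin hρ z
    have h4 : ‖∫ ζ in N, dbar G ζ * (ζ - z)⁻¹‖ ≤ C * (2 * Real.pi * ρ + volume.real N / ρ) := by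
      calc ‖∫ ζ in N, dbar G ζ * (ζ - z)⁻¹‖ ≤ ∫ ζ in N, ‖dbar G ζ * (ζ - z)⁻¹‖ :=
            norm_integral_le_integral_norm _
        _ ≤ ∫ ζ in N, C * ‖(ζ - z)⁻¹‖ := by
            refine setIntegral_mono hint.norm.integrableOn (hi.const_mul C) fun ζ => ?_
            show ‖dbar G ζ * (ζ - z)⁻¹‖ ≤ C * ‖(ζ - z)⁻¹‖
            rw [norm_mul]
            exact mul_le_mul_of_nonneg_right (hC ζ) (norm_nonneg _)
        _ = C * ∫ ζ in N, ‖(ζ - z)⁻¹‖ := integral_const_mul _ _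
        _ ≤ _ := mul_le_mul_of_nonneg_left hle hC0
    have h5 : volume.real N / ρ ≤ ρ := by
      rw [div_le_iff₀ hρ]
      calc volume.real N ≤ ρ ^ 2 := hNreal
        _ = ρ * ρ := sq ρ
    have hpi := Real.pi_pos
    have hpi3 := Real.pi_gt_three
    rw [h3, norm_mul, norm_inv, norm_mul, Complex.norm_real, Real.norm_eq_abs, abs_of_pos hpi]
    have h6 : ‖(2 : ℂ)‖ = 2 := by norm_num
    rw [h6, inv_mul_le_iff₀ (by positivity)]
    have hCρ : C * ρ ≤ ε / 32 := by
      rw [hρdef, mul_div_assoc', div_le_div_iff₀ (by positivity) (by positivity)]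
      nlinarith
    calc ‖∫ ζ in N, dbar G ζ * (ζ - z)⁻¹‖ ≤ C * (2 * Real.pi * ρ + volume.real N / ρ) := h4
      _ ≤ C * (2 * Real.pi * ρ + ρ) := by gcongr
      _ = (2 * Real.pi + 1) * (C * ρ) := by ring
      _ ≤ (2 * Real.pi + 1) * (ε / 32) := by gcongr
      _ ≤ 2 * Real.pi * (ε / 8) := by nlinarith
  have h7 := hp z hz
  have h8 := hGg z hz
  calc ‖p.eval z - g z‖ = ‖(p.eval z - H z) + (H z - G z) + (G z - g z)‖ := by ring_nf
    _ ≤ ‖p.eval z - H z‖ + ‖H z - G z‖ + ‖G z - g z‖ := norm_add₃_le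
    _ < ε := by linarith

/-- the comb -/
def comb (a α β R0 : ℝ) (Y : Finset ℝ) : Set ℂ :=
  {c | c.re = a ∧ c.im ∈ Icc α β} ∪ {c | c.re ∈ Icc a (a + R0) ∧ c.im ∈ Y}

theorem isCompact_comb (a α β R0 : ℝ) (Y : Finset ℝ) : IsCompact (comb a α β R0 Y) := by
  have hcl : ∀ (s t : Set ℝ), IsCompact s → IsCompact t →
      IsCompact {c : ℂ | c.re ∈ s ∧ c.im ∈ t} := by
    intro s t hs ht
    have : {c : ℂ | c.re ∈ s ∧ c.im ∈ t} = s ×ℂ t := by ext c; simp [Complex.mem_reProdIm]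
    rw [this]
    exact hs.reProdIm ht
  refine IsCompact.union ?_ ?_
  · exact hcl {a} (Icc α β) isCompact_singleton isCompact_Icc
  · exact hcl (Icc a (a + R0)) (Y : Set ℝ) isCompact_Icc Y.finite_toSet.isCompact

theorem volume_comb (a α β R0 : ℝ) (Y : Finset ℝ) : volume (comb a α β R0 Y) = 0 := by
  have hz : ∀ (s t : Set ℝ), MeasurableSet s → MeasurableSet t → (volume s = 0 ∨ volume t = 0) →
      volume {c : ℂ | c.re ∈ s ∧ c.im ∈ t} = 0 := by
    intro s t hs ht h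
    have h1 : {c : ℂ | c.re ∈ s ∧ c.im ∈ t} = Complex.measurableEquivRealProd ⁻¹' (s ×ˢ t) := by
      ext c
      simp [Complex.measurableEquivRealProd]
    rw [h1, Complex.volume_preserving_equiv_real_prod.measure_preimage_equiv]
    rw [Measure.volume_eq_prod, Measure.prod_prod]
    rcases h with h | h <;> simp [h]
  rw [comb, measure_union_null_iff]
  constructor
  · exact hz {a} (Icc α β) (measurableSet_singleton a) measurableSet_Icc (Or.inl (by simp))
  · exact hz (Icc a (a + R0)) (Y : Set ℝ) measurableSet_Icc Y.finite_toSet.measurableSet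
      (Or.inr (Y.finite_toSet.measure_zero volume))

theorem ray_right (x y : ℝ) : IsPreconnected {c : ℂ | x ≤ c.re ∧ c.im = y} ∧
    ¬ Bornology.IsBounded {c : ℂ | x ≤ c.re ∧ c.im = y} := by
  constructor
  · refine Convex.isPreconnected ?_
    have : {c : ℂ | x ≤ c.re ∧ c.im = y} = {c : ℂ | x ≤ c.re} ∩ {c : ℂ | c.im = y} := by
      ext c; simp
    rw [this]
    refine (convex_halfSpace_re_ge x).inter ?_
    exact convex_hyperplane (f := fun c : ℂ => c.im) Complex.imLm.isLinear y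
  · intro h
    obtain ⟨M, hM⟩ := h.subset_closedBall (0 : ℂ)
    have h1 : (⟨max x (|M| + 1), y⟩ : ℂ) ∈ {c : ℂ | x ≤ c.re ∧ c.im = y} :=
      ⟨le_max_left _ _, rfl⟩
    have h2 := hM h1
    rw [mem_closedBall, dist_zero_right] at h2
    have h3 := Complex.re_le_norm (⟨max x (|M| + 1), y⟩ : ℂ)
    have h4 : |M| + 1 ≤ max x (|M| + 1) := le_max_right _ _
    have h5 := le_abs_self M
    simp only at h3
    linarith

theorem ray_left (x y : ℝ) : IsPreconnected {c : ℂ | c.re ≤ x ∧ c.im = y} ∧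
    ¬ Bornology.IsBounded {c : ℂ | c.re ≤ x ∧ c.im = y} := by
  constructor
  · refine Convex.isPreconnected ?_
    have : {c : ℂ | c.re ≤ x ∧ c.im = y} = {c : ℂ | c.re ≤ x} ∩ {c : ℂ | c.im = y} := by
      ext c; simp
    rw [this]
    refine (convex_halfSpace_re_le x).inter ?_
    exact convex_hyperplane (f := fun c : ℂ => c.im) Complex.imLm.isLinear y
  · intro h
    obtain ⟨M, hM⟩ := h.subset_closedBall (0 : ℂ)
    have h1 : (⟨min x (-|M| - 1), y⟩ : ℂ) ∈ {c : ℂ | c.re ≤ x ∧ c.im = y} :=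
      ⟨min_le_left _ _, rfl⟩
    have h2 := hM h1
    rw [mem_closedBall, dist_zero_right] at h2
    have h3 := (abs_le.mp (Complex.abs_re_le_norm (⟨min x (-|M| - 1), y⟩ : ℂ))).1
    have h4 : min x (-|M| - 1) ≤ -|M| - 1 := min_le_right _ _
    have h5 := le_abs_self M
    simp only at h3
    linarith

theorem escape_comb (a α β R0 : ℝ) (Y : Finset ℝ) (hY : ∀ y ∈ Y, y ∈ Icc α β) :
    ∀ c ∉ comb a α β R0 Y, ∃ C : Set ℂ, IsPreconnected C ∧ c ∈ C ∧
      Disjoint C (comb a α β R0 Y) ∧ ¬ Bornology.IsBounded C := by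
  intro c hc
  rcases lt_or_ge a c.re with h | h
  · refine ⟨{w | c.re ≤ w.re ∧ w.im = c.im}, (ray_right _ _).1, ⟨le_rfl, rfl⟩, ?_, (ray_right _ _).2⟩
    rw [Set.disjoint_left]
    rintro w ⟨hw1, hw2⟩ (⟨h1, -⟩ | ⟨h1, h2⟩)
    · linarith
    · apply hc
      right
      exact ⟨⟨h.le, hw1.trans h1.2⟩, hw2 ▸ h2⟩
  · refine ⟨{w | w.re ≤ c.re ∧ w.im = c.im}, (ray_left _ _).1, ⟨le_rfl, rfl⟩, ?_, (ray_left _ _).2⟩
    rw [Set.disjoint_left]
    rintro w ⟨hw1, hw2⟩ (⟨h1, h2⟩ | ⟨h1, h2⟩)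
    · apply hc
      left
      exact ⟨le_antisymm h (h1 ▸ hw1), hw2 ▸ h2⟩
    · apply hc
      left
      have h3 := h1.1
      exact ⟨le_antisymm h (h3.trans hw1), hw2 ▸ hY _ h2⟩

/-- the comb lemma -/
theorem comb_approx (a α β R0 : ℝ) (_hαβ : α ≤ β) (_hR : 0 ≤ R0) (Y : Finset ℝ)
    (hY : ∀ y ∈ Y, y ∈ Icc α β) (g : ℂ → ℂ) (hg : Continuous g) (ε : ℝ) (hε : 0 < ε) :
    ∃ p : Polynomial ℂ, ∀ c ∈ comb a α β R0 Y, ‖p.eval c - g c‖ < ε :=
  hartogs_rosenthal (isCompact_comb a α β R0 Y) (volume_comb a α β R0 Y)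
    (escape_comb a α β R0 Y hY) hg hε

end Crest.Agent.R279.HR
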