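import Mathlib
import Crest.Agent.R279.Alg712Rig

/-!
# R279: a one-parameter family of lines in the surface is locally constant (helper556, for helper269)
-/

set_option autoImplicit false

namespace Crest.Agent.R279.Gen

open Metric Filter Topology

variable {Q : MvPolynomial (Fin 4) ℂ}

/-- derivatives of a family of lines stay in the line -/
theorem deriv_mem_line (hQ : Alg.SmoothQuartic Q) {b u : ℂ → Fin 4 → ℂ} {D : Set ℂ}
    (hD : IsOpen D) (hb : DifferentiableOn ℂ b D) (hu : DifferentiableOn ℂ u D)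
    (hli : ∀ c ∈ D, LinearIndependent ℂ ![b c, u c])
    (h0 : ∀ c ∈ D, ∀ l t : ℂ, MvPolynomial.eval (l • b c + t • u c) Q = 0) {c : ℂ} (hc : c ∈ D) :
    (∃ r s : ℂ, deriv b c = r • b c + s • u c) ∧ ∃ r s : ℂ, deriv u c = r • b c + s • u c := by
  have hbc : DifferentiableAt ℂ b c := hb.differentiableAt (hD.mem_nhds hc)
  have huc : DifferentiableAt ℂ u c := hu.differentiableAt (hD.mem_nhds hc)
  refine Alg.line_rigid hQ (x' := deriv b c) (u' := deriv u c) ⟨hli c hc, h0 c hc⟩ ?_
  intro l
  have hy : DifferentiableAt ℂ (fun z => b z + l • u z) c := hbc.add (huc.const_smul l)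
  have h1 := Alg.fderiv_tens (Q := Q) hy hy hy hy (1 : ℂ)
  have h2 : fderiv ℂ (fun z => tens Q (b z + l • u z) (b z + l • u z) (b z + l • u z)
      (b z + l • u z)) c = 0 := by
    have h3 : (fun z => tens Q (b z + l • u z) (b z + l • u z) (b z + l • u z)
        (b z + l • u z)) =ᶠ[𝓝 c] fun _ => (0 : ℂ) := by
      filter_upwards [hD.mem_nhds hc] with w hw
      rw [← eval_eq_tens hQ.hom]
      have := h0 w hw 1 l
      rwa [one_smul] at this
    rw [h3.fderiv_eq, fderiv_fun_const]; rfl
  have h5 : fderiv ℂ (fun z => b z + l • u z) c 1 = deriv b c + l • deriv u c := by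
    have h6 := hbc.hasFDerivAt.add (huc.hasFDerivAt.const_smul l)
    have h7 : fderiv ℂ (fun z => b z + l • u z) c = fderiv ℂ b c + l • fderiv ℂ u c := h6.fderiv
    rw [h7]; rfl
  rw [h5, h2] at h1
  rw [_root_.zero_apply] at h1
  have h8 : tens Q (b c + l • u c) (b c + l • u c) (b c + l • u c) (deriv b c + l • deriv u c) * 4
      = 0 := by
    rw [tens_swap14 Q (deriv b c + l • deriv u c), tens_swap24 Q _ (deriv b c + l • deriv u c),
      tens_swap34 Q _ _ (deriv b c + l • deriv u c)] at h1
    linear_combination -h1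
  simpa using h8

/-- a combination of `b`, `u` with two constant coordinates (nonzero minor) is constant -/
theorem comb_const {b u : ℂ → Fin 4 → ℂ} {c0 : ℂ} {r : ℝ}
    (hb : DifferentiableOn ℂ b (ball c0 r)) (hu : DifferentiableOn ℂ u (ball c0 r))
    (hbd : ∀ c ∈ ball c0 r, ∃ p q : ℂ, deriv b c = p • b c + q • u c)
    (hud : ∀ c ∈ ball c0 r, ∃ p q : ℂ, deriv u c = p • b c + q • u c)
    {i j : Fin 4} (hD : ∀ c ∈ ball c0 r, b c i * u c j - b c j * u c i ≠ 0)
    {α β : ℂ → ℂ} (hα : DifferentiableOn ℂ α (ball c0 r)) (hβ : DifferentiableOn ℂ β (ball c0 r))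
    {x y : ℂ} (hi : ∀ c ∈ ball c0 r, α c * b c i + β c * u c i = x)
    (hj : ∀ c ∈ ball c0 r, α c * b c j + β c * u c j = y) :
    ∃ e : Fin 4 → ℂ, ∀ c ∈ ball c0 r, α c • b c + β c • u c = e := by
  have hE : DifferentiableOn ℂ (fun c => α c • b c + β c • u c) (ball c0 r) :=
    (hα.smul hb).add (hβ.smul hu)
  have hder : ∀ c ∈ ball c0 r, deriv (fun c => α c • b c + β c • u c) c = 0 := by
    intro c hc
    have hbc := (hb.differentiableAt (isOpen_ball.mem_nhds hc)).hasDerivAt
    have huc := (hu.differentiableAt (isOpen_ball.mem_nhds hc)).hasDerivAt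
    have hαc := (hα.differentiableAt (isOpen_ball.mem_nhds hc)).hasDerivAt
    have hβc := (hβ.differentiableAt (isOpen_ball.mem_nhds hc)).hasDerivAt
    have h1 : HasDerivAt (fun c => α c • b c + β c • u c)
        ((α c • deriv b c + deriv α c • b c) + (β c • deriv u c + deriv β c • u c)) c :=
      (hαc.smul hbc).add (hβc.smul huc)
    obtain ⟨p, q, hpq⟩ := hbd c hc
    obtain ⟨p', q', hpq'⟩ := hud c hc
    obtain ⟨R, hR⟩ : ∃ R : ℂ, R = α c * p + deriv α c + β c * p' := ⟨_, rfl⟩
    obtain ⟨S, hS⟩ : ∃ S : ℂ, S = α c * q + β c * q' + deriv β c := ⟨_, rfl⟩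
    have h2 : (α c • deriv b c + deriv α c • b c) + (β c • deriv u c + deriv β c • u c) =
        R • b c + S • u c := by
      rw [hpq, hpq', hR, hS]
      ext k
      simp only [Pi.add_apply, Pi.smul_apply, smul_eq_mul]
      ring
    rw [h2] at h1
    -- coordinates
    have hk : ∀ (k : Fin 4) (w : ℂ), (∀ c ∈ ball c0 r, α c * b c k + β c * u c k = w) →
        R * b c k + S * u c k = 0 := by
      intro k w hw
      have h3 : HasDerivAt (fun c => (α c • b c + β c • u c) k) ((R • b c + S • u c) k) c :=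
        (hasDerivAt_pi.mp h1) k
      have h4 : (fun c => (α c • b c + β c • u c) k) =ᶠ[𝓝 c] fun _ => w := by
        filter_upwards [isOpen_ball.mem_nhds hc] with d hd
        exact hw d hd
      have h5 := (h3.congr_of_eventuallyEq h4.symm).unique (hasDerivAt_const c w)
      simpa using h5
    have hi' := hk i x hi
    have hj' := hk j y hj
    have hR0 : R = 0 := by
      have : R * (b c i * u c j - b c j * u c i) = 0 := by linear_combination u c j * hi' - u c i * hj'
      exact (mul_eq_zero.mp this).resolve_right (hD c hc)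
    have hS0 : S = 0 := by
      have : S * (b c i * u c j - b c j * u c i) = 0 := by linear_combination b c i * hj' - b c j * hi'
      exact (mul_eq_zero.mp this).resolve_right (hD c hc)
    rw [h1.deriv, hR0, hS0, zero_smul, zero_smul, add_zero]
  rcases le_or_gt r 0 with hr | hr
  · refine ⟨0, fun c hc => ?_⟩
    rw [ball_eq_empty.mpr hr] at hc
    exact absurd hc (Set.notMem_empty c)
  · refine ⟨α c0 • b c0 + β c0 • u c0, fun c hc => ?_⟩
    exact isOpen_ball.is_const_of_deriv_eq_zero (convex_ball c0 r).isPreconnected hE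
      (fun d hd => hder d hd) hc (mem_ball_self hr)

/-- H1: a one-parameter family of lines contained in the surface is locally constant. -/
theorem const_line (hQ : Alg.SmoothQuartic Q) {b u : ℂ → Fin 4 → ℂ} {c0 : ℂ} {rho : ℝ}
    (hrho : 0 < rho) (hb : DifferentiableOn ℂ b (ball c0 rho))
    (hu : DifferentiableOn ℂ u (ball c0 rho))
    (hli : ∀ c ∈ ball c0 rho, LinearIndependent ℂ ![b c, u c])
    (h0 : ∀ c ∈ ball c0 rho, ∀ l t : ℂ, MvPolynomial.eval (l • b c + t • u c) Q = 0) :
    ∃ rho' > 0, rho' ≤ rho ∧ ∃ (e1 e2 : Fin 4 → ℂ) (i j : Fin 4),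
      LinearIndependent ℂ ![e1, e2] ∧
      ∀ c ∈ ball c0 rho', b c = b c i • e1 + b c j • e2 ∧ u c = u c i • e1 + u c j • e2 := by
  -- a nonzero minor at `c0`
  obtain ⟨i, j, hij⟩ : ∃ i j : Fin 4, b c0 i * u c0 j - b c0 j * u c0 i ≠ 0 := by
    by_contra hno
    push Not at hno
    have hl := hli c0 (mem_ball_self hrho)
    have hb0 : b c0 ≠ 0 := by
      have := hl.ne_zero 0
      simpa using this
    obtain ⟨k, hk⟩ : ∃ k, b c0 k ≠ 0 := by
      by_contra h
      push Not at h
      exact hb0 (funext h)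
    have hp := LinearIndependent.pair_iff.mp hl (u c0 k) (-(b c0 k)) (by
      ext m
      have := hno k m
      simp only [Pi.add_apply, Pi.smul_apply, smul_eq_mul, Pi.zero_apply]
      linear_combination -this)
    exact hk (by simpa using hp.2)
  have hDc : ContinuousOn (fun c => b c i * u c j - b c j * u c i) (ball c0 rho) := by
    have hbi : ∀ k, ContinuousOn (fun c => b c k) (ball c0 rho) := fun k =>
      (continuous_apply k).comp_continuousOn hb.continuousOn
    have hui : ∀ k, ContinuousOn (fun c => u c k) (ball c0 rho) := fun k =>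
      (continuous_apply k).comp_continuousOn hu.continuousOn
    exact ((hbi i).mul (hui j)).sub ((hbi j).mul (hui i))
  have hne : ∀ᶠ c in 𝓝 c0, b c i * u c j - b c j * u c i ≠ 0 :=
    (hDc.continuousAt (ball_mem_nhds c0 hrho)).eventually_ne hij
  obtain ⟨r₁, hr₁, hr₁'⟩ := Metric.eventually_nhds_iff_ball.mp hne
  set r := min r₁ rho with hr
  have hr0 : 0 < r := lt_min hr₁ hrho
  have hsub : ball c0 r ⊆ ball c0 rho := ball_subset_ball (min_le_right _ _)
  have hDne : ∀ c ∈ ball c0 r, b c i * u c j - b c j * u c i ≠ 0 := fun c hc =>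
    hr₁' c (ball_subset_ball (min_le_left _ _) hc)
  have hb' := hb.mono hsub
  have hu' := hu.mono hsub
  have hder := fun c (hc : c ∈ ball c0 r) =>
    deriv_mem_line hQ isOpen_ball hb' hu' (fun c hc => hli c (hsub hc))
      (fun c hc => h0 c (hsub hc)) hc
  have hbk : ∀ k, DifferentiableOn ℂ (fun c => b c k) (ball c0 r) := fun k =>
    (differentiableOn_pi.mp hb') k
  have huk : ∀ k, DifferentiableOn ℂ (fun c => u c k) (ball c0 r) := fun k =>
    (differentiableOn_pi.mp hu') k
  have hDd : DifferentiableOn ℂ (fun c => (b c i * u c j - b c j * u c i)⁻¹) (ball c0 r) :=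
    (((hbk i).mul (huk j)).sub ((hbk j).mul (huk i))).inv hDne
  -- the two constant vectors
  obtain ⟨e1, he1⟩ := comb_const hb' hu' (fun c hc => (hder c hc).1) (fun c hc => (hder c hc).2)
    hDne (α := fun c => (b c i * u c j - b c j * u c i)⁻¹ * u c j)
    (β := fun c => -((b c i * u c j - b c j * u c i)⁻¹ * b c j))
    (hDd.mul (huk j)) ((hDd.mul (hbk j)).neg) (x := 1) (y := 0)
    (fun c hc => by linear_combination inv_mul_cancel₀ (hDne c hc)) (fun c hc => by ring)
  obtain ⟨e2, he2⟩ := comb_const hb' hu' (fun c hc => (hder c hc).1) (fun c hc => (hder c hc).2)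
    hDne (α := fun c => -((b c i * u c j - b c j * u c i)⁻¹ * u c i))
    (β := fun c => (b c i * u c j - b c j * u c i)⁻¹ * b c i)
    ((hDd.mul (huk i)).neg) (hDd.mul (hbk i)) (x := 0) (y := 1)
    (fun c hc => by ring) (fun c hc => by linear_combination inv_mul_cancel₀ (hDne c hc))
  have hmain : ∀ c ∈ ball c0 r, b c = b c i • e1 + b c j • e2 ∧ u c = u c i • e1 + u c j • e2 := by
    intro c hc
    have h := hDne c hc
    rw [← he1 c hc, ← he2 c hc]
    constructor
    · ext k
      simp only [Pi.add_apply, Pi.smul_apply, smul_eq_mul]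
      linear_combination (-(b c k)) * inv_mul_cancel₀ h
    · ext k
      simp only [Pi.add_apply, Pi.smul_apply, smul_eq_mul]
      linear_combination (-(u c k)) * inv_mul_cancel₀ h
  refine ⟨r, hr0, min_le_right _ _, e1, e2, i, j, ?_, hmain⟩
  -- independence
  have hl := hli c0 (mem_ball_self hrho)
  obtain ⟨hb0, hu0⟩ := hmain c0 (mem_ball_self hr0)
  have hD0 := hDne c0 (mem_ball_self hr0)
  rw [LinearIndependent.pair_iff]
  intro s t hst
  have he1' := he1 c0 (mem_ball_self hr0)
  have he2' := he2 c0 (mem_ball_self hr0)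
  have hc1 : e1 i = 1 ∧ e1 j = 0 := by
    rw [← he1']
    simp only [Pi.add_apply, Pi.smul_apply, smul_eq_mul]
    constructor
    · linear_combination inv_mul_cancel₀ hD0
    · ring
  have hc2 : e2 i = 0 ∧ e2 j = 1 := by
    rw [← he2']
    simp only [Pi.add_apply, Pi.smul_apply, smul_eq_mul]
    constructor
    · ring
    · linear_combination inv_mul_cancel₀ hD0
  have h1 := congrFun hst i
  have h2 := congrFun hst j
  simp only [Pi.add_apply, Pi.smul_apply, smul_eq_mul, Pi.zero_apply, hc1.1, hc1.2, hc2.1,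
    hc2.2] at h1 h2
  constructor
  · simpa using h1
  · simpa using h2

end Crest.Agent.R279.Gen
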