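import Mathlib

/-!
R279 (helper28), Part 5, convex geometry: polytope between a compact convex set and an open
neighbourhood, adapted linear coordinates, and the slice lemma.
-/

set_option autoImplicit false
set_option linter.unusedSectionVars false

open Set Filter Topology

noncomputable section

namespace Crest.Agent.R279.ConvGeo

/-- closed polysquare of half side `R` in `ℂ^ι` (squares, not discs) -/
def CSq {ι : Type*} (R : ℝ) : Set (ι → ℂ) := {x | ∀ i, |(x i).re| ≤ R ∧ |(x i).im| ≤ R}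

/-- open polysquare of half side `R` in `ℂ^ι` -/
def OSq {ι : Type*} (R : ℝ) : Set (ι → ℂ) := {x | ∀ i, |(x i).re| < R ∧ |(x i).im| < R}

section basic

variable {ι : Type*} [Fintype ι]

theorem isClosed_CSq (R : ℝ) : IsClosed (CSq R : Set (ι → ℂ)) := by
  have : (CSq R : Set (ι → ℂ)) = ⋂ i, ({x | |(x i).re| ≤ R} ∩ {x | |(x i).im| ≤ R}) := by
    ext x; simp [CSq]
  rw [this]
  refine isClosed_iInter fun i => IsClosed.inter ?_ ?_
  · exact isClosed_le (by fun_prop) continuous_const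
  · exact isClosed_le (by fun_prop) continuous_const

theorem isOpen_OSq (R : ℝ) : IsOpen (OSq R : Set (ι → ℂ)) := by
  have : (OSq R : Set (ι → ℂ)) = ⋂ i, ({x | |(x i).re| < R} ∩ {x | |(x i).im| < R}) := by
    ext x; simp [OSq]
  rw [this]
  refine isOpen_iInter_of_finite fun i => IsOpen.inter ?_ ?_
  · exact isOpen_lt (by fun_prop) continuous_const
  · exact isOpen_lt (by fun_prop) continuous_const

theorem isCompact_CSq (R : ℝ) : IsCompact (CSq R : Set (ι → ℂ)) := by
  refine Metric.isCompact_of_isClosed_isBounded (isClosed_CSq R) ?_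
  refine (Metric.isBounded_closedBall (x := (0 : ι → ℂ)) (r := |R| + |R|)).subset ?_
  intro x hx
  rw [mem_closedBall_zero_iff, pi_norm_le_iff_of_nonneg (by positivity)]
  intro i
  have h := hx i
  calc ‖x i‖ ≤ |(x i).re| + |(x i).im| := Complex.norm_le_abs_re_add_abs_im _
    _ ≤ |R| + |R| := add_le_add (h.1.trans (le_abs_self R)) (h.2.trans (le_abs_self R))

theorem convex_CSq (R : ℝ) : Convex ℝ (CSq R : Set (ι → ℂ)) := by
  intro x hx y hy a b ha hb hab i
  have hx := hx i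
  have hy := hy i
  constructor
  · simp only [Pi.add_apply, Pi.smul_apply, Complex.add_re, Complex.real_smul, Complex.mul_re,
      Complex.ofReal_re, Complex.ofReal_im, zero_mul, sub_zero]
    calc |a * (x i).re + b * (y i).re| ≤ |a * (x i).re| + |b * (y i).re| := abs_add_le _ _
      _ = a * |(x i).re| + b * |(y i).re| := by rw [abs_mul, abs_mul, abs_of_nonneg ha, abs_of_nonneg hb]
      _ ≤ a * R + b * R := add_le_add (mul_le_mul_of_nonneg_left hx.1 ha) (mul_le_mul_of_nonneg_left hy.1 hb)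
      _ = R := by rw [← add_mul, hab, one_mul]
  · simp only [Pi.add_apply, Pi.smul_apply, Complex.add_im, Complex.real_smul, Complex.mul_im,
      Complex.ofReal_re, Complex.ofReal_im, zero_mul, add_zero]
    calc |a * (x i).im + b * (y i).im| ≤ |a * (x i).im| + |b * (y i).im| := abs_add_le _ _
      _ = a * |(x i).im| + b * |(y i).im| := by rw [abs_mul, abs_mul, abs_of_nonneg ha, abs_of_nonneg hb]
      _ ≤ a * R + b * R := add_le_add (mul_le_mul_of_nonneg_left hx.2 ha) (mul_le_mul_of_nonneg_left hy.2 hb)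
      _ = R := by rw [← add_mul, hab, one_mul]

theorem exists_OSq_supset {K : Set (ι → ℂ)} (hK : IsCompact K) : ∃ R : ℝ, 0 < R ∧ K ⊆ OSq R := by
  obtain ⟨r, hr⟩ := hK.isBounded.subset_closedBall (0 : ι → ℂ)
  refine ⟨|r| + 1, by positivity, fun x hx i => ?_⟩
  have h1 : ‖x‖ ≤ r := by simpa using hr hx
  have h2 : ‖x i‖ ≤ ‖x‖ := norm_le_pi_norm x i
  have h3 := Complex.abs_re_le_norm (x i)
  have h4 := Complex.abs_im_le_norm (x i)
  have h5 := le_abs_self r
  constructor <;> linarith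

end basic

/-- POLYTOPE REDUCTION.  Between a compact convex set `K` and an open set `U ⊇ K` there is a
polytope `P = CSq R ∩ ⋂ j, {Re (a j x) ≤ b j}` (finitely many complex functionals), with `K` in
the corresponding open polytope.  `R` may be taken as large as we like. -/
theorem exists_polytope {ι : Type*} [Fintype ι] {K U : Set (ι → ℂ)} (hK : IsCompact K)
    (hKc : Convex ℝ K) (hU : IsOpen U) (hKU : K ⊆ U) (R : ℝ) :
    ∃ (k : ℕ) (a : Fin k → ((ι → ℂ) →L[ℂ] ℂ)) (b : Fin k → ℝ),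
      (∀ j, ∀ x ∈ K, (a j x).re < b j) ∧
      (CSq R ∩ {x | ∀ j, (a j x).re ≤ b j} ⊆ U) := by
  classical
  have hsep : ∀ y ∈ (CSq R : Set (ι → ℂ)) \ U, ∃ (f : (ι → ℂ) →L[ℂ] ℂ) (u : ℝ),
      (∀ x ∈ K, (f x).re < u) ∧ u < (f y).re := by
    intro y hy
    have hyK : y ∉ K := fun h => hy.2 (hKU h)
    obtain ⟨f, u, h1, h2⟩ := RCLike.geometric_hahn_banach_closed_point (𝕜 := ℂ) hKc hK.isClosed hyK
    exact ⟨f, u, h1, h2⟩
  choose! f u hf1 hf2 using hsep
  have hC : IsCompact ((CSq R : Set (ι → ℂ)) \ U) := (isCompact_CSq R).diff hU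
  obtain ⟨t, htC, hcov⟩ := hC.elim_nhds_subcover (fun y => {x | u y < (f y x).re}) (fun y hy => by
    refine IsOpen.mem_nhds ?_ (hf2 y hy)
    exact isOpen_lt continuous_const (by fun_prop))
  let e := t.equivFin
  refine ⟨t.card, fun j => f (e.symm j), fun j => u (e.symm j), ?_, ?_⟩
  · intro j x hx
    exact hf1 _ (htC _ (e.symm j).2) x hx
  · rintro x ⟨hx1, hx2⟩
    by_contra hxU
    obtain ⟨y, hy⟩ := mem_iUnion.1 (hcov ⟨hx1, hxU⟩)
    obtain ⟨hyt, hy2⟩ := mem_iUnion.1 hy
    have := hx2 (e ⟨y, hyt⟩)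
    simp only [Equiv.symm_apply_apply] at this
    exact absurd hy2 (not_lt.2 this)

/-- Adapted linear coordinates: a non-zero complex functional on a `(d+1)`-dimensional space is
the last coordinate of a linear isomorphism onto `ℂ^d × ℂ`. -/
theorem exists_coord {E : Type*} [NormedAddCommGroup E] [NormedSpace ℂ E] [FiniteDimensional ℂ E]
    {d : ℕ} (hd : Module.finrank ℂ E = d + 1) (a : E →L[ℂ] ℂ) (ha : a ≠ 0) :
    ∃ e : E ≃L[ℂ] (Fin d → ℂ) × ℂ, ∀ x, (e x).2 = a x := by
  classical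
  obtain ⟨v, hv⟩ : ∃ v, a v ≠ 0 := by
    by_contra h
    push Not at h
    exact ha (ContinuousLinearMap.ext h)
  let v1 : E := (a v)⁻¹ • v
  have hv1 : a v1 = 1 := by simp [v1, hv]
  have hsurj : Function.Surjective (a : E →ₗ[ℂ] ℂ) := fun c => ⟨c • v1, by simp [hv1]⟩
  have hker : Module.finrank ℂ (LinearMap.ker (a : E →ₗ[ℂ] ℂ)) = d := by
    have h1 := LinearMap.finrank_range_add_finrank_ker (a : E →ₗ[ℂ] ℂ)
    rw [LinearMap.range_eq_top.2 hsurj, finrank_top, Module.finrank_self, hd] at h1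
    omega
  let e0 : LinearMap.ker (a : E →ₗ[ℂ] ℂ) ≃ₗ[ℂ] (Fin d → ℂ) :=
    LinearEquiv.ofFinrankEq _ _ (by simp [hker])
  let pr : E →ₗ[ℂ] LinearMap.ker (a : E →ₗ[ℂ] ℂ) :=
    LinearMap.codRestrict _ (LinearMap.id - (a : E →ₗ[ℂ] ℂ).smulRight v1) (fun x => by
      simp [hv1])
  let f : E →ₗ[ℂ] (Fin d → ℂ) × ℂ := (e0.toLinearMap ∘ₗ pr).prod (a : E →ₗ[ℂ] ℂ)
  have hinj : Function.Injective f := by
    refine (injective_iff_map_eq_zero f).2 fun x hx => ?_
    have h1 : e0 (pr x) = 0 := congrArg Prod.fst hx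
    have h2 : a x = 0 := congrArg Prod.snd hx
    have h3 : pr x = 0 := by simpa using h1
    have h4 : x - a x • v1 = 0 := congrArg Subtype.val h3
    simpa [h2] using h4
  let e1 : E ≃ₗ[ℂ] (Fin d → ℂ) × ℂ := LinearEquiv.ofInjectiveOfFinrankEq f hinj (by
    rw [hd]; simp)
  exact ⟨e1.toContinuousLinearEquiv, fun x => rfl⟩

end Crest.Agent.R279.ConvGeo
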