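import Mathlib
import Crest.Agent.R279.Defs765

/-!
R279 (helper532), Part 5 (a): gluing of `V`-valued families over a compact convex set, cut by one
half space, resp. by finitely many parallel half spaces.
-/

set_option autoImplicit false

open Metric Set Filter Topology

namespace Crest.Agent.R279.Conv

variable {X : Type*} [NormedAddCommGroup X] [NormedSpace ℂ X]

/-- Convexity expressed with complex scalars only (avoids the diamonds of `Module ℝ X`). -/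
def CConvex {X : Type*} [AddCommGroup X] [Module ℂ X] (K : Set X) : Prop :=
  ∀ x ∈ K, ∀ y ∈ K, ∀ u v : ℝ, 0 ≤ u → 0 ≤ v → u + v = 1 → (u : ℂ) • x + (v : ℂ) • y ∈ K

theorem cconvex_iff {X : Type*} [NormedAddCommGroup X] [NormedSpace ℂ X] {K : Set X} :
    CConvex K ↔ Convex ℝ K := by
  constructor
  · intro h x hx y hy u v hu hv huv
    have := h x hx y hy u v hu hv huv
    rwa [Complex.coe_smul, Complex.coe_smul] at this
  · intro h x hx y hy u v hu hv huv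
    have := h hx hy hu hv huv
    rwa [Complex.coe_smul, Complex.coe_smul]

theorem cconvex_iff_pi {ι : Type*} {K : Set (ι → ℂ)} : CConvex K ↔ Convex ℝ K := by
  have e : ∀ (u : ℝ) (x : ι → ℂ), (u : ℂ) • x = u • x := by
    intro u x
    ext i
    simp
  constructor
  · intro h x hx y hy u v hu hv huv
    have := h x hx y hy u v hu hv huv
    rwa [e, e] at this
  · intro h x hx y hy u v hu hv huv
    have := h hx hy hu hv huv
    rwa [e, e]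

theorem CConvex.inter {X : Type*} [AddCommGroup X] [Module ℂ X] {K L : Set X}
    (hK : CConvex K) (hL : CConvex L) : CConvex (K ∩ L) :=
  fun x hx y hy u v hu hv huv =>
    ⟨hK x hx.1 y hy.1 u v hu hv huv, hL x hx.2 y hy.2 u v hu hv huv⟩

theorem CConvex.prod {X Y : Type*} [AddCommGroup X] [Module ℂ X] [AddCommGroup Y] [Module ℂ Y]
    {K : Set X} {L : Set Y} (hK : CConvex K) (hL : CConvex L) : CConvex (K ×ˢ L) :=
  fun x hx y hy u v hu hv huv =>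
    ⟨hK x.1 hx.1 y.1 hy.1 u v hu hv huv, hL x.2 hx.2 y.2 hy.2 u v hu hv huv⟩

theorem CConvex.preimage {X Y : Type*} [AddCommGroup X] [Module ℂ X] [AddCommGroup Y]
    [Module ℂ Y] {L : Set Y} (hL : CConvex L) (f : X →ₗ[ℂ] Y) : CConvex (f ⁻¹' L) := by
  intro x hx y hy u v hu hv huv
  have := hL (f x) hx (f y) hy u v hu hv huv
  rwa [← map_smul, ← map_smul, ← map_add] at this

theorem cconvex_le {X : Type*} [NormedAddCommGroup X] [NormedSpace ℂ X] (a : X →L[ℂ] ℂ)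
    (s : ℝ) : CConvex {x : X | (a x).re ≤ s} := by
  intro p hp q hq u v hu hv huv
  simp only [Set.mem_ofPred_eq, map_add, map_smul, smul_eq_mul, Complex.add_re,
    Complex.re_ofReal_mul] at hp hq ⊢
  calc u * (a p).re + v * (a q).re ≤ u * s + v * s := by gcongr
    _ = s := by rw [← add_mul, huv, one_mul]

theorem cconvex_ge {X : Type*} [NormedAddCommGroup X] [NormedSpace ℂ X] (a : X →L[ℂ] ℂ)
    (s : ℝ) : CConvex {x : X | s ≤ (a x).re} := by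
  intro p hp q hq u v hu hv huv
  simp only [Set.mem_ofPred_eq, map_add, map_smul, smul_eq_mul, Complex.add_re,
    Complex.re_ofReal_mul] at hp hq ⊢
  calc s = u * s + v * s := by rw [← add_mul, huv, one_mul]
    _ ≤ u * (a p).re + v * (a q).re := by gcongr

/-- Gluing of two near-identity parameter changes over a compact convex set, cut by
`Re a x = s` (germ form of (2.4)). -/
def GlueProp (X : Type*) [NormedAddCommGroup X] [NormedSpace ℂ X] : Prop :=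
  ∀ (K : Set X), IsCompact K → CConvex K → ∀ (a : X →L[ℂ] ℂ) (s : ℝ) (U : Set X), IsOpen U →
    (∀ x ∈ K, (a x).re = s → x ∈ U) →
    ∃ (V₁ V₂ : Set X) (C : ℝ), IsOpen V₁ ∧ IsOpen V₂ ∧ (∀ x ∈ K, (a x).re ≤ s → x ∈ V₁) ∧
      (∀ x ∈ K, s ≤ (a x).re → x ∈ V₂) ∧ V₁ ∩ V₂ ⊆ U ∧ 0 ≤ C ∧
      ∀ (ρ ε : ℝ), 0 < ρ → 0 ≤ ε → C * ε ≤ ρ → ∀ gA gB : X × C4 → C4,
        DifferentiableOn ℂ gA (U ×ˢ ball (0 : C4) ρ) →
        DifferentiableOn ℂ gB (U ×ˢ ball (0 : C4) ρ) →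
        (∀ x ∈ U, ∀ t ∈ ball (0 : C4) ρ, ‖gA (x, t) - t‖ ≤ ε) →
        (∀ x ∈ U, ∀ t ∈ ball (0 : C4) ρ, ‖gB (x, t) - t‖ ≤ ε) →
        ∃ α β : X × C4 → C4,
          DifferentiableOn ℂ α (V₁ ×ˢ ball (0 : C4) (ρ / 2)) ∧
          DifferentiableOn ℂ β (V₂ ×ˢ ball (0 : C4) (ρ / 2)) ∧
          (∀ x ∈ V₁, ∀ t ∈ ball (0 : C4) (ρ / 2), ‖α (x, t) - t‖ ≤ C * ε) ∧
          (∀ x ∈ V₂, ∀ t ∈ ball (0 : C4) (ρ / 2), ‖β (x, t) - t‖ ≤ C * ε) ∧
          ∀ x ∈ V₁ ∩ V₂, ∀ t ∈ ball (0 : C4) (ρ / 2),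
            gA (x, α (x, t)) = gB (x, β (x, t))

/-- A spray-like family on `S` with free transitions and uniform continuity in `t`. -/
structure Spr (V : Set C4) (S : Set X) (r : ℝ) (s : X × C4 → C4) : Prop where
  isOpen : IsOpen S
  rpos : 0 < r
  diff : DifferentiableOn ℂ s (S ×ˢ ball (0 : C4) r)
  maps : MapsTo s (S ×ˢ ball (0 : C4) r) V
  trans : ∃ e : ℝ, 0 < e ∧ ∀ x ∈ S, ∀ t ∈ ball (0 : C4) (r / 2), ∀ y ∈ V, ‖y - s (x, t)‖ < e →
    t + (y - s (x, t)) ∈ ball (0 : C4) r ∧ s (x, t + (y - s (x, t))) = y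
  uc : ∀ η : ℝ, 0 < η → ∃ δ : ℝ, 0 < δ ∧ ∀ x ∈ S, ∀ t ∈ ball (0 : C4) (r / 2),
    ∀ t' ∈ ball (0 : C4) (r / 2), ‖t - t'‖ < δ → ‖s (x, t) - s (x, t')‖ < η

theorem Spr.mono {V : Set C4} {S : Set X} {r : ℝ} {s : X × C4 → C4} (h : Spr V S r s)
    {S' : Set X} (hS' : IsOpen S') (hsub : S' ⊆ S) : Spr V S' r s where
  isOpen := hS'
  rpos := h.rpos
  diff := h.diff.mono (prod_mono hsub Subset.rfl)
  maps := h.maps.mono (prod_mono hsub Subset.rfl) Subset.rfl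
  trans := by
    obtain ⟨e, he, h2⟩ := h.trans
    exact ⟨e, he, fun x hx => h2 x (hsub hx)⟩
  uc := by
    intro η hη
    obtain ⟨δ, hδ, h2⟩ := h.uc η hη
    exact ⟨δ, hδ, fun x hx => h2 x (hsub hx)⟩

/-- pull back of a spray by a holomorphic map -/
theorem Spr.comp {Y : Type*} [NormedAddCommGroup Y] [NormedSpace ℂ Y]
    {V : Set C4} {S : Set X} {r : ℝ} {s : X × C4 → C4} (h : Spr V S r s)
    {S' : Set Y} (hS' : IsOpen S') {Φ : Y → X} (hΦ : DifferentiableOn ℂ Φ S')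
    (hm : MapsTo Φ S' S) : Spr V S' r (fun p => s (Φ p.1, p.2)) where
  isOpen := hS'
  rpos := h.rpos
  diff := by
    refine h.diff.comp (f := fun p : Y × C4 => (Φ p.1, p.2)) ?_ ?_
    · exact (hΦ.comp differentiableOn_fst (fun p hp => hp.1)).prodMk differentiableOn_snd
    · exact fun p hp => ⟨hm hp.1, hp.2⟩
  maps := fun p hp => h.maps ⟨hm hp.1, hp.2⟩
  trans := by
    obtain ⟨e, he, h2⟩ := h.trans
    exact ⟨e, he, fun x hx => h2 (Φ x) (hm hx)⟩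
  uc := by
    intro η hη
    obtain ⟨δ, hδ, h2⟩ := h.uc η hη
    exact ⟨δ, hδ, fun x hx => h2 (Φ x) (hm hx)⟩

/-- `M` is a holomorphic `V`-valued family on `U × ball 0 r₁`, `η`-close to `s` on `U ∩ S`. -/
structure Fam (V : Set C4) (S : Set X) (s : X × C4 → C4) (U : Set X) (r₁ η : ℝ)
    (M : X × C4 → C4) : Prop where
  diff : DifferentiableOn ℂ M (U ×ˢ ball (0 : C4) r₁)
  maps : MapsTo M (U ×ˢ ball (0 : C4) r₁) V
  close : ∀ x ∈ U, x ∈ S → ∀ t ∈ ball (0 : C4) r₁, ‖M (x, t) - s (x, t)‖ < η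

theorem Fam.mono {V : Set C4} {S : Set X} {s : X × C4 → C4} {U : Set X} {r₁ η : ℝ}
    {M : X × C4 → C4} (h : Fam V S s U r₁ η M) {U' : Set X} (hU : U' ⊆ U) {r₂ η' : ℝ}
    (hr : r₂ ≤ r₁) (hη : η ≤ η') : Fam V S s U' r₂ η' M where
  diff := h.diff.mono (prod_mono hU (ball_subset_ball hr))
  maps := h.maps.mono (prod_mono hU (ball_subset_ball hr)) Subset.rfl
  close := fun x hx hxS t ht => (h.close x (hU hx) hxS t (ball_subset_ball hr ht)).trans_le hη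

/-- **Gluing of two families.** -/
theorem glue_pair (hG : GlueProp X) {V : Set C4} {K : Set X} (hK : IsCompact K)
    (hKc : CConvex K) (a : X →L[ℂ] ℂ) (σ : ℝ) {U₁ U₂ S : Set X} (hU₁ : IsOpen U₁)
    (hU₂ : IsOpen U₂) (h₁ : ∀ x ∈ K, (a x).re ≤ σ → x ∈ U₁) (h₂ : ∀ x ∈ K, σ ≤ (a x).re → x ∈ U₂)
    {r : ℝ} {s : X × C4 → C4} (hs : Spr V S r s) (hS : ∀ x ∈ K, (a x).re = σ → x ∈ S)
    {r₁ : ℝ} (hr₁ : 0 < r₁) (hr₁r : r₁ ≤ r / 2) :
    ∃ (W : Set X), IsOpen W ∧ K ⊆ W ∧ W ⊆ U₁ ∪ U₂ ∧ ∀ η' : ℝ, 0 < η' → ∃ η : ℝ, 0 < η ∧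
      ∀ M₁ M₂ : X × C4 → C4, Fam V S s U₁ r₁ η M₁ → Fam V S s U₂ r₁ η M₂ →
        ∃ M : X × C4 → C4, Fam V S s W (r₁ / 2) η' M := by
  classical
  set U : Set X := (U₁ ∩ U₂) ∩ S with hUdef
  have hUo : IsOpen U := (hU₁.inter hU₂).inter hs.isOpen
  obtain ⟨V₁, V₂, C, hV₁, hV₂, hKV₁, hKV₂, hVU, hC, hglue⟩ := hG K hK hKc a σ U hUo
    (fun x hx hxs => ⟨⟨h₁ x hx hxs.le, h₂ x hx hxs.ge⟩, hS x hx hxs⟩)
  obtain ⟨e, he, htr⟩ := hs.trans
  refine ⟨(V₁ ∩ U₁) ∪ (V₂ ∩ U₂), (hV₁.inter hU₁).union (hV₂.inter hU₂), ?_, ?_, ?_⟩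
  · intro x hx
    rcases le_total (a x).re σ with h | h
    · exact Or.inl ⟨hKV₁ x hx h, h₁ x hx h⟩
    · exact Or.inr ⟨hKV₂ x hx h, h₂ x hx h⟩
  · rintro x (hx | hx)
    · exact Or.inl hx.2
    · exact Or.inr hx.2
  intro η' hη'
  obtain ⟨δ, hδ, huc⟩ := hs.uc (η' / 2) (half_pos hη')
  -- the accuracy
  set η : ℝ := min (min (η' / 2) e) (min (r₁ / (4 * (C + 1))) (δ / (2 * (C + 1)))) with hηdef
  have hC1 : 0 < C + 1 := by linarith
  have hη : 0 < η := by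
    refine lt_min (lt_min (half_pos hη') he) (lt_min ?_ ?_)
    · positivity
    · positivity
  have hη1 : η ≤ η' / 2 := (min_le_left _ _).trans (min_le_left _ _)
  have hη2 : η ≤ e := (min_le_left _ _).trans (min_le_right _ _)
  have hη3 : C * η ≤ r₁ / 4 := by
    have h : η ≤ r₁ / (4 * (C + 1)) := (min_le_right _ _).trans (min_le_left _ _)
    have h2 : (C + 1) * η ≤ r₁ / 4 := by
      calc (C + 1) * η ≤ (C + 1) * (r₁ / (4 * (C + 1))) := by gcongr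
        _ = r₁ / 4 := by field_simp
    nlinarith
  have hη4 : C * η < δ := by
    have h : η ≤ δ / (2 * (C + 1)) := (min_le_right _ _).trans (min_le_right _ _)
    have h2 : (C + 1) * η ≤ δ / 2 := by
      calc (C + 1) * η ≤ (C + 1) * (δ / (2 * (C + 1))) := by gcongr
        _ = δ / 2 := by field_simp
    nlinarith
  refine ⟨η, hη, fun M₁ M₂ hM₁ hM₂ => ?_⟩
  -- transitions
  have hUs : U ×ˢ ball (0 : C4) r₁ ⊆ S ×ˢ ball (0 : C4) r := fun p hp =>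
    ⟨hp.1.2, ball_subset_ball (by linarith [hs.rpos]) hp.2⟩
  have hU1 : U ×ˢ ball (0 : C4) r₁ ⊆ U₁ ×ˢ ball (0 : C4) r₁ := fun p hp => ⟨hp.1.1.1, hp.2⟩
  have hU2 : U ×ˢ ball (0 : C4) r₁ ⊆ U₂ ×ˢ ball (0 : C4) r₁ := fun p hp => ⟨hp.1.1.2, hp.2⟩
  have key : ∀ (i : X × C4 → C4), Fam V S s U r₁ η i →
      DifferentiableOn ℂ (fun p : X × C4 => p.2 + (i p - s p)) (U ×ˢ ball (0 : C4) r₁) ∧
      (∀ x ∈ U, ∀ t ∈ ball (0 : C4) r₁, ‖(t + (i (x, t) - s (x, t))) - t‖ ≤ η) ∧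
      ∀ x ∈ U, ∀ t ∈ ball (0 : C4) r₁, s (x, t + (i (x, t) - s (x, t))) = i (x, t) := by
    intro i hi
    refine ⟨differentiableOn_snd.add (hi.diff.sub (hs.diff.mono hUs)), ?_, ?_⟩
    · intro x hx t ht
      rw [add_sub_cancel_left]
      exact (hi.close x hx hx.2 t ht).le
    · intro x hx t ht
      exact (htr x hx.2 t (ball_subset_ball hr₁r ht) _ (hi.maps ⟨hx, ht⟩)
        ((hi.close x hx hx.2 t ht).trans_le hη2)).2
  obtain ⟨dA, bA, eA⟩ := key M₁ (hM₁.mono (fun x hx => hx.1.1) le_rfl le_rfl)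
  obtain ⟨dB, bB, eB⟩ := key M₂ (hM₂.mono (fun x hx => hx.1.2) le_rfl le_rfl)
  obtain ⟨α, β, hα, hβ, hαb, hβb, hαβ⟩ := hglue r₁ η hr₁ hη.le (by linarith) _ _ dA dB bA bB
  -- the values of `α`, `β` stay in the ball
  have hαr : ∀ x ∈ V₁, ∀ t ∈ ball (0 : C4) (r₁ / 2), α (x, t) ∈ ball (0 : C4) r₁ := by
    intro x hx t ht
    rw [mem_ball_zero_iff] at ht ⊢
    have h1 := hαb x hx t (by rwa [mem_ball_zero_iff])
    have h2 : ‖α (x, t)‖ ≤ ‖α (x, t) - t‖ + ‖t‖ := by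
      simpa using norm_add_le (α (x, t) - t) t
    linarith
  have hβr : ∀ x ∈ V₂, ∀ t ∈ ball (0 : C4) (r₁ / 2), β (x, t) ∈ ball (0 : C4) r₁ := by
    intro x hx t ht
    rw [mem_ball_zero_iff] at ht ⊢
    have h1 := hβb x hx t (by rwa [mem_ball_zero_iff])
    have h2 : ‖β (x, t)‖ ≤ ‖β (x, t) - t‖ + ‖t‖ := by
      simpa using norm_add_le (β (x, t) - t) t
    linarith
  have heq : ∀ x ∈ V₁ ∩ V₂, ∀ t ∈ ball (0 : C4) (r₁ / 2),
      M₁ (x, α (x, t)) = M₂ (x, β (x, t)) := by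
    intro x hx t ht
    have hxU : x ∈ U := hVU hx
    rw [← eA x hxU _ (hαr x hx.1 t ht), ← eB x hxU _ (hβr x hx.2 t ht)]
    exact congrArg (fun y => s (x, y)) (hαβ x hx t ht)
  let M : X × C4 → C4 := fun p => if p.1 ∈ V₁ ∩ U₁ then M₁ (p.1, α p) else M₂ (p.1, β p)
  have hMA : ∀ p : X × C4, p.1 ∈ V₁ ∩ U₁ → M p = M₁ (p.1, α p) := fun p hp => by
    simp only [M, hp, if_true]
  have hMB : ∀ p : X × C4, p.1 ∈ V₂ ∩ U₂ → p.2 ∈ ball (0 : C4) (r₁ / 2) →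
      M p = M₂ (p.1, β p) := by
    intro p hp hp2
    by_cases h : p.1 ∈ V₁ ∩ U₁
    · rw [hMA p h]
      exact heq p.1 ⟨h.1, hp.1⟩ p.2 hp2
    · simp only [M, h, if_false]
  refine ⟨M, ?_, ?_, ?_⟩
  · rintro ⟨x, t⟩ ⟨hx, ht⟩
    have hto : IsOpen (ball (0 : C4) (r₁ / 2)) := isOpen_ball
    rcases hx with hx | hx
    · have hopen : IsOpen ((V₁ ∩ U₁) ×ˢ ball (0 : C4) (r₁ / 2)) := (hV₁.inter hU₁).prod hto
      have hd : DifferentiableOn ℂ (fun p : X × C4 => M₁ (p.1, α p))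
          ((V₁ ∩ U₁) ×ˢ ball (0 : C4) (r₁ / 2)) := by
        refine hM₁.diff.comp (f := fun p : X × C4 => (p.1, α p)) ?_ ?_
        · exact differentiableOn_fst.prodMk (hα.mono (prod_mono inter_subset_left Subset.rfl))
        · exact fun p hp => ⟨hp.1.2, hαr p.1 hp.1.1 p.2 hp.2⟩
      refine DifferentiableAt.differentiableWithinAt ?_
      refine ((hd (x, t) ⟨hx, ht⟩).differentiableAt
        (hopen.mem_nhds ⟨hx, ht⟩)).congr_of_eventuallyEq ?_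
      filter_upwards [hopen.mem_nhds (show (x, t) ∈ _ from ⟨hx, ht⟩)] with p hp using hMA p hp.1
    · have hopen : IsOpen ((V₂ ∩ U₂) ×ˢ ball (0 : C4) (r₁ / 2)) := (hV₂.inter hU₂).prod hto
      have hd : DifferentiableOn ℂ (fun p : X × C4 => M₂ (p.1, β p))
          ((V₂ ∩ U₂) ×ˢ ball (0 : C4) (r₁ / 2)) := by
        refine hM₂.diff.comp (f := fun p : X × C4 => (p.1, β p)) ?_ ?_
        · exact differentiableOn_fst.prodMk (hβ.mono (prod_mono inter_subset_left Subset.rfl))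
        · exact fun p hp => ⟨hp.1.2, hβr p.1 hp.1.1 p.2 hp.2⟩
      refine DifferentiableAt.differentiableWithinAt ?_
      refine ((hd (x, t) ⟨hx, ht⟩).differentiableAt
        (hopen.mem_nhds ⟨hx, ht⟩)).congr_of_eventuallyEq ?_
      filter_upwards [hopen.mem_nhds (show (x, t) ∈ _ from ⟨hx, ht⟩)] with p hp
        using hMB p hp.1 hp.2
  · rintro ⟨x, t⟩ ⟨hx, ht⟩
    rcases hx with hx | hx
    · rw [hMA (x, t) hx]
      exact hM₁.maps ⟨hx.2, hαr x hx.1 t ht⟩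
    · rw [hMB (x, t) hx ht]
      exact hM₂.maps ⟨hx.2, hβr x hx.1 t ht⟩
  · intro x hx hxS t ht
    have htr2 : t ∈ ball (0 : C4) (r / 2) := by
      rw [mem_ball_zero_iff] at ht ⊢
      linarith
    rcases hx with hx | hx
    · rw [hMA (x, t) hx]
      have h1 := hM₁.close x hx.2 hxS (α (x, t)) (hαr x hx.1 t ht)
      have h2 := huc x hxS (α (x, t)) (ball_subset_ball hr₁r (hαr x hx.1 t ht)) t htr2
        ((hαb x hx.1 t ht).trans_lt hη4)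
      calc ‖M₁ (x, α (x, t)) - s (x, t)‖
          ≤ ‖M₁ (x, α (x, t)) - s (x, α (x, t))‖ + ‖s (x, α (x, t)) - s (x, t)‖ :=
            norm_sub_le_norm_sub_add_norm_sub _ _ _
        _ < η' := by linarith
    · rw [hMB (x, t) hx ht]
      have h1 := hM₂.close x hx.2 hxS (β (x, t)) (hβr x hx.1 t ht)
      have h2 := huc x hxS (β (x, t)) (ball_subset_ball hr₁r (hβr x hx.1 t ht)) t htr2
        ((hβb x hx.1 t ht).trans_lt hη4)
      calc ‖M₂ (x, β (x, t)) - s (x, t)‖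
          ≤ ‖M₂ (x, β (x, t)) - s (x, β (x, t))‖ + ‖s (x, β (x, t)) - s (x, t)‖ :=
            norm_sub_le_norm_sub_add_norm_sub _ _ _
        _ < η' := by linarith

/-- **Gluing of finitely many families** along the parallel cuts `Re a x = y j`. -/
theorem chain (hG : GlueProp X) {V : Set C4} {K : Set X} (hK : IsCompact K)
    (hKc : CConvex K) (a : X →L[ℂ] ℂ) (y : ℕ → ℝ) {S : Set X}
    {r : ℝ} {s : X × C4 → C4} (hs : Spr V S r s) {r₁ : ℝ} (hr₁ : 0 < r₁) (hr₁r : r₁ ≤ r / 2)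
    (U : ℕ → Set X) (n : ℕ) (hU : ∀ j ≤ n, IsOpen (U j))
    (hKU : ∀ j ≤ n, ∀ x ∈ K, y j ≤ (a x).re → (a x).re ≤ y (j + 1) → x ∈ U j)
    (hS : ∀ j, 1 ≤ j → j ≤ n → ∀ x ∈ K, (a x).re = y j → x ∈ S) :
    ∃ (W : Set X) (r₂ : ℝ), IsOpen W ∧ (∀ x ∈ K, y 0 ≤ (a x).re → (a x).re ≤ y (n + 1) → x ∈ W) ∧
      0 < r₂ ∧ r₂ ≤ r₁ ∧ ∀ η' : ℝ, 0 < η' → ∃ η : ℝ, 0 < η ∧
        ∀ M : ℕ → X × C4 → C4, (∀ j ≤ n, Fam V S s (U j) r₁ η (M j)) →
          ∃ M' : X × C4 → C4, Fam V S s W r₂ η' M' := by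
  induction n with
  | zero =>
    refine ⟨U 0, r₁, hU 0 le_rfl, hKU 0 le_rfl, hr₁, le_rfl, fun η' hη' => ⟨η', hη', ?_⟩⟩
    intro M hM
    exact ⟨M 0, hM 0 le_rfl⟩
  | succ n ih =>
    obtain ⟨W, r₂, hW, hKW, hr₂, hr₂₁, hprop⟩ := ih (fun j hj => hU j (by omega))
      (fun j hj => hKU j (by omega)) (fun j h1 h2 => hS j h1 (by omega))
    let K' : Set X := K ∩ {x | y 0 ≤ (a x).re ∧ (a x).re ≤ y (n + 2)}
    have hcl : IsClosed {x : X | y 0 ≤ (a x).re ∧ (a x).re ≤ y (n + 2)} := by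
      have hc : Continuous fun x : X => (a x).re := Complex.continuous_re.comp a.continuous
      exact (isClosed_le continuous_const hc).inter (isClosed_le hc continuous_const)
    have hcv : CConvex {x : X | y 0 ≤ (a x).re ∧ (a x).re ≤ y (n + 2)} :=
      (cconvex_ge a (y 0)).inter (cconvex_le a (y (n + 2)))
    obtain ⟨W', hW', hKW', -, hprop'⟩ := glue_pair hG (V := V) (K := K')
      (hK.inter_right hcl) (hKc.inter hcv) a (y (n + 1)) (U₁ := W) (U₂ := U (n + 1)) (S := S)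
      hW (hU (n + 1) le_rfl) (fun x hx h => hKW x hx.1 hx.2.1 h)
      (fun x hx h => hKU (n + 1) le_rfl x hx.1 h hx.2.2) hs
      (fun x hx h => hS (n + 1) (by omega) le_rfl x hx.1 h) hr₂ (hr₂₁.trans hr₁r)
    refine ⟨W', r₂ / 2, hW', fun x hx h1 h2 => hKW' ⟨hx, h1, h2⟩, half_pos hr₂,
      by linarith, fun η' hη' => ?_⟩
    obtain ⟨η, hη, hgl⟩ := hprop' η' hη'
    obtain ⟨η₂, hη₂, hch⟩ := hprop η hη
    refine ⟨min η η₂, lt_min hη hη₂, fun M hM => ?_⟩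
    obtain ⟨M', hM'⟩ := hch M (fun j hj => (hM j (by omega)).mono Subset.rfl le_rfl
      (min_le_right _ _))
    exact hgl M' (M (n + 1)) hM' ((hM (n + 1) le_rfl).mono Subset.rfl hr₂₁ (min_le_left _ _))

end Crest.Agent.R279.Conv
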