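import Mathlib

/-!
Row 279, planar part (helper488): rectangles, hairs (rays leaving a rectangle orthogonally), and the
targets Runge (1.2), Lemma E / E' (1.5), Lemma K (1.5). Distances are sup-norm distances of `(Re, Im)`.
-/

set_option autoImplicit false

noncomputable section
namespace Crest.Agent.R279.Planar

/-- sup norm of `(Re, Im)` -/
def sn (z : ℂ) : ℝ := max |z.re| |z.im|

/-- a nondegenerate closed rectangle -/
structure Rect where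
  x0 : ℝ
  x1 : ℝ
  y0 : ℝ
  y1 : ℝ
  hx : x0 < x1
  hy : y0 < y1

/-- closed `s`-neighbourhood (sup norm) of the rectangle; `cl 0` is the rectangle -/
def Rect.cl (P : Rect) (s : ℝ) : Set ℂ :=
  {z | P.x0 - s ≤ z.re ∧ z.re ≤ P.x1 + s ∧ P.y0 - s ≤ z.im ∧ z.im ≤ P.y1 + s}

/-- open `s`-neighbourhood (sup norm) of the rectangle -/
def Rect.op (P : Rect) (s : ℝ) : Set ℂ :=
  {z | P.x0 - s < z.re ∧ z.re < P.x1 + s ∧ P.y0 - s < z.im ∧ z.im < P.y1 + s}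

/-- a hair of `P`: the ray `q + [0,∞) ν`, `q` in an open side of `P`, `ν` the outward unit normal -/
structure Hair (P : Rect) where
  q : ℂ
  ν : ℂ
  h : (ν = 1 ∧ q.re = P.x1 ∧ P.y0 < q.im ∧ q.im < P.y1) ∨
      (ν = Complex.I ∧ q.im = P.y1 ∧ P.x0 < q.re ∧ q.re < P.x1) ∨
      (ν = -1 ∧ q.re = P.x0 ∧ P.y0 < q.im ∧ q.im < P.y1) ∨
      (ν = -Complex.I ∧ q.im = P.y0 ∧ P.x0 < q.re ∧ q.re < P.x1)

/-- local coordinate of a hair: `z = q + ν * loc z` -/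
def Hair.loc {P : Rect} (T : Hair P) (z : ℂ) : ℂ := (z - T.q) * (starRingEnd ℂ) T.ν

/-- closed `s`-neighbourhood (sup norm) of the ray; `cl 0` is the ray -/
def Hair.cl {P : Rect} (T : Hair P) (s : ℝ) : Set ℂ := {z | -s ≤ (T.loc z).re ∧ |(T.loc z).im| ≤ s}

/-- open `s`-neighbourhood (sup norm) of the ray -/
def Hair.op {P : Rect} (T : Hair P) (s : ℝ) : Set ℂ := {z | -s < (T.loc z).re ∧ |(T.loc z).im| < s}

/-- (1.2) Runge. Escape hypothesis = every point of the complement lies in a preconnected unbounded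
subset of the complement (implied by `Kᶜ` connected). -/
def RungeTarget : Prop :=
  ∀ (K : Set ℂ), IsCompact K →
    (∀ a ∉ K, ∃ C : Set ℂ, IsPreconnected C ∧ a ∈ C ∧ Disjoint C K ∧ ¬ Bornology.IsBounded C) →
    ∀ (U : Set ℂ), IsOpen U → K ⊆ U → ∀ (f : ℂ → ℂ), DifferentiableOn ℂ f U →
    ∀ ε > 0, ∃ p : Polynomial ℂ, ∀ z ∈ K, ‖p.eval z - f z‖ < ε

/-- Lemma E' (general): prescribe a polynomial `φ` on the rectangle and `φ + h j` on the `j`-th hair, `h j`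
any continuous function of the real coordinate along the hair with `h j 0 = 0`. -/
def LemmaE'Target : Prop :=
  ∀ (P : Rect) (M : ℕ) (T : Fin M → Hair P), Function.Injective (fun j => (T j).q) →
    ∀ (φ : Polynomial ℂ) (h : Fin M → ℝ → ℂ), (∀ j, Continuous (h j)) → (∀ j, ∀ t ≤ 0, h j t = 0) →
    ∀ (η R : ℝ), 0 < η → ∃ (E : Polynomial ℂ) (δ : ℝ), 0 < δ ∧
      (∀ z ∈ P.cl δ, ‖E.eval z - φ.eval z‖ < η) ∧
      (∀ j, ∀ z ∈ (T j).cl δ, sn z ≤ R → ‖E.eval z - (φ.eval z + h j ((T j).loc z).re)‖ < η)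

/-- Lemma E: `E ≈ id` near the rectangle, `E ≈ q_j` near the `j`-th hair. -/
def LemmaETarget : Prop :=
  ∀ (P : Rect) (M : ℕ) (T : Fin M → Hair P), Function.Injective (fun j => (T j).q) →
    ∀ (η R : ℝ), 0 < η → ∃ (E : Polynomial ℂ) (δ : ℝ), 0 < δ ∧
      (∀ z ∈ P.cl δ, ‖E.eval z - z‖ < η) ∧
      (∀ j, ∀ z ∈ (T j).cl δ, sn z ≤ R → ‖E.eval z - (T j).q‖ < η)

/-- Lemma K (kick): one hair, `σ < δ`: small near the rectangle, `≈ Λ` outside the `δ`-neighbourhood of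
rectangle + hair, in `|z| ≤ R`. -/
def LemmaKTarget : Prop :=
  ∀ (P : Rect) (T : Hair P) (σ δ R : ℝ) (Λ : ℂ) (ε : ℝ), 0 < σ → σ < δ → 0 < ε →
    ∃ p : Polynomial ℂ, (∀ z ∈ P.cl σ, ‖p.eval z‖ < ε) ∧
      (∀ z, sn z ≤ R → z ∉ P.op δ → z ∉ T.op δ → ‖p.eval z - Λ‖ < ε)

/-- Lemma L (levels): one hair, `a < b`: small on the closed `a`-neighbourhood of rectangle + hair,
`≈ Λ` off its open `b`-neighbourhood, in `|z| ≤ R`. -/
def LemmaLTarget : Prop :=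
  ∀ (P : Rect) (T : Hair P) (a b R : ℝ) (Λ : ℂ) (ε : ℝ), 0 < a → a < b → 0 < ε →
    ∃ p : Polynomial ℂ, (∀ z, sn z ≤ R → z ∈ P.cl a ∪ T.cl a → ‖p.eval z‖ < ε) ∧
      (∀ z, sn z ≤ R → z ∉ P.op b → z ∉ T.op b → ‖p.eval z - Λ‖ < ε)

/-- boundary of the rectangle -/
def Rect.bd (P : Rect) : Set ℂ := P.cl 0 \ P.op 0

/-- Lemma S (sectors), made for the last variable `c` of the shear lemma (Part 4): a gauge `ρ > 0` on the
boundary of `Q` gives finitely many cells with centres `c j` in the boundary (a special one `js`), then for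
all `R` a point `Λ`, then for all `η, R'` the open sets `A` (the `δ`-neighbourhood of rectangle + rays) and
`B j` (sectors of the complement of the closed `δ/2`-neighbourhood), and the polynomial `E`. -/
def LemmaSTarget : Prop :=
  ∀ (Q : Rect) (ρ : ℂ → ℝ), (∀ c ∈ Q.bd, 0 < ρ c) →
    ∃ (M : ℕ) (c : Fin M → ℂ) (js : Fin M), (∀ j, c j ∈ Q.bd) ∧
    ∀ R : ℝ, ∃ Λ : ℂ, ∀ (η R' : ℝ), 0 < η →
      ∃ (E : Polynomial ℂ) (δ : ℝ) (A : Set ℂ) (B : Fin M → Set ℂ), 0 < δ ∧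
        IsOpen A ∧ (∀ j, IsOpen (B j)) ∧ (∀ i j, i ≠ j → Disjoint (B i) (B j)) ∧
        (A ∪ ⋃ j, B j) = Set.univ ∧
        (∀ x ∈ A, (∀ j, x ∉ B j) → ∀ j, ∀ y ∈ B j, y ∉ A → δ ≤ dist x y) ∧
        Q.cl δ ⊆ A ∧ (∀ j, Disjoint (Q.cl δ) (B j)) ∧
        (∀ z ∈ Q.cl δ, ‖E.eval z - z‖ < η) ∧
        (∀ z ∈ A, sn z ≤ R' → E.eval z ∈ Q.op η) ∧
        (∀ j, ∀ z ∈ A ∩ B j, sn z ≤ R' → sn (E.eval z - c j) < ρ (c j)) ∧
        (∀ z, sn (z - Λ) ≤ R → z ∈ B js ∧ z ∉ closure A)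

/-- Lemma Y, made for the variables `y_i` of the shear lemma: one ray; `A` = `δ`-neighbourhood, `B` = complement of the
closed `δ/2`-neighbourhood of rectangle + ray; `E`, and for every `Λ` the kick `p` (`E`, `A`, `B` first, `p` for all `Λ ε`;
the point `Λ0` with `|z-Λ0| ≤ R` far from the set, is chosen before). -/
def LemmaYTarget : Prop :=
  ∀ (P : Rect) (R : ℝ), ∃ Λ0 : ℂ, ∀ (η R' : ℝ), 0 < η →
      ∃ (E : Polynomial ℂ) (δ : ℝ) (A B : Set ℂ), 0 < δ ∧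
        IsOpen A ∧ IsOpen B ∧ A ∪ B = Set.univ ∧
        (∀ x ∈ A, x ∉ B → ∀ y ∈ B, y ∉ A → δ ≤ dist x y) ∧
        P.cl δ ⊆ A ∧ Disjoint (P.cl δ) B ∧
        (∀ z ∈ P.cl δ, ‖E.eval z - z‖ < η) ∧
        (∀ z ∈ A, sn z ≤ R' → E.eval z ∈ P.op η) ∧
        (∀ z, sn (z - Λ0) ≤ R → z ∈ B ∧ z ∉ closure A) ∧
        (∀ (Λ : ℂ) (ε : ℝ), 0 < ε → ∃ p : Polynomial ℂ, (∀ z ∈ P.cl δ, ‖p.eval z‖ < ε) ∧
          (∀ z ∈ B, sn z ≤ R' → ‖p.eval z - Λ‖ < ε))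

end Crest.Agent.R279.Planar
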