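import Mathlib
import Crest.Agent.R279.Conv532a
import Crest.Agent.R279.H488Defs

/-!
R279 (helper532), Part 5 (b): preparations for the half-space step: sprays are uniformly
continuous near compacta, slices, partition of the wall, the polynomials `E` and `p₂`.
-/

set_option autoImplicit false
set_option linter.unusedSectionVars false

open Metric Set Filter Topology

namespace Crest.Agent.R279.Conv

/-- closed square -/
def Sq (c₀ : ℂ) (ρ : ℝ) : Set ℂ := rect (c₀.re - ρ) (c₀.re + ρ) (c₀.im - ρ) (c₀.im + ρ)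

/-- open square -/
def Sqo (c₀ : ℂ) (ρ : ℝ) : Set ℂ := {c | |c.re - c₀.re| < ρ ∧ |c.im - c₀.im| < ρ}

/-- closed polysquare in the parameter space -/
def D4 (r : ℝ) : Set C4 := polyRect (fun _ : Fin 4 => (-r, r, -r, r))

theorem mem_Sq {c₀ c : ℂ} {ρ : ℝ} : c ∈ Sq c₀ ρ ↔ |c.re - c₀.re| ≤ ρ ∧ |c.im - c₀.im| ≤ ρ := by
  simp only [Sq, rect, Set.mem_ofPred_eq, mem_Icc, abs_le]
  constructor
  · rintro ⟨⟨h1, h2⟩, h3, h4⟩
    exact ⟨⟨by linarith, by linarith⟩, by linarith, by linarith⟩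
  · rintro ⟨⟨h1, h2⟩, h3, h4⟩
    exact ⟨⟨by linarith, by linarith⟩, by linarith, by linarith⟩

theorem isOpen_Sqo (c₀ : ℂ) (ρ : ℝ) : IsOpen (Sqo c₀ ρ) := by
  refine IsOpen.inter (s := {c : ℂ | |c.re - c₀.re| < ρ}) (t := {c : ℂ | |c.im - c₀.im| < ρ})
    ?_ ?_
  · exact isOpen_lt ((Complex.continuous_re.sub continuous_const).abs) continuous_const
  · exact isOpen_lt ((Complex.continuous_im.sub continuous_const).abs) continuous_const

theorem Sqo_subset_Sq (c₀ : ℂ) (ρ : ℝ) : Sqo c₀ ρ ⊆ Sq c₀ ρ := fun _ hc =>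
  mem_Sq.2 ⟨hc.1.le, hc.2.le⟩

theorem dist_le_of_mem_Sq {c₀ c : ℂ} {ρ : ℝ} (h : c ∈ Sq c₀ ρ) : dist c c₀ ≤ 2 * ρ := by
  have h' := mem_Sq.1 h
  rw [Complex.dist_eq]
  calc ‖c - c₀‖ ≤ |(c - c₀).re| + |(c - c₀).im| := Complex.norm_le_abs_re_add_abs_im _
    _ ≤ ρ + ρ := add_le_add (by simpa using h'.1) (by simpa using h'.2)
    _ = 2 * ρ := by ring

theorem D4_subset {r : ℝ} (hr : 0 < r) : D4 (r / 4) ⊆ ball (0 : C4) r := by
  intro t ht
  rw [mem_ball_zero_iff, pi_norm_lt_iff hr]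
  intro i
  have hi := ht i
  simp only [rect, Set.mem_ofPred_eq, mem_Icc] at hi
  calc ‖t i‖ ≤ |(t i).re| + |(t i).im| := Complex.norm_le_abs_re_add_abs_im _
    _ ≤ r / 4 + r / 4 := add_le_add (abs_le.2 ⟨hi.1.1, hi.1.2⟩) (abs_le.2 ⟨hi.2.1, hi.2.2⟩)
    _ < r := by linarith

theorem ball_subset_D4 {r : ℝ} : ball (0 : C4) r ⊆ D4 r := by
  intro t ht i
  rw [mem_ball_zero_iff] at ht
  have h1 : ‖t i‖ < r := (norm_le_pi_norm t i).trans_lt ht
  have h2 := abs_le.1 ((Complex.abs_re_le_norm (t i)).trans h1.le)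
  have h3 := abs_le.1 ((Complex.abs_im_le_norm (t i)).trans h1.le)
  exact ⟨⟨h2.1, h2.2⟩, ⟨h3.1, h3.2⟩⟩

/-- A spray near a compact set is uniformly continuous in `t` on a smaller neighbourhood. -/
theorem exists_spr {X : Type*} [NormedAddCommGroup X] [NormedSpace ℂ X] [FiniteDimensional ℂ X]
    {V : Set C4} {f : X → C4} {K : Set X} (hK : IsCompact K) (D : SprayData V f K) :
    ∃ S₀ : Set X, IsOpen S₀ ∧ K ⊆ S₀ ∧ S₀ ⊆ D.O ∧ Spr V S₀ D.r D.s := by
  have : ProperSpace X := FiniteDimensional.proper ℂ X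
  obtain ⟨S₀, hS₀, hKS, hcl, hcc⟩ := exists_open_between_and_isCompact_closure hK D.isOpen D.sub
  have hsub : S₀ ⊆ D.O := subset_closure.trans hcl
  refine ⟨S₀, hS₀, hKS, hsub, ?_⟩
  have hr := D.rpos
  refine ⟨hS₀, D.rpos, D.diff.mono (prod_mono hsub Subset.rfl),
    D.maps.mono (prod_mono hsub Subset.rfl) Subset.rfl,
    ⟨D.e, D.epos, fun x hx => D.trans x (hsub hx)⟩, ?_⟩
  intro η hη
  have hC : IsCompact (closure S₀ ×ˢ closedBall (0 : C4) (D.r / 2)) :=
    hcc.prod (isCompact_closedBall _ _)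
  have hcont : ContinuousOn D.s (closure S₀ ×ˢ closedBall (0 : C4) (D.r / 2)) :=
    D.diff.continuousOn.mono (prod_mono hcl (closedBall_subset_ball (by linarith)))
  obtain ⟨δ, hδ, h⟩ := Metric.uniformContinuousOn_iff.1
    (hC.uniformContinuousOn_of_continuous hcont) η hη
  refine ⟨δ, hδ, fun x hx t ht t' ht' htt => ?_⟩
  have := h (x, t) ⟨subset_closure hx, ball_subset_closedBall ht⟩ (x, t')
    ⟨subset_closure hx, ball_subset_closedBall ht'⟩ (by
      rw [Prod.dist_eq, dist_self, max_eq_right dist_nonneg, dist_eq_norm]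
      exact htt)
  rwa [dist_eq_norm] at this

section slices
variable {Z : Type*} [NormedAddCommGroup Z] [NormedSpace ℂ Z]

/-- the slice of `L` over `c` -/
def Sl (L : Set (Z × ℂ)) (c : ℂ) : Set Z := {z | (z, c) ∈ L}

theorem isCompact_Sl {L : Set (Z × ℂ)} (hL : IsCompact L) (c : ℂ) : IsCompact (Sl L c) := by
  have h : Sl L c = Prod.fst '' (L ∩ {p | p.2 = c}) := by
    ext z
    constructor
    · intro hz
      exact ⟨(z, c), ⟨hz, rfl⟩, rfl⟩
    · rintro ⟨p, ⟨hp, hpc⟩, rfl⟩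
      have hpc' : p.2 = c := hpc
      show (p.1, c) ∈ L
      rw [← hpc']
      exact hp
  rw [h]
  exact (hL.inter_right (isClosed_eq continuous_snd continuous_const)).image continuous_fst

theorem cconvex_Sl {L : Set (Z × ℂ)} (hL : CConvex L) (c : ℂ) : CConvex (Sl L c) := by
  intro x hx y hy u v hu hv huv
  have h := hL (x, c) hx (y, c) hy u v hu hv huv
  have e : (u : ℂ) • (x, c) + (v : ℂ) • (y, c) = ((u : ℂ) • x + (v : ℂ) • y, c) := by
    ext
    · rfl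
    · simp only [Prod.snd_add, Prod.smul_snd, smul_eq_mul]
      rw [← add_mul, ← Complex.ofReal_add, huv, Complex.ofReal_one, one_mul]
  rw [e] at h
  exact h

/-- local data at one slice -/
theorem slice_data {L : Set (Z × ℂ)} (hL : IsCompact L) (c₀ : ℂ) {u : Set (Z × ℂ)}
    (hu : IsOpen u) (hsub : ∀ z, (z, c₀) ∈ L → (z, c₀) ∈ u) :
    ∃ σ : ℝ, 0 < σ ∧ ∃ ρ : ℝ, 0 < ρ ∧ cthickening σ (Sl L c₀) ×ˢ Sq c₀ ρ ⊆ u ∧
      ∀ p ∈ L, p.2 ∈ Sq c₀ ρ → p.1 ∈ thickening σ (Sl L c₀) := by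
  have hSl : IsCompact (Sl L c₀) := isCompact_Sl hL c₀
  have hC : IsCompact (Sl L c₀ ×ˢ ({c₀} : Set ℂ)) := hSl.prod isCompact_singleton
  obtain ⟨σ, hσ, hσu⟩ := hC.exists_cthickening_subset_open hu (by
    rintro ⟨z, c⟩ ⟨hz, hc⟩
    have hc' : c = c₀ := hc
    subst hc'
    exact hsub z hz)
  -- second condition
  have hB : IsCompact (L ∩ {p : Z × ℂ | p.1 ∉ thickening σ (Sl L c₀)}) := by
    refine hL.inter_right ?_
    exact (isOpen_thickening.preimage continuous_fst).isClosed_compl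
  obtain ⟨m, hm, hmB⟩ : ∃ m : ℝ, 0 < m ∧ ∀ p ∈ L ∩ {p : Z × ℂ | p.1 ∉ thickening σ (Sl L c₀)},
      m ≤ dist p.2 c₀ := by
    rcases (L ∩ {p : Z × ℂ | p.1 ∉ thickening σ (Sl L c₀)}).eq_empty_or_nonempty with h0 | h0
    · exact ⟨1, one_pos, by simp [h0]⟩
    · obtain ⟨p, hp, hmin⟩ := hB.exists_isMinOn h0
        (f := fun p : Z × ℂ => dist p.2 c₀) (by fun_prop)
      refine ⟨dist p.2 c₀, ?_, fun q hq => hmin hq⟩
      rw [dist_pos]
      intro hpc
      refine hp.2 (self_subset_thickening hσ _ ?_)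
      show (p.1, c₀) ∈ L
      rw [← hpc]
      exact hp.1
  refine ⟨σ, hσ, min (σ / 2) (m / 4), lt_min (half_pos hσ) (by positivity), ?_, ?_⟩
  · rintro ⟨z, c⟩ ⟨hz, hc⟩
    refine hσu ?_
    rw [hSl.cthickening_eq_biUnion_closedBall hσ.le] at hz
    obtain ⟨z', hz', hzz⟩ := mem_iUnion₂.1 hz
    rw [hC.cthickening_eq_biUnion_closedBall hσ.le]
    refine mem_iUnion₂.2 ⟨(z', c₀), ⟨hz', rfl⟩, ?_⟩
    rw [mem_closedBall, Prod.dist_eq]
    refine max_le hzz ?_
    have h1 := dist_le_of_mem_Sq hc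
    have h2 : min (σ / 2) (m / 4) ≤ σ / 2 := min_le_left _ _
    show dist c c₀ ≤ σ
    linarith
  · intro p hp hpc
    by_contra hcon
    have h0 := hmB p ⟨hp, hcon⟩
    have h1 := dist_le_of_mem_Sq hpc
    have h2 : min (σ / 2) (m / 4) ≤ m / 4 := min_le_right _ _
    linarith

end slices

/-- partition of the wall -/
theorem exists_partition {α β : ℝ} (hαβ : α ≤ β) (ρ : ℝ → ℝ) (hρ : ∀ y ∈ Icc α β, 0 < ρ y) :
    ∃ (N : ℕ) (t y' : ℕ → ℝ), 1 ≤ N ∧ t 0 = α ∧ t N = β ∧ Monotone t ∧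
      (∀ i j, 1 ≤ i → i < N → 1 ≤ j → j < N → t i = t j → i = j) ∧
      ∀ j < N, y' j ∈ Icc α β ∧ ∀ y ∈ Icc (t j) (t (j + 1)), |y - y' j| < ρ (y' j) := by
  obtain ⟨δ, hδ, hleb⟩ := lebesgue_number_lemma_of_metric (s := Icc α β)
    (c := fun y : Icc α β => ball (y : ℝ) (ρ y)) isCompact_Icc (fun _ => isOpen_ball)
    (fun y hy => mem_iUnion.2 ⟨⟨y, hy⟩, mem_ball_self (hρ y hy)⟩)
  obtain ⟨N, hN1, hNδ, hinj⟩ : ∃ N : ℕ, 1 ≤ N ∧ (β - α) / N < δ ∧ (N = 1 ∨ α < β) := by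
    rcases hαβ.eq_or_lt with h | h
    · exact ⟨1, le_rfl, by simpa [h] using hδ, Or.inl rfl⟩
    · obtain ⟨n, hn⟩ := exists_nat_gt ((β - α) / δ)
      refine ⟨n + 1, by omega, ?_, Or.inr h⟩
      rw [div_lt_iff₀ (by positivity)]
      rw [div_lt_iff₀ hδ] at hn
      push_cast
      nlinarith
  have hN0 : (0 : ℝ) < N := by exact_mod_cast hN1
  set t : ℕ → ℝ := fun i => α + i * ((β - α) / N) with ht
  have hstep : 0 ≤ (β - α) / N := div_nonneg (by linarith) hN0.le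
  have hmono : Monotone t := by
    intro i j hij
    have : (i : ℝ) ≤ j := by exact_mod_cast hij
    simp only [ht]
    gcongr
  have ht0 : t 0 = α := by simp [ht]
  have htN : t N = β := by simp only [ht]; field_simp; ring
  have hex : ∀ j : ℕ, ∃ y' : ℝ, j < N → y' ∈ Icc α β ∧
      ∀ y ∈ Icc (t j) (t (j + 1)), |y - y'| < ρ y' := by
    intro j
    by_cases hj : j < N
    · have hjm : t j ∈ Icc α β := by
        refine ⟨?_, ?_⟩
        · rw [← ht0]; exact hmono (Nat.zero_le j)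
        · rw [← htN]; exact hmono hj.le
      obtain ⟨y', hy'⟩ := hleb (t j) hjm
      refine ⟨y', fun _ => ⟨y'.2, fun y hy => ?_⟩⟩
      have h1 : y ∈ ball (t j) δ := by
        rw [mem_ball, Real.dist_eq, abs_lt]
        have h2 : t (j + 1) = t j + (β - α) / N := by simp only [ht]; push_cast; ring
        constructor
        · linarith [hy.1]
        · linarith [hy.2]
      have := hy' h1
      rwa [mem_ball, Real.dist_eq] at this
    · exact ⟨0, fun h => absurd h hj⟩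
  choose y' hy' using hex
  refine ⟨N, t, y', hN1, ht0, htN, hmono, ?_, fun j hj => hy' j hj⟩
  intro i j hi1 hiN hj1 hjN hij
  rcases hinj with h | h
  · omega
  · have h2 : 0 < (β - α) / N := div_pos (by linarith) hN0
    simp only [ht, add_right_inj] at hij
    have := mul_right_cancel₀ h2.ne' hij
    exact_mod_cast this

/-- the ideal `E` -/
noncomputable def E0 (a : ℝ) (c : ℂ) : ℂ := c - ((max (c.re - a) 0 : ℝ) : ℂ)

/-- the ideal `1 - κ` -/
noncomputable def h0 (a ρ : ℝ) (c : ℂ) : ℂ := ((min 1 (2 * max (c.re - a) 0 / ρ) : ℝ) : ℂ)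

theorem continuous_E0 (a : ℝ) : Continuous (E0 a) := by
  unfold E0
  fun_prop

theorem continuous_h0 (a ρ : ℝ) : Continuous (h0 a ρ) := by
  unfold h0
  fun_prop

theorem E0_of_le {a : ℝ} {c : ℂ} (h : c.re ≤ a) : E0 a c = c := by
  simp [E0, max_eq_right (sub_nonpos.2 h)]

theorem h0_of_le {a ρ : ℝ} {c : ℂ} (h : c.re ≤ a) : h0 a ρ c = 0 := by
  simp [h0, max_eq_right (sub_nonpos.2 h)]

theorem E0_of_ge {a : ℝ} {c : ℂ} (h : a ≤ c.re) : E0 a c = ⟨a, c.im⟩ := by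
  rw [E0, max_eq_left (sub_nonneg.2 h)]
  apply Complex.ext <;> simp

/-- the polynomials `E` and `p₂ = 1 - κ`, close to the ideal functions on the left part and on
the teeth -/
theorem exists_polys (hE : Planar.LemmaE'Target) {a ρ R : ℝ} (hR : 0 < R) {N : ℕ}
    (t : ℕ → ℝ) (hinj : ∀ i j, 1 ≤ i → i < N → 1 ≤ j → j < N → t i = t j → i = j)
    (hbd : ∀ i, 1 ≤ i → i < N → |t i| < R) {η : ℝ} (hη : 0 < η) :
    ∃ E p : Polynomial ℂ, ∀ c : ℂ, |c.re - a| ≤ R → |c.im| ≤ R →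
      (c.re ≤ a ∨ ∃ i, 1 ≤ i ∧ i < N ∧ c.im = t i) →
      ‖E.eval c - E0 a c‖ < η ∧ ‖p.eval c - h0 a ρ c‖ < η := by
  let P : Planar.Rect := ⟨a - R, a, -R, R, by linarith, by linarith⟩
  let T : Fin (N - 1) → Planar.Hair P := fun i => ⟨⟨a, t (i + 1)⟩, 1, Or.inl ⟨rfl, rfl, by
    have := abs_lt.1 (hbd (i + 1) (by omega) (by omega))
    exact this.1, by
    have := abs_lt.1 (hbd (i + 1) (by omega) (by omega))
    exact this.2⟩⟩
  have hTinj : Function.Injective (fun j => (T j).q) := by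
    intro i j hij
    have h1 : t (i + 1) = t (j + 1) := congrArg Complex.im hij
    have h2 := hinj _ _ (by omega) (by omega) (by omega) (by omega) h1
    exact Fin.ext (by omega)
  obtain ⟨E, δ₁, hδ₁, hE1, hE2⟩ := hE P (N - 1) T hTinj Polynomial.X
    (fun _ x => ((-max x 0 : ℝ) : ℂ)) (fun _ => by fun_prop)
    (fun _ x hx => by simp [max_eq_right hx]) η (|a| + R) hη
  obtain ⟨p, δ₂, hδ₂, hp1, hp2⟩ := hE P (N - 1) T hTinj 0
    (fun _ x => ((min 1 (2 * max x 0 / ρ) : ℝ) : ℂ)) (fun _ => by fun_prop)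
    (fun _ x hx => by simp [max_eq_right hx]) η (|a| + R) hη
  refine ⟨E, p, fun c hc1 hc2 hc => ?_⟩
  have hc1' := abs_le.1 hc1
  have hc2' := abs_le.1 hc2
  by_cases hle : c.re ≤ a
  · have hmem : ∀ δ : ℝ, 0 < δ → c ∈ P.cl δ := by
      intro δ hδ
      refine ⟨?_, ?_, ?_, ?_⟩
      · show a - R - δ ≤ c.re
        linarith
      · show c.re ≤ a + δ
        linarith
      · show -R - δ ≤ c.im
        linarith
      · show c.im ≤ R + δ
        linarith
    refine ⟨?_, ?_⟩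
    · rw [E0_of_le hle]
      simpa using hE1 c (hmem _ hδ₁)
    · rw [h0_of_le hle]
      simpa using hp1 c (hmem _ hδ₂)
  · obtain ⟨i, hi1, hiN, hit⟩ := hc.resolve_left hle
    have hge : a ≤ c.re := (not_le.1 hle).le
    let j : Fin (N - 1) := ⟨i - 1, by omega⟩
    have hj : (j : ℕ) + 1 = i := by simp only [j]; omega
    have hq : (T j).q = ⟨a, t i⟩ := by simp only [T, hj]
    have hloc : (T j).loc c = c - ⟨a, t i⟩ := by
      simp only [Planar.Hair.loc, hq]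
      simp [T]
    have hre : ((T j).loc c).re = c.re - a := by rw [hloc]; simp
    have him : ((T j).loc c).im = 0 := by rw [hloc]; simp [hit]
    have hmem : ∀ δ : ℝ, 0 < δ → c ∈ (T j).cl δ := by
      intro δ hδ
      refine ⟨?_, ?_⟩
      · rw [hre]; linarith
      · rw [him, abs_zero]; exact hδ.le
    have hsn : Planar.sn c ≤ |a| + R := by
      refine max_le ?_ ?_
      · calc |c.re| = |a + (c.re - a)| := by ring_nf
          _ ≤ |a| + |c.re - a| := abs_add_le _ _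
          _ ≤ |a| + R := by gcongr
      · linarith [abs_nonneg a]
    refine ⟨?_, ?_⟩
    · have h := hE2 j c (hmem _ hδ₁) hsn
      rw [hre] at h
      have e : E0 a c = Polynomial.eval c Polynomial.X + ((-max (c.re - a) 0 : ℝ) : ℂ) := by
        simp [E0, sub_eq_add_neg]
      rw [e]
      exact h
    · have h := hp2 j c (hmem _ hδ₂) hsn
      rw [hre] at h
      have e : h0 a ρ c = Polynomial.eval c 0 + ((min 1 (2 * max (c.re - a) 0 / ρ) : ℝ) : ℂ) := by
        simp [h0]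
      rw [e]
      exact h

end Crest.Agent.R279.Conv
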