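import Mathlib
import Crest.Agent.R279.Conv532b
import Crest.Agent.R279.Merge250

/-!
R279 (helper532), Part 5 (c): the half-space step.
-/

set_option autoImplicit false
set_option linter.unusedSectionVars false

open Metric Set Filter Topology

namespace Crest.Agent.R279.Conv

/-- every map near `K` can be approximated on `K` by maps near any given compact set -/
def ApprSet {X : Type*} [NormedAddCommGroup X] [NormedSpace ℂ X] (V : Set C4) (K : Set X) :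
    Prop :=
  ∀ f : X → C4, HolNear V f K → ∀ K' : Set X, IsCompact K' → ∀ ε : ℝ, 0 < ε →
    ∃ G : X → C4, HolNear V G K' ∧ ∀ x ∈ K, ‖G x - f x‖ < ε

/-- every map near `K` can be approximated on `K` by maps near `L` -/
def RApp {X : Type*} [NormedAddCommGroup X] [NormedSpace ℂ X] (V : Set C4) (K L : Set X) :
    Prop :=
  ∀ f : X → C4, HolNear V f K → ∀ ε : ℝ, 0 < ε →
    ∃ G : X → C4, HolNear V G L ∧ ∀ x ∈ K, ‖G x - f x‖ < ε

/-- sprays exist near compact convex sets -/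
def SprayProp (V : Set C4) (X : Type*) [NormedAddCommGroup X] [NormedSpace ℂ X] : Prop :=
  ∀ K : Set X, IsCompact K → CConvex K → ∀ f : X → C4, HolNear V f K →
    Nonempty (SprayData V f K)

section theta
variable {Z Y : Type*} [NormedAddCommGroup Z] [NormedSpace ℂ Z] [NormedAddCommGroup Y]
  [NormedSpace ℂ Y]

/-- the map `(x, e, p) ↦ (z + p (b(e) - z), e, w)`, `b(e) = b₀ - i (e - a) b₁` -/
noncomputable def Th (a : ℝ) (b₀ b₁ : Z) (q : ((Z × ℂ) × Y) × (ℂ × ℂ)) : (Z × ℂ) × Y :=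
  ((q.1.1.1 + q.2.2 • ((b₀ + (-Complex.I * (q.2.1 - a)) • b₁) - q.1.1.1), q.2.1), q.1.2)

theorem differentiable_Th (a : ℝ) (b₀ b₁ : Z) :
    Differentiable ℂ (Th a b₀ b₁ : ((Z × ℂ) × Y) × (ℂ × ℂ) → (Z × ℂ) × Y) := by
  unfold Th
  fun_prop

theorem Th_zero (a : ℝ) (b₀ b₁ : Z) (x : (Z × ℂ) × Y) :
    Th a b₀ b₁ (x, (x.1.2, 0)) = x := by
  simp [Th]

/-- **Geometric claim.** -/
theorem Th_mem {L : Set (Z × ℂ)} (hLc : CConvex L) {a : ℝ} {b₀ b₁ : Z} {y' σ ρ ρ' : ℝ}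
    (hρ : 0 < ρ) (hρρ : ρ ≤ ρ')
    (hsl : ∀ p ∈ L, p.2 ∈ Sq ⟨a, y'⟩ ρ' → p.1 ∈ thickening σ (Sl L ⟨a, y'⟩))
    {x : (Z × ℂ) × Y} (hx : x.1 ∈ L) (hxa : a ≤ x.1.2.re)
    (hb : (b₀ + (x.1.2.im : ℂ) • b₁, (⟨a, x.1.2.im⟩ : ℂ)) ∈ L)
    (hy : |x.1.2.im - y'| < ρ') {P' : Set Y} (hw : x.2 ∈ interior P') :
    Th a b₀ b₁ (x, (E0 a x.1.2, h0 a ρ x.1.2)) ∈
      (thickening σ (Sl L ⟨a, y'⟩) ×ˢ Sqo ⟨a, y'⟩ ρ') ×ˢ interior P' := by
  have hρ' : 0 < ρ' := hρ.trans_le hρρ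
  have hbz : b₀ + (x.1.2.im : ℂ) • b₁ ∈ thickening σ (Sl L ⟨a, y'⟩) := by
    refine hsl _ hb (mem_Sq.2 ⟨?_, hy.le⟩)
    show |a - a| ≤ ρ'
    rw [sub_self, abs_zero]
    exact hρ'.le
  have hcv : Convex ℝ (thickening σ (Sl L ⟨a, y'⟩)) :=
    (cconvex_iff.1 (cconvex_Sl hLc ⟨a, y'⟩)).thickening σ
  have hE : E0 a x.1.2 = ⟨a, x.1.2.im⟩ := E0_of_ge hxa
  have hbE : b₀ + (-Complex.I * (E0 a x.1.2 - a)) • b₁ = b₀ + (x.1.2.im : ℂ) • b₁ := by
    have : (-Complex.I * (E0 a x.1.2 - a)) = (x.1.2.im : ℂ) := by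
      rw [hE]
      apply Complex.ext <;> simp
    rw [this]
  refine ⟨⟨?_, ?_⟩, hw⟩
  · show x.1.1 + h0 a ρ x.1.2 • ((b₀ + (-Complex.I * (E0 a x.1.2 - a)) • b₁) - x.1.1) ∈ _
    rw [hbE]
    set b := b₀ + (x.1.2.im : ℂ) • b₁ with hbdef
    set m : ℝ := 2 * max (x.1.2.re - a) 0 / ρ with hm
    have hm0 : 0 ≤ m := by positivity
    rcases le_or_gt 1 m with h1 | h1
    · have : h0 a ρ x.1.2 = 1 := by
        rw [h0, ← hm, min_eq_left h1]; simp
      rw [this, one_smul, add_sub_cancel]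
      exact hbz
    · have hh : h0 a ρ x.1.2 = (m : ℂ) := by
        rw [h0, ← hm, min_eq_right h1.le]
      have hz : x.1.1 ∈ thickening σ (Sl L ⟨a, y'⟩) := by
        refine hsl _ hx (mem_Sq.2 ⟨?_, hy.le⟩)
        show |x.1.2.re - a| ≤ ρ'
        rw [abs_of_nonneg (sub_nonneg.2 hxa)]
        rw [hm, max_eq_left (sub_nonneg.2 hxa), div_lt_one hρ] at h1
        linarith
      rw [hh]
      have e : x.1.1 + (m : ℂ) • (b - x.1.1) = (1 - m) • x.1.1 + m • b := by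
        rw [Complex.coe_smul, smul_sub, sub_smul, one_smul]
        abel
      rw [e]
      exact hcv hz hbz (by linarith) hm0 (by ring)
  · show E0 a x.1.2 ∈ Sqo ⟨a, y'⟩ ρ'
    rw [hE]
    refine ⟨?_, hy⟩
    show |a - a| < ρ'
    rw [sub_self, abs_zero]
    exact hρ'

end theta

/-- finite minimum of positive numbers -/
theorem exists_pos_le (N : ℕ) (g : ℕ → ℝ) (hg : ∀ j < N, 0 < g j) :
    ∃ η : ℝ, 0 < η ∧ ∀ j < N, η ≤ g j := by
  induction N with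
  | zero => exact ⟨1, one_pos, fun j hj => absurd hj (by omega)⟩
  | succ n ih =>
    obtain ⟨η, hη, h⟩ := ih (fun j hj => hg j (by omega))
    refine ⟨min η (g n), lt_min hη (hg n (by omega)), fun j hj => ?_⟩
    rcases (Nat.lt_succ_iff_lt_or_eq.1 hj) with h1 | h1
    · exact (min_le_left _ _).trans (h j h1)
    · rw [h1]
      exact min_le_right _ _

section wall
variable {Z : Type*} [NormedAddCommGroup Z] [NormedSpace ℂ Z]

/-- the wall of `L`: range of the imaginary parts and an affine selection of the slices -/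
theorem wall_data {L : Set (Z × ℂ)} (hL : IsCompact L) (hLc : CConvex L) {a : ℝ}
    (hne : ∃ p ∈ L, p.2.re = a) :
    ∃ (α β : ℝ) (b₀ b₁ : Z), α ≤ β ∧ (∀ p ∈ L, p.2.re = a → p.2.im ∈ Icc α β) ∧
      ∀ y ∈ Icc α β, (b₀ + (y : ℂ) • b₁, (⟨a, y⟩ : ℂ)) ∈ L := by
  have hW : IsCompact (L ∩ {p : Z × ℂ | p.2.re = a}) :=
    hL.inter_right (isClosed_eq (by fun_prop) continuous_const)
  obtain ⟨p₀, hp₀, hp₀a⟩ := hne
  have hWne : (L ∩ {p : Z × ℂ | p.2.re = a}).Nonempty := ⟨p₀, hp₀, hp₀a⟩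
  obtain ⟨p, hp, hpmin⟩ := hW.exists_isMinOn hWne (f := fun p : Z × ℂ => p.2.im) (by fun_prop)
  obtain ⟨q, hq, hqmax⟩ := hW.exists_isMaxOn hWne (f := fun p : Z × ℂ => p.2.im) (by fun_prop)
  have hpa : p.2.re = a := hp.2
  have hqa : q.2.re = a := hq.2
  have hpq : p.2.im ≤ q.2.im := hpmin hq
  refine ⟨p.2.im, q.2.im, p.1 - ((p.2.im / (q.2.im - p.2.im) : ℝ) : ℂ) • (q.1 - p.1),
    (((q.2.im - p.2.im)⁻¹ : ℝ) : ℂ) • (q.1 - p.1), hpq,
    fun x hx hxa => ⟨hpmin ⟨hx, hxa⟩, hqmax ⟨hx, hxa⟩⟩, ?_⟩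
  intro y hy
  rcases hpq.eq_or_lt with h | h
  · have hyp : y = p.2.im := le_antisymm (by rw [h]; exact hy.2) hy.1
    have e : (p.1 - ((p.2.im / (q.2.im - p.2.im) : ℝ) : ℂ) • (q.1 - p.1) +
      (y : ℂ) • ((((q.2.im - p.2.im)⁻¹ : ℝ) : ℂ) • (q.1 - p.1)), (⟨a, y⟩ : ℂ)) = p := by
      rw [← h, hyp]
      refine Prod.ext ?_ (Complex.ext ?_ ?_)
      · simp
      · simp [hpa]
      · simp
    rw [e]
    exact hp.1
  · have hd : 0 < q.2.im - p.2.im := by linarith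
    set v : ℝ := (y - p.2.im) / (q.2.im - p.2.im) with hv
    have hv0 : 0 ≤ v := div_nonneg (by linarith [hy.1]) hd.le
    have hv1 : v ≤ 1 := by
      rw [hv, div_le_one hd]
      linarith [hy.2]
    have key := hLc p hp.1 q hq.1 (1 - v) v (by linarith) hv0 (by ring)
    have e : ((1 - v : ℝ) : ℂ) • p + (v : ℂ) • q =
        (p.1 - ((p.2.im / (q.2.im - p.2.im) : ℝ) : ℂ) • (q.1 - p.1) +
      (y : ℂ) • ((((q.2.im - p.2.im)⁻¹ : ℝ) : ℂ) • (q.1 - p.1)), (⟨a, y⟩ : ℂ)) := by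
      have hvy : v = y * (q.2.im - p.2.im)⁻¹ - p.2.im / (q.2.im - p.2.im) := by
        rw [hv]; field_simp
      refine Prod.ext ?_ (Complex.ext ?_ ?_)
      · show ((1 - v : ℝ) : ℂ) • p.1 + (v : ℂ) • q.1 = _
        have e1 : (y : ℂ) • ((((q.2.im - p.2.im)⁻¹ : ℝ) : ℂ) • (q.1 - p.1)) =
            ((y * (q.2.im - p.2.im)⁻¹ : ℝ) : ℂ) • (q.1 - p.1) := by
          rw [smul_smul]; push_cast; rfl
        show _ = p.1 - ((p.2.im / (q.2.im - p.2.im) : ℝ) : ℂ) • (q.1 - p.1) +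
          (y : ℂ) • ((((q.2.im - p.2.im)⁻¹ : ℝ) : ℂ) • (q.1 - p.1))
        rw [e1, hvy]
        push_cast
        module
      · simp only [Prod.snd_add, Prod.smul_snd, smul_eq_mul, Complex.add_re,
          Complex.re_ofReal_mul, hpa, hqa]
        ring
      · simp only [Prod.snd_add, Prod.smul_snd, smul_eq_mul, Complex.add_im,
          Complex.im_ofReal_mul]
        rw [hv]
        field_simp
        ring
    rw [← e]
    exact key

end wall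

end Crest.Agent.R279.Conv
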