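import Mathlib
import Crest.Agent.R279.Conv532c

/-!
R279 (helper532), Part 5 (d): the half-space step, main argument.
-/

set_option autoImplicit false
set_option linter.unusedSectionVars false

open Metric Set Filter Topology

namespace Crest.Agent.R279.Conv

/-- what is needed of the passive compact set `P` -/
def PassiveOK (V : Set C4) (Z : Type*) [NormedAddCommGroup Z] [NormedSpace ℂ Z] {Y : Type*}
    [NormedAddCommGroup Y] [NormedSpace ℂ Y] (P : Set Y) : Prop :=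
  ∀ O : Set Y, IsOpen O → P ⊆ O → ∃ P' : Set Y, IsCompact P' ∧ P ⊆ interior P' ∧ P' ⊆ O ∧
    ∀ Sg : Set Z, IsCompact Sg → CConvex Sg → ∀ (c₀ : ℂ) (ρ r : ℝ), 0 < ρ → 0 < r →
      ApprSet V (((Sg ×ˢ Sq c₀ ρ) ×ˢ P') ×ˢ D4 r)

variable {Z Y : Type*} [NormedAddCommGroup Z] [NormedSpace ℂ Z] [NormedAddCommGroup Y]
  [NormedSpace ℂ Y] [FiniteDimensional ℂ Z] [FiniteDimensional ℂ Y]

/-- **Half-space step** of Part 5. -/
theorem half_step {V : Set C4} (hG : GlueProp ((Z × ℂ) × Y)) (hS : SprayProp V ((Z × ℂ) × Y))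
    (hE : Planar.LemmaE'Target) {P : Set Y} (hP : IsCompact P) (hPc : CConvex P)
    (hH : PassiveOK V Z P) {L : Set (Z × ℂ)} (hL : IsCompact L) (hLc : CConvex L) {a : ℝ}
    (hne : ∃ p ∈ L, p.2.re = a) :
    RApp V ((L ∩ {p | p.2.re ≤ a}) ×ˢ P) (L ×ˢ P) := by
  classical
  intro f hf ε hε
  have : ProperSpace Z := FiniteDimensional.proper ℂ Z
  have : ProperSpace Y := FiniteDimensional.proper ℂ Y
  -- the functionals
  let cL : (Z × ℂ) →L[ℂ] ℂ := ContinuousLinearMap.snd ℂ Z ℂ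
  let cX : ((Z × ℂ) × Y) →L[ℂ] ℂ := cL.comp (ContinuousLinearMap.fst ℂ (Z × ℂ) Y)
  let cI : ((Z × ℂ) × Y) →L[ℂ] ℂ := (-Complex.I) • cX
  have hcI : ∀ x : (Z × ℂ) × Y, (cI x).re = x.1.2.im := by
    intro x
    show (-Complex.I * x.1.2).re = x.1.2.im
    simp
  have hcX : ∀ x : (Z × ℂ) × Y, (cX x).re = x.1.2.re := fun x => rfl
  -- the left part
  have hLa : IsCompact (L ∩ {p : Z × ℂ | p.2.re ≤ a}) :=
    hL.inter_right (isClosed_le (by fun_prop) continuous_const)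
  have hLac : CConvex (L ∩ {p : Z × ℂ | p.2.re ≤ a}) := hLc.inter (cconvex_le cL a)
  have hLb : IsCompact (L ∩ {p : Z × ℂ | a ≤ p.2.re}) :=
    hL.inter_right (isClosed_le continuous_const (by fun_prop))
  have hLbc : CConvex (L ∩ {p : Z × ℂ | a ≤ p.2.re}) := hLc.inter (cconvex_ge cL a)
  set K' : Set ((Z × ℂ) × Y) := (L ∩ {p | p.2.re ≤ a}) ×ˢ P with hK'def
  set KR : Set ((Z × ℂ) × Y) := (L ∩ {p | a ≤ p.2.re}) ×ˢ P with hKRdef
  have hK'c : IsCompact K' := hLa.prod hP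
  have hKRc : IsCompact KR := hLb.prod hP
  obtain ⟨D⟩ := hS K' hK'c (hLac.prod hPc) f hf
  obtain ⟨S₀, hS₀, hKS₀, hS₀D, hspr⟩ := exists_spr hK'c D
  have hr : 0 < D.r := D.rpos
  -- product neighbourhoods
  obtain ⟨u, v, hu, hv, hLu, hPv, huv⟩ := generalized_tube_lemma hLa hP hS₀ hKS₀
  obtain ⟨P', hP', hPP', hP'v, hHP'⟩ := hH v hv hPv
  obtain ⟨α, β, b₀, b₁, hαβ, hwall, hb⟩ := wall_data hL hLc hne
  have hsd : ∀ y : ℝ, ∃ σ : ℝ, 0 < σ ∧ ∃ ρ : ℝ, 0 < ρ ∧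
      cthickening σ (Sl L ⟨a, y⟩) ×ˢ Sq ⟨a, y⟩ ρ ⊆ u ∧
      ∀ p ∈ L, p.2 ∈ Sq ⟨a, y⟩ ρ → p.1 ∈ thickening σ (Sl L ⟨a, y⟩) := fun y =>
    slice_data hL ⟨a, y⟩ hu (fun z hz => hLu ⟨hz, le_refl a⟩)
  choose σ hσ ρ hρ hcu hsl using hsd
  obtain ⟨N, t, y', hN, ht0, htN, hmono, hinj, hpart⟩ := exists_partition hαβ ρ (fun y _ => hρ y)
  obtain ⟨n, rfl⟩ : ∃ n, N = n + 1 := ⟨N - 1, by omega⟩
  obtain ⟨ρ₀, hρ₀, hρ₀le⟩ := exists_pos_le (n + 1) (fun j => ρ (y' j)) (fun j _ => hρ _)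
  have htmem : ∀ i, i ≤ n + 1 → t i ∈ Icc α β := fun i hi =>
    ⟨ht0 ▸ hmono (Nat.zero_le i), htN ▸ hmono hi⟩
  -- bounds
  obtain ⟨R, hR, hRL, hRα⟩ : ∃ R : ℝ, 0 < R ∧ (∀ p ∈ L, |p.2.re - a| ≤ R ∧ |p.2.im| ≤ R) ∧
      ∀ y ∈ Icc α β, |y| < R := by
    obtain ⟨R₁, hR₁⟩ := hL.isBounded.subset_closedBall (0 : Z × ℂ)
    refine ⟨|R₁| + |a| + |α| + |β| + 1, by positivity, fun p hp => ?_, fun y hy => ?_⟩
    · have h1 : ‖p‖ ≤ R₁ := by simpa using hR₁ hp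
      have h2 : ‖p.2‖ ≤ ‖p‖ := norm_snd_le p
      have h3 := Complex.abs_re_le_norm p.2
      have h4 := Complex.abs_im_le_norm p.2
      have h5 := le_abs_self R₁
      have h6 : |p.2.re - a| ≤ |p.2.re| + |a| := abs_sub _ _
      have h7 := abs_nonneg α
      have h8 := abs_nonneg β
      have h9 := abs_nonneg a
      constructor <;> linarith
    · have h1 : |y| ≤ |α| + |β| := by
        rw [abs_le]
        have h2 := neg_abs_le α
        have h3 := le_abs_self β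
        have h4 := abs_nonneg α
        have h5 := abs_nonneg β
        constructor
        · linarith [hy.1]
        · linarith [hy.2]
      have h7 := abs_nonneg R₁
      have h9 := abs_nonneg a
      linarith
  -- the cuts
  let yc : ℕ → ℝ := fun j => if j = 0 then -R else if j < n + 1 then t j else R
  have hyc0 : yc 0 = -R := by simp [yc]
  have hycN : yc (n + 1) = R := by simp [yc]
  have hyct : ∀ j, 1 ≤ j → j < n + 1 → yc j = t j := by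
    intro j h1 h2
    have h3 : j ≠ 0 := by omega
    simp only [yc, h3, h2, if_true, if_false]
  have hF1 : ∀ j < n + 1, ∀ y ∈ Icc α β, yc j ≤ y → y ≤ yc (j + 1) →
      y ∈ Icc (t j) (t (j + 1)) := by
    intro j hj y hy h1 h2
    constructor
    · rcases Nat.eq_zero_or_pos j with h | h
      · rw [h, ht0]; exact hy.1
      · rw [← hyct j h hj]; exact h1
    · rcases Nat.lt_or_ge (j + 1) (n + 1) with h | h
      · rw [← hyct (j + 1) (by omega) h]; exact h2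
      · have : j + 1 = n + 1 := by omega
        rw [this, htN]; exact hy.2
  let F : Set ℝ := t '' (Finset.Ico 1 (n + 1) : Set ℕ)
  have hFc : IsClosed F := ((Finset.finite_toSet _).image t).isClosed
  have hFmem : ∀ y ∈ F, y ∈ Icc α β := by
    rintro y ⟨i, hi, rfl⟩
    have := Finset.mem_Ico.1 (Finset.mem_coe.1 hi)
    exact htmem i (by omega)
  let Kj : ℕ → Set ((Z × ℂ) × Y) := fun j => KR ∩ {x | yc j ≤ x.1.2.im ∧ x.1.2.im ≤ yc (j + 1)}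
  let Zc : Set ((Z × ℂ) × Y) := K' ∪ (KR ∩ {x | x.1.2.im ∈ F})
  have hcontim : Continuous fun x : (Z × ℂ) × Y => x.1.2.im :=
    Complex.continuous_im.comp (continuous_snd.comp continuous_fst)
  have hKjc : ∀ j, IsCompact (Kj j) := fun j => hKRc.inter_right
    ((isClosed_le continuous_const hcontim).inter (isClosed_le hcontim continuous_const))
  have hZcc : IsCompact Zc := hK'c.union (hKRc.inter_right (hFc.preimage hcontim))
  let Good : ℕ → Set ((Z × ℂ) × Y) := fun j =>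
    (thickening (σ (y' j)) (Sl L ⟨a, y' j⟩) ×ˢ Sqo ⟨a, y' j⟩ (ρ (y' j))) ×ˢ interior P'
  have hGoodo : ∀ j, IsOpen (Good j) := fun j =>
    (isOpen_thickening.prod (isOpen_Sqo _ _)).prod isOpen_interior
  have hGoodS : ∀ j, Good j ⊆ S₀ := by
    rintro j ⟨⟨z, c⟩, w⟩ ⟨⟨hz, hc⟩, hw⟩
    refine huv ⟨hcu (y' j) ⟨thickening_subset_cthickening _ _ hz, Sqo_subset_Sq _ _ hc⟩,
      hP'v (interior_subset hw)⟩
  -- the imaginary part on `Zc ∩ KR` lies in `[α, β]`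
  have himZ : ∀ x ∈ KR, x ∈ Zc → x.1.2.im ∈ Icc α β := by
    rintro x hx (hx' | hx')
    · exact hwall x.1 hx.1.1 (le_antisymm hx'.1.2 hx.1.2)
    · exact hFmem _ hx'.2
  have claimB : ∀ j < n + 1, ∀ x ∈ Kj j, x ∈ Zc →
      Th a b₀ b₁ (x, (E0 a x.1.2, h0 a ρ₀ x.1.2)) ∈ Good j := by
    intro j hj x hx hxZ
    have him := himZ x hx.1 hxZ
    exact Th_mem hLc hρ₀ (hρ₀le j hj) (hsl (y' j)) hx.1.1.1 hx.1.1.2 (hb _ him)
      ((hpart j hj).2 _ (hF1 j hj _ him hx.2.1 hx.2.2)) (hPP' hx.1.2)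
  -- the ideal lift
  let Ψ : (Z × ℂ) × Y → ((Z × ℂ) × Y) × (ℂ × ℂ) := fun x => (x, (E0 a x.1.2, h0 a ρ₀ x.1.2))
  have hΨ : Continuous Ψ := by
    refine continuous_id.prodMk (Continuous.prodMk ?_ ?_)
    · exact (continuous_E0 a).comp (continuous_snd.comp continuous_fst)
    · exact (continuous_h0 a ρ₀).comp (continuous_snd.comp continuous_fst)
  have hTh : Continuous (Th a b₀ b₁ : ((Z × ℂ) × Y) × (ℂ × ℂ) → (Z × ℂ) × Y) :=
    (differentiable_Th a b₀ b₁).continuous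
  have hgj : ∀ j : ℕ, ∃ g : ℝ, 0 < g ∧ (j < n + 1 →
      thickening g (Ψ '' (Kj j ∩ Zc)) ⊆ Th a b₀ b₁ ⁻¹' Good j) := by
    intro j
    by_cases hj : j < n + 1
    · obtain ⟨g, hg, h⟩ := (((hKjc j).inter hZcc).image hΨ).exists_thickening_subset_open
        ((hGoodo j).preimage hTh) (by
          rintro _ ⟨x, hx, rfl⟩
          exact claimB j hj x hx.1 hx.2)
      exact ⟨g, hg, fun _ => h⟩
    · exact ⟨1, one_pos, fun h => absurd h hj⟩
  choose g hg hgT using hgj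
  obtain ⟨η₁, hη₁, hη₁g⟩ := exists_pos_le (n + 1) g (fun j _ => hg j)
  -- the map `f₁ = s(·, 0)`
  let f₁ : (Z × ℂ) × Y → C4 := fun x => D.s (x, 0)
  have hf₁ : ContinuousOn f₁ S₀ := by
    refine hspr.diff.continuousOn.comp (f := fun x : (Z × ℂ) × Y => (x, (0 : C4))) (by fun_prop) ?_
    exact fun x hx => ⟨hx, mem_ball_self hr⟩
  let O₁ : Set (((Z × ℂ) × Y) × (ℂ × ℂ)) := {q | q.1 ∈ S₀ ∧ Th a b₀ b₁ q ∈ S₀}
  have hO₁ : IsOpen O₁ := (hS₀.preimage continuous_fst).inter (hS₀.preimage hTh)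
  have hO₂ : IsOpen (O₁ ∩ (fun q => ‖f₁ (Th a b₀ b₁ q) - f₁ q.1‖) ⁻¹' Iio (ε / 2)) := by
    refine ContinuousOn.isOpen_inter_preimage ?_ hO₁ isOpen_Iio
    refine ContinuousOn.norm (ContinuousOn.sub ?_ ?_)
    · exact hf₁.comp hTh.continuousOn (fun q hq => hq.2)
    · exact hf₁.comp continuous_fst.continuousOn (fun q hq => hq.1)
  have hΨK : ∀ x ∈ K', Th a b₀ b₁ (Ψ x) = x := by
    intro x hx
    have h1 : x.1.2.re ≤ a := hx.1.2
    show Th a b₀ b₁ (x, (E0 a x.1.2, h0 a ρ₀ x.1.2)) = x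
    rw [E0_of_le h1, h0_of_le h1]
    exact Th_zero a b₀ b₁ x
  obtain ⟨η₂, hη₂, hη₂T⟩ := (hK'c.image hΨ).exists_thickening_subset_open hO₂ (by
    rintro _ ⟨x, hx, rfl⟩
    refine ⟨⟨hKS₀ hx, ?_⟩, ?_⟩
    · rw [hΨK x hx]
      exact hKS₀ hx
    · show ‖f₁ (Th a b₀ b₁ (Ψ x)) - f₁ x‖ < ε / 2
      rw [hΨK x hx, sub_self, norm_zero]
      exact half_pos hε)
  -- the polynomials
  obtain ⟨Ep, p₂, hpoly⟩ := exists_polys hE (a := a) (ρ := ρ₀) hR t hinj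
    (fun i _ h2 => hRα _ (htmem i h2.le)) (lt_min hη₁ hη₂)
  let Ψ' : (Z × ℂ) × Y → ((Z × ℂ) × Y) × (ℂ × ℂ) := fun x => (x, (Ep.eval x.1.2, p₂.eval x.1.2))
  have hΨ'd : Differentiable ℂ Ψ' := by
    have hc : Differentiable ℂ (fun x : (Z × ℂ) × Y => x.1.2) :=
      differentiable_snd.comp differentiable_fst
    exact differentiable_id.prodMk ((Ep.differentiable.comp hc).prodMk (p₂.differentiable.comp hc))
  have hclose : ∀ x ∈ Zc, dist (Ψ' x) (Ψ x) < min η₁ η₂ := by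
    intro x hx
    have hxL : x.1 ∈ L := by
      rcases hx with hx | hx
      · exact hx.1.1
      · exact hx.1.1.1
    have h := hpoly x.1.2 (hRL _ hxL).1 (hRL _ hxL).2 (by
      rcases hx with hx | hx
      · exact Or.inl hx.1.2
      · obtain ⟨i, hi, hit⟩ := hx.2
        have := Finset.mem_Ico.1 (Finset.mem_coe.1 hi)
        exact Or.inr ⟨i, this.1, this.2, hit.symm⟩)
    show dist (x, (Ep.eval x.1.2, p₂.eval x.1.2)) (x, (E0 a x.1.2, h0 a ρ₀ x.1.2)) < _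
    rw [Prod.dist_eq, dist_self, Prod.dist_eq, dist_eq_norm, dist_eq_norm]
    exact max_lt (lt_min hη₁ hη₂) (max_lt h.1 h.2)
  let Φ : (Z × ℂ) × Y → (Z × ℂ) × Y := fun x => Th a b₀ b₁ (Ψ' x)
  have hΦd : Differentiable ℂ Φ := Differentiable.comp
    (g := (Th a b₀ b₁ : ((Z × ℂ) × Y) × (ℂ × ℂ) → (Z × ℂ) × Y)) (differentiable_Th a b₀ b₁) hΨ'd
  have hΦK : ∀ x ∈ K', Φ x ∈ S₀ ∧ ‖f₁ (Φ x) - f₁ x‖ < ε / 2 := by
    intro x hx
    have h := hη₂T (mem_thickening_iff.2 ⟨Ψ x, mem_image_of_mem _ hx,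
      (hclose x (Or.inl hx)).trans_le (min_le_right _ _)⟩)
    exact ⟨h.1.2, h.2⟩
  have hΦGood : ∀ j < n + 1, ∀ x ∈ Kj j, x ∈ Zc → Φ x ∈ Good j := by
    intro j hj x hx hxZ
    refine hgT j hj (mem_thickening_iff.2 ⟨Ψ x, mem_image_of_mem _ ⟨hx, hxZ⟩, ?_⟩)
    exact (hclose x hxZ).trans_le ((min_le_left _ _).trans (hη₁g j hj))
  have hΦZ : ∀ x ∈ Zc, Φ x ∈ S₀ := by
    rintro x (hx | hx)
    · exact (hΦK x hx).1
    · obtain ⟨i, hi, hit⟩ := hx.2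
      have hi' := Finset.mem_Ico.1 (Finset.mem_coe.1 hi)
      refine hGoodS i (hΦGood i hi'.2 x ⟨hx.1, ?_, ?_⟩ (Or.inr hx))
      · rw [hyct i hi'.1 hi'.2, hit]
      · rw [← hit]
        rcases Nat.lt_or_ge (i + 1) (n + 1) with h | h
        · rw [hyct (i + 1) (by omega) h]
          exact hmono (Nat.le_succ i)
        · have : i + 1 = n + 1 := by omega
          rw [this, hycN]
          exact (le_abs_self _).trans (hRα _ (htmem i (by omega))).le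
  -- shrinking
  have hsh : ∀ j : ℕ, ∃ U S : Set ((Z × ℂ) × Y), IsOpen U ∧ IsOpen S ∧ Kj j ⊆ U ∧ Zc ⊆ S ∧
      (j < n + 1 → U ∩ S ⊆ Φ ⁻¹' Good j) := by
    intro j
    by_cases hj : j < n + 1
    · obtain ⟨U, S, hU, hS, hKU, hZS, -, -, hUS⟩ := Merge.exists_shrink (hKjc j) hZcc isOpen_univ
        isOpen_univ ((hGoodo j).preimage hΦd.continuous) (subset_univ _) (subset_univ _)
        (fun x hx => hΦGood j hj x hx.1 hx.2)
      exact ⟨U, S, hU, hS, hKU, hZS, fun _ => hUS⟩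
    · exact ⟨univ, univ, isOpen_univ, isOpen_univ, subset_univ _, subset_univ _,
        fun h => absurd h hj⟩
  choose U Sj hU hSj hKU hZSj hUS using hsh
  let S' : Set ((Z × ℂ) × Y) := (⋂ j ∈ Finset.range (n + 1), Sj j) ∩ Φ ⁻¹' S₀
  have hS'o : IsOpen S' := (isOpen_biInter_finset fun j _ => hSj j).inter
    (hS₀.preimage hΦd.continuous)
  have hZS' : Zc ⊆ S' := fun x hx => ⟨mem_iInter₂.2 fun j _ => hZSj j hx, hΦZ x hx⟩
  obtain ⟨Rb, hRb⟩ := hKRc.isBounded.subset_ball (0 : (Z × ℂ) × Y)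
  let U' : ℕ → Set ((Z × ℂ) × Y) := fun j => U j ∩ ball 0 Rb
  have hU' : ∀ j, IsOpen (U' j) := fun j => (hU j).inter isOpen_ball
  let s' : ((Z × ℂ) × Y) × C4 → C4 := fun p => D.s (Φ p.1, p.2)
  have hspr' : Spr V S' D.r s' := hspr.comp hS'o hΦd.differentiableOn (fun x hx => hx.2)
  -- gluing of the right part
  obtain ⟨WR, r₂, hWR, hKWR, hr₂, hr₂₁, hchain⟩ := chain hG (V := V) hKRc (hLbc.prod hPc) cI yc
    hspr' (r₁ := D.r / 4) (by linarith) (by linarith) U' n (fun j _ => hU' j)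
    (fun j _ x hx h1 h2 => ⟨hKU j ⟨hx, by rw [← hcI]; exact h1, by rw [← hcI]; exact h2⟩,
      hRb hx⟩)
    (fun j h1 h2 x hx h => hZS' (Or.inr ⟨hx, j, Finset.mem_coe.2 (Finset.mem_Ico.2
      ⟨h1, by omega⟩), by rw [← hyct j h1 (by omega), ← h, hcI]⟩))
  -- final gluing
  obtain ⟨W, hW, hKW, -, hfinal⟩ := glue_pair hG (V := V) (K := L ×ˢ P) (hL.prod hP)
    (hLc.prod hPc) cX a (U₁ := S') (U₂ := WR) (S := S') hS'o hWR
    (fun x hx h => hZS' (Or.inl ⟨⟨hx.1, h⟩, hx.2⟩))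
    (fun x hx h => hKWR x ⟨⟨hx.1, h⟩, hx.2⟩
      (by rw [hyc0, hcI]; exact (abs_le.1 (hRL _ hx.1).2).1)
      (by rw [hycN, hcI]; exact (abs_le.1 (hRL _ hx.1).2).2)) hspr'
    (fun x hx h => hZS' (Or.inl ⟨⟨hx.1, le_of_eq h⟩, hx.2⟩)) hr₂ (by linarith)
  obtain ⟨ηf, hηf, hfin⟩ := hfinal (ε / 2) (half_pos hε)
  obtain ⟨ηc, hηc, hch⟩ := hchain ηf hηf
  -- the approximations
  have hKX : IsCompact ((fun q : ((Z × ℂ) × Y) × C4 => (Φ q.1, q.2)) ''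
      (closedBall (0 : (Z × ℂ) × Y) Rb ×ˢ closedBall (0 : C4) D.r)) := by
    refine ((isCompact_closedBall _ _).prod (isCompact_closedBall _ _)).image ?_
    exact (hΦd.continuous.comp continuous_fst).prodMk continuous_snd
  have hGj : ∀ j : ℕ, ∃ G : ((Z × ℂ) × Y) × C4 → C4, HolNear V G
      ((fun q : ((Z × ℂ) × Y) × C4 => (Φ q.1, q.2)) ''
        (closedBall (0 : (Z × ℂ) × Y) Rb ×ˢ closedBall (0 : C4) D.r)) ∧
      ∀ x ∈ (((cthickening (σ (y' j)) (Sl L ⟨a, y' j⟩)) ×ˢ Sq ⟨a, y' j⟩ (ρ (y' j))) ×ˢ P') ×ˢ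
        D4 (D.r / 4), ‖G x - D.s x‖ < ηc := by
    intro j
    refine hHP' _ ((isCompact_Sl hL _).cthickening) (cconvex_iff.2
      ((cconvex_iff.1 (cconvex_Sl hLc _)).cthickening _)) ⟨a, y' j⟩ (ρ (y' j)) (D.r / 4) (hρ _)
      (by linarith) D.s ⟨S₀ ×ˢ ball (0 : C4) D.r, hS₀.prod isOpen_ball, ?_, hspr.diff,
        hspr.maps⟩ _ hKX ηc hηc
    rintro ⟨⟨⟨z, c⟩, w⟩, τ⟩ ⟨⟨⟨hz, hc⟩, hw⟩, hτ⟩
    exact ⟨huv ⟨hcu (y' j) ⟨hz, hc⟩, hP'v hw⟩, D4_subset hr hτ⟩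
  choose G hGhol hGcl using hGj
  obtain ⟨MR, hMR⟩ := hch (fun j p => G j (Φ p.1, p.2)) (by
    intro j hj
    obtain ⟨O, hO, hKO, hGd, hGm⟩ := hGhol j
    have hmaps : ∀ p ∈ U' j ×ˢ ball (0 : C4) (D.r / 4), (Φ p.1, p.2) ∈ O := by
      intro p hp
      refine hKO ⟨p, ⟨ball_subset_closedBall hp.1.2, ?_⟩, rfl⟩
      exact ball_subset_closedBall (ball_subset_ball (by linarith) hp.2)
    refine ⟨?_, ?_, ?_⟩
    · refine hGd.comp (f := fun p : ((Z × ℂ) × Y) × C4 => (Φ p.1, p.2)) ?_ hmaps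
      exact ((hΦd.comp differentiable_fst).prodMk differentiable_snd).differentiableOn
    · exact fun p hp => hGm (hmaps p hp)
    · intro x hx hxS τ hτ
      have hxG : Φ x ∈ Good j := hUS j (by omega) ⟨hx.1, mem_iInter₂.1 hxS.1 j
        (Finset.mem_range.2 (by omega))⟩
      refine hGcl j (Φ x, τ) ⟨⟨⟨?_, ?_⟩, ?_⟩, ?_⟩
      · exact thickening_subset_cthickening _ _ hxG.1.1
      · exact Sqo_subset_Sq _ _ hxG.1.2
      · exact interior_subset hxG.2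
      · exact ball_subset_D4 hτ)
  obtain ⟨M, hM⟩ := hfin s' MR (by
    refine ⟨hspr'.diff.mono (prod_mono Subset.rfl (ball_subset_ball (by linarith))),
      hspr'.maps.mono (prod_mono Subset.rfl (ball_subset_ball (by linarith))) Subset.rfl, ?_⟩
    intro x _ _ τ _
    rw [sub_self, norm_zero]
    exact hηf) hMR
  have h0ball : (0 : C4) ∈ ball (0 : C4) (r₂ / 2) := mem_ball_self (half_pos hr₂)
  refine ⟨fun x => M (x, 0), ⟨W, hW, hKW, ?_, ?_⟩, ?_⟩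
  · refine hM.diff.comp (f := fun x : (Z × ℂ) × Y => (x, (0 : C4))) ?_ ?_
    · exact (differentiable_id.prodMk (differentiable_const _)).differentiableOn
    · exact fun x hx => ⟨hx, h0ball⟩
  · exact fun x hx => hM.maps ⟨hx, h0ball⟩
  · intro x hx
    have h1 := hM.close x (hKW ⟨hx.1.1, hx.2⟩) (hZS' (Or.inl hx)) 0 h0ball
    have h2 := (hΦK x hx).2
    have h3 : f x = f₁ x := (D.zero x (D.sub hx)).symm
    calc ‖M (x, 0) - f x‖ ≤ ‖M (x, 0) - s' (x, 0)‖ + ‖s' (x, 0) - f x‖ :=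
          norm_sub_le_norm_sub_add_norm_sub _ _ _
      _ < ε / 2 + ε / 2 := by
          rw [h3]
          exact add_lt_add h1 h2
      _ = ε := by ring

end Crest.Agent.R279.Conv
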