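import Mathlib

/-! Row 279 (helper777). Holomorphic maps between Banach spaces: Cauchy estimates and uniform
limits. -/

set_option autoImplicit false
open Metric Filter Set Topology

namespace Crest.Agent.R279.PG

variable {E F : Type*} [NormedAddCommGroup E] [NormedSpace ℂ E] [NormedAddCommGroup F]
  [NormedSpace ℂ F]

/-- Cauchy estimate for the Fréchet derivative. -/
theorem norm_fderiv_le {f : E → F} {c : E} {r C : ℝ} (hr : 0 < r)
    (hd : DifferentiableOn ℂ f (ball c r)) (hC : ∀ x ∈ ball c r, ‖f x‖ ≤ C) :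
    ‖fderiv ℂ f c‖ ≤ 2 * C / r := by
  refine Complex.norm_fderiv_le_div_of_mapsTo_ball hd (R₂ := 2 * C) ?_ hr
  intro x hx
  rw [mem_closedBall, dist_eq_norm]
  have h1 := hC x hx
  have h2 := hC c (mem_ball_self hr)
  have h3 := norm_sub_le (f x) (f c)
  linarith

/-- Uniform limits of holomorphic maps are holomorphic. -/
theorem differentiableOn_of_tendstoUniformlyOn [CompleteSpace F] {U : Set E} (hU : IsOpen U)
    {f : ℕ → E → F} {g : E → F} (hf : ∀ n, DifferentiableOn ℂ (f n) U)
    (hlim : TendstoUniformlyOn f g atTop U) : DifferentiableOn ℂ g U := by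
  intro x hx
  obtain ⟨R, hR, hRU⟩ := Metric.isOpen_iff.1 hU x hx
  set r : ℝ := R / 2 with hr
  have hr0 : 0 < r := by positivity
  have hball : ∀ y ∈ ball x r, ball y r ⊆ U := by
    intro y hy
    refine subset_trans (fun z hz => ?_) hRU
    rw [mem_ball] at *
    have := dist_triangle z y x
    linarith
  have hsub : ball x r ⊆ U := hball x (mem_ball_self hr0)
  have hcauchy : UniformCauchySeqOn (fun n => fderiv ℂ (f n)) atTop (ball x r) := by
    rw [Metric.uniformCauchySeqOn_iff]
    intro ε hε
    have h1 := hlim.uniformCauchySeqOn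
    rw [Metric.uniformCauchySeqOn_iff] at h1
    obtain ⟨N, hN⟩ := h1 (ε * r / 4) (by positivity)
    refine ⟨N, fun m hm n hn y hy => ?_⟩
    have hdm : DifferentiableAt ℂ (f m) y := (hf m y (hsub hy)).differentiableAt
      (hU.mem_nhds (hsub hy))
    have hdn : DifferentiableAt ℂ (f n) y := (hf n y (hsub hy)).differentiableAt
      (hU.mem_nhds (hsub hy))
    rw [dist_eq_norm, ← fderiv_fun_sub hdm hdn]
    have h2 := norm_fderiv_le (f := fun z => f m z - f n z) (c := y) (C := ε * r / 4) hr0
      (((hf m).sub (hf n)).mono (hball y hy)) (fun z hz => by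
        have := hN m hm n hn z (hball y hy hz)
        rw [dist_eq_norm] at this
        exact this.le)
    refine lt_of_le_of_lt h2 ?_
    rw [div_lt_iff₀ hr0]
    nlinarith [mul_pos hε hr0]
  have hpt : ∀ y ∈ ball x r, ∃ L : E →L[ℂ] F,
      Tendsto (fun n => fderiv ℂ (f n) y) atTop (𝓝 L) := fun y hy =>
    cauchySeq_tendsto_of_complete (hcauchy.cauchySeq hy)
  classical
  choose! g' hg' using hpt
  have hunif : TendstoUniformlyOn (fun n => fderiv ℂ (f n)) g' atTop (ball x r) :=
    hcauchy.tendstoUniformlyOn_of_tendsto hg'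
  have hfin : HasFDerivAt g (g' x) x := by
    refine hasFDerivAt_of_tendstoUniformlyOn isOpen_ball hunif (fun n y hy => ?_)
      (fun y hy => hlim.tendsto_at (hsub hy)) (mem_ball_self hr0)
    exact ((hf n y (hsub hy)).differentiableAt (hU.mem_nhds (hsub hy))).hasFDerivAt
  exact hfin.differentiableAt.differentiableWithinAt

end Crest.Agent.R279.PG
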