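import Mathlib
import Crest.Agent.R279.H777a

/-! Row 279 (helper777). (1.4): the gluing lemma, from bounded splittings with parameters. -/

set_option autoImplicit false
open Metric Filter Set Topology

namespace Crest.Agent.R279.PG

section Split
variable {X : Type} [NormedAddCommGroup X] [NormedSpace ℂ X]

/-- Bounded splitting with arbitrary parameters (1.3) for the pair `ΩA`, `ΩB`. -/
def Split (ΩA ΩB : Set X) (K : ℝ) (V : Type) [NormedAddCommGroup V] [NormedSpace ℂ V] : Prop :=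
  ∀ (E : Type) [NormedAddCommGroup E] [NormedSpace ℂ E] (T : Set E), IsOpen T →
    ∀ (h : X × E → V) (C : ℝ), 0 ≤ C → DifferentiableOn ℂ h ((ΩA ∩ ΩB) ×ˢ T) →
      (∀ p ∈ (ΩA ∩ ΩB) ×ˢ T, ‖h p‖ ≤ C) →
      ∃ a b : X × E → V, DifferentiableOn ℂ a (ΩA ×ˢ T) ∧ DifferentiableOn ℂ b (ΩB ×ˢ T) ∧
        (∀ p ∈ ΩA ×ˢ T, ‖a p‖ ≤ K * C) ∧ (∀ p ∈ ΩB ×ˢ T, ‖b p‖ ≤ K * C) ∧
        ∀ p ∈ (ΩA ∩ ΩB) ×ˢ T, h p = a p - b p

end Split

section PGL
variable {X : Type} [NormedAddCommGroup X] [NormedSpace ℂ X]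
  {V : Type} [NormedAddCommGroup V] [NormedSpace ℂ V]

/-- Lipschitz estimate for `g - id` on the smaller ball. -/
theorem lip_sub_id {g : V → V} {ρ ε : ℝ} (hρ : 0 < ρ)
    (hd : DifferentiableOn ℂ g (ball 0 ρ)) (hε : ∀ t ∈ ball (0 : V) ρ, ‖g t - t‖ ≤ ε)
    {y z : V} (hy : ‖y‖ < 3 * ρ / 4) (hz : ‖z‖ < 3 * ρ / 4) :
    ‖(g y - y) - (g z - z)‖ ≤ 8 * ε / ρ * ‖y - z‖ := by
  have hd' : DifferentiableOn ℂ (fun t => g t - t) (ball 0 ρ) := hd.sub differentiableOn_id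
  have hsub : ∀ w ∈ ball (0 : V) (3 * ρ / 4), ball w (ρ / 4) ⊆ ball 0 ρ := by
    intro w hw u hu
    rw [mem_ball] at *
    have := dist_triangle u w 0
    linarith
  have hcv : Convex ℝ (ball (0 : V) (3 * ρ / 4)) := convex_ball _ _
  refine Convex.norm_image_sub_le_of_norm_fderiv_le (𝕜 := ℂ) (f := fun t => g t - t)
    (s := ball 0 (3 * ρ / 4)) (C := 8 * ε / ρ) (fun w hw => ?_) (fun w hw => ?_) hcv
    (mem_ball_zero_iff.2 hz) (mem_ball_zero_iff.2 hy)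
  · have hw' : w ∈ ball (0 : V) ρ := hsub w hw (mem_ball_self (by positivity))
    exact (hd' w hw').differentiableAt (isOpen_ball.mem_nhds hw')
  · have h1 := norm_fderiv_le (f := fun t => g t - t) (c := w) (r := ρ / 4) (C := ε) (by positivity)
      (hd'.mono (hsub w hw)) (fun u hu => hε u (hsub w hw hu))
    refine h1.trans (le_of_eq ?_)
    field_simp
    ring

/-- **(1.4) Gluing lemma.** -/
theorem PGL [CompleteSpace V] {ΩA ΩB : Set X} (hΩA : IsOpen ΩA) (hΩB : IsOpen ΩB) {K : ℝ}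
    (hK : 0 ≤ K) (hS : Split ΩA ΩB K V) {ρ ε : ℝ} (hρ : 0 < ρ) (hsmall : 32 * K * ε ≤ ρ)
    {gA gB : X × V → V} (hgA : DifferentiableOn ℂ gA ((ΩA ∩ ΩB) ×ˢ ball 0 ρ))
    (hgB : DifferentiableOn ℂ gB ((ΩA ∩ ΩB) ×ˢ ball 0 ρ))
    (hεA : ∀ p ∈ (ΩA ∩ ΩB) ×ˢ ball (0 : V) ρ, ‖gA p - p.2‖ ≤ ε)
    (hεB : ∀ p ∈ (ΩA ∩ ΩB) ×ˢ ball (0 : V) ρ, ‖gB p - p.2‖ ≤ ε) (hε : 0 ≤ ε) :
    ∃ α β : X × V → V, DifferentiableOn ℂ α (ΩA ×ˢ ball 0 (ρ / 2)) ∧
      DifferentiableOn ℂ β (ΩB ×ˢ ball 0 (ρ / 2)) ∧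
      (∀ p ∈ ΩA ×ˢ ball (0 : V) (ρ / 2), ‖α p - p.2‖ ≤ 4 * K * ε) ∧
      (∀ p ∈ ΩB ×ˢ ball (0 : V) (ρ / 2), ‖β p - p.2‖ ≤ 4 * K * ε) ∧
      ∀ p ∈ (ΩA ∩ ΩB) ×ˢ ball (0 : V) (ρ / 2), gA (p.1, α p) = gB (p.1, β p) := by
  classical
  set T : Set V := ball 0 (ρ / 2) with hT
  have hTo : IsOpen T := isOpen_ball
  -- the invariant
  let P : ℕ → (X × V → V) × (X × V → V) → Prop := fun k s =>
    DifferentiableOn ℂ s.1 (ΩA ×ˢ T) ∧ DifferentiableOn ℂ s.2 (ΩB ×ˢ T) ∧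
    (∀ p ∈ ΩA ×ˢ T, ‖s.1 p - p.2‖ ≤ 4 * K * ε * (1 - (1 / 2) ^ k)) ∧
    (∀ p ∈ ΩB ×ˢ T, ‖s.2 p - p.2‖ ≤ 4 * K * ε * (1 - (1 / 2) ^ k)) ∧
    ∀ p ∈ (ΩA ∩ ΩB) ×ˢ T, ‖gB (p.1, s.2 p) - gA (p.1, s.1 p)‖ ≤ 2 * ε * (1 / 2) ^ k
  have hKε : 4 * K * ε ≤ ρ / 8 := by linarith
  have hKε0 : 0 ≤ 4 * K * ε := by positivity
  have hnear : ∀ (x : V) (t : V), t ∈ T → ‖x - t‖ ≤ 4 * K * ε → ‖x‖ < 3 * ρ / 4 := by
    intro x t ht h
    have h1 : ‖t‖ < ρ / 2 := mem_ball_zero_iff.1 ht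
    have h2 := norm_add_le t (x - t)
    have h3 : t + (x - t) = x := by abel
    rw [h3] at h2
    linarith
  have hpow : ∀ k : ℕ, (0 : ℝ) ≤ 1 - (1 / 2) ^ k ∧ (1 : ℝ) - (1 / 2) ^ k ≤ 1 := by
    intro k
    have h1 : ((1 : ℝ) / 2) ^ k ≤ 1 := pow_le_one₀ (by norm_num) (by norm_num)
    have h2 : (0 : ℝ) < (1 / 2) ^ k := by positivity
    constructor <;> linarith
  -- one step
  have step : ∀ (k : ℕ) (s : (X × V → V) × (X × V → V)), P k s →
      ∃ s' : (X × V → V) × (X × V → V), P (k + 1) s' ∧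
        (∀ p ∈ ΩA ×ˢ T, ‖s'.1 p - s.1 p‖ ≤ 2 * K * ε * (1 / 2) ^ k) ∧
        ∀ p ∈ ΩB ×ˢ T, ‖s'.2 p - s.2 p‖ ≤ 2 * K * ε * (1 / 2) ^ k := by
    rintro k ⟨α, β⟩ ⟨h1, h2, h3, h4, h5⟩
    simp only at h1 h2 h3 h4 h5
    have hlt : ∀ p ∈ ΩA ×ˢ T, ‖α p‖ < 3 * ρ / 4 := fun p hp =>
      hnear _ _ hp.2 ((h3 p hp).trans (mul_le_of_le_one_right hKε0 (hpow k).2))
    have hlt' : ∀ p ∈ ΩB ×ˢ T, ‖β p‖ < 3 * ρ / 4 := fun p hp =>
      hnear _ _ hp.2 ((h4 p hp).trans (mul_le_of_le_one_right hKε0 (hpow k).2))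
    have hr : DifferentiableOn ℂ (fun p : X × V => gB (p.1, β p) - gA (p.1, α p))
        ((ΩA ∩ ΩB) ×ˢ T) := by
      refine DifferentiableOn.sub ?_ ?_
      · refine hgB.comp (differentiableOn_fst.prodMk (h2.mono (prod_mono inter_subset_right
          subset_rfl))) ?_
        intro p hp
        refine ⟨hp.1, mem_ball_zero_iff.2 ?_⟩
        have := hlt' p ⟨hp.1.2, hp.2⟩
        simp only
        linarith
      · refine hgA.comp (differentiableOn_fst.prodMk (h1.mono (prod_mono inter_subset_left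
          subset_rfl))) ?_
        intro p hp
        refine ⟨hp.1, mem_ball_zero_iff.2 ?_⟩
        have := hlt p ⟨hp.1.1, hp.2⟩
        simp only
        linarith
    obtain ⟨u, v, hu, hv, hub, hvb, huv⟩ := hS V T hTo _ _ (by positivity) hr h5
    refine ⟨(fun p => α p + u p, fun p => β p + v p), ⟨h1.add hu, h2.add hv, ?_, ?_, ?_⟩, ?_, ?_⟩
    · intro p hp
      have e1 := h3 p hp
      have e2 := hub p hp
      have e3 : α p + u p - p.2 = (α p - p.2) + u p := by abel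
      simp only
      rw [e3]
      calc ‖(α p - p.2) + u p‖ ≤ ‖α p - p.2‖ + ‖u p‖ := norm_add_le _ _
        _ ≤ 4 * K * ε * (1 - (1 / 2) ^ k) + K * (2 * ε * (1 / 2) ^ k) := add_le_add e1 e2
        _ = 4 * K * ε * (1 - (1 / 2) ^ (k + 1)) := by rw [pow_succ]; ring
    · intro p hp
      have e1 := h4 p hp
      have e2 := hvb p hp
      have e3 : β p + v p - p.2 = (β p - p.2) + v p := by abel
      simp only
      rw [e3]
      calc ‖(β p - p.2) + v p‖ ≤ ‖β p - p.2‖ + ‖v p‖ := norm_add_le _ _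
        _ ≤ 4 * K * ε * (1 - (1 / 2) ^ k) + K * (2 * ε * (1 / 2) ^ k) := add_le_add e1 e2
        _ = 4 * K * ε * (1 - (1 / 2) ^ (k + 1)) := by rw [pow_succ]; ring
    · intro p hp
      simp only
      have hpA : p ∈ ΩA ×ˢ T := ⟨hp.1.1, hp.2⟩
      have hpB : p ∈ ΩB ×ˢ T := ⟨hp.1.2, hp.2⟩
      have e1 := huv p hp
      have eu := hub p hpA
      have ev := hvb p hpB
      have nα : ‖α p + u p‖ < 3 * ρ / 4 := by
        refine hnear _ _ hp.2 ?_
        have e3 : α p + u p - p.2 = (α p - p.2) + u p := by abel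
        rw [e3]
        calc ‖(α p - p.2) + u p‖ ≤ ‖α p - p.2‖ + ‖u p‖ := norm_add_le _ _
          _ ≤ 4 * K * ε * (1 - (1 / 2) ^ k) + K * (2 * ε * (1 / 2) ^ k) :=
            add_le_add (h3 p hpA) eu
          _ = 4 * K * ε * (1 - (1 / 2) ^ (k + 1)) := by rw [pow_succ]; ring
          _ ≤ 4 * K * ε := mul_le_of_le_one_right hKε0 (hpow _).2
      have nβ : ‖β p + v p‖ < 3 * ρ / 4 := by
        refine hnear _ _ hp.2 ?_
        have e3 : β p + v p - p.2 = (β p - p.2) + v p := by abel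
        rw [e3]
        calc ‖(β p - p.2) + v p‖ ≤ ‖β p - p.2‖ + ‖v p‖ := norm_add_le _ _
          _ ≤ 4 * K * ε * (1 - (1 / 2) ^ k) + K * (2 * ε * (1 / 2) ^ k) :=
            add_le_add (h4 p hpB) ev
          _ = 4 * K * ε * (1 - (1 / 2) ^ (k + 1)) := by rw [pow_succ]; ring
          _ ≤ 4 * K * ε := mul_le_of_le_one_right hKε0 (hpow _).2
      -- slices
      have sA : DifferentiableOn ℂ (fun t => gA (p.1, t)) (ball 0 ρ) :=
        hgA.comp ((differentiableOn_const p.1).prodMk differentiableOn_id)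
          (fun t ht => ⟨hp.1, ht⟩)
      have sB : DifferentiableOn ℂ (fun t => gB (p.1, t)) (ball 0 ρ) :=
        hgB.comp ((differentiableOn_const p.1).prodMk differentiableOn_id)
          (fun t ht => ⟨hp.1, ht⟩)
      have lA := lip_sub_id hρ sA (fun t ht => hεA (p.1, t) ⟨hp.1, ht⟩) nα (hlt p hpA)
      have lB := lip_sub_id hρ sB (fun t ht => hεB (p.1, t) ⟨hp.1, ht⟩) nβ (hlt' p hpB)
      have e4 : gB (p.1, β p + v p) - gA (p.1, α p + u p) =
          ((gB (p.1, β p + v p) - (β p + v p)) - (gB (p.1, β p) - β p)) -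
          ((gA (p.1, α p + u p) - (α p + u p)) - (gA (p.1, α p) - α p)) := by
        have e5 : gB (p.1, β p) = gA (p.1, α p) + (u p - v p) := by
          rw [← e1]; abel
        rw [e5]; abel
      rw [e4]
      have n1 : β p + v p - β p = v p := by abel
      have n2 : α p + u p - α p = u p := by abel
      rw [n1] at lB
      rw [n2] at lA
      have hρε : 0 ≤ 8 * ε / ρ := by positivity
      have hq : (0 : ℝ) ≤ (1 / 2) ^ k := by positivity
      calc _ ≤ ‖(gB (p.1, β p + v p) - (β p + v p)) - (gB (p.1, β p) - β p)‖ +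
            ‖(gA (p.1, α p + u p) - (α p + u p)) - (gA (p.1, α p) - α p)‖ := norm_sub_le _ _
        _ ≤ 8 * ε / ρ * ‖v p‖ + 8 * ε / ρ * ‖u p‖ := add_le_add lB lA
        _ ≤ 8 * ε / ρ * (K * (2 * ε * (1 / 2) ^ k)) + 8 * ε / ρ * (K * (2 * ε * (1 / 2) ^ k)) := by
            gcongr
        _ = (32 * K * ε) / ρ * (ε * (1 / 2) ^ k) := by field_simp; ring
        _ ≤ 1 * (ε * (1 / 2) ^ k) := by
            refine mul_le_mul_of_nonneg_right ?_ (by positivity)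
            rw [div_le_one hρ]; exact hsmall
        _ = 2 * ε * (1 / 2) ^ (k + 1) := by rw [pow_succ]; ring
    · intro p hp
      simp only
      have n2 : α p + u p - α p = u p := by abel
      rw [n2]
      exact (hub p hp).trans (le_of_eq (by ring))
    · intro p hp
      simp only
      have n2 : β p + v p - β p = v p := by abel
      rw [n2]
      exact (hvb p hp).trans (le_of_eq (by ring))
  -- start
  have h0 : P 0 (fun p => p.2, fun p => p.2) := by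
    refine ⟨differentiableOn_snd, differentiableOn_snd, ?_, ?_, ?_⟩
    · intro p hp; simp
    · intro p hp; simp
    · intro p hp
      have hp' : (p.1, p.2) ∈ (ΩA ∩ ΩB) ×ˢ ball (0 : V) ρ :=
        ⟨hp.1, ball_subset_ball (by linarith) hp.2⟩
      have e1 := hεA _ hp'
      have e2 := hεB _ hp'
      have e3 : gB (p.1, p.2) - gA (p.1, p.2) = (gB (p.1, p.2) - p.2) - (gA (p.1, p.2) - p.2) := by
        abel
      simp only [pow_zero, mul_one]
      rw [e3]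
      refine (norm_sub_le _ _).trans ?_
      simp only at e1 e2
      linarith
  choose! nxt hnxt1 hnxt2 hnxt3 using step
  let S : ∀ _ : ℕ, (X × V → V) × (X × V → V) := fun k =>
    Nat.rec (motive := fun _ => (X × V → V) × (X × V → V)) (fun p => p.2, fun p => p.2)
      (fun k s => nxt k s) k
  have hP : ∀ k, P k (S k) := by
    intro k
    induction k with
    | zero => exact h0
    | succ k ih => exact hnxt1 k _ ih
  have hdA : ∀ k, ∀ p ∈ ΩA ×ˢ T, dist ((S k).1 p) ((S (k + 1)).1 p) ≤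
      (4 * K * ε) / 2 / 2 ^ k := by
    intro k p hp
    rw [dist_comm, dist_eq_norm]
    refine (hnxt2 k _ (hP k) p hp).trans (le_of_eq ?_)
    rw [one_div, inv_pow]; field_simp; ring
  have hdB : ∀ k, ∀ p ∈ ΩB ×ˢ T, dist ((S k).2 p) ((S (k + 1)).2 p) ≤
      (4 * K * ε) / 2 / 2 ^ k := by
    intro k p hp
    rw [dist_comm, dist_eq_norm]
    refine (hnxt3 k _ (hP k) p hp).trans (le_of_eq ?_)
    rw [one_div, inv_pow]; field_simp; ring
  have hlimA : ∀ p ∈ ΩA ×ˢ T, ∃ y, Tendsto (fun k => (S k).1 p) atTop (𝓝 y) := fun p hp =>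
    cauchySeq_tendsto_of_complete (cauchySeq_of_le_geometric_two (fun k => hdA k p hp))
  have hlimB : ∀ p ∈ ΩB ×ˢ T, ∃ y, Tendsto (fun k => (S k).2 p) atTop (𝓝 y) := fun p hp =>
    cauchySeq_tendsto_of_complete (cauchySeq_of_le_geometric_two (fun k => hdB k p hp))
  choose! α hα using hlimA
  choose! β hβ using hlimB
  have tendsto0 : Tendsto (fun k : ℕ => (4 * K * ε) / 2 ^ k) atTop (𝓝 0) := by
    have h1 : Tendsto (fun k : ℕ => (4 * K * ε) * (1 / 2) ^ k) atTop (𝓝 ((4 * K * ε) * 0)) :=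
      (tendsto_pow_atTop_nhds_zero_of_lt_one (by norm_num) (by norm_num)).const_mul _
    rw [mul_zero] at h1
    refine h1.congr fun k => ?_
    rw [one_div, inv_pow]; rfl
  have huA : TendstoUniformlyOn (fun k => (S k).1) α atTop (ΩA ×ˢ T) := by
    rw [Metric.tendstoUniformlyOn_iff]
    intro δ hδ
    filter_upwards [tendsto0.eventually_lt_const hδ] with k hk p hp
    rw [dist_comm]
    exact lt_of_le_of_lt (dist_le_of_le_geometric_two_of_tendsto (fun k => hdA k p hp)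
      (hα p hp) k) hk
  have huB : TendstoUniformlyOn (fun k => (S k).2) β atTop (ΩB ×ˢ T) := by
    rw [Metric.tendstoUniformlyOn_iff]
    intro δ hδ
    filter_upwards [tendsto0.eventually_lt_const hδ] with k hk p hp
    rw [dist_comm]
    exact lt_of_le_of_lt (dist_le_of_le_geometric_two_of_tendsto (fun k => hdB k p hp)
      (hβ p hp) k) hk
  have hbA : ∀ p ∈ ΩA ×ˢ T, ‖α p - p.2‖ ≤ 4 * K * ε := by
    intro p hp
    refine le_of_tendsto ((hα p hp).sub_const p.2).norm (Eventually.of_forall fun k => ?_)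
    exact ((hP k).2.2.1 p hp).trans (mul_le_of_le_one_right hKε0 (hpow k).2)
  have hbB : ∀ p ∈ ΩB ×ˢ T, ‖β p - p.2‖ ≤ 4 * K * ε := by
    intro p hp
    refine le_of_tendsto ((hβ p hp).sub_const p.2).norm (Eventually.of_forall fun k => ?_)
    exact ((hP k).2.2.2.1 p hp).trans (mul_le_of_le_one_right hKε0 (hpow k).2)
  refine ⟨α, β, differentiableOn_of_tendstoUniformlyOn (hΩA.prod hTo) (fun k => (hP k).1) huA,
    differentiableOn_of_tendstoUniformlyOn (hΩB.prod hTo) (fun k => (hP k).2.1) huB, hbA, hbB, ?_⟩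
  intro p hp
  have hpA : p ∈ ΩA ×ˢ T := ⟨hp.1.1, hp.2⟩
  have hpB : p ∈ ΩB ×ˢ T := ⟨hp.1.2, hp.2⟩
  have hop : IsOpen ((ΩA ∩ ΩB) ×ˢ ball (0 : V) ρ) := (hΩA.inter hΩB).prod isOpen_ball
  have mA : (p.1, α p) ∈ (ΩA ∩ ΩB) ×ˢ ball (0 : V) ρ := by
    refine ⟨hp.1, mem_ball_zero_iff.2 ?_⟩
    have := hnear _ _ hp.2 (hbA p hpA)
    simp only
    linarith
  have mB : (p.1, β p) ∈ (ΩA ∩ ΩB) ×ˢ ball (0 : V) ρ := by
    refine ⟨hp.1, mem_ball_zero_iff.2 ?_⟩
    have := hnear _ _ hp.2 (hbB p hpB)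
    simp only
    linarith
  have cA : ContinuousAt gA (p.1, α p) := (hgA.continuousOn).continuousAt (hop.mem_nhds mA)
  have cB : ContinuousAt gB (p.1, β p) := (hgB.continuousOn).continuousAt (hop.mem_nhds mB)
  have tA : Tendsto (fun k => gA (p.1, (S k).1 p)) atTop (𝓝 (gA (p.1, α p))) :=
    cA.tendsto.comp (tendsto_const_nhds.prodMk_nhds (hα p hpA))
  have tB : Tendsto (fun k => gB (p.1, (S k).2 p)) atTop (𝓝 (gB (p.1, β p))) :=
    cB.tendsto.comp (tendsto_const_nhds.prodMk_nhds (hβ p hpB))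
  have t1 := (tB.sub tA).norm
  have t2 : Tendsto (fun k : ℕ => 2 * ε * ((1 : ℝ) / 2) ^ k) atTop (𝓝 (2 * ε * 0)) :=
    (tendsto_pow_atTop_nhds_zero_of_lt_one (by norm_num) (by norm_num)).const_mul _
  rw [mul_zero] at t2
  have h3 := le_of_tendsto_of_tendsto' t1 t2 fun k => (hP k).2.2.2.2 p hp
  have h4 : gB (p.1, β p) - gA (p.1, α p) = 0 := norm_le_zero_iff.1 h3
  exact (sub_eq_zero.1 h4).symm

end PGL

end Crest.Agent.R279.PG
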