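import Mathlib
import Crest.Agent.R279.H777b

/-! Row 279 (helper777). Part 2: boxes cut by linear functionals. Definitions.

`α` : the coordinates, the space is `α → ℂ`; `β` : the constraints, given by continuous linear
functionals `c j : (α → ℂ) →L[ℂ] ℂ` (constants are absorbed in the rectangles).
Real coordinates are indexed by `(α ⊕ β) × Bool` (`false` : real part, `true` : imaginary part). -/

set_option autoImplicit false
open Metric Filter Set Topology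

namespace Crest.Agent.R279.Box

/-- real coordinates of a complex number: `false ↦ Re`, `true ↦ Im`. -/
def rc (z : ℂ) (b : Bool) : ℝ := cond b z.im z.re

@[simp] theorem rc_false (z : ℂ) : rc z false = z.re := rfl
@[simp] theorem rc_true (z : ℂ) : rc z true = z.im := rfl

theorem continuous_rc (b : Bool) : Continuous fun z : ℂ => rc z b := by
  cases b
  · exact Complex.continuous_re
  · exact Complex.continuous_im

theorem abs_rc_le (z : ℂ) (b : Bool) : |rc z b| ≤ ‖z‖ := by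
  cases b
  · exact Complex.abs_re_le_norm z
  · exact Complex.abs_im_le_norm z

theorem rc_sub (z w : ℂ) (b : Bool) : rc (z - w) b = rc z b - rc w b := by
  cases b <;> simp

theorem rc_add (z w : ℂ) (b : Bool) : rc (z + w) b = rc z b + rc w b := by
  cases b <;> simp

/-- open box in `ι → ℂ`. -/
def BoxS {ι : Type} (lo hi : ι × Bool → ℝ) : Set (ι → ℂ) :=
  {y | ∀ k : ι × Bool, lo k < rc (y k.1) k.2 ∧ rc (y k.1) k.2 < hi k}

theorem isOpen_BoxS {ι : Type} [Finite ι] (lo hi : ι × Bool → ℝ) : IsOpen (BoxS lo hi) := by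
  have h : BoxS lo hi = ⋂ k : ι × Bool, {y : ι → ℂ | lo k < rc (y k.1) k.2 ∧
      rc (y k.1) k.2 < hi k} := by
    ext y; simp [BoxS]
  rw [h]
  refine isOpen_iInter_of_finite fun k => ?_
  have hc : Continuous fun y : ι → ℂ => rc (y k.1) k.2 :=
    (continuous_rc k.2).comp (continuous_apply k.1)
  exact (isOpen_lt continuous_const hc).inter (isOpen_lt hc continuous_const)

variable {α β : Type} [Fintype α] [Fintype β]

/-- the functionals: coordinates and constraints. -/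
noncomputable def ell (c : β → (α → ℂ) →L[ℂ] ℂ) : α ⊕ β → (α → ℂ) →L[ℂ] ℂ :=
  Sum.elim (fun i => ContinuousLinearMap.proj i) c

@[simp] theorem ell_inl (c : β → (α → ℂ) →L[ℂ] ℂ) (i : α) (x : α → ℂ) :
    ell c (Sum.inl i) x = x i := rfl
@[simp] theorem ell_inr (c : β → (α → ℂ) →L[ℂ] ℂ) (j : β) (x : α → ℂ) :
    ell c (Sum.inr j) x = c j x := rfl

/-- the linear embedding `x ↦ (x, c x)`. -/
noncomputable def emb (c : β → (α → ℂ) →L[ℂ] ℂ) : (α → ℂ) →L[ℂ] (α ⊕ β → ℂ) :=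
  ContinuousLinearMap.pi (ell c)

@[simp] theorem emb_apply (c : β → (α → ℂ) →L[ℂ] ℂ) (x : α → ℂ) (j : α ⊕ β) :
    emb c x j = ell c j x := rfl

/-- the box cut by the constraints `c`. -/
def Dom (c : β → (α → ℂ) →L[ℂ] ℂ) (lo hi : (α ⊕ β) × Bool → ℝ) : Set (α → ℂ) :=
  emb c ⁻¹' BoxS lo hi

theorem mem_Dom {c : β → (α → ℂ) →L[ℂ] ℂ} {lo hi : (α ⊕ β) × Bool → ℝ} {x : α → ℂ} :
    x ∈ Dom c lo hi ↔ ∀ k : (α ⊕ β) × Bool, lo k < rc (ell c k.1 x) k.2 ∧
      rc (ell c k.1 x) k.2 < hi k := Iff.rfl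

theorem isOpen_Dom (c : β → (α → ℂ) →L[ℂ] ℂ) (lo hi : (α ⊕ β) × Bool → ℝ) :
    IsOpen (Dom c lo hi) := (isOpen_BoxS lo hi).preimage (emb c).continuous

theorem Dom_mono {c : β → (α → ℂ) →L[ℂ] ℂ} {lo hi lo' hi' : (α ⊕ β) × Bool → ℝ}
    (h1 : ∀ k, lo' k ≤ lo k) (h2 : ∀ k, hi k ≤ hi' k) : Dom c lo hi ⊆ Dom c lo' hi' :=
  fun _ hx k => ⟨(h1 k).trans_lt (hx k).1, (hx k).2.trans_le (h2 k)⟩

/-- **S(k)**: bounded splitting in a cut box, cut along the real coordinate `k`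
(overlap `p < · < q`), with parameters, with loss `s` of the domain. -/
def SProp (V : Type) [NormedAddCommGroup V] [NormedSpace ℂ V] [DecidableEq α] [DecidableEq β]
    (c : β → (α → ℂ) →L[ℂ] ℂ) : Prop :=
  ∀ (lo hi : (α ⊕ β) × Bool → ℝ) (k : (α ⊕ β) × Bool) (p q : ℝ), p < q → ∀ s : ℝ, 0 < s →
    ∃ K : ℝ, 0 ≤ K ∧ ∀ (E : Type) [NormedAddCommGroup E] [NormedSpace ℂ E]
      [FiniteDimensional ℂ E] (T : Set E), IsOpen T → ∀ (h : (α → ℂ) × E → V) (C : ℝ), 0 ≤ C →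
      DifferentiableOn ℂ h (Dom c (fun i => Function.update lo k p i - s)
        (fun i => Function.update hi k q i + s) ×ˢ T) →
      (∀ z ∈ Dom c (fun i => Function.update lo k p i - s)
        (fun i => Function.update hi k q i + s) ×ˢ T, ‖h z‖ ≤ C) →
      ∃ a b : (α → ℂ) × E → V,
        DifferentiableOn ℂ a (Dom c lo (Function.update hi k q) ×ˢ T) ∧
        DifferentiableOn ℂ b (Dom c (Function.update lo k p) hi ×ˢ T) ∧
        (∀ z ∈ Dom c lo (Function.update hi k q) ×ˢ T, ‖a z‖ ≤ K * C) ∧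
        (∀ z ∈ Dom c (Function.update lo k p) hi ×ˢ T, ‖b z‖ ≤ K * C) ∧
        ∀ z ∈ Dom c (Function.update lo k p) (Function.update hi k q) ×ˢ T, h z = a z - b z

/-- **E(k)**: bounded extension from the cut box to the box in `α ⊕ β → ℂ`. -/
def EProp (V : Type) [NormedAddCommGroup V] [NormedSpace ℂ V] (c : β → (α → ℂ) →L[ℂ] ℂ) : Prop :=
  ∀ (lo hi : (α ⊕ β) × Bool → ℝ) (s : ℝ), 0 < s →
    ∃ K : ℝ, 0 ≤ K ∧ ∀ (E : Type) [NormedAddCommGroup E] [NormedSpace ℂ E]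
      [FiniteDimensional ℂ E] (T : Set E), IsOpen T → ∀ (h : (α → ℂ) × E → V) (C : ℝ), 0 ≤ C →
      DifferentiableOn ℂ h (Dom c (fun i => lo i - s) (fun i => hi i + s) ×ˢ T) →
      (∀ z ∈ Dom c (fun i => lo i - s) (fun i => hi i + s) ×ˢ T, ‖h z‖ ≤ C) →
      ∃ H : (α ⊕ β → ℂ) × E → V, DifferentiableOn ℂ H (BoxS lo hi ×ˢ T) ∧
        (∀ z ∈ BoxS lo hi ×ˢ T, ‖H z‖ ≤ K * C) ∧
        ∀ z ∈ Dom c lo hi ×ˢ T, H (emb c z.1, z.2) = h z

end Crest.Agent.R279.Box
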