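import Mathlib
import Crest.Agent.R279.H777c

/-! Row 279 (helper777). Part 2: bounded splittings on products and boxes, from the planar one. -/

set_option autoImplicit false
open Metric Filter Set Topology

namespace Crest.Agent.R279.Box

open Crest.Agent.R279.PG (Split)

/-- planar input: bounded splitting with parameters for bounded separated open sets. -/
def PSLT (V : Type) [NormedAddCommGroup V] [NormedSpace ℂ V] : Prop :=
  ∀ A B : Set ℂ, IsOpen A → IsOpen B → Bornology.IsBounded (A ∪ B) →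
    (∃ η : ℝ, 0 < η ∧ ∀ z ∈ A \ B, ∀ w ∈ B \ A, η ≤ dist z w) →
    ∃ K : ℝ, 0 ≤ K ∧ Split A B K V

section Prod
variable {X : Type} [NormedAddCommGroup X] [NormedSpace ℂ X]
  {V : Type} [NormedAddCommGroup V] [NormedSpace ℂ V]

/-- splitting in the direction `v`, along the functional `ℓ` with `ℓ v = 1`. -/
theorem split_dir {A B : Set ℂ} {K : ℝ} (hS : Split A B K V) (ℓ : X →L[ℂ] ℂ) (v : X)
    (hv : ℓ v = 1) {Ω : Set X} (hΩ : IsOpen Ω) (hinv : ∀ x ∈ Ω, ∀ z : ℂ, x + z • v ∈ Ω) :
    Split (Ω ∩ ℓ ⁻¹' A) (Ω ∩ ℓ ⁻¹' B) K V := by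
  intro E _ _ T hT h C hC hd hb
  let m : ℂ × (X × E) → X × E := fun p => (p.2.1 + (p.1 - ℓ p.2.1) • v, p.2.2)
  have hm : Differentiable ℂ m := by
    refine Differentiable.prodMk ?_ (differentiable_snd.comp differentiable_snd)
    refine (differentiable_fst.comp differentiable_snd).add ?_
    refine Differentiable.smul_const ?_ v
    exact differentiable_fst.sub (ℓ.differentiable.comp (differentiable_fst.comp differentiable_snd))
  have hmm : MapsTo m ((A ∩ B) ×ˢ (Ω ×ˢ T)) (((Ω ∩ ℓ ⁻¹' A) ∩ (Ω ∩ ℓ ⁻¹' B)) ×ˢ T) := by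
    rintro ⟨z, x, e⟩ ⟨hz, hx, he⟩
    have h1 : ℓ (x + (z - ℓ x) • v) = z := by
      rw [map_add, map_smul, hv, smul_eq_mul, mul_one]; ring
    have h2 : x + (z - ℓ x) • v ∈ Ω := hinv x hx _
    refine ⟨⟨⟨h2, ?_⟩, ⟨h2, ?_⟩⟩, he⟩
    · change ℓ (x + (z - ℓ x) • v) ∈ A
      rw [h1]; exact hz.1
    · change ℓ (x + (z - ℓ x) • v) ∈ B
      rw [h1]; exact hz.2
  obtain ⟨a, b, ha, hb', hab, hbb, hsplit⟩ := hS (X × E) (Ω ×ˢ T) (hΩ.prod hT) (h ∘ m) C hC
    (hd.comp hm.differentiableOn hmm) (fun p hp => hb _ (hmm hp))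
  let w : X × E → ℂ × (X × E) := fun p => (ℓ p.1, p)
  have hw : Differentiable ℂ w := (ℓ.differentiable.comp differentiable_fst).prodMk
    differentiable_id
  have hmw : ∀ p, m (w p) = p := by
    rintro ⟨x, e⟩
    simp [m, w]
  refine ⟨a ∘ w, b ∘ w, ?_, ?_, ?_, ?_, ?_⟩
  · refine ha.comp hw.differentiableOn ?_
    rintro ⟨x, e⟩ ⟨hx, he⟩
    exact ⟨hx.2, hx.1, he⟩
  · refine hb'.comp hw.differentiableOn ?_
    rintro ⟨x, e⟩ ⟨hx, he⟩
    exact ⟨hx.2, hx.1, he⟩
  · rintro ⟨x, e⟩ ⟨hx, he⟩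
    exact hab _ ⟨hx.2, hx.1, he⟩
  · rintro ⟨x, e⟩ ⟨hx, he⟩
    exact hbb _ ⟨hx.2, hx.1, he⟩
  · rintro ⟨x, e⟩ ⟨hx, he⟩
    have := hsplit (w (x, e)) ⟨⟨hx.1.2, hx.2.2⟩, hx.1.1, he⟩
    simp only [Function.comp_apply] at this ⊢
    rw [← this, hmw]

/-- splitting pulled back along a linear map -/
theorem split_congr {ΩA ΩB ΩA' ΩB' : Set X} {K : ℝ} (h : Split ΩA ΩB K V) (hA : ΩA = ΩA')
    (hB : ΩB = ΩB') : Split ΩA' ΩB' K V := by subst hA; subst hB; exact h

end Prod

section BoxSplit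
variable {V : Type} [NormedAddCommGroup V] [NormedSpace ℂ V]

/-- bounded splitting for boxes, without loss. -/
theorem boxSplit (hP : PSLT V) {ι : Type} [Fintype ι] [DecidableEq ι] (lo hi : ι × Bool → ℝ)
    (k : ι × Bool) {p q : ℝ} (hpq : p < q) (hlo : lo k ≤ p) (hhi : q ≤ hi k) :
    ∃ K : ℝ, 0 ≤ K ∧ Split (BoxS lo (Function.update hi k q)) (BoxS (Function.update lo k p) hi)
      K V := by
  obtain ⟨i, b⟩ := k
  -- the rectangles
  let A : Set ℂ := {z | ∀ b' : Bool, lo (i, b') < rc z b' ∧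
    rc z b' < Function.update hi (i, b) q (i, b')}
  let B : Set ℂ := {z | ∀ b' : Bool, Function.update lo (i, b) p (i, b') < rc z b' ∧
    rc z b' < hi (i, b')}
  have hrect : ∀ l u : Bool → ℝ, IsOpen {z : ℂ | ∀ b', l b' < rc z b' ∧ rc z b' < u b'} := by
    intro l u
    have h : {z : ℂ | ∀ b', l b' < rc z b' ∧ rc z b' < u b'} =
        ⋂ b' : Bool, {z : ℂ | l b' < rc z b' ∧ rc z b' < u b'} := by
      ext z; simp
    rw [h]
    exact isOpen_iInter_of_finite fun b' => (isOpen_lt continuous_const (continuous_rc b')).inter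
      (isOpen_lt (continuous_rc b') continuous_const)
  have hA : IsOpen A := hrect (fun b' => lo (i, b')) fun b' => Function.update hi (i, b) q (i, b')
  have hB : IsOpen B := hrect (fun b' => Function.update lo (i, b) p (i, b')) fun b' => hi (i, b')
  have hupd1 : ∀ k', Function.update hi (i, b) q k' ≤ hi k' := by
    intro k'
    rw [Function.update_apply]; split_ifs with h
    · rw [h]; exact hhi
    · exact le_rfl
  have hupd2 : ∀ k', lo k' ≤ Function.update lo (i, b) p k' := by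
    intro k'
    rw [Function.update_apply]; split_ifs with h
    · rw [h]; exact hlo
    · exact le_rfl
  have hbd : Bornology.IsBounded (A ∪ B) := by
    refine (Metric.isBounded_iff_subset_closedBall 0).2
      ⟨(|lo (i, false)| + |hi (i, false)|) + (|lo (i, true)| + |hi (i, true)|), ?_⟩
    have hkey : ∀ z : ℂ, (∀ b' : Bool, lo (i, b') < rc z b' ∧ rc z b' < hi (i, b')) →
        z ∈ closedBall (0 : ℂ)
          ((|lo (i, false)| + |hi (i, false)|) + (|lo (i, true)| + |hi (i, true)|)) := by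
      intro z hz
      rw [mem_closedBall_zero_iff]
      have h1 := hz false
      have h2 := hz true
      simp only [rc_false, rc_true] at h1 h2
      have key : ∀ a x b : ℝ, a < x → x < b → |x| ≤ |a| + |b| := by
        intro a x b h1 h2
        rw [abs_le]
        have := neg_abs_le a
        have := le_abs_self b
        have := abs_nonneg a
        have := abs_nonneg b
        constructor <;> linarith
      calc ‖z‖ ≤ |z.re| + |z.im| := Complex.norm_le_abs_re_add_abs_im z
        _ ≤ _ := add_le_add (key _ _ _ h1.1 h1.2) (key _ _ _ h2.1 h2.2)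
    rintro z (hz | hz)
    · exact hkey z fun b' => ⟨(hz b').1, (hz b').2.trans_le (hupd1 _)⟩
    · exact hkey z fun b' => ⟨(hupd2 _).trans_lt (hz b').1, (hz b').2⟩
  have hsep : ∃ η : ℝ, 0 < η ∧ ∀ z ∈ A \ B, ∀ w ∈ B \ A, η ≤ dist z w := by
    refine ⟨q - p, by linarith, ?_⟩
    rintro z ⟨hzA, hzB⟩ w ⟨hwB, hwA⟩
    have h1 : rc z b ≤ p := by
      by_contra hcon
      push Not at hcon
      refine hzB fun b' => ⟨?_, (hzA b').2.trans_le (hupd1 _)⟩
      by_cases hb : b' = b
      · subst hb; simpa using hcon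
      · rw [Function.update_of_ne (by simpa using hb)]; exact (hzA b').1
    have h2 : q ≤ rc w b := by
      by_contra hcon
      push Not at hcon
      refine hwA fun b' => ⟨(hupd2 _).trans_lt (hwB b').1, ?_⟩
      by_cases hb : b' = b
      · subst hb; simpa using hcon
      · rw [Function.update_of_ne (by simpa using hb)]; exact (hwB b').2
    have h3 := abs_rc_le (w - z) b
    rw [rc_sub] at h3
    rw [dist_comm, dist_eq_norm]
    exact le_trans (by linarith) ((le_abs_self _).trans h3)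
  obtain ⟨K, hK, hS⟩ := hP A B hA hB hbd hsep
  refine ⟨K, hK, ?_⟩
  -- the cylinder
  let Ω : Set (ι → ℂ) := {y | ∀ k' : ι × Bool, k'.1 ≠ i → lo k' < rc (y k'.1) k'.2 ∧
    rc (y k'.1) k'.2 < hi k'}
  have hΩ : IsOpen Ω := by
    have h : Ω = ⋂ k' : ι × Bool, {y : ι → ℂ | k'.1 ≠ i → lo k' < rc (y k'.1) k'.2 ∧
        rc (y k'.1) k'.2 < hi k'} := by
      ext y; simp [Ω]
    rw [h]
    refine isOpen_iInter_of_finite fun k' => ?_
    by_cases hk : k'.1 = i
    · have : {y : ι → ℂ | k'.1 ≠ i → lo k' < rc (y k'.1) k'.2 ∧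
        rc (y k'.1) k'.2 < hi k'} = univ := by
        ext y; simp [hk]
      rw [this]; exact isOpen_univ
    · have : {y : ι → ℂ | k'.1 ≠ i → lo k' < rc (y k'.1) k'.2 ∧
        rc (y k'.1) k'.2 < hi k'} = {y : ι → ℂ | lo k' < rc (y k'.1) k'.2 ∧
        rc (y k'.1) k'.2 < hi k'} := by
        ext y; simp [hk]
      rw [this]
      have hc : Continuous fun y : ι → ℂ => rc (y k'.1) k'.2 :=
        (continuous_rc k'.2).comp (continuous_apply k'.1)
      exact (isOpen_lt continuous_const hc).inter (isOpen_lt hc continuous_const)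
  have hinv : ∀ y ∈ Ω, ∀ z : ℂ, y + z • (Pi.single i (1 : ℂ) : ι → ℂ) ∈ Ω := by
    intro y hy z k' hk'
    have : (y + z • (Pi.single i (1 : ℂ) : ι → ℂ)) k'.1 = y k'.1 := by
      simp [Pi.single_eq_of_ne hk']
    rw [this]
    exact hy k' hk'
  have hSp := split_dir hS (ContinuousLinearMap.proj i : (ι → ℂ) →L[ℂ] ℂ) (Pi.single i 1)
    (by simp) hΩ hinv
  refine split_congr hSp ?_ ?_
  · ext y
    constructor
    · rintro ⟨h1, h2⟩ ⟨i', b'⟩
      by_cases hi' : i' = i
      · subst hi'; exact h2 b'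
      · have hne : (i', b') ≠ (i, b) := fun h => hi' (congrArg Prod.fst h)
        rw [Function.update_of_ne hne]
        exact h1 (i', b') hi'
    · intro hy
      refine ⟨fun k' hk' => ?_, fun b' => hy (i, b')⟩
      have hne : k' ≠ (i, b) := fun h => hk' (congrArg Prod.fst h)
      have := hy k'
      rwa [Function.update_of_ne hne] at this
  · ext y
    constructor
    · rintro ⟨h1, h2⟩ ⟨i', b'⟩
      by_cases hi' : i' = i
      · subst hi'; exact h2 b'
      · have hne : (i', b') ≠ (i, b) := fun h => hi' (congrArg Prod.fst h)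
        rw [Function.update_of_ne hne]
        exact h1 (i', b') hi'
    · intro hy
      refine ⟨fun k' hk' => ?_, fun b' => hy (i, b')⟩
      have hne : k' ≠ (i, b) := fun h => hk' (congrArg Prod.fst h)
      have := hy k'
      rwa [Function.update_of_ne hne] at this

end BoxSplit

end Crest.Agent.R279.Box
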