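import Mathlib
import Crest.Agent.R266.SCV

/-! Row 279 (helper777). Division of a holomorphic function by a linear coordinate `lam`. -/

set_option autoImplicit false
open Metric Filter Set Topology MeasureTheory

namespace Crest.Agent.R279.Box

section Division
variable {W V : Type} [NormedAddCommGroup W] [NormedSpace ℂ W] [FiniteDimensional ℂ W]
  [NormedAddCommGroup V] [NormedSpace ℂ V] [CompleteSpace V]

theorem division {U U' : Set W} (hU : IsOpen U) (hU' : IsOpen U') (e : W) {lam : W → ℂ}
    (hlam : Differentiable ℂ lam) (hle : ∀ w ζ, lam (w + ζ • e) = lam w + ζ) {r : ℝ} (hr : 0 < r)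
    (hUU : ∀ w ∈ U', ∀ ζ : ℂ, ‖ζ‖ ≤ r → w + ζ • e ∈ U)
    {G : W → V} {M : ℝ} (hG : DifferentiableOn ℂ G U) (hM : ∀ w ∈ U, ‖G w‖ ≤ M)
    (hG0 : ∀ w ∈ U, lam w = 0 → G w = 0) :
    ∃ g : W → V, DifferentiableOn ℂ g U' ∧ (∀ w ∈ U', ‖g w‖ ≤ 2 * M / r) ∧
      ∀ w ∈ U', G w = lam w • g w := by
  classical
  have hU'U : U' ⊆ U := fun w hw => by
    have := hUU w hw 0 (by simpa using hr.le)
    simpa using this
  let φ : W → ℂ → V := fun w ζ => G (w + ζ • e)
  let g : W → V := fun w => if lam w = 0 then deriv (φ w) 0 else (lam w)⁻¹ • G w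
  have hcont : ∀ w : W, Continuous fun ζ : ℂ => w + ζ • e := fun w => by fun_prop
  -- the slope
  have hφ0 : ∀ w ∈ U', ‖lam w‖ < r → φ w (-lam w) = 0 := by
    intro w hw hr'
    refine hG0 _ (hUU w hw _ (by rw [norm_neg]; exact hr'.le)) ?_
    rw [hle]; ring
  have hg1 : ∀ w ∈ U', ‖lam w‖ < r → g w = dslope (φ w) (-lam w) 0 := by
    intro w hw hr'
    by_cases h0 : lam w = 0
    · simp only [g, if_pos h0, h0, neg_zero, dslope_same]
    · have hne : (0 : ℂ) ≠ -lam w := by
        intro h; apply h0; rw [← neg_eq_zero, ← h]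
      rw [dslope_of_ne _ hne, slope_def_module, hφ0 w hw hr']
      simp only [g, if_neg h0, zero_sub, neg_neg, sub_zero]
      simp [φ]
  -- Cauchy formula
  let F : W × ℝ → V := fun p => (2 * Real.pi : ℂ)⁻¹ • ((circleMap 0 r p.2 + lam p.1)⁻¹ •
    G (p.1 + circleMap 0 r p.2 • e))
  have hne : ∀ (w : W) (θ : ℝ), ‖lam w‖ < r → circleMap 0 r θ + lam w ≠ 0 := by
    intro w θ hw h
    have h1 : ‖circleMap 0 r θ‖ = r := by simp [circleMap, abs_of_pos hr]
    have h2 : circleMap 0 r θ = -lam w := eq_neg_of_add_eq_zero_left h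
    rw [h2, norm_neg] at h1
    linarith
  have hg2 : ∀ w ∈ U', ‖lam w‖ < r → g w = ∫ θ in (0 : ℝ)..(2 * Real.pi), F (w, θ) := by
    intro w hw hr'
    have hS : IsOpen ((fun ζ : ℂ => w + ζ • e) ⁻¹' U) := hU.preimage (hcont w)
    have hmem : ∀ ζ : ℂ, ‖ζ‖ ≤ r → ζ ∈ (fun ζ : ℂ => w + ζ • e) ⁻¹' U := fun ζ hζ =>
      hUU w hw ζ hζ
    have hd : DifferentiableOn ℂ (φ w) ((fun ζ : ℂ => w + ζ • e) ⁻¹' U) := by
      refine hG.comp ?_ (fun ζ hζ => hζ)
      exact ((differentiable_const w).add (differentiable_id.smul_const e)).differentiableOn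
    have hds : DifferentiableOn ℂ (dslope (φ w) (-lam w)) ((fun ζ : ℂ => w + ζ • e) ⁻¹' U) :=
      (Complex.differentiableOn_dslope (hS.mem_nhds (hmem _ (by rw [norm_neg]; exact hr'.le)))).2 hd
    have hC : DifferentiableOn ℂ (dslope (φ w) (-lam w)) (closedBall 0 r) :=
      hds.mono fun ζ hζ => hmem ζ (by simpa using hζ)
    have h1 := hC.circleIntegral_sub_inv_smul (w := 0) (by simpa using hr)
    rw [hg1 w hw hr']
    have h2 : dslope (φ w) (-lam w) 0 = (2 * Real.pi * Complex.I : ℂ)⁻¹ •
        (∮ z in C(0, r), (z - 0)⁻¹ • dslope (φ w) (-lam w) z) := by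
      rw [h1, inv_smul_smul₀ Complex.two_pi_I_ne_zero]
    rw [h2, circleIntegral, ← intervalIntegral.integral_smul]
    refine intervalIntegral.integral_congr fun θ _ => ?_
    have hz : circleMap 0 r θ ≠ 0 := circleMap_ne_center hr.ne'
    have hz' : circleMap 0 r θ ≠ -lam w := fun h => hne w θ hr' (by rw [h]; ring)
    simp only [F]
    rw [deriv_circleMap, dslope_of_ne _ hz', slope_def_module, hφ0 w hw hr', sub_zero, sub_zero,
      sub_neg_eq_add]
    simp only [φ, smul_smul]
    congr 1
    have hI : Complex.I ≠ 0 := Complex.I_ne_zero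
    have hpi : (Real.pi : ℂ) ≠ 0 := by exact_mod_cast Real.pi_ne_zero
    have hne' := hne w θ hr'
    field_simp
  refine ⟨g, ?_, ?_, ?_⟩
  · intro w0 hw0
    by_cases h0 : lam w0 = 0
    · -- near the zero set
      let U'' : Set W := U' ∩ {w | ‖lam w‖ < r}
      have hU'' : IsOpen U'' := hU'.inter (isOpen_lt hlam.continuous.norm continuous_const)
      have hw'' : w0 ∈ U'' := ⟨hw0, by simp [h0, hr]⟩
      have han : AnalyticOnNhd ℂ (fun w => ∫ θ in (0 : ℝ)..(2 * Real.pi), F (w, θ)) U'' := by
        refine Crest.Agent.R266.SCV.analyticOnNhd_intervalIntegral hU'' ?_ ?_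
        · refine ContinuousOn.const_smul (ContinuousOn.smul (ContinuousOn.inv₀ ?_ ?_) ?_) _
          · exact (((continuous_circleMap 0 r).comp continuous_snd).add
              (hlam.continuous.comp continuous_fst)).continuousOn
          · rintro ⟨w, θ⟩ ⟨hw, -⟩
            exact hne w θ hw.2
          · refine hG.continuousOn.comp ?_ ?_
            · exact (continuous_fst.add (((continuous_circleMap 0 r).comp
                continuous_snd).smul continuous_const)).continuousOn
            · rintro ⟨w, θ⟩ ⟨hw, -⟩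
              refine hUU w hw.1 _ ?_
              simp [circleMap, abs_of_pos hr]
        · intro θ _
          refine DifferentiableOn.const_smul (DifferentiableOn.smul (DifferentiableOn.inv ?_ ?_) ?_) _
          · exact (Differentiable.const_add (circleMap 0 r θ) hlam).differentiableOn
          · intro w hw
            exact hne w θ hw.2
          · refine hG.comp ?_ ?_
            · exact (Differentiable.add_const (circleMap 0 r θ • e) differentiable_id).differentiableOn
            · intro w hw
              refine hUU w hw.1 _ ?_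
              simp [circleMap, abs_of_pos hr]
      have hev : g =ᶠ[𝓝 w0] fun w => ∫ θ in (0 : ℝ)..(2 * Real.pi), F (w, θ) := by
        filter_upwards [hU''.mem_nhds hw''] with w hw
        exact hg2 w hw.1 hw.2
      exact ((han w0 hw'').differentiableAt.congr_of_eventuallyEq hev).differentiableWithinAt
    · have hev : g =ᶠ[𝓝 w0] fun w => (lam w)⁻¹ • G w := by
        filter_upwards [hlam.continuous.continuousAt.eventually_ne h0] with w hw
        simp only [g, if_neg hw]
      have hd : DifferentiableAt ℂ (fun w => (lam w)⁻¹ • G w) w0 :=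
        ((hlam w0).inv h0).smul (hG.differentiableAt (hU.mem_nhds (hU'U hw0)))
      exact (hd.congr_of_eventuallyEq hev).differentiableWithinAt
  · intro w hw
    have hM0 : 0 ≤ M := (norm_nonneg _).trans (hM w (hU'U hw))
    by_cases h1 : ‖lam w‖ < r / 2
    · rw [hg2 w hw (by linarith)]
      have hb : ∀ θ ∈ Set.uIoc (0 : ℝ) (2 * Real.pi), ‖F (w, θ)‖ ≤
          (2 * Real.pi)⁻¹ * ((r / 2)⁻¹ * M) := by
        intro θ _
        simp only [F, norm_smul]
        have e1 : ‖(2 * Real.pi : ℂ)⁻¹‖ = (2 * Real.pi)⁻¹ := by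
          rw [norm_inv, norm_mul, Complex.norm_ofNat, Complex.norm_real, Real.norm_eq_abs,
            abs_of_pos Real.pi_pos]
        have e2 : r / 2 ≤ ‖circleMap 0 r θ + lam w‖ := by
          have h3 : ‖circleMap 0 r θ‖ = r := by simp [circleMap, abs_of_pos hr]
          have h4 := norm_sub_le (circleMap 0 r θ + lam w) (lam w)
          rw [add_sub_cancel_right, h3] at h4
          linarith
        have e3 : ‖(circleMap 0 r θ + lam w)⁻¹‖ ≤ (r / 2)⁻¹ := by
          rw [norm_inv]; exact inv_anti₀ (by positivity) e2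
        have e4 : ‖G (w + circleMap 0 r θ • e)‖ ≤ M :=
          hM _ (hUU w hw _ (by simp [circleMap, abs_of_pos hr]))
        rw [e1]
        gcongr
      have h5 := intervalIntegral.norm_integral_le_of_norm_le_const hb
      refine h5.trans (le_of_eq ?_)
      rw [sub_zero, abs_of_pos (by positivity)]
      have hpi := Real.pi_ne_zero
      field_simp
    · push Not at h1
      have h0 : lam w ≠ 0 := by
        intro h; rw [h, norm_zero] at h1; linarith
      simp only [g, if_neg h0, norm_smul, norm_inv]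
      have e2 : ‖lam w‖⁻¹ ≤ (r / 2)⁻¹ := inv_anti₀ (by positivity) h1
      calc ‖lam w‖⁻¹ * ‖G w‖ ≤ (r / 2)⁻¹ * M := by
            have := hM w (hU'U hw)
            gcongr
        _ = 2 * M / r := by field_simp
  · intro w hw
    by_cases h0 : lam w = 0
    · rw [h0, zero_smul]
      exact hG0 w (hU'U hw) h0
    · simp only [g, if_neg h0]
      rw [smul_inv_smul₀ h0]

end Division

end Crest.Agent.R279.Box
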