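import Mathlib
import Crest.Agent.R279.H777d
import Crest.Agent.R279.H777e

/-! Row 279 (helper777). Part 2: bisection of boxes; base case E(0); E(k) → S(k). -/

set_option autoImplicit false
open Metric Filter Set Topology

namespace Crest.Agent.R279.Box

section Induct

/-- induction over boxes: small boxes and midpoint merging. -/
theorem box_induction {κ : Type} [Fintype κ] [DecidableEq κ] (lo hi : κ → ℝ)
    (P : (κ → ℝ) → (κ → ℝ) → Prop) {δ : ℝ} (hδ : 0 < δ)
    (hsmall : ∀ u v, (∀ k, lo k ≤ u k) → (∀ k, v k ≤ hi k) → (∀ k, v k - u k ≤ δ) → P u v)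
    (hmerge : ∀ u v, (∀ k, lo k ≤ u k) → (∀ k, v k ≤ hi k) → ∀ (k : κ) (m : ℝ), u k < m → m < v k →
      P u (Function.update v k m) → P (Function.update u k m) v → P u v) : P lo hi := by
  have key : ∀ n : ℕ, ∀ u v, (∀ k, lo k ≤ u k) → (∀ k, v k ≤ hi k) →
      (∀ k, v k - u k ≤ 2 ^ n * δ) → P u v := by
    intro n
    induction n with
    | zero =>
      intro u v h1 h2 h3
      exact hsmall u v h1 h2 (by simpa using h3)
    | succ n ih =>
      have step : ∀ t : Finset κ, ∀ u v, (∀ k, lo k ≤ u k) → (∀ k, v k ≤ hi k) →
          (∀ k ∈ t, v k - u k ≤ 2 ^ (n + 1) * δ) → (∀ k ∉ t, v k - u k ≤ 2 ^ n * δ) → P u v := by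
        intro t
        induction t using Finset.induction_on with
        | empty =>
          intro u v h1 h2 _ h4
          exact ih u v h1 h2 fun k => h4 k (by simp)
        | insert k t hk iht =>
          intro u v h1 h2 h3 h4
          by_cases hw : v k - u k ≤ 2 ^ n * δ
          · refine iht u v h1 h2 (fun k' hk' => h3 k' (Finset.mem_insert_of_mem hk'))
              (fun k' hk' => ?_)
            by_cases he : k' = k
            · rw [he]; exact hw
            · exact h4 k' (by simp [he, hk'])
          · push Not at hw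
            have hpos : (0 : ℝ) < 2 ^ n * δ := by positivity
            have hw2 := h3 k (Finset.mem_insert_self _ _)
            rw [pow_succ] at hw2
            set m : ℝ := (u k + v k) / 2 with hm
            have hum : u k < m := by rw [hm]; linarith
            have hmv : m < v k := by rw [hm]; linarith
            refine hmerge u v h1 h2 k m hum hmv ?_ ?_
            · refine iht u _ h1 (fun k' => ?_) (fun k' hk' => ?_) (fun k' hk' => ?_)
              · rw [Function.update_apply]; split_ifs with h
                · rw [h]; exact hmv.le.trans (h2 k)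
                · exact h2 k'
              · have hne : k' ≠ k := fun h => hk (h ▸ hk')
                rw [Function.update_of_ne hne]
                exact h3 k' (Finset.mem_insert_of_mem hk')
              · by_cases he : k' = k
                · rw [he, Function.update_self, hm]; linarith
                · rw [Function.update_of_ne he]
                  exact h4 k' (by simp [he, hk'])
            · refine iht _ v (fun k' => ?_) h2 (fun k' hk' => ?_) (fun k' hk' => ?_)
              · rw [Function.update_apply]; split_ifs with h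
                · rw [h]; exact (h1 k).trans hum.le
                · exact h1 k'
              · have hne : k' ≠ k := fun h => hk (h ▸ hk')
                rw [Function.update_of_ne hne]
                exact h3 k' (Finset.mem_insert_of_mem hk')
              · by_cases he : k' = k
                · rw [he, Function.update_self, hm]; linarith
                · rw [Function.update_of_ne he]
                  exact h4 k' (by simp [he, hk'])
      intro u v h1 h2 h3
      exact step Finset.univ u v h1 h2 (fun k _ => h3 k) (fun k hk => absurd (Finset.mem_univ k) hk)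
  -- choose n
  obtain ⟨n, hn⟩ : ∃ n : ℕ, ∀ k, hi k - lo k ≤ 2 ^ n * δ := by
    obtain ⟨n, hn⟩ := pow_unbounded_of_one_lt ((∑ k, |hi k - lo k|) / δ) (one_lt_two : (1 : ℝ) < 2)
    refine ⟨n, fun k => ?_⟩
    rw [div_lt_iff₀ hδ] at hn
    have h1 : hi k - lo k ≤ ∑ k, |hi k - lo k| :=
      (le_abs_self _).trans (Finset.single_le_sum (f := fun k => |hi k - lo k|)
        (fun _ _ => abs_nonneg _) (Finset.mem_univ k))
    linarith
  exact key n lo hi (fun _ => le_rfl) (fun _ => le_rfl) hn

end Induct

section Base
variable {V : Type} [NormedAddCommGroup V] [NormedSpace ℂ V]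
variable {α β : Type} [Fintype α] [Fintype β]

/-- **E(0)**. -/
theorem EProp_of_isEmpty [IsEmpty β] (c : β → (α → ℂ) →L[ℂ] ℂ) : EProp V c := by
  intro lo hi s hs
  refine ⟨1, zero_le_one, ?_⟩
  intro E _ _ _ T hT h C hC hd hb
  let m : (α ⊕ β → ℂ) × E → (α → ℂ) × E := fun p => (fun i => p.1 (Sum.inl i), p.2)
  have hm : Differentiable ℂ m := by
    refine Differentiable.prodMk ?_ differentiable_snd
    rw [differentiable_pi]
    intro i
    exact (differentiable_pi.1 differentiable_fst) (Sum.inl i)
  have hmm : MapsTo m (BoxS lo hi ×ˢ T) (Dom c (fun i => lo i - s) (fun i => hi i + s) ×ˢ T) := by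
    rintro ⟨y, t⟩ ⟨hy, ht⟩
    refine ⟨?_, ht⟩
    rw [mem_Dom]
    rintro ⟨i | j, b⟩
    · have := hy (Sum.inl i, b)
      simp only [ell_inl, m]
      simp only at this
      constructor <;> linarith [this.1, this.2]
    · exact (IsEmpty.false j).elim
  refine ⟨h ∘ m, hd.comp hm.differentiableOn hmm, fun z hz => ?_, fun z hz => ?_⟩
  · rw [one_mul]; exact hb _ (hmm hz)
  · rfl

/-- **E(k) → S(k)**. -/
theorem SProp_of_EProp [DecidableEq α] [DecidableEq β] (hP : PSLT V)
    (c : β → (α → ℂ) →L[ℂ] ℂ) (hE : EProp V c) : SProp V c := by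
  intro lo hi k p q hpq s hs
  -- boxes with `lo k ≤ p`, `q ≤ hi k`
  let lo' : (α ⊕ β) × Bool → ℝ := Function.update lo k (min (lo k) p)
  let hi' : (α ⊕ β) × Bool → ℝ := Function.update hi k (max (hi k) q)
  obtain ⟨K1, hK1, hS⟩ := boxSplit hP lo' hi' k hpq (by simp [lo']) (by simp [hi'])
  have hl1 : Function.update lo' k p = Function.update lo k p := by simp [lo']
  have hh1 : Function.update hi' k q = Function.update hi k q := by simp [hi']
  rw [hl1, hh1] at hS
  have hlo' : ∀ i, lo' i ≤ lo i := by
    intro i; simp only [lo', Function.update_apply]; split_ifs with h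
    · rw [h]; exact min_le_left _ _
    · exact le_rfl
  have hhi' : ∀ i, hi i ≤ hi' i := by
    intro i; simp only [hi', Function.update_apply]; split_ifs with h
    · rw [h]; exact le_max_left _ _
    · exact le_rfl
  obtain ⟨K2, hK2, hext⟩ := hE (Function.update lo k p) (Function.update hi k q) s hs
  have hinter : BoxS (ι := α ⊕ β) lo' (Function.update hi k q) ∩ BoxS (Function.update lo k p) hi' =
      BoxS (Function.update lo k p) (Function.update hi k q) := by
    ext y
    constructor
    · rintro ⟨h1, h2⟩ i
      exact ⟨(h2 i).1, (h1 i).2⟩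
    · intro h
      refine ⟨fun i => ⟨?_, (h i).2⟩, fun i => ⟨(h i).1, ?_⟩⟩
      · refine lt_of_le_of_lt ?_ (h i).1
        simp only [lo', Function.update_apply]; split_ifs with h
        · exact min_le_right _ _
        · exact le_rfl
      · refine lt_of_lt_of_le (h i).2 ?_
        simp only [hi', Function.update_apply]; split_ifs with h
        · exact le_max_right _ _
        · exact le_rfl
  refine ⟨K1 * K2, by positivity, ?_⟩
  intro E _ _ _ T hT h C hC hd hb
  obtain ⟨H, hHd, hHb, hHe⟩ := hext E T hT h C hC hd hb
  obtain ⟨a, b, had, hbd, hab, hbb, hsp⟩ := hS E T hT H (K2 * C) (by positivity)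
    (by rw [hinter]; exact hHd) (by rw [hinter]; exact hHb)
  let w : (α → ℂ) × E → (α ⊕ β → ℂ) × E := fun z => (emb c z.1, z.2)
  have hw : Differentiable ℂ w :=
    ((emb c).differentiable.comp differentiable_fst).prodMk differentiable_snd
  have hwa : MapsTo w (Dom c lo (Function.update hi k q) ×ˢ T)
      (BoxS lo' (Function.update hi k q) ×ˢ T) := by
    rintro ⟨x, t⟩ ⟨hx, ht⟩
    exact ⟨fun i => ⟨(hlo' i).trans_lt (hx i).1, (hx i).2⟩, ht⟩
  have hwb : MapsTo w (Dom c (Function.update lo k p) hi ×ˢ T)
      (BoxS (Function.update lo k p) hi' ×ˢ T) := by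
    rintro ⟨x, t⟩ ⟨hx, ht⟩
    exact ⟨fun i => ⟨(hx i).1, (hx i).2.trans_le (hhi' i)⟩, ht⟩
  refine ⟨a ∘ w, b ∘ w, had.comp hw.differentiableOn hwa, hbd.comp hw.differentiableOn hwb,
    fun z hz => ?_, fun z hz => ?_, fun z hz => ?_⟩
  · refine (hab _ (hwa hz)).trans (le_of_eq (by ring))
  · refine (hbb _ (hwb hz)).trans (le_of_eq (by ring))
  · have h1 := hsp (w z) (by rw [hinter]; exact ⟨hz.1, hz.2⟩)
    rw [← hHe z ⟨hz.1, hz.2⟩]
    exact h1

end Base

end Crest.Agent.R279.Box
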