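import Mathlib
import Crest.Agent.R279.H777f

/-! Row 279 (helper777). Part 2: S(k) ⇒ E(k+1). -/

set_option autoImplicit false
open Metric Filter Set Topology

namespace Crest.Agent.R279.Box

section Glue
variable {W V : Type} [NormedAddCommGroup W] [NormedSpace ℂ W] [NormedAddCommGroup V]
  [NormedSpace ℂ V]

theorem glue_diff {U1 U2 : Set W} (h1 : IsOpen U1) (h2 : IsOpen U2) {f1 f2 : W → V}
    (hd1 : DifferentiableOn ℂ f1 U1) (hd2 : DifferentiableOn ℂ f2 U2)
    (he : ∀ x ∈ U1, x ∈ U2 → f1 x = f2 x) :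
    ∃ f : W → V, DifferentiableOn ℂ f (U1 ∪ U2) ∧ (∀ x ∈ U1, f x = f1 x) ∧
      ∀ x ∈ U2, f x = f2 x := by
  classical
  refine ⟨fun x => if x ∈ U1 then f1 x else f2 x, ?_, fun x hx => if_pos hx, fun x hx => ?_⟩
  · rintro x (hx | hx)
    · have hev : (fun x => if x ∈ U1 then f1 x else f2 x) =ᶠ[𝓝 x] f1 := by
        filter_upwards [h1.mem_nhds hx] with y hy
        exact if_pos hy
      exact ((hd1.differentiableAt (h1.mem_nhds hx)).congr_of_eventuallyEq hev).differentiableWithinAt
    · have hev : (fun x => if x ∈ U1 then f1 x else f2 x) =ᶠ[𝓝 x] f2 := by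
        filter_upwards [h2.mem_nhds hx] with y hy
        by_cases hy1 : y ∈ U1
        · simp only [if_pos hy1]; exact he y hy1 hy
        · simp only [if_neg hy1]
      exact ((hd2.differentiableAt (h2.mem_nhds hx)).congr_of_eventuallyEq hev).differentiableWithinAt
  · by_cases hy1 : x ∈ U1
    · simp only [if_pos hy1]; exact he x hy1 hx
    · simp only [if_neg hy1]

end Glue

section Bound
variable {α β : Type} [Fintype α] [Fintype β]

theorem exists_bound_Dom (c : β → (α → ℂ) →L[ℂ] ℂ) (lo hi : (α ⊕ β) × Bool → ℝ) :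
    ∃ R : ℝ, 0 ≤ R ∧ ∀ x ∈ Dom c lo hi, ‖x‖ ≤ R := by
  set S : ℝ := ∑ k, (|lo k| + |hi k|) with hSdef
  have hS0 : 0 ≤ S := Finset.sum_nonneg fun _ _ => by positivity
  refine ⟨2 * S, by positivity, fun x hx => ?_⟩
  rw [pi_norm_le_iff_of_nonneg (by positivity)]
  intro i
  have key : ∀ b : Bool, |rc (x i) b| ≤ S := by
    intro b
    have h1 := hx (Sum.inl i, b)
    simp only [emb_apply, ell_inl] at h1
    have h2 : |lo (Sum.inl i, b)| + |hi (Sum.inl i, b)| ≤ S :=
      Finset.single_le_sum (f := fun k => |lo k| + |hi k|) (fun _ _ => by positivity)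
        (Finset.mem_univ _)
    rw [abs_le]
    have := neg_abs_le (lo (Sum.inl i, b))
    have := le_abs_self (hi (Sum.inl i, b))
    have := abs_nonneg (lo (Sum.inl i, b))
    have := abs_nonneg (hi (Sum.inl i, b))
    constructor <;> linarith [h1.1, h1.2]
  calc ‖x i‖ ≤ |(x i).re| + |(x i).im| := Complex.norm_le_abs_re_add_abs_im _
    _ ≤ S + S := add_le_add (key false) (key true)
    _ = 2 * S := by ring

end Bound

section Step
variable {V : Type} [NormedAddCommGroup V] [NormedSpace ℂ V]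
variable {α β : Type} [Fintype α] [Fintype β]
set_option linter.unusedSectionVars false

/-- restriction `(Option α → ℂ) → (α → ℂ)` -/
noncomputable def res : (Option α → ℂ) →L[ℂ] (α → ℂ) :=
  ContinuousLinearMap.pi fun i => ContinuousLinearMap.proj (some i)

@[simp] theorem res_apply (y : Option α → ℂ) (i : α) : res y i = y (some i) := rfl

theorem norm_res_le (y : Option α → ℂ) : ‖res y‖ ≤ ‖y‖ := by
  rw [pi_norm_le_iff_of_nonneg (norm_nonneg _)]
  intro i
  exact norm_le_pi_norm y (some i)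

/-- insertion -/
def ins (y : ℂ) (x : α → ℂ) : Option α → ℂ := fun o => o.elim y x

@[simp] theorem ins_none (y : ℂ) (x : α → ℂ) : ins y x none = y := rfl
@[simp] theorem ins_some (y : ℂ) (x : α → ℂ) (i : α) : ins y x (some i) = x i := rfl
@[simp] theorem res_ins (y : ℂ) (x : α → ℂ) : res (ins y x) = x := rfl

/-- the constraints with `β` only -/
def cR (c : Option β → (α → ℂ) →L[ℂ] ℂ) : β → (α → ℂ) →L[ℂ] ℂ := fun j => c (some j)

/-- the constraints with `β` only, on one more variable -/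
noncomputable def cP (c : Option β → (α → ℂ) →L[ℂ] ℂ) : β → (Option α → ℂ) →L[ℂ] ℂ :=
  fun j => (c (some j)).comp res

/-- index maps -/
def sg : Option α ⊕ β → α ⊕ Option β
  | Sum.inl none => Sum.inr none
  | Sum.inl (some i) => Sum.inl i
  | Sum.inr j => Sum.inr (some j)

def tu : α ⊕ β → α ⊕ Option β
  | Sum.inl i => Sum.inl i
  | Sum.inr j => Sum.inr (some j)

theorem res_mem (c : Option β → (α → ℂ) →L[ℂ] ℂ) {lo hi : (α ⊕ Option β) × Bool → ℝ}
    {s σ : ℝ} (hσ : σ ≤ s / 2) (hs : 0 < s) {u v : (Option α ⊕ β) × Bool → ℝ}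
    (hu : ∀ k, lo (sg k.1, k.2) ≤ u k) (hv : ∀ k, v k ≤ hi (sg k.1, k.2))
    {y : Option α → ℂ} (hy : y ∈ Dom (cP c) (fun k => u k - σ) (fun k => v k + σ))
    (hlam : ‖y none - c none (res y)‖ ≤ s / 2) :
    res y ∈ Dom c (fun k => lo k - s) (fun k => hi k + s) := by
  rw [mem_Dom] at hy ⊢
  rintro ⟨j, b⟩
  rcases j with i | (_ | j)
  · have h1 := hy (Sum.inl (some i), b)
    have h2 := hu (Sum.inl (some i), b)
    have h3 := hv (Sum.inl (some i), b)
    simp only [sg, ell_inl, res_apply] at h1 h2 h3 ⊢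
    constructor <;> linarith [h1.1, h1.2]
  · have h1 := hy (Sum.inl none, b)
    have h2 := hu (Sum.inl none, b)
    have h3 := hv (Sum.inl none, b)
    simp only [sg, ell_inl, ell_inr] at h1 h2 h3 ⊢
    have h4 := (abs_rc_le (y none - c none (res y)) b).trans hlam
    rw [rc_sub, abs_le] at h4
    constructor <;> linarith [h1.1, h1.2, h4.1, h4.2]
  · have h1 := hy (Sum.inr j, b)
    have h2 := hu (Sum.inr j, b)
    have h3 := hv (Sum.inr j, b)
    simp only [sg, ell_inr, cP, ContinuousLinearMap.comp_apply] at h1 h2 h3 ⊢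
    constructor <;> linarith [h1.1, h1.2]

/-- the local extension statement for a sub-box -/
def LocExt (V : Type) [NormedAddCommGroup V] [NormedSpace ℂ V]
    (c : Option β → (α → ℂ) →L[ℂ] ℂ) (lo hi : (α ⊕ Option β) × Bool → ℝ)
    (s : ℝ) (u v : (Option α ⊕ β) × Bool → ℝ) : Prop :=
  ∃ σ : ℝ, 0 < σ ∧ σ ≤ s / 2 ∧ ∃ K : ℝ, 0 ≤ K ∧ ∀ (E : Type) [NormedAddCommGroup E]
    [NormedSpace ℂ E] [FiniteDimensional ℂ E] (T : Set E), IsOpen T →
    ∀ (h : (α → ℂ) × E → V) (C : ℝ), 0 ≤ C →
    DifferentiableOn ℂ h (Dom c (fun i => lo i - s) (fun i => hi i + s) ×ˢ T) →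
    (∀ z ∈ Dom c (fun i => lo i - s) (fun i => hi i + s) ×ˢ T, ‖h z‖ ≤ C) →
    ∃ H : (Option α → ℂ) × E → V,
      DifferentiableOn ℂ H (Dom (cP c) (fun k => u k - σ) (fun k => v k + σ) ×ˢ T) ∧
      (∀ z ∈ Dom (cP c) (fun k => u k - σ) (fun k => v k + σ) ×ˢ T, ‖H z‖ ≤ K * C) ∧
      ∀ z ∈ Dom (cP c) (fun k => u k - σ) (fun k => v k + σ) ×ˢ T,
        z.1 none - c none (res z.1) = 0 → H z = h (res z.1, z.2)

theorem locExt_small (c : Option β → (α → ℂ) →L[ℂ] ℂ) (lo hi : (α ⊕ Option β) × Bool → ℝ)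
    {s : ℝ} (hs : 0 < s) : ∃ δ : ℝ, 0 < δ ∧ ∀ u v : (Option α ⊕ β) × Bool → ℝ,
    (∀ k, lo (sg k.1, k.2) ≤ u k) → (∀ k, v k ≤ hi (sg k.1, k.2)) → (∀ k, v k - u k ≤ δ) →
    LocExt V c lo hi s u v := by
  set L : ℝ := ‖c none‖ with hL
  have hL0 : 0 ≤ L := norm_nonneg _
  set δ : ℝ := s / (12 * (1 + L)) with hδ
  have hδ0 : 0 < δ := by positivity
  have hδs : 6 * δ * (1 + L) = s / 2 := by rw [hδ]; field_simp; ring
  have hδs' : δ ≤ s / 2 := by nlinarith
  refine ⟨δ, hδ0, fun u v hu hv hw => ⟨δ, hδ0, hδs', 1, zero_le_one, ?_⟩⟩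
  -- oscillation
  have hosc : ∀ y ∈ Dom (cP c) (fun k => u k - δ) (fun k => v k + δ),
      ∀ y' ∈ Dom (cP c) (fun k => u k - δ) (fun k => v k + δ),
      y' none - c none (res y') = 0 → ‖y none - c none (res y)‖ ≤ s / 2 := by
    intro y hy y' hy' h0
    have h1 : ‖y - y'‖ ≤ 6 * δ := by
      rw [pi_norm_le_iff_of_nonneg (by positivity)]
      intro o
      have key : ∀ b : Bool, |rc ((y - y') o) b| ≤ 3 * δ := by
        intro b
        have e1 := hy (Sum.inl o, b)
        have e2 := hy' (Sum.inl o, b)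
        have e3 := hw (Sum.inl o, b)
        simp only [emb_apply, ell_inl] at e1 e2
        rw [Pi.sub_apply, rc_sub, abs_le]
        constructor <;> linarith [e1.1, e1.2, e2.1, e2.2]
      calc ‖(y - y') o‖ ≤ |((y - y') o).re| + |((y - y') o).im| :=
            Complex.norm_le_abs_re_add_abs_im _
        _ ≤ 3 * δ + 3 * δ := add_le_add (key false) (key true)
        _ = 6 * δ := by ring
    have h2 : y none - c none (res y) = (y - y') none - c none (res (y - y')) := by
      rw [map_sub, map_sub, Pi.sub_apply]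
      linear_combination h0
    rw [h2]
    calc ‖(y - y') none - c none (res (y - y'))‖
        ≤ ‖(y - y') none‖ + ‖c none (res (y - y'))‖ := norm_sub_le _ _
      _ ≤ ‖y - y'‖ + L * ‖y - y'‖ := by
          refine add_le_add (norm_le_pi_norm _ _) ?_
          refine ((c none).le_opNorm _).trans ?_
          exact mul_le_mul_of_nonneg_left (norm_res_le _) hL0
      _ = ‖y - y'‖ * (1 + L) := by ring
      _ ≤ 6 * δ * (1 + L) := by gcongr
      _ = s / 2 := hδs
  intro E _ _ _ T hT h C hC hd hb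
  by_cases hg : ∃ y' ∈ Dom (cP c) (fun k => u k - δ) (fun k => v k + δ),
      y' none - c none (res y') = 0
  · obtain ⟨y', hy', h0⟩ := hg
    let m : (Option α → ℂ) × E → (α → ℂ) × E := fun p => (res p.1, p.2)
    have hm : Differentiable ℂ m :=
      (res.differentiable.comp differentiable_fst).prodMk differentiable_snd
    have hmm : MapsTo m (Dom (cP c) (fun k => u k - δ) (fun k => v k + δ) ×ˢ T)
        (Dom c (fun i => lo i - s) (fun i => hi i + s) ×ˢ T) := by
      rintro ⟨y, t⟩ ⟨hy, ht⟩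
      exact ⟨res_mem c hδs' hs hu hv hy (hosc y hy y' hy' h0), ht⟩
    refine ⟨h ∘ m, hd.comp hm.differentiableOn hmm, fun z hz => ?_, fun z hz _ => rfl⟩
    rw [one_mul]; exact hb _ (hmm hz)
  · push Not at hg
    refine ⟨fun _ => 0, differentiableOn_const _, fun z _ => by simpa using hC, ?_⟩
    intro z hz h0
    exact absurd h0 (hg z.1 hz.1)

theorem locExt_merge [CompleteSpace V] [DecidableEq α] [DecidableEq β]
    (c : Option β → (α → ℂ) →L[ℂ] ℂ)
    (hS : SProp V (cP c)) (lo hi : (α ⊕ Option β) × Bool → ℝ) (s : ℝ)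
    (u v : (Option α ⊕ β) × Bool → ℝ) (k : (Option α ⊕ β) × Bool) (m : ℝ)
    (hum : u k < m) (hmv : m < v k) (h1 : LocExt V c lo hi s u (Function.update v k m))
    (h2 : LocExt V c lo hi s (Function.update u k m) v) : LocExt V c lo hi s u v := by
  obtain ⟨σ1, hσ1, hσ1s, K1, hK1, H1⟩ := h1
  obtain ⟨σ2, hσ2, hσ2s, K2, hK2, H2⟩ := h2
  set σ : ℝ := min σ1 σ2 with hσdef
  have hσ : 0 < σ := lt_min hσ1 hσ2
  have hσ1' : σ ≤ σ1 := min_le_left _ _
  have hσ2' : σ ≤ σ2 := min_le_right _ _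
  obtain ⟨K3, hK3, HS⟩ := hS (fun i => u i - σ / 3) (fun i => v i + σ / 3) k (m - σ / 3) (m + σ / 3)
    (by linarith) (σ / 3) (by positivity)
  obtain ⟨R, hR, hRb⟩ := exists_bound_Dom (cP c) (fun i => u i - σ / 3) (fun i => v i + σ / 3)
  set Lam : ℝ := (1 + ‖c none‖) * R with hLam
  have hLam0 : 0 ≤ Lam := by positivity
  refine ⟨σ / 3, by positivity, by linarith,
    (K1 + K2) + Lam * (K3 * (2 * (K1 + K2) / (σ / 3))), by positivity, ?_⟩
  intro E _ _ _ T hT h C hC hd hb
  obtain ⟨F1, hF1d, hF1b, hF1e⟩ := H1 E T hT h C hC hd hb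
  obtain ⟨F2, hF2d, hF2b, hF2e⟩ := H2 E T hT h C hC hd hb
  -- the overlap
  let D12 : ℝ → Set (Option α → ℂ) := fun τ =>
    Dom (cP c) (fun i => Function.update u k m i - τ) (fun i => Function.update v k m i + τ)
  have hupd1 : ∀ i, u i ≤ Function.update u k m i := by
    intro i; rw [Function.update_apply]; split_ifs with h
    · rw [h]; exact hum.le
    · exact le_rfl
  have hupd2 : ∀ i, Function.update v k m i ≤ v i := by
    intro i; rw [Function.update_apply]; split_ifs with h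
    · rw [h]; exact hmv.le
    · exact le_rfl
  have hsub1 : D12 σ ×ˢ T ⊆ Dom (cP c) (fun k => u k - σ1)
      (fun i => Function.update v k m i + σ1) ×ˢ T :=
    prod_mono (Dom_mono (fun i => by have := hupd1 i; linarith) (fun i => by linarith)) subset_rfl
  have hsub2 : D12 σ ×ˢ T ⊆ Dom (cP c) (fun i => Function.update u k m i - σ2)
      (fun i => v i + σ2) ×ˢ T :=
    prod_mono (Dom_mono (fun i => by linarith) (fun i => by have := hupd2 i; linarith)) subset_rfl
  have hres : Continuous (res : (Option α → ℂ) → (α → ℂ)) := res.continuous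
  let lam : (Option α → ℂ) × E → ℂ := fun z => z.1 none - c none (res z.1)
  have hlam : Differentiable ℂ lam := by
    refine Differentiable.sub ?_ ?_
    · exact (ContinuousLinearMap.proj (R := ℂ) (φ := fun _ : Option α => ℂ) none).differentiable.comp
        differentiable_fst
    · exact (c none).differentiable.comp (res.differentiable.comp differentiable_fst)
  let e : (Option α → ℂ) × E := (Pi.single none 1, 0)
  have hrese : res (Pi.single (none : Option α) (1 : ℂ)) = 0 := by
    ext i; simp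
  have hle : ∀ w ζ, lam (w + ζ • e) = lam w + ζ := by
    intro w ζ
    simp only [lam, e, Prod.fst_add, Prod.smul_fst, map_add, map_smul, hrese, smul_zero, add_zero,
      Pi.add_apply, Pi.smul_apply, Pi.single_eq_same, smul_eq_mul, mul_one]
    ring
  obtain ⟨g, hgd, hgb, hge⟩ := division (U := D12 σ ×ˢ T) (U' := D12 (2 * σ / 3) ×ˢ T)
    ((isOpen_Dom _ _ _).prod hT) ((isOpen_Dom _ _ _).prod hT) e hlam hle
    (r := σ / 3) (by positivity)
    (by
      rintro ⟨y, t⟩ ⟨hy, ht⟩ ζ hζ
      refine ⟨?_, by simpa [e] using ht⟩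
      rintro ⟨j, b⟩
      have e1 := hy (j, b)
      rcases j with o | j
      · have e2 : |rc (ζ * (Pi.single none 1 : Option α → ℂ) o) b| ≤ σ / 3 := by
          refine (abs_rc_le _ _).trans ?_
          rw [norm_mul]
          refine le_trans ?_ hζ
          refine mul_le_of_le_one_right (norm_nonneg _) ?_
          rw [Pi.single_apply]; split_ifs <;> simp
        rw [abs_le] at e2
        simp only [emb_apply, ell_inl, e, Prod.fst_add, Prod.smul_fst, Pi.add_apply, Pi.smul_apply,
          smul_eq_mul, rc_add] at e1 e2 ⊢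
        constructor <;> linarith [e1.1, e1.2, e2.1, e2.2]
      · simp only [emb_apply, ell_inr, cP, e, Prod.fst_add, Prod.smul_fst,
          ContinuousLinearMap.comp_apply, map_add, map_smul, hrese, map_zero, smul_zero,
          add_zero] at e1 ⊢
        constructor <;> linarith [e1.1, e1.2])
    (G := fun z => F1 z - F2 z) (M := (K1 + K2) * C)
    ((hF1d.mono hsub1).sub (hF2d.mono hsub2))
    (fun w hw => by
      refine (norm_sub_le _ _).trans ?_
      have := hF1b w (hsub1 hw)
      have := hF2b w (hsub2 hw)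
      linarith)
    (fun w hw h0 => by
      rw [hF1e w (hsub1 hw) h0, hF2e w (hsub2 hw) h0, sub_self])
  have hsub3 : Dom (cP c) (fun i => Function.update (fun i => u i - σ / 3) k (m - σ / 3) i - σ / 3)
      (fun i => Function.update (fun i => v i + σ / 3) k (m + σ / 3) i + σ / 3) ⊆
      D12 (2 * σ / 3) := by
    refine Dom_mono (fun i => ?_) (fun i => ?_)
    · simp only [Function.update_apply]; split_ifs <;> linarith
    · simp only [Function.update_apply]; split_ifs <;> linarith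
  obtain ⟨a, b, had, hbd, hab, hbb, hsp⟩ := HS E T hT g (2 * ((K1 + K2) * C) / (σ / 3))
    (by positivity) (hgd.mono (prod_mono hsub3 subset_rfl))
    (fun z hz => hgb z ⟨hsub3 hz.1, hz.2⟩)
  -- the two pieces
  set U1 : Set ((Option α → ℂ) × E) := Dom (cP c) (fun i => u i - σ / 3)
    (Function.update (fun i => v i + σ / 3) k (m + σ / 3)) ×ˢ T with hU1
  set U2 : Set ((Option α → ℂ) × E) := Dom (cP c) (Function.update (fun i => u i - σ / 3) k
    (m - σ / 3)) (fun i => v i + σ / 3) ×ˢ T with hU2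
  have hU1o : IsOpen U1 := (isOpen_Dom _ _ _).prod hT
  have hU2o : IsOpen U2 := (isOpen_Dom _ _ _).prod hT
  have hU1s : U1 ⊆ Dom (cP c) (fun k => u k - σ1)
      (fun i => Function.update v k m i + σ1) ×ˢ T := by
    refine prod_mono (Dom_mono (fun i => by linarith) (fun i => ?_)) subset_rfl
    simp only [Function.update_apply]; split_ifs <;> linarith
  have hU2s : U2 ⊆ Dom (cP c) (fun i => Function.update u k m i - σ2)
      (fun i => v i + σ2) ×ˢ T := by
    refine prod_mono (Dom_mono (fun i => ?_) (fun i => by linarith)) subset_rfl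
    simp only [Function.update_apply]; split_ifs <;> linarith
  have hU12 : ∀ z ∈ U1, z ∈ U2 → z ∈ Dom (cP c)
      (Function.update (fun i => u i - σ / 3) k (m - σ / 3))
      (Function.update (fun i => v i + σ / 3) k (m + σ / 3)) ×ˢ T :=
    fun z hz1 hz2 => ⟨fun i => ⟨(hz2.1 i).1, (hz1.1 i).2⟩, hz1.2⟩
  have hU12' : ∀ z ∈ U1, z ∈ U2 → z ∈ D12 (2 * σ / 3) ×ˢ T := by
    intro z hz1 hz2
    have h3 := hU12 z hz1 hz2
    refine ⟨hsub3 (fun i => ?_), h3.2⟩
    have := h3.1 i
    constructor <;> linarith [this.1, this.2]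
  obtain ⟨H, hHd, hH1, hH2⟩ := glue_diff hU1o hU2o
    (f1 := fun z => F1 z - lam z • a z) (f2 := fun z => F2 z - lam z • b z)
    ((hF1d.mono hU1s).sub (hlam.differentiableOn.smul had))
    ((hF2d.mono hU2s).sub (hlam.differentiableOn.smul hbd))
    (fun z hz1 hz2 => by
      have e1 := hsp z (hU12 z hz1 hz2)
      have e2 := hge z (hU12' z hz1 hz2)
      rw [e1, smul_sub] at e2
      have e3 : F1 z = F2 z + (lam z • a z - lam z • b z) := by rw [← e2]; abel
      rw [e3]; abel)
  have hcov : Dom (cP c) (fun k => u k - σ / 3) (fun k => v k + σ / 3) ×ˢ T ⊆ U1 ∪ U2 := by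
    rintro ⟨y, t⟩ ⟨hy, ht⟩
    by_cases hk : rc (emb (cP c) y k.1) k.2 < m + σ / 3
    · left
      refine ⟨fun i => ⟨(hy i).1, ?_⟩, ht⟩
      rw [Function.update_apply]; split_ifs with hi
      · rw [hi]; exact hk
      · exact (hy i).2
    · right
      push Not at hk
      refine ⟨fun i => ⟨?_, (hy i).2⟩, ht⟩
      rw [Function.update_apply]; split_ifs with hi
      · rw [hi]; exact lt_of_lt_of_le (by linarith) hk
      · exact (hy i).1
  have hlamb : ∀ z ∈ Dom (cP c) (fun k => u k - σ / 3) (fun k => v k + σ / 3) ×ˢ T,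
      ‖lam z‖ ≤ Lam := by
    rintro ⟨y, t⟩ ⟨hy, ht⟩
    have e1 := hRb y hy
    calc ‖y none - c none (res y)‖ ≤ ‖y none‖ + ‖c none (res y)‖ := norm_sub_le _ _
      _ ≤ ‖y‖ + ‖c none‖ * ‖y‖ := by
          refine add_le_add (norm_le_pi_norm _ _) (((c none).le_opNorm _).trans ?_)
          exact mul_le_mul_of_nonneg_left (norm_res_le _) (norm_nonneg _)
      _ = (1 + ‖c none‖) * ‖y‖ := by ring
      _ ≤ Lam := by rw [hLam]; gcongr
  refine ⟨H, hHd.mono hcov, ?_, ?_⟩
  · intro z hz
    have hl := hlamb z hz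
    rcases hcov hz with h3 | h3
    · rw [hH1 z h3]
      refine (norm_sub_le _ _).trans ?_
      rw [norm_smul]
      have e1 := hF1b z (hU1s h3)
      have e2 := hab z h3
      calc ‖F1 z‖ + ‖lam z‖ * ‖a z‖
          ≤ K1 * C + Lam * (K3 * (2 * ((K1 + K2) * C) / (σ / 3))) := by gcongr
        _ = (K1 + Lam * (K3 * (2 * (K1 + K2) / (σ / 3)))) * C := by ring
        _ ≤ (K1 + K2 + Lam * (K3 * (2 * (K1 + K2) / (σ / 3)))) * C := by
            refine mul_le_mul_of_nonneg_right ?_ hC
            linarith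
    · rw [hH2 z h3]
      refine (norm_sub_le _ _).trans ?_
      rw [norm_smul]
      have e1 := hF2b z (hU2s h3)
      have e2 := hbb z h3
      calc ‖F2 z‖ + ‖lam z‖ * ‖b z‖
          ≤ K2 * C + Lam * (K3 * (2 * ((K1 + K2) * C) / (σ / 3))) := by gcongr
        _ = (K2 + Lam * (K3 * (2 * (K1 + K2) / (σ / 3)))) * C := by ring
        _ ≤ (K1 + K2 + Lam * (K3 * (2 * (K1 + K2) / (σ / 3)))) * C := by
            refine mul_le_mul_of_nonneg_right ?_ hC
            linarith
  · intro z hz h0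
    have hl0 : lam z = 0 := h0
    rcases hcov hz with h3 | h3
    · rw [hH1 z h3, hl0, zero_smul, sub_zero]
      exact hF1e z (hU1s h3) h0
    · rw [hH2 z h3, hl0, zero_smul, sub_zero]
      exact hF2e z (hU2s h3) h0

/-- **S(k) ⇒ E(k+1)**. -/
theorem EProp_option [CompleteSpace V] [DecidableEq α] [DecidableEq β]
    (c : Option β → (α → ℂ) →L[ℂ] ℂ) (hS : SProp V (cP c)) (hE : EProp V (cR c)) :
    EProp V c := by
  intro lo hi s hs
  obtain ⟨δ, hδ, hsmall⟩ := locExt_small (V := V) c lo hi hs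
  have hloc : LocExt V c lo hi s (fun k => lo (sg k.1, k.2)) (fun k => hi (sg k.1, k.2)) :=
    box_induction _ _ (LocExt V c lo hi s) hδ hsmall
      (fun u v _ _ k m hum hmv h1 h2 => locExt_merge c hS lo hi s u v k m hum hmv h1 h2)
  obtain ⟨σ, hσ, hσs, K1, hK1, hext⟩ := hloc
  obtain ⟨K2, hK2, hext2⟩ := hE (fun k => lo (tu k.1, k.2)) (fun k => hi (tu k.1, k.2)) σ hσ
  refine ⟨K2 * K1, by positivity, ?_⟩
  intro E _ _ _ T hT h C hC hd hb
  obtain ⟨H1, hH1d, hH1b, hH1e⟩ := hext E T hT h C hC hd hb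
  -- the parameter rectangle
  let Rn : Set ℂ := {y | ∀ b : Bool, lo (Sum.inr none, b) < rc y b ∧ rc y b < hi (Sum.inr none, b)}
  have hRn : IsOpen Rn := by
    have h : Rn = ⋂ b : Bool, {y : ℂ | lo (Sum.inr none, b) < rc y b ∧
        rc y b < hi (Sum.inr none, b)} := by
      ext y; simp [Rn]
    rw [h]
    exact isOpen_iInter_of_finite fun b => (isOpen_lt continuous_const (continuous_rc b)).inter
      (isOpen_lt (continuous_rc b) continuous_const)
  let m : (α → ℂ) × (ℂ × E) → (Option α → ℂ) × E := fun p => (ins p.2.1 p.1, p.2.2)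
  have hm : Differentiable ℂ m := by
    refine Differentiable.prodMk ?_ (differentiable_snd.snd)
    rw [differentiable_pi]
    rintro (_ | i)
    · exact differentiable_snd.fst
    · exact (differentiable_pi.1 differentiable_fst) i
  have hmm : MapsTo m (Dom (cR c) (fun k => lo (tu k.1, k.2) - σ) (fun k => hi (tu k.1, k.2) + σ)
      ×ˢ (Rn ×ˢ T)) (Dom (cP c) (fun k => lo (sg k.1, k.2) - σ)
      (fun k => hi (sg k.1, k.2) + σ) ×ˢ T) := by
    rintro ⟨x, y, t⟩ ⟨hx, hy, ht⟩
    refine ⟨?_, ht⟩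
    rintro ⟨j, b⟩
    rcases j with (_ | i) | j
    · have := hy b
      simp only [emb_apply, ell_inl, sg, m, ins_none]
      constructor <;> linarith [this.1, this.2]
    · have := hx (Sum.inl i, b)
      simpa only [emb_apply, ell_inl, sg, tu, m, ins_some] using this
    · have := hx (Sum.inr j, b)
      simpa only [emb_apply, ell_inr, sg, tu, m, cP, cR, ContinuousLinearMap.comp_apply,
        res_ins] using this
  obtain ⟨H2, hH2d, hH2b, hH2e⟩ := hext2 (ℂ × E) (Rn ×ˢ T) (hRn.prod hT) (H1 ∘ m) (K1 * C)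
    (by positivity) (hH1d.comp hm.differentiableOn hmm) (fun z hz => hH1b _ (hmm hz))
  let w : (α ⊕ Option β → ℂ) × E → (α ⊕ β → ℂ) × (ℂ × E) := fun z =>
    (fun j => z.1 (tu j), (z.1 (Sum.inr none), z.2))
  have hw : Differentiable ℂ w := by
    refine Differentiable.prodMk ?_ (Differentiable.prodMk ?_ differentiable_snd)
    · rw [differentiable_pi]
      intro j
      exact (differentiable_pi.1 differentiable_fst) (tu j)
    · exact (differentiable_pi.1 differentiable_fst) (Sum.inr none)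
  have hww : MapsTo w (BoxS lo hi ×ˢ T)
      (BoxS (fun k => lo (tu k.1, k.2)) (fun k => hi (tu k.1, k.2)) ×ˢ (Rn ×ˢ T)) := by
    rintro ⟨y, t⟩ ⟨hy, ht⟩
    exact ⟨fun k => hy (tu k.1, k.2), fun b => hy (Sum.inr none, b), ht⟩
  refine ⟨H2 ∘ w, hH2d.comp hw.differentiableOn hww, fun z hz => ?_, ?_⟩
  · exact (hH2b _ (hww hz)).trans (le_of_eq (by ring))
  · rintro ⟨x, t⟩ ⟨hx, ht⟩
    have hx0 : x ∈ Dom (cR c) (fun k => lo (tu k.1, k.2)) (fun k => hi (tu k.1, k.2)) := by
      rintro ⟨j, b⟩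
      rcases j with i | j
      · exact hx (Sum.inl i, b)
      · exact hx (Sum.inr (some j), b)
    have hyR : c none x ∈ Rn := fun b => hx (Sum.inr none, b)
    have e1 := hH2e (x, (c none x, t)) ⟨hx0, hyR, ht⟩
    have e2 : w (emb c x, t) = (emb (cR c) x, (c none x, t)) := by
      refine Prod.ext ?_ rfl
      funext j
      rcases j with i | j <;> rfl
    change H2 (w (emb c x, t)) = h (x, t)
    rw [e2]
    refine e1.trans ?_
    have hxσ : x ∈ Dom (cR c) (fun k => lo (tu k.1, k.2) - σ) (fun k => hi (tu k.1, k.2) + σ) :=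
      Dom_mono (fun _ => by linarith) (fun _ => by linarith) hx0
    have e3 := hH1e (m (x, (c none x, t))) (hmm ⟨hxσ, hyR, ht⟩) (by simp [m])
    exact e3

end Step

end Crest.Agent.R279.Box
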