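import Mathlib
import Crest.Agent.R279.H777g

/-! Row 279 (helper777). Part 2: E(k), S(k) for all finite families of constraints; gluing (2.4). -/

set_option autoImplicit false
open Metric Filter Set Topology

namespace Crest.Agent.R279.Box

section Equiv
variable {V : Type} [NormedAddCommGroup V] [NormedSpace ℂ V]

theorem EProp_equiv {α β β' : Type} [Fintype α] [Fintype β] [Fintype β'] (e : β' ≃ β)
    (c : β → (α → ℂ) →L[ℂ] ℂ) (h : EProp V fun j => c (e j)) : EProp V c := by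
  intro lo hi s hs
  let f : α ⊕ β' → α ⊕ β := Sum.map id e
  obtain ⟨K, hK, H⟩ := h (fun k => lo (f k.1, k.2)) (fun k => hi (f k.1, k.2)) s hs
  have hell : ∀ (j : α ⊕ β') (x : α → ℂ), ell (fun j => c (e j)) j x = ell c (f j) x := by
    rintro (i | j) x <;> rfl
  have hsub : ∀ (l u : (α ⊕ β) × Bool → ℝ),
      Dom (fun j => c (e j)) (fun k => l (f k.1, k.2)) (fun k => u (f k.1, k.2)) = Dom c l u := by
    intro l u
    ext x
    rw [mem_Dom, mem_Dom]
    constructor
    · rintro hx ⟨j, b⟩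
      rcases j with i | j
      · exact hx (Sum.inl i, b)
      · have := hx (Sum.inr (e.symm j), b)
        simp only [f, Sum.map_inr, Equiv.apply_symm_apply, ell_inr] at this
        exact this
    · rintro hx ⟨j, b⟩
      rw [hell]
      exact hx (f j, b)
  refine ⟨K, hK, ?_⟩
  intro E _ _ _ T hT g C hC hd hb
  have hs1 := hsub (fun k => lo k - s) (fun k => hi k + s)
  obtain ⟨G, hGd, hGb, hGe⟩ := H E T hT g C hC (by
    have : (fun k : (α ⊕ β') × Bool => lo (f k.1, k.2) - s) =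
      fun k => (fun k => lo k - s) (f k.1, k.2) := rfl
    rw [this]
    have : (fun k : (α ⊕ β') × Bool => hi (f k.1, k.2) + s) =
      fun k => (fun k => hi k + s) (f k.1, k.2) := rfl
    rw [this, hs1]
    exact hd) (by
    have : (fun k : (α ⊕ β') × Bool => lo (f k.1, k.2) - s) =
      fun k => (fun k => lo k - s) (f k.1, k.2) := rfl
    rw [this]
    have : (fun k : (α ⊕ β') × Bool => hi (f k.1, k.2) + s) =
      fun k => (fun k => hi k + s) (f k.1, k.2) := rfl
    rw [this, hs1]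
    exact hb)
  let w : (α ⊕ β → ℂ) × E → (α ⊕ β' → ℂ) × E := fun z => (fun j => z.1 (f j), z.2)
  have hw : Differentiable ℂ w := by
    refine Differentiable.prodMk ?_ differentiable_snd
    rw [differentiable_pi]
    intro j
    exact (differentiable_pi.1 differentiable_fst) (f j)
  have hww : MapsTo w (BoxS lo hi ×ˢ T)
      (BoxS (fun k => lo (f k.1, k.2)) (fun k => hi (f k.1, k.2)) ×ˢ T) := by
    rintro ⟨y, t⟩ ⟨hy, ht⟩
    exact ⟨fun k => hy (f k.1, k.2), ht⟩
  refine ⟨G ∘ w, hGd.comp hw.differentiableOn hww, fun z hz => hGb _ (hww hz), ?_⟩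
  rintro ⟨x, t⟩ ⟨hx, ht⟩
  have hx' : x ∈ Dom (fun j => c (e j)) (fun k => lo (f k.1, k.2)) (fun k => hi (f k.1, k.2)) := by
    rw [hsub]; exact hx
  have e1 := hGe (x, t) ⟨hx', ht⟩
  have e2 : w (emb c x, t) = (emb (fun j => c (e j)) x, t) := by
    refine Prod.ext ?_ rfl
    funext j
    exact (hell j x).symm
  change G (w (emb c x, t)) = g (x, t)
  rw [e2]
  exact e1

/-- **E(k)** for all finite families of constraints. -/
theorem EProp_all [CompleteSpace V] (hP : PSLT V) (β : Type) [Fintype β] :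
    ∀ (α : Type) [Fintype α] (c : β → (α → ℂ) →L[ℂ] ℂ), EProp V c := by
  classical
  refine Fintype.induction_empty_option (P := fun β _ => ∀ (α : Type) [Fintype α]
    (c : β → (α → ℂ) →L[ℂ] ℂ), EProp V c) ?_ ?_ ?_ β
  · intro β' β _ e h α _ c
    exact @EProp_equiv V _ _ α β β' _ _ (Fintype.ofEquiv β e.symm) e c (h α _)
  · intro α _ c
    exact EProp_of_isEmpty c
  · intro β _ h α _ c
    exact EProp_option c (SProp_of_EProp hP (cP c) (h (Option α) (cP c))) (h α (cR c))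

/-- **S(k)** for all finite families of constraints. -/
theorem SProp_all [CompleteSpace V] (hP : PSLT V) {α β : Type} [Fintype α] [Fintype β]
    [DecidableEq α] [DecidableEq β] (c : β → (α → ℂ) →L[ℂ] ℂ) : SProp V c :=
  SProp_of_EProp hP c (EProp_all hP β α c)

end Equiv

section Glue24
variable {V : Type} [NormedAddCommGroup V] [NormedSpace ℂ V] [FiniteDimensional ℂ V]
variable {α β : Type} [Fintype α] [Fintype β] [DecidableEq α] [DecidableEq β]

/-- **(2.4)** gluing on a cut box, cut along the real coordinate `k`. -/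
theorem glueD (hP : PSLT V) (c : β → (α → ℂ) →L[ℂ] ℂ) (lo hi : (α ⊕ β) × Bool → ℝ)
    (k : (α ⊕ β) × Bool) {p q : ℝ} (hpq : p < q) {s : ℝ} (hs : 0 < s) :
    ∃ K : ℝ, 0 ≤ K ∧ ∀ ρ ε : ℝ, 0 < ρ → 0 ≤ ε → K * ε ≤ ρ → ∀ gA gB : (α → ℂ) × V → V,
      DifferentiableOn ℂ gA (Dom c (fun i => Function.update lo k p i - s)
        (fun i => Function.update hi k q i + s) ×ˢ ball 0 ρ) →
      DifferentiableOn ℂ gB (Dom c (fun i => Function.update lo k p i - s)
        (fun i => Function.update hi k q i + s) ×ˢ ball 0 ρ) →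
      (∀ z ∈ Dom c (fun i => Function.update lo k p i - s)
        (fun i => Function.update hi k q i + s) ×ˢ ball (0 : V) ρ, ‖gA z - z.2‖ ≤ ε) →
      (∀ z ∈ Dom c (fun i => Function.update lo k p i - s)
        (fun i => Function.update hi k q i + s) ×ˢ ball (0 : V) ρ, ‖gB z - z.2‖ ≤ ε) →
      ∃ A B : (α → ℂ) × V → V,
        DifferentiableOn ℂ A (Dom c lo (Function.update hi k q) ×ˢ ball 0 (ρ / 2)) ∧
        DifferentiableOn ℂ B (Dom c (Function.update lo k p) hi ×ˢ ball 0 (ρ / 2)) ∧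
        (∀ z ∈ Dom c lo (Function.update hi k q) ×ˢ ball (0 : V) (ρ / 2),
          ‖A z - z.2‖ ≤ K * ε ∧ ‖A z‖ < ρ) ∧
        (∀ z ∈ Dom c (Function.update lo k p) hi ×ˢ ball (0 : V) (ρ / 2),
          ‖B z - z.2‖ ≤ K * ε ∧ ‖B z‖ < ρ) ∧
        ∀ z ∈ (Dom c lo (Function.update hi k q) ∩ Dom c (Function.update lo k p) hi) ×ˢ
          ball (0 : V) (ρ / 2), gA (z.1, A z) = gB (z.1, B z) := by
  have : CompleteSpace V := FiniteDimensional.complete ℂ V
  let lo' : (α ⊕ β) × Bool → ℝ := Function.update lo k (min (lo k) p)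
  let hi' : (α ⊕ β) × Bool → ℝ := Function.update hi k (max (hi k) q)
  obtain ⟨K1, hK1, hS⟩ := boxSplit hP lo' hi' k hpq (by simp [lo']) (by simp [hi'])
  have hl1 : Function.update lo' k p = Function.update lo k p := by simp [lo']
  have hh1 : Function.update hi' k q = Function.update hi k q := by simp [hi']
  rw [hl1, hh1] at hS
  have hlo' : ∀ i, lo' i ≤ lo i := by
    intro i; simp only [lo', Function.update_apply]; split_ifs with h
    · rw [h]; exact min_le_left _ _
    · exact le_rfl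
  have hhi' : ∀ i, hi i ≤ hi' i := by
    intro i; simp only [hi', Function.update_apply]; split_ifs with h
    · rw [h]; exact le_max_left _ _
    · exact le_rfl
  obtain ⟨K2, hK2, hext⟩ := EProp_all hP β α c (Function.update lo k p) (Function.update hi k q)
    s hs
  have hinter : BoxS (ι := α ⊕ β) lo' (Function.update hi k q) ∩ BoxS (Function.update lo k p) hi' =
      BoxS (Function.update lo k p) (Function.update hi k q) := by
    ext y
    constructor
    · rintro ⟨h1, h2⟩ i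
      exact ⟨(h2 i).1, (h1 i).2⟩
    · intro h
      refine ⟨fun i => ⟨?_, (h i).2⟩, fun i => ⟨(h i).1, ?_⟩⟩
      · refine lt_of_le_of_lt ?_ (h i).1
        simp only [lo', Function.update_apply]; split_ifs with h
        · exact min_le_right _ _
        · exact le_rfl
      · refine lt_of_lt_of_le (h i).2 ?_
        simp only [hi', Function.update_apply]; split_ifs with h
        · exact le_max_right _ _
        · exact le_rfl
  refine ⟨32 * K1 * K2, by positivity, ?_⟩
  intro ρ ε hρ hε hsmall gA gB hgA hgB hεA hεB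
  obtain ⟨GA, hGAd, hGAb, hGAe⟩ := hext V (ball 0 ρ) isOpen_ball (fun z => gA z - z.2) ε hε
    (hgA.sub differentiableOn_snd) hεA
  obtain ⟨GB, hGBd, hGBb, hGBe⟩ := hext V (ball 0 ρ) isOpen_ball (fun z => gB z - z.2) ε hε
    (hgB.sub differentiableOn_snd) hεB
  obtain ⟨A, B, hAd, hBd, hAb, hBb, hAB⟩ := PG.PGL (isOpen_BoxS _ _) (isOpen_BoxS _ _) hK1 hS hρ
    (ε := K2 * ε) (by linarith) (gA := fun z => z.2 + GA z) (gB := fun z => z.2 + GB z)
    (by rw [hinter]; exact differentiableOn_snd.add hGAd)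
    (by rw [hinter]; exact differentiableOn_snd.add hGBd)
    (by rw [hinter]; intro z hz; rw [add_sub_cancel_left]; exact hGAb z hz)
    (by rw [hinter]; intro z hz; rw [add_sub_cancel_left]; exact hGBb z hz)
    (by positivity)
  let w : (α → ℂ) × V → (α ⊕ β → ℂ) × V := fun z => (emb c z.1, z.2)
  have hw : Differentiable ℂ w :=
    ((emb c).differentiable.comp differentiable_fst).prodMk differentiable_snd
  have hwa : MapsTo w (Dom c lo (Function.update hi k q) ×ˢ ball 0 (ρ / 2))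
      (BoxS lo' (Function.update hi k q) ×ˢ ball 0 (ρ / 2)) := by
    rintro ⟨x, t⟩ ⟨hx, ht⟩
    exact ⟨fun i => ⟨(hlo' i).trans_lt (hx i).1, (hx i).2⟩, ht⟩
  have hwb : MapsTo w (Dom c (Function.update lo k p) hi ×ˢ ball 0 (ρ / 2))
      (BoxS (Function.update lo k p) hi' ×ˢ ball 0 (ρ / 2)) := by
    rintro ⟨x, t⟩ ⟨hx, ht⟩
    exact ⟨fun i => ⟨(hx i).1, (hx i).2.trans_le (hhi' i)⟩, ht⟩
  have hKε : 4 * K1 * (K2 * ε) ≤ 32 * K1 * K2 * ε := by nlinarith [mul_nonneg (mul_nonneg hK1 hK2) hε]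
  have hKε' : 4 * K1 * (K2 * ε) ≤ ρ / 8 := by nlinarith
  have hnear : ∀ (x t : V), t ∈ ball (0 : V) (ρ / 2) → ‖x - t‖ ≤ 4 * K1 * (K2 * ε) → ‖x‖ < ρ := by
    intro x t ht h
    have h1 : ‖t‖ < ρ / 2 := mem_ball_zero_iff.1 ht
    have h2 := norm_add_le t (x - t)
    have h3 : t + (x - t) = x := by abel
    rw [h3] at h2
    linarith
  have hAn : ∀ z ∈ Dom c lo (Function.update hi k q) ×ˢ ball (0 : V) (ρ / 2), ‖A (w z)‖ < ρ :=
    fun z hz => hnear _ _ hz.2 (hAb _ (hwa hz))
  have hBn : ∀ z ∈ Dom c (Function.update lo k p) hi ×ˢ ball (0 : V) (ρ / 2), ‖B (w z)‖ < ρ :=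
    fun z hz => hnear _ _ hz.2 (hBb _ (hwb hz))
  refine ⟨A ∘ w, B ∘ w, hAd.comp hw.differentiableOn hwa, hBd.comp hw.differentiableOn hwb,
    fun z hz => ⟨(hAb _ (hwa hz)).trans hKε, hAn z hz⟩,
    fun z hz => ⟨(hBb _ (hwb hz)).trans hKε, hBn z hz⟩, ?_⟩
  rintro ⟨x, t⟩ ⟨⟨hx1, hx2⟩, ht⟩
  have hxD : x ∈ Dom c (Function.update lo k p) (Function.update hi k q) :=
    fun i => ⟨(hx2 i).1, (hx1 i).2⟩
  have e1 := hAB (w (x, t)) ⟨⟨(hwa (x := (x, t)) ⟨hx1, ht⟩).1, (hwb (x := (x, t)) ⟨hx2, ht⟩).1⟩, ht⟩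
  have e2 := hGAe (x, A (w (x, t))) ⟨hxD, mem_ball_zero_iff.2 (hAn (x, t) ⟨hx1, ht⟩)⟩
  have e3 := hGBe (x, B (w (x, t))) ⟨hxD, mem_ball_zero_iff.2 (hBn (x, t) ⟨hx2, ht⟩)⟩
  simp only [w] at e1 e2 e3 ⊢
  rw [e2, e3] at e1
  simpa using e1

end Glue24

end Crest.Agent.R279.Box
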