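import Mathlib
import Crest.Agent.R279.H777h
import Crest.Agent.R279.Defs765

/-! Row 279 (helper777). The gluing lemma in the form of helper765 (Part 4). -/

set_option autoImplicit false
open Metric Filter Set Topology

namespace Crest.Agent.R279.Box

theorem pglTarget (hP : PSLT C4) : PGLTarget := by
  intro A B hA hB hbd hsep
  obtain ⟨K0, hK0, hS⟩ := hP A B hA hB hbd hsep
  refine ⟨32 * K0 + 1, by positivity, ?_⟩
  intro m i T hT hinv ρ ε hρ hε hsmall gA gB hgA hgB hεA hεB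
  have hinv' : ∀ x ∈ T, ∀ z : ℂ, x + z • (Pi.single i (1 : ℂ) : Fin m → ℂ) ∈ T := by
    intro x hx z
    have h1 := hinv x hx (x i + z)
    have h2 : Function.update x i (x i + z) = x + z • (Pi.single i (1 : ℂ) : Fin m → ℂ) := by
      ext j
      by_cases hj : j = i
      · subst hj; simp
      · simp [Function.update_of_ne hj, Pi.single_eq_of_ne hj]
    rwa [h2] at h1
  have hSp := split_dir hS (ContinuousLinearMap.proj i : (Fin m → ℂ) →L[ℂ] ℂ) (Pi.single i 1)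
    (by simp) hT hinv'
  set ΩA : Set (Fin m → ℂ) := T ∩ (ContinuousLinearMap.proj i : (Fin m → ℂ) →L[ℂ] ℂ) ⁻¹' A
    with hΩA
  set ΩB : Set (Fin m → ℂ) := T ∩ (ContinuousLinearMap.proj i : (Fin m → ℂ) →L[ℂ] ℂ) ⁻¹' B
    with hΩB
  have hΩAo : IsOpen ΩA := hT.inter (hA.preimage (ContinuousLinearMap.continuous _))
  have hΩBo : IsOpen ΩB := hT.inter (hB.preimage (ContinuousLinearMap.continuous _))
  have hAB : ΩA ∩ ΩB = {x | x ∈ T ∧ x i ∈ A ∩ B} := by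
    ext x
    constructor
    · rintro ⟨h1, h2⟩; exact ⟨h1.1, h1.2, h2.2⟩
    · rintro ⟨h1, h2, h3⟩; exact ⟨⟨h1, h2⟩, h1, h3⟩
  have hA' : ΩA = {x | x ∈ T ∧ x i ∈ A} := rfl
  have hB' : ΩB = {x | x ∈ T ∧ x i ∈ B} := rfl
  have h32 : 32 * K0 * ε ≤ ρ := by nlinarith
  obtain ⟨α, β, hα, hβ, hαb, hβb, hαβ⟩ := PG.PGL hΩAo hΩBo hK0 hSp hρ (ε := ε) h32
    (gA := gA) (gB := gB) (by rw [hAB]; exact hgA) (by rw [hAB]; exact hgB)
    (by rw [hAB]; rintro ⟨x, t⟩ ⟨hx, ht⟩; exact hεA x hx.1 hx.2 t ht)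
    (by rw [hAB]; rintro ⟨x, t⟩ ⟨hx, ht⟩; exact hεB x hx.1 hx.2 t ht) hε
  have hKε : 4 * K0 * ε ≤ (32 * K0 + 1) * ε := by nlinarith [mul_nonneg hK0 hε]
  have hnear : ∀ (x t : C4), t ∈ ball (0 : C4) (ρ / 2) → ‖x - t‖ ≤ 4 * K0 * ε →
      x ∈ ball (0 : C4) ρ := by
    intro x t ht h
    have h1 : ‖t‖ < ρ / 2 := mem_ball_zero_iff.1 ht
    have h2 := norm_add_le t (x - t)
    have h3 : t + (x - t) = x := by abel
    rw [h3] at h2
    rw [mem_ball_zero_iff]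
    linarith
  refine ⟨α, β, hα, hβ, ?_, ?_, ?_⟩
  · intro x hx hxA t ht
    have := hαb (x, t) ⟨⟨hx, hxA⟩, ht⟩
    exact ⟨hnear _ _ ht this, this.trans hKε⟩
  · intro x hx hxB t ht
    have := hβb (x, t) ⟨⟨hx, hxB⟩, ht⟩
    exact ⟨hnear _ _ ht this, this.trans hKε⟩
  · intro x hx hxAB t ht
    exact hαβ (x, t) ⟨⟨⟨hx, hxAB.1⟩, hx, hxAB.2⟩, ht⟩

end Crest.Agent.R279.Box
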