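import Mathlib
import Crest.Agent.R279.H777i
import Crest.Agent.R279.PSL806

/-! Row 279 (helper777). The planar input from helper806; unconditional versions of E(k), S(k),
gluing on cut boxes and the gluing lemma of Part 4. -/

set_option autoImplicit false
open Metric Filter Set Topology

namespace Crest.Agent.R279.Box

variable {V : Type} [NormedAddCommGroup V] [NormedSpace ℂ V]

/-- **(1.3)** in the form used here. -/
theorem pslt [CompleteSpace V] : PSLT V := by
  intro A B hA hB hbd hsep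
  obtain ⟨χ, K, hK⟩ := PSL.exists_isSplit.{0, 0} hA hB hbd hsep
  refine ⟨K, (hK ℂ V).pos.le, ?_⟩
  intro E _ _ T hT h C hC hd hb
  have hS := hK E V
  let h' : E × ℂ → V := fun z => h (z.2, z.1)
  have hsw : Differentiable ℂ (fun z : E × ℂ => ((z.2, z.1) : ℂ × E)) :=
    differentiable_snd.prodMk differentiable_fst
  have hsw' : Differentiable ℂ (fun z : ℂ × E => ((z.2, z.1) : E × ℂ)) :=
    differentiable_snd.prodMk differentiable_fst
  have hd' : DifferentiableOn ℂ h' (T ×ˢ (A ∩ B)) :=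
    hd.comp hsw.differentiableOn fun z hz => ⟨hz.2, hz.1⟩
  have hb' : ∀ z ∈ T ×ˢ (A ∩ B), ‖h' z‖ ≤ C := fun z hz => hb _ ⟨hz.2, hz.1⟩
  refine ⟨fun z => PSL.SA χ (A ∩ B) h' (z.2, z.1), fun z => PSL.SB χ (A ∩ B) h' (z.2, z.1),
    ?_, ?_, ?_, ?_, ?_⟩
  · exact (hS.diffA T h' C hT hd' hb').comp hsw'.differentiableOn fun z hz => ⟨hz.2, hz.1⟩
  · exact (hS.diffB T h' C hT hd' hb').comp hsw'.differentiableOn fun z hz => ⟨hz.2, hz.1⟩
  · intro z hz
    exact hS.boundA T h' C hT hd' hb' hC (z.2, z.1) ⟨hz.2, hz.1⟩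
  · intro z hz
    exact hS.boundB T h' C hT hd' hb' hC (z.2, z.1) ⟨hz.2, hz.1⟩
  · intro z _
    exact (hS.split h' (z.2, z.1)).symm

/-- **E(k)**, unconditional. -/
theorem eprop [CompleteSpace V] {α β : Type} [Fintype α] [Fintype β]
    (c : β → (α → ℂ) →L[ℂ] ℂ) : EProp V c := EProp_all pslt β α c

/-- **S(k)**, unconditional. -/
theorem sprop [CompleteSpace V] {α β : Type} [Fintype α] [Fintype β] [DecidableEq α]
    [DecidableEq β] (c : β → (α → ℂ) →L[ℂ] ℂ) : SProp V c := SProp_all pslt c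

/-- **PGL** in the form of Part 4, unconditional. -/
theorem pglTarget' : PGLTarget := pglTarget pslt

end Crest.Agent.R279.Box
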