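import Mathlib
import Crest.Prelude.Def_ProjHolo
import Crest.Agent.R279.Merge250

/-!
# R279, Part 2 applications: logarithm, lifting (2.1), Bezout (2.2)
-/

set_option autoImplicit false

open Set Filter Topology

namespace Crest.Agent.R279.Merge

/-- gluing of two germs -/
theorem glue_germ {X F : Type*} [TopologicalSpace X] [T2Space X] {K1 K2 V1 V2 N : Set X}
    (hK1 : IsCompact K1) (hK2 : IsCompact K2) (hV1 : IsOpen V1) (hV2 : IsOpen V2)
    (hN : IsOpen N) (h1 : K1 ⊆ V1) (h2 : K2 ⊆ V2) (h12 : K1 ∩ K2 ⊆ N) {g1 g2 : X → F}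
    (heq : ∀ x ∈ N, x ∈ V1 → x ∈ V2 → g1 x = g2 x) :
    ∃ (M1 M2 : Set X) (g : X → F), IsOpen M1 ∧ IsOpen M2 ∧ K1 ⊆ M1 ∧ K2 ⊆ M2 ∧ M1 ⊆ V1 ∧
      M2 ⊆ V2 ∧ (∀ x ∈ M1, g x = g1 x) ∧ (∀ x ∈ M2, g x = g2 x) := by
  classical
  obtain ⟨M1, M2, hM1, hM2, hk1, hk2, hs1, hs2, hs⟩ :=
    exists_shrink hK1 hK2 hV1 hV2 hN h1 h2 h12
  refine ⟨M1, M2, fun x => if x ∈ M1 then g1 x else g2 x, hM1, hM2, hk1, hk2, hs1, hs2, ?_, ?_⟩
  · intro x hx
    simp [hx]
  · intro x hx
    by_cases hx1 : x ∈ M1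
    · simp only [hx1, if_true]
      exact heq x (hs ⟨hx1, hx⟩) (hs1 hx1) (hs2 hx)
    · simp [hx1]

section
variable {E F : Type*} [NormedAddCommGroup E] [NormedSpace ℂ E] [NormedAddCommGroup F]
  [NormedSpace ℂ F]

theorem differentiableOn_union {M1 M2 : Set E} (hM1 : IsOpen M1) (hM2 : IsOpen M2)
    {g g1 g2 : E → F} (h1 : DifferentiableOn ℂ g1 M1) (h2 : DifferentiableOn ℂ g2 M2)
    (e1 : ∀ x ∈ M1, g x = g1 x) (e2 : ∀ x ∈ M2, g x = g2 x) :
    DifferentiableOn ℂ g (M1 ∪ M2) := by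
  rintro x (hx | hx)
  · refine DifferentiableAt.differentiableWithinAt ?_
    refine ((h1 x hx).differentiableAt (hM1.mem_nhds hx)).congr_of_eventuallyEq ?_
    filter_upwards [hM1.mem_nhds hx] with y hy using e1 y hy
  · refine DifferentiableAt.differentiableWithinAt ?_
    refine ((h2 x hx).differentiableAt (hM2.mem_nhds hx)).congr_of_eventuallyEq ?_
    filter_upwards [hM2.mem_nhds hx] with y hy using e2 y hy

end

/-- the two halves of a coordinate cut -/
theorem cut_union {n : ℕ} (K : Set (Fin n → ℂ)) (i : Fin n ⊕ Fin n) (s : ℝ) :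
    K ⊆ (K ∩ {x | cutF i x ≤ s}) ∪ (K ∩ {x | s ≤ cutF i x}) := by
  intro x hx
  rcases le_total (cutF i x) s with h | h
  · exact Or.inl ⟨hx, h⟩
  · exact Or.inr ⟨hx, h⟩

theorem cut_inter {n : ℕ} (K : Set (Fin n → ℂ)) (i : Fin n ⊕ Fin n) (s : ℝ) :
    (K ∩ {x | cutF i x ≤ s}) ∩ (K ∩ {x | s ≤ cutF i x}) = K ∩ {x | cutF i x = s} := by
  ext x
  constructor
  · rintro ⟨⟨h1, h2⟩, ⟨-, h3⟩⟩
    exact ⟨h1, le_antisymm h2 h3⟩
  · rintro ⟨h1, h2⟩
    have h2' : cutF i x = s := h2
    exact ⟨⟨h1, h2'.le⟩, ⟨h1, h2'.ge⟩⟩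

theorem cut_eq_convex {n : ℕ} {K : Set (Fin n → ℂ)} (hK : Convex ℝ K) (i : Fin n ⊕ Fin n)
    (s : ℝ) : Convex ℝ (K ∩ {x | cutF i x = s}) := by
  rw [← cut_inter]
  exact (hK.inter (convex_le i s)).inter (hK.inter (convex_ge i s))

theorem cut_eq_compact {n : ℕ} {K : Set (Fin n → ℂ)} (hK : IsCompact K) (i : Fin n ⊕ Fin n)
    (s : ℝ) : IsCompact (K ∩ {x | cutF i x = s}) := by
  rw [← cut_inter]
  exact (hK.inter_right (isClosed_cut_le i s)).inter (hK.inter_right (isClosed_cut_ge i s))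

/-- convex open neighbourhoods of compact convex sets -/
theorem exists_convex_nhd {E : Type*} [NormedAddCommGroup E] [NormedSpace ℝ E] {K V : Set E}
    (hK : IsCompact K) (hKc : Convex ℝ K) (hV : IsOpen V) (hKV : K ⊆ V) :
    ∃ W : Set E, IsOpen W ∧ Convex ℝ W ∧ K ⊆ W ∧ W ⊆ V := by
  obtain ⟨δ, hδ, hδV⟩ := hK.exists_thickening_subset_open hV hKV
  exact ⟨Metric.thickening δ K, Metric.isOpen_thickening, hKc.thickening δ,
    Metric.self_subset_thickening hδ K, hδV⟩

/-- **Logarithms** of nonvanishing holomorphic functions near compact convex sets. -/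
theorem exists_log {n : ℕ} {K V : Set (Fin n → ℂ)} (hK : IsCompact K) (hKc : Convex ℝ K)
    (hV : IsOpen V) (hKV : K ⊆ V) {u : (Fin n → ℂ) → ℂ} (hu : DifferentiableOn ℂ u V)
    (hu0 : ∀ x ∈ V, u x ≠ 0) :
    ∃ (W : Set (Fin n → ℂ)) (φ : (Fin n → ℂ) → ℂ), IsOpen W ∧ K ⊆ W ∧ W ⊆ V ∧
      DifferentiableOn ℂ φ W ∧ ∀ x ∈ W, Complex.exp (φ x) = u x := by
  refine merging (P := fun K' => ∃ (W : Set (Fin n → ℂ)) (φ : (Fin n → ℂ) → ℂ), IsOpen W ∧
    K' ⊆ W ∧ W ⊆ V ∧ DifferentiableOn ℂ φ W ∧ ∀ x ∈ W, Complex.exp (φ x) = u x) hK hKc ?_ ?_ ?_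
  · exact ⟨∅, fun _ => 0, isOpen_empty, Subset.rfl, empty_subset _, by simp, by simp⟩
  · intro x hx
    have hxV := hKV hx
    have hc : ContinuousAt u x := (hu.continuousOn x hxV).continuousAt (hV.mem_nhds hxV)
    have hux := hu0 x hxV
    -- the set where `u / u x` is in the slit plane
    have hc' : ContinuousAt (fun y => u y / u x) x := hc.div_const _
    have hmem : ∀ᶠ y in 𝓝 x, u y / u x ∈ Complex.slitPlane := by
      apply hc'.eventually_mem
      apply Complex.isOpen_slitPlane.mem_nhds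
      simp [hux]
    obtain ⟨W, hWs, hWo, hxW⟩ := mem_nhds_iff.1 (Filter.inter_mem hmem (hV.mem_nhds hxV))
    refine ⟨W, hWo.mem_nhds hxW, fun K' _ hK'W _ _ =>
      ⟨W, fun y => Complex.log (u y / u x) + Complex.log (u x), hWo, hK'W,
        fun y hy => (hWs hy).2, ?_, ?_⟩⟩
    · intro y hy
      have h1 : DifferentiableAt ℂ u y := (hu y (hWs hy).2).differentiableAt
        (hV.mem_nhds (hWs hy).2)
      have h2 : u y / u x ∈ Complex.slitPlane := (hWs hy).1
      have h3 : DifferentiableAt ℂ (fun y => u y / u x) y := by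
        simpa only [div_eq_mul_inv] using h1.mul_const (u x)⁻¹
      exact ((h3.clog h2).add_const _).differentiableWithinAt
    · intro y hy
      have h1 := hu0 y (hWs hy).2
      rw [Complex.exp_add, Complex.exp_log (div_ne_zero h1 hux), Complex.exp_log hux]
      field_simp
  · rintro K' - hK'c hK'v i s ⟨W1, φ1, hW1, hK1, hs1, hd1, he1⟩ ⟨W2, φ2, hW2, hK2, hs2, hd2, he2⟩
    have hc1 := hK'c.inter_right (isClosed_cut_le i s)
    have hc2 := hK'c.inter_right (isClosed_cut_ge i s)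
    have h12 : K' ∩ {x | cutF i x = s} ⊆ W1 ∩ W2 := by
      rw [← cut_inter]
      exact fun x hx => ⟨hK1 hx.1, hK2 hx.2⟩
    obtain ⟨W, hWo, hWc, hKW, hWs⟩ := exists_convex_nhd (cut_eq_compact hK'c i s)
      (cut_eq_convex hK'v i s) (hW1.inter hW2) h12
    -- `φ1 - φ2` is constant on `W`
    obtain ⟨c, hc⟩ : ∃ c : ℂ, ∀ x ∈ W, φ1 x = φ2 x + c ∧ Complex.exp c = 1 := by
      rcases W.eq_empty_or_nonempty with hWe | ⟨x0, hx0⟩
      · exact ⟨0, by simp [hWe]⟩
      · have hpre : IsPreconnected W := hWc.isPreconnected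
        -- the function (φ1 - φ2) / (2 π i) takes integer values
        have hint : ∀ x ∈ W, ∃ k : ℤ, φ1 x = φ2 x + k * (2 * Real.pi * Complex.I) := by
          intro x hx
          have h1 := he1 x (hWs hx).1
          have h2 := he2 x (hWs hx).2
          exact Complex.exp_eq_exp_iff_exists_int.1 (h1.trans h2.symm)
        have hcont : ContinuousOn (fun x => φ1 x - φ2 x) W :=
          (hd1.continuousOn.mono fun x hx => (hWs hx).1).sub
            (hd2.continuousOn.mono fun x hx => (hWs hx).2)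
        have hd : ∀ x ∈ W, φ1 x - φ2 x = φ1 x0 - φ2 x0 := by
          intro x hx
          -- use real valued function im / (2π)
          have hcont2 : ContinuousOn (fun x => (φ1 x - φ2 x).im / (2 * Real.pi)) W :=
            (Complex.continuous_im.comp_continuousOn hcont).div_const _
          have hval : ∀ x ∈ W, ∃ k : ℤ, (φ1 x - φ2 x).im / (2 * Real.pi) = k ∧
              φ1 x - φ2 x = k * (2 * Real.pi * Complex.I) := by
            intro x hx
            obtain ⟨k, hk⟩ := hint x hx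
            refine ⟨k, ?_, by rw [hk]; ring⟩
            have : φ1 x - φ2 x = k * (2 * Real.pi * Complex.I) := by rw [hk]; ring
            rw [this]
            have h3 : ((k : ℂ) * (2 * Real.pi * Complex.I)).im = k * (2 * Real.pi) := by
              simp
            rw [h3]
            have := Real.pi_pos
            field_simp
          have key : (φ1 x - φ2 x).im / (2 * Real.pi) = (φ1 x0 - φ2 x0).im / (2 * Real.pi) := by
            have himg : IsPreconnected ((fun x => (φ1 x - φ2 x).im / (2 * Real.pi)) '' W) :=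
              hpre.image _ hcont2
            have hsub : ((fun x => (φ1 x - φ2 x).im / (2 * Real.pi)) '' W) ⊆
                Set.range ((↑) : ℤ → ℝ) := by
              rintro _ ⟨y, hy, rfl⟩
              obtain ⟨k, hk, -⟩ := hval y hy
              exact ⟨k, hk.symm⟩
            have htd : IsTotallyDisconnected (Set.range ((↑) : ℤ → ℝ)) :=
              (Set.countable_range _).isTotallyDisconnected
            exact htd _ hsub himg (mem_image_of_mem _ hx) (mem_image_of_mem _ hx0)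
          obtain ⟨k, hk1, hk2⟩ := hval x hx
          obtain ⟨l, hl1, hl2⟩ := hval x0 hx0
          rw [hk2, hl2]
          have : (k : ℝ) = l := by rw [← hk1, ← hl1, key]
          have : k = l := by exact_mod_cast this
          rw [this]
        refine ⟨φ1 x0 - φ2 x0, fun x hx => ⟨by rw [← hd x hx]; ring, ?_⟩⟩
        obtain ⟨k, hk⟩ := hint x0 hx0
        have : φ1 x0 - φ2 x0 = k * (2 * Real.pi * Complex.I) := by rw [hk]; ring
        rw [this, Complex.exp_int_mul_two_pi_mul_I]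
    by_cases hWe : W = ∅
    · -- the two halves are disjoint
      obtain ⟨M1, M2, g, hM1, hM2, hk1, hk2, ht1, ht2, hg1, hg2⟩ := glue_germ hc1 hc2 hW1 hW2
        isOpen_empty hK1 hK2 (by rw [cut_inter]; rw [hWe] at hKW; exact hKW)
        (g1 := φ1) (g2 := φ2) (by simp)
      refine ⟨M1 ∪ M2, g, hM1.union hM2, (cut_union K' i s).trans (union_subset_union hk1 hk2),
        union_subset (ht1.trans hs1) (ht2.trans hs2), differentiableOn_union hM1 hM2
          (hd1.mono ht1) (hd2.mono ht2) hg1 hg2, ?_⟩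
      rintro x (hx | hx)
      · rw [hg1 x hx]; exact he1 x (ht1 hx)
      · rw [hg2 x hx]; exact he2 x (ht2 hx)
    · obtain ⟨x0, hx0⟩ := nonempty_iff_ne_empty.2 hWe
      obtain ⟨M1, M2, g, hM1, hM2, hk1, hk2, ht1, ht2, hg1, hg2⟩ := glue_germ hc1 hc2 hW1 hW2
        hWo hK1 hK2 (by rw [cut_inter]; exact hKW)
        (g1 := φ1) (g2 := fun x => φ2 x + c) (fun x hx _ _ => (hc x hx).1)
      refine ⟨M1 ∪ M2, g, hM1.union hM2, (cut_union K' i s).trans (union_subset_union hk1 hk2),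
        union_subset (ht1.trans hs1) (ht2.trans hs2), differentiableOn_union hM1 hM2
          (hd1.mono ht1) ((hd2.mono ht2).add_const c) hg1 hg2, ?_⟩
      rintro x (hx | hx)
      · rw [hg1 x hx]; exact he1 x (ht1 hx)
      · rw [hg2 x hx, Complex.exp_add, (hc x0 hx0).2, mul_one]; exact he2 x (ht2 hx)


/-- vector valued splitting -/
theorem split_pi {n : ℕ} (hS : SplitProp n) {J : Type*} [Fintype J] {K : Set (Fin n → ℂ)}
    (hK : IsCompact K) (hKc : Convex ℝ K) (i : Fin n ⊕ Fin n) (s : ℝ) {N : Set (Fin n → ℂ)}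
    {h : (Fin n → ℂ) → J → ℂ} (hN : IsOpen N) (hKN : K ∩ {x | cutF i x = s} ⊆ N)
    (hh : DifferentiableOn ℂ h N) :
    ∃ (M1 M2 : Set (Fin n → ℂ)) (h1 h2 : (Fin n → ℂ) → J → ℂ), IsOpen M1 ∧ IsOpen M2 ∧
      K ∩ {x | cutF i x ≤ s} ⊆ M1 ∧ K ∩ {x | s ≤ cutF i x} ⊆ M2 ∧
      DifferentiableOn ℂ h1 M1 ∧ DifferentiableOn ℂ h2 M2 ∧
      ∀ x ∈ M1 ∩ M2, x ∈ N ∧ h x = h1 x - h2 x := by
  classical
  rcases isEmpty_or_nonempty J with hJ | hJ
  · -- no component: use the zero function for the neighbourhoods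
    obtain ⟨M1, M2, h1, h2, hM1, hM2, hk1, hk2, -, -, hx⟩ :=
      hS K hK hKc i s N (fun _ => 0) hN hKN (differentiableOn_const _)
    exact ⟨M1, M2, fun _ _ => 0, fun _ _ => 0, hM1, hM2, hk1, hk2, differentiableOn_const _,
      differentiableOn_const _, fun x hx' => ⟨(hx x hx').1, Subsingleton.elim _ _⟩⟩
  · have hj : ∀ j : J, DifferentiableOn ℂ (fun x => h x j) N := fun j =>
      (differentiableOn_pi.1 hh) j
    choose M1 M2 h1 h2 hM1 hM2 hk1 hk2 hd1 hd2 he using
      fun j => hS K hK hKc i s N (fun x => h x j) hN hKN (hj j)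
    refine ⟨⋂ j, M1 j, ⋂ j, M2 j, fun x j => h1 j x, fun x j => h2 j x,
      isOpen_iInter_of_finite hM1, isOpen_iInter_of_finite hM2,
      subset_iInter hk1, subset_iInter hk2, ?_, ?_, ?_⟩
    · exact differentiableOn_pi.2 fun j => (hd1 j).mono (iInter_subset _ j)
    · exact differentiableOn_pi.2 fun j => (hd2 j).mono (iInter_subset _ j)
    · rintro x ⟨hx1, hx2⟩
      rw [mem_iInter] at hx1 hx2
      refine ⟨(he (Classical.arbitrary J) x ⟨hx1 _, hx2 _⟩).1, ?_⟩
      funext j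
      exact (he j x ⟨hx1 _, hx2 _⟩).2

/-- **(2.1) Global lifting** near a compact convex set. -/
theorem lifting {m n : ℕ} (hS : SplitProp m) {K U : Set (Fin m → ℂ)} (hK : IsCompact K)
    (hKc : Convex ℝ K) (hKU : K ⊆ U)
    {f : (Fin m → ℂ) → Projectivization ℂ (Fin n → ℂ)}
    (hf : Crest.AlgGeometry.ProjHolomorphicOn f U) :
    ∃ (V : Set (Fin m → ℂ)) (g : (Fin m → ℂ) → (Fin n → ℂ)), IsOpen V ∧ K ⊆ V ∧
      DifferentiableOn ℂ g V ∧ ∀ w ∈ V, ∃ h : g w ≠ 0, f w = Projectivization.mk ℂ (g w) h := by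
  refine merging (P := fun K' => ∃ (V : Set (Fin m → ℂ)) (g : (Fin m → ℂ) → (Fin n → ℂ)),
      IsOpen V ∧ K' ⊆ V ∧ DifferentiableOn ℂ g V ∧
      ∀ w ∈ V, ∃ h : g w ≠ 0, f w = Projectivization.mk ℂ (g w) h) hK hKc ?_ ?_ ?_
  · exact ⟨∅, fun _ _ => 0, isOpen_empty, Subset.rfl, by simp, by simp⟩
  · intro x hx
    obtain ⟨V, hV, hxV, g, hg, hgf⟩ := hf x (hKU hx)
    exact ⟨V, hV.mem_nhds hxV, fun K' _ hK'V _ _ => ⟨V, g, hV, hK'V, hg, hgf⟩⟩
  · rintro K' - hK'c hK'v i s ⟨V1, g1, hV1, hK1, hd1, he1⟩ ⟨V2, g2, hV2, hK2, hd2, he2⟩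
    have hc1 := hK'c.inter_right (isClosed_cut_le i s)
    have hc2 := hK'c.inter_right (isClosed_cut_ge i s)
    have h12 : K' ∩ {x | cutF i x = s} ⊆ V1 ∩ V2 := by
      rw [← cut_inter]
      exact fun x hx => ⟨hK1 hx.1, hK2 hx.2⟩
    -- the quotient of the two lifts
    have hq : ∀ x, ∃ u : ℂ, x ∈ V1 ∩ V2 → u ≠ 0 ∧ g1 x = u • g2 x := by
      intro x
      by_cases hx : x ∈ V1 ∩ V2
      · obtain ⟨a, ha⟩ := he1 x hx.1
        obtain ⟨b, hb⟩ := he2 x hx.2
        obtain ⟨u, hu⟩ := (Projectivization.mk_eq_mk_iff ℂ _ _ a b).1 (ha.symm.trans hb)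
        exact ⟨u, fun _ => ⟨u.ne_zero, hu.symm⟩⟩
      · exact ⟨0, fun h => absurd h hx⟩
    choose u hu using hq
    have hud : DifferentiableOn ℂ u (V1 ∩ V2) := by
      intro x hx
      obtain ⟨b, -⟩ := he2 x hx.2
      obtain ⟨j, hj⟩ := Function.ne_iff.1 b
      have hj : g2 x j ≠ 0 := hj
      have hD1 : DifferentiableAt ℂ (fun y => g1 y j) x :=
        differentiableAt_pi.1 ((hd1 x hx.1).differentiableAt (hV1.mem_nhds hx.1)) j
      have hD2 : DifferentiableAt ℂ (fun y => g2 y j) x :=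
        differentiableAt_pi.1 ((hd2 x hx.2).differentiableAt (hV2.mem_nhds hx.2)) j
      refine DifferentiableAt.differentiableWithinAt ?_
      refine (hD1.fun_mul (hD2.fun_inv hj)).congr_of_eventuallyEq ?_
      have hne : ∀ᶠ y in 𝓝 x, g2 y j ≠ 0 := hD2.continuousAt.eventually_ne hj
      filter_upwards [hne, (hV1.inter hV2).mem_nhds hx] with y hy hyV
      have := (hu y hyV).2
      rw [this]
      simp only [Pi.smul_apply, smul_eq_mul]
      field_simp
    obtain ⟨W, φ, hW, hKW, hWs, hφ, hφe⟩ := exists_log (cut_eq_compact hK'c i s)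
      (cut_eq_convex hK'v i s) (hV1.inter hV2) h12 hud (fun x hx => (hu x hx).1)
    obtain ⟨M1, M2, φ1, φ2, hM1, hM2, hk1, hk2, hp1, hp2, hsp⟩ :=
      hS K' hK'c hK'v i s W φ hW hKW hφ
    -- new lifts
    obtain ⟨L1, L2, g, hL1, hL2, hl1, hl2, ht1, ht2, hg1, hg2⟩ := glue_germ hc1 hc2
      (hV1.inter hM1) (hV2.inter hM2) isOpen_univ (subset_inter hK1 hk1) (subset_inter hK2 hk2)
      (subset_univ _) (g1 := fun x => Complex.exp (-φ1 x) • g1 x)
      (g2 := fun x => Complex.exp (-φ2 x) • g2 x) (by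
        intro x _ hx1 hx2
        obtain ⟨hxW, hφx⟩ := hsp x ⟨hx1.2, hx2.2⟩
        have h1 := (hu x ⟨hx1.1, hx2.1⟩).2
        rw [← hφe x hxW] at h1
        rw [h1, smul_smul, ← Complex.exp_add, hφx]
        congr 2
        ring)
    refine ⟨L1 ∪ L2, g, hL1.union hL2, (cut_union K' i s).trans (union_subset_union hl1 hl2),
      differentiableOn_union hL1 hL2 ?_ ?_ hg1 hg2, ?_⟩
    · exact ((hp1.mono fun x hx => (ht1 hx).2).neg.cexp).smul
        (hd1.mono fun x hx => (ht1 hx).1)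
    · exact ((hp2.mono fun x hx => (ht2 hx).2).neg.cexp).smul
        (hd2.mono fun x hx => (ht2 hx).1)
    · rintro x (hx | hx)
      · obtain ⟨a, ha⟩ := he1 x (ht1 hx).1
        have hne : g x ≠ 0 := by
          rw [hg1 x hx]
          exact smul_ne_zero (Complex.exp_ne_zero _) a
        refine ⟨hne, ?_⟩
        rw [ha, Projectivization.mk_eq_mk_iff']
        refine ⟨Complex.exp (φ1 x), ?_⟩
        rw [hg1 x hx, smul_smul, ← Complex.exp_add]
        simp
      · obtain ⟨a, ha⟩ := he2 x (ht2 hx).1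
        have hne : g x ≠ 0 := by
          rw [hg2 x hx]
          exact smul_ne_zero (Complex.exp_ne_zero _) a
        refine ⟨hne, ?_⟩
        rw [ha, Projectivization.mk_eq_mk_iff']
        refine ⟨Complex.exp (φ2 x), ?_⟩
        rw [hg2 x hx, smul_smul, ← Complex.exp_add]
        simp

/-- (2.1) in the form used by the final reduction: the neighbourhood is inside `U`. -/
theorem lifting' {m n : ℕ} (hS : SplitProp m) {K U : Set (Fin m → ℂ)} (hK : IsCompact K)
    (hKc : Convex ℝ K) (hU : IsOpen U) (hKU : K ⊆ U)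
    {f : (Fin m → ℂ) → Projectivization ℂ (Fin n → ℂ)}
    (hf : Crest.AlgGeometry.ProjHolomorphicOn f U) :
    ∃ (W : Set (Fin m → ℂ)) (g : (Fin m → ℂ) → (Fin n → ℂ)), IsOpen W ∧ K ⊆ W ∧ W ⊆ U ∧
      DifferentiableOn ℂ g W ∧ ∀ w ∈ W, ∃ h : g w ≠ 0, f w = Projectivization.mk ℂ (g w) h := by
  obtain ⟨V, g, hV, hKV, hg, hgf⟩ := lifting hS hK hKc hKU hf
  exact ⟨V ∩ U, g, hV.inter hU, subset_inter hKV hKU, inter_subset_right,
    hg.mono inter_subset_left, fun w hw => hgf w hw.1⟩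

/-- **(2.2) Bezout** near a compact convex set: holomorphic functions without common zeros
generate the unit ideal. -/
theorem bezout {n : ℕ} (hS : SplitProp n) {J : Type*} [Fintype J] {K U : Set (Fin n → ℂ)}
    (hK : IsCompact K) (hKc : Convex ℝ K) (hU : IsOpen U) (hKU : K ⊆ U)
    {w : (Fin n → ℂ) → J → ℂ} (hw : DifferentiableOn ℂ w U) (hw0 : ∀ x ∈ U, w x ≠ 0) :
    ∃ (V : Set (Fin n → ℂ)) (h : (Fin n → ℂ) → J → ℂ), IsOpen V ∧ K ⊆ V ∧ V ⊆ U ∧
      DifferentiableOn ℂ h V ∧ ∀ x ∈ V, ∑ j, w x j * h x j = 1 := by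
  classical
  refine merging (P := fun K' => ∃ (V : Set (Fin n → ℂ)) (h : (Fin n → ℂ) → J → ℂ), IsOpen V ∧
      K' ⊆ V ∧ V ⊆ U ∧ DifferentiableOn ℂ h V ∧ ∀ x ∈ V, ∑ j, w x j * h x j = 1)
      hK hKc ?_ ?_ ?_
  · exact ⟨∅, fun _ _ => 0, isOpen_empty, Subset.rfl, empty_subset _, by simp, by simp⟩
  · intro x hx
    have hxU := hKU hx
    obtain ⟨j, hj⟩ := Function.ne_iff.1 (hw0 x hxU)
    have hj : w x j ≠ 0 := hj
    have hD : ∀ j, DifferentiableAt ℂ (fun y => w y j) x := fun j =>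
      differentiableAt_pi.1 ((hw x hxU).differentiableAt (hU.mem_nhds hxU)) j
    have hne : ∀ᶠ y in 𝓝 x, w y j ≠ 0 := (hD j).continuousAt.eventually_ne hj
    obtain ⟨W, hWs, hWo, hxW⟩ := mem_nhds_iff.1 (Filter.inter_mem hne (hU.mem_nhds hxU))
    refine ⟨W, hWo.mem_nhds hxW, fun K' _ hK'W _ _ =>
      ⟨W, fun y => Pi.single j (w y j)⁻¹, hWo, hK'W, fun y hy => (hWs hy).2, ?_, ?_⟩⟩
    · intro y hy
      have hy1 : w y j ≠ 0 := (hWs hy).1
      refine DifferentiableAt.differentiableWithinAt (differentiableAt_pi.2 fun l => ?_)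
      by_cases hl : l = j
      · subst hl
        simp only [Pi.single_eq_same]
        exact (differentiableAt_pi.1 ((hw y (hWs hy).2).differentiableAt
          (hU.mem_nhds (hWs hy).2)) l).inv hy1
      · simp only [Pi.single_eq_of_ne hl]
        exact differentiableAt_const _
    · intro y hy
      have hy1 : w y j ≠ 0 := (hWs hy).1
      show ∑ l, w y l * (Pi.single j (w y j)⁻¹ : J → ℂ) l = 1
      rw [Finset.sum_eq_single j]
      · rw [Pi.single_eq_same, mul_inv_cancel₀ hy1]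
      · intro l _ hl
        rw [Pi.single_eq_of_ne hl, mul_zero]
      · simp
  · rintro K' - hK'c hK'v i s ⟨V1, h1, hV1, hK1, hs1, hd1, he1⟩
      ⟨V2, h2, hV2, hK2, hs2, hd2, he2⟩
    have hc1 := hK'c.inter_right (isClosed_cut_le i s)
    have hc2 := hK'c.inter_right (isClosed_cut_ge i s)
    have h12 : K' ∩ {x | cutF i x = s} ⊆ V1 ∩ V2 := by
      rw [← cut_inter]
      exact fun x hx => ⟨hK1 hx.1, hK2 hx.2⟩
    -- antisymmetric matrix
    let b : (Fin n → ℂ) → (J × J) → ℂ := fun x p =>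
      (h2 x p.1 - h1 x p.1) * h1 x p.2 - (h2 x p.2 - h1 x p.2) * h1 x p.1
    have hc : ∀ j, DifferentiableOn ℂ (fun x => h1 x j) (V1 ∩ V2) := fun j =>
      (differentiableOn_pi.1 hd1 j).mono inter_subset_left
    have hc' : ∀ j, DifferentiableOn ℂ (fun x => h2 x j) (V1 ∩ V2) := fun j =>
      (differentiableOn_pi.1 hd2 j).mono inter_subset_right
    have hb : DifferentiableOn ℂ b (V1 ∩ V2) := by
      refine differentiableOn_pi.2 fun p => ?_
      exact (((hc' p.1).sub (hc p.1)).mul (hc p.2)).sub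
        (((hc' p.2).sub (hc p.2)).mul (hc p.1))
    obtain ⟨M1, M2, b1, b2, hM1, hM2, hk1, hk2, hb1, hb2, hsp⟩ :=
      split_pi hS hK'c hK'v i s (hV1.inter hV2) h12 hb
    have hbc1 : ∀ p, DifferentiableOn ℂ (fun x => b1 x p) M1 := differentiableOn_pi.1 hb1
    have hbc2 : ∀ p, DifferentiableOn ℂ (fun x => b2 x p) M2 := differentiableOn_pi.1 hb2
    have hwc : ∀ j, DifferentiableOn ℂ (fun x => w x j) U := differentiableOn_pi.1 hw
    obtain ⟨L1, L2, g, hL1, hL2, hl1, hl2, ht1, ht2, hg1, hg2⟩ := glue_germ hc1 hc2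
      (hV1.inter hM1) (hV2.inter hM2) isOpen_univ (subset_inter hK1 hk1) (subset_inter hK2 hk2)
      (subset_univ _)
      (g1 := fun x j => h1 x j + ∑ l, (b1 x (j, l) - b1 x (l, j)) / 2 * w x l)
      (g2 := fun x j => h2 x j + ∑ l, (b2 x (j, l) - b2 x (l, j)) / 2 * w x l) (by
        intro x _ hx1 hx2
        obtain ⟨-, hbx⟩ := hsp x ⟨hx1.2, hx2.2⟩
        have e1 := he1 x hx1.1
        have e2 := he2 x hx2.1
        funext j
        have hkey : ∑ l, b x (j, l) * w x l = h2 x j - h1 x j := by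
          have : ∀ l, b x (j, l) * w x l = (h2 x j - h1 x j) * (w x l * h1 x l) -
              h1 x j * (w x l * h2 x l) + h1 x j * (w x l * h1 x l) := by
            intro l
            simp only [b]
            ring
          simp only [this]
          rw [Finset.sum_add_distrib, Finset.sum_sub_distrib, ← Finset.mul_sum,
            ← Finset.mul_sum, ← Finset.mul_sum, e1, e2]
          ring
        have hanti : ∀ l, b x (l, j) = - b x (j, l) := by
          intro l
          simp only [b]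
          ring
        have h3 : ∀ l, (b1 x (j, l) - b1 x (l, j)) / 2 * w x l =
            (b2 x (j, l) - b2 x (l, j)) / 2 * w x l + b x (j, l) * w x l := by
          intro l
          have a1 : b x (j, l) = b1 x (j, l) - b2 x (j, l) := congrFun hbx (j, l)
          have a2 : b x (l, j) = b1 x (l, j) - b2 x (l, j) := congrFun hbx (l, j)
          have a3 := hanti l
          have a4 : b x (j, l) = (b x (j, l) - b x (l, j)) / 2 := by rw [a3]; ring
          rw [a4, a1, a2]
          ring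
        simp only [h3]
        rw [Finset.sum_add_distrib, hkey]
        ring)
    refine ⟨L1 ∪ L2, g, hL1.union hL2, (cut_union K' i s).trans (union_subset_union hl1 hl2),
      union_subset (fun x hx => hs1 (ht1 hx).1) (fun x hx => hs2 (ht2 hx).1),
      differentiableOn_union hL1 hL2 ?_ ?_ hg1 hg2, ?_⟩
    · refine differentiableOn_pi.2 fun j => ?_
      refine ((differentiableOn_pi.1 hd1 j).mono fun x hx => (ht1 hx).1).add ?_
      refine DifferentiableOn.fun_sum fun l _ => ?_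
      refine DifferentiableOn.mul ?_ ((hwc l).mono fun x hx => hs1 (ht1 hx).1)
      simp only [div_eq_mul_inv]
      exact (((hbc1 (j, l)).fun_sub (hbc1 (l, j))).mul_const (2 : ℂ)⁻¹).mono
        fun x hx => (ht1 hx).2
    · refine differentiableOn_pi.2 fun j => ?_
      refine ((differentiableOn_pi.1 hd2 j).mono fun x hx => (ht2 hx).1).add ?_
      refine DifferentiableOn.fun_sum fun l _ => ?_
      refine DifferentiableOn.mul ?_ ((hwc l).mono fun x hx => hs2 (ht2 hx).1)
      simp only [div_eq_mul_inv]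
      exact (((hbc2 (j, l)).fun_sub (hbc2 (l, j))).mul_const (2 : ℂ)⁻¹).mono
        fun x hx => (ht2 hx).2
    · have hz : ∀ (c : (J × J) → ℂ) (v : J → ℂ),
          ∑ j, v j * ∑ l, (c (j, l) - c (l, j)) / 2 * v l = 0 := by
        intro c v
        have h0 : ∑ j, v j * ∑ l, (c (j, l) - c (l, j)) / 2 * v l =
            ∑ j, ∑ l, (c (j, l) - c (l, j)) / 2 * (v j * v l) := by
          refine Finset.sum_congr rfl fun j _ => ?_
          rw [Finset.mul_sum]
          exact Finset.sum_congr rfl fun l _ => by ring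
        have h1 : ∑ j, ∑ l, (c (j, l) - c (l, j)) / 2 * (v j * v l) =
            - ∑ j, ∑ l, (c (j, l) - c (l, j)) / 2 * (v j * v l) := by
          conv_lhs => rw [Finset.sum_comm]
          rw [← Finset.sum_neg_distrib]
          refine Finset.sum_congr rfl fun j _ => ?_
          rw [← Finset.sum_neg_distrib]
          exact Finset.sum_congr rfl fun l _ => by ring
        rw [h0]
        have h2 := self_eq_neg.1 h1
        exact h2
      rintro x (hx | hx)
      · rw [hg1 x hx]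
        simp only [mul_add, Finset.sum_add_distrib]
        rw [he1 x (ht1 hx).1, hz (b1 x) (w x), add_zero]
      · rw [hg2 x hx]
        simp only [mul_add, Finset.sum_add_distrib]
        rw [he2 x (ht2 hx).1, hz (b2 x) (w x), add_zero]

end Crest.Agent.R279.Merge
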