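import Mathlib
import Crest.Agent.R279.Root477

/-!
# R279, Part 3: sprays over maps into the cone `{q = 0} \ {0}` (helper477)

`IsSpray q D f r C s`, `exists_spray`; right inverses / transitions `exists_transition`.
-/

set_option autoImplicit false

namespace Crest.Agent.R279.Spray

open Metric Filter Topology

variable {E V : Type*} [NormedAddCommGroup E] [NormedSpace ℂ E]
  [NormedAddCommGroup V] [NormedSpace ℂ V]

/-- a spray over `f : D → {q = 0} \ {0}`: `s x t`, `t` small, with `s x 0 = f x`, into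
`{q = 0} \ {0}`, Lipschitz in `t`, and "transitions for free" -/
structure IsSpray (q : V → ℂ) (D : Set E) (f : E → V) (r C : ℝ) (s : E → V → V) : Prop where
  r_pos : 0 < r
  C_nonneg : 0 ≤ C
  hol : DifferentiableOn ℂ (fun z : E × V => s z.1 z.2) (D ×ˢ ball (0 : V) r)
  zero : ∀ x ∈ D, s x 0 = f x
  mem : ∀ x ∈ D, ∀ t ∈ ball (0 : V) r, s x t ≠ 0 ∧ q (s x t) = 0
  lip : ∀ x ∈ D, ∀ t ∈ ball (0 : V) r, ∀ t' ∈ ball (0 : V) r,
    ‖s x t - s x t'‖ ≤ C * ‖t - t'‖
  trans : ∀ x ∈ D, ∀ t F : V, q F = 0 → ‖t‖ + ‖F - s x t‖ < r → s x (t + (F - s x t)) = F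

/-- smaller radius and smaller domain -/
theorem IsSpray.mono {q : V → ℂ} {D D' : Set E} {f : E → V} {r r' C : ℝ} {s : E → V → V}
    (h : IsSpray q D f r C s) (hD : D' ⊆ D) (hr' : 0 < r') (hr : r' ≤ r) :
    IsSpray q D' f r' C s where
  r_pos := hr'
  C_nonneg := h.C_nonneg
  hol := h.hol.mono (Set.prod_mono hD (ball_subset_ball hr))
  zero x hx := h.zero x (hD hx)
  mem x hx t ht := h.mem x (hD hx) t (ball_subset_ball hr ht)
  lip x hx t ht t' ht' := h.lip x (hD hx) t (ball_subset_ball hr ht) t' (ball_subset_ball hr ht')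
  trans x hx t F hF ht := h.trans x (hD hx) t F hF (lt_of_lt_of_le ht hr)

/-- the distance to the centre -/
theorem IsSpray.norm_sub_le {q : V → ℂ} {D : Set E} {f : E → V} {r C : ℝ} {s : E → V → V}
    (h : IsSpray q D f r C s) {x : E} (hx : x ∈ D) {t : V} (ht : t ∈ ball (0 : V) r) :
    ‖s x t - f x‖ ≤ C * ‖t‖ := by
  have := h.lip x hx t ht 0 (mem_ball_self h.r_pos)
  rwa [h.zero x hx, sub_zero] at this

/-- `C²` functions have Lipschitz derivatives on balls -/
theorem exists_lip_fderiv [ProperSpace V] {q : V → ℂ} (hq : ContDiff ℂ 2 q) (R : ℝ) :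
    ∃ L : ℝ, 0 < L ∧ (∀ v ∈ closedBall (0 : V) R, ‖fderiv ℂ q v‖ ≤ L) ∧
      ∀ v ∈ closedBall (0 : V) R, ∀ w ∈ closedBall (0 : V) R,
        ‖fderiv ℂ q v - fderiv ℂ q w‖ ≤ L * ‖v - w‖ := by
  have h1 : ContDiff ℂ 1 (fderiv ℂ q) := hq.fderiv_right (by norm_num)
  have h4 : Continuous fun v => ‖fderiv ℂ q v‖ := h1.continuous.norm
  obtain ⟨B, hB'⟩ := (isCompact_closedBall (0 : V) R).bddAbove_image h4.continuousOn
  have hB : ∀ v ∈ closedBall (0 : V) R, ‖fderiv ℂ q v‖ ≤ B := fun v hv => hB' ⟨v, hv, rfl⟩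
  let _ : NormedSpace ℝ V := NormedSpace.restrictScalars ℝ ℂ V
  have h1R : ContDiff ℝ 1 (fderiv ℂ q) := h1.restrict_scalars ℝ
  obtain ⟨A, hA⟩ := (h1R.contDiffOn (s := closedBall (0 : V) R)).exists_lipschitzOnWith
    (by norm_num) (convex_closedBall _ _) (isCompact_closedBall (0 : V) R)
  refine ⟨max (max (A : ℝ) B) 1, lt_of_lt_of_le one_pos (le_max_right _ _), fun v hv =>
    (hB v hv).trans ((le_max_right _ _).trans (le_max_left _ _)), fun v hv w hw => ?_⟩
  have h3 := hA.norm_sub_le hv hw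
  refine h3.trans (mul_le_mul_of_nonneg_right ?_ (norm_nonneg _))
  exact (le_max_left _ _).trans (le_max_left _ _)

/-- **Sprays exist.** -/
theorem exists_spray [ProperSpace V] {q : V → ℂ} (hq : ContDiff ℂ 2 q) {D : Set E}
    (hD : IsOpen D) {f h : E → V} (hf : DifferentiableOn ℂ f D) (hh : DifferentiableOn ℂ h D)
    {M m : ℝ} (hm : 0 < m) (hfM : ∀ x ∈ D, ‖f x‖ ≤ M) (hhM : ∀ x ∈ D, ‖h x‖ ≤ M)
    (hfm : ∀ x ∈ D, m ≤ ‖f x‖) (hq0 : ∀ x ∈ D, q (f x) = 0)
    (hone : ∀ x ∈ D, fderiv ℂ q (f x) (h x) = 1) :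
    ∃ r C : ℝ, ∃ s : E → V → V, IsSpray q D f r C s := by
  set M' : ℝ := max M 1 with hM'
  have hM1 : 1 ≤ M' := le_max_right _ _
  have hMM : M ≤ M' := le_max_left _ _
  obtain ⟨L, hL, hLb, hLl⟩ := exists_lip_fderiv hq (M' + 1 + M')
  set r₁ : ℝ := min 1 (1 / (4 * L * M' ^ 2)) with hr₁
  have hr₁pos : 0 < r₁ := lt_min one_pos (by positivity)
  have hr₁1 : r₁ ≤ 1 := min_le_left _ _
  have hr₁2 : L * r₁ * M' ^ 2 ≤ 1 / 4 := by
    have : r₁ ≤ 1 / (4 * L * M' ^ 2) := min_le_right _ _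
    rw [le_div_iff₀ (by positivity)] at this
    nlinarith
  set C : ℝ := 1 + 2 * L * M' with hC
  have hCpos : 0 < C := by positivity
  set r : ℝ := min (min 1 (1 / (4 * L * M'))) (min (r₁ / (4 * L)) (m / (2 * C))) with hr
  have hrpos : 0 < r := lt_min (lt_min one_pos (by positivity))
    (lt_min (by positivity) (by positivity))
  have hr1 : r ≤ 1 := (min_le_left _ _).trans (min_le_left _ _)
  have hr2 : L * r * M' ≤ 1 / 4 := by
    have : r ≤ 1 / (4 * L * M') := (min_le_left _ _).trans (min_le_right _ _)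
    rw [le_div_iff₀ (by positivity)] at this
    nlinarith
  have hr3 : L * r ≤ r₁ / 4 := by
    have : r ≤ r₁ / (4 * L) := (min_le_right _ _).trans (min_le_left _ _)
    rw [le_div_iff₀ (by positivity)] at this
    linarith
  have hr4 : C * r ≤ m / 2 := by
    have : r ≤ m / (2 * C) := (min_le_right _ _).trans (min_le_right _ _)
    rw [le_div_iff₀ (by positivity)] at this
    linarith
  -- all relevant points are in the big ball
  have hin : ∀ x ∈ D, ∀ t ∈ ball (0 : V) r, ∀ k : ℂ, k ∈ closedBall (0 : ℂ) r₁ →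
      f x + t + k • h x ∈ closedBall (0 : V) (M' + 1 + M') := by
    intro x hx t ht k hk
    rw [mem_closedBall_zero_iff] at hk ⊢
    rw [mem_ball_zero_iff] at ht
    have h1 : ‖f x + t + k • h x‖ ≤ ‖f x‖ + ‖t‖ + ‖k • h x‖ := norm_add₃_le
    have h2 : ‖k • h x‖ ≤ 1 * M' := by
      rw [norm_smul]
      exact mul_le_mul (hk.trans hr₁1) ((hhM x hx).trans hMM) (norm_nonneg _) zero_le_one
    have h3 := hfM x hx
    linarith
  have hinf : ∀ x ∈ D, f x ∈ closedBall (0 : V) (M' + 1 + M') := by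
    intro x hx
    rw [mem_closedBall_zero_iff]
    have h3 := hfM x hx
    linarith
  have hqd : Differentiable ℂ q := hq.differentiable (by norm_num)
  -- the derivative in `k`
  have hk1 : ∀ x ∈ D, ∀ t ∈ ball (0 : V) r, ∀ k₁ ∈ closedBall (0 : ℂ) r₁,
      ∀ k₂ ∈ closedBall (0 : ℂ) r₁,
      ‖(q (f x + t + k₁ • h x) - q (f x + t + k₂ • h x)) - (k₁ - k₂)‖ ≤
        1 / 2 * ‖k₁ - k₂‖ := by
    intro x hx t ht k₁ hk₁ k₂ hk₂
    have hder : ∀ k ∈ closedBall (0 : ℂ) r₁,
        HasDerivWithinAt (fun k : ℂ => q (f x + t + k • h x) - k)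
          (fderiv ℂ q (f x + t + k • h x) (h x) - 1) (closedBall (0 : ℂ) r₁) k := by
      intro k _
      have e1 : HasDerivAt (fun k : ℂ => f x + t + k • h x) (h x) k := by
        have := ((hasDerivAt_id k).smul_const (h x)).const_add (f x + t)
        simpa using this
      have e2 : HasDerivAt (fun k : ℂ => q (f x + t + k • h x))
          (fderiv ℂ q (f x + t + k • h x) (h x)) k :=
        (hqd.differentiableAt.hasFDerivAt).comp_hasDerivAt k e1
      exact (e2.sub (hasDerivAt_id k)).hasDerivWithinAt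
    have hbd : ∀ k ∈ closedBall (0 : ℂ) r₁,
        ‖fderiv ℂ q (f x + t + k • h x) (h x) - 1‖ ≤ 1 / 2 := by
      intro k hk
      have e0 := hone x hx
      have e1 : fderiv ℂ q (f x + t + k • h x) (h x) - 1 =
          (fderiv ℂ q (f x + t + k • h x) - fderiv ℂ q (f x)) (h x) := by
        rw [sub_apply, e0]
      rw [e1]
      have e2 := hLl _ (hin x hx t ht k hk) _ (hinf x hx)
      have e3 : f x + t + k • h x - f x = t + k • h x := by abel
      rw [e3] at e2
      have e4 : ‖t + k • h x‖ ≤ r + r₁ * M' := by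
        refine (norm_add_le _ _).trans (add_le_add (mem_ball_zero_iff.1 ht).le ?_)
        rw [norm_smul]
        exact mul_le_mul (mem_closedBall_zero_iff.1 hk) ((hhM x hx).trans hMM) (norm_nonneg _)
          hr₁pos.le
      calc ‖(fderiv ℂ q (f x + t + k • h x) - fderiv ℂ q (f x)) (h x)‖
          ≤ ‖fderiv ℂ q (f x + t + k • h x) - fderiv ℂ q (f x)‖ * ‖h x‖ :=
            ContinuousLinearMap.le_opNorm _ _
        _ ≤ (L * (r + r₁ * M')) * M' := by
            refine mul_le_mul (e2.trans ?_) ((hhM x hx).trans hMM) (norm_nonneg _) (by positivity)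
            exact mul_le_mul_of_nonneg_left e4 hL.le
        _ ≤ 1 / 2 := by nlinarith
    have := Convex.norm_image_sub_le_of_norm_hasDerivWithin_le hder hbd (convex_closedBall _ _)
      hk₂ hk₁
    have e : q (f x + t + k₁ • h x) - q (f x + t + k₂ • h x) - (k₁ - k₂) =
        (q (f x + t + k₁ • h x) - k₁) - (q (f x + t + k₂ • h x) - k₂) := by ring
    rw [e]
    exact this
  -- the derivative in `t`
  have hqlip : ∀ v ∈ closedBall (0 : V) (M' + 1 + M'), ∀ w ∈ closedBall (0 : V) (M' + 1 + M'),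
      ‖q v - q w‖ ≤ L * ‖v - w‖ := by
    intro v hv w hw
    exact Convex.norm_image_sub_le_of_norm_fderiv_le (𝕜 := ℂ)
      (fun x _ => hqd.differentiableAt) (fun x hx => hLb x hx) (convex_closedBall _ _) hw hv
  have h0 : ∀ p ∈ D ×ˢ ball (0 : V) r, ‖q (f p.1 + p.2 + (0 : ℂ) • h p.1)‖ < r₁ / 2 := by
    rintro ⟨x, t⟩ ⟨hx, ht⟩
    have hx' : x ∈ D := hx
    have ht' : t ∈ ball (0 : V) r := ht
    have e1 := hqlip _ (hin x hx' t ht' 0 (mem_closedBall_self hr₁pos.le)) _ (hinf x hx')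
    rw [hq0 x hx', sub_zero] at e1
    have e2 : f x + t + (0 : ℂ) • h x - f x = t := by rw [zero_smul]; abel
    rw [e2] at e1
    have e3 : L * ‖t‖ ≤ L * r := mul_le_mul_of_nonneg_left (mem_ball_zero_iff.1 ht').le hL.le
    show ‖q (f x + t + (0 : ℂ) • h x)‖ < r₁ / 2
    linarith
  obtain ⟨κ, hκ, hκd⟩ := exists_unif_root (P := E × V) (F := ℂ)
    (fun p k => q (f p.1 + p.2 + k • h p.1)) (D ×ˢ ball (0 : V) r) hr₁pos
    (fun p hp => hk1 p.1 hp.1 p.2 hp.2) h0
  have hDopen : IsOpen (D ×ˢ ball (0 : V) r) := hD.prod isOpen_ball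
  have hκdiff : DifferentiableOn ℂ κ (D ×ˢ ball (0 : V) r) := by
    intro p hp
    refine (hκd p hp (hDopen.mem_nhds hp) ?_).differentiableWithinAt
    have e1 : DifferentiableAt ℂ f p.1 := hf.differentiableAt (hD.mem_nhds hp.1)
    have e2 : DifferentiableAt ℂ h p.1 := hh.differentiableAt (hD.mem_nhds hp.1)
    have e3 : DifferentiableAt ℂ (fun z : (E × V) × ℂ => f z.1.1) (p, κ p) :=
      DifferentiableAt.comp (f := fun z : (E × V) × ℂ => z.1.1) (p, κ p) e1
        (differentiableAt_fst.fst)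
    have e4 : DifferentiableAt ℂ (fun z : (E × V) × ℂ => h z.1.1) (p, κ p) :=
      DifferentiableAt.comp (f := fun z : (E × V) × ℂ => z.1.1) (p, κ p) e2
        (differentiableAt_fst.fst)
    have e5 : DifferentiableAt ℂ (fun z : (E × V) × ℂ => f z.1.1 + z.1.2 + z.2 • h z.1.1)
        (p, κ p) :=
      (e3.add differentiableAt_fst.snd).add (differentiableAt_snd.smul e4)
    exact DifferentiableAt.comp (f := fun z : (E × V) × ℂ => f z.1.1 + z.1.2 + z.2 • h z.1.1)
      (p, κ p) hqd.differentiableAt e5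
  refine ⟨r, C, fun x t => f x + t + κ (x, t) • h x, ?_⟩
  have hκlip : ∀ x ∈ D, ∀ t ∈ ball (0 : V) r, ∀ t' ∈ ball (0 : V) r,
      ‖κ (x, t) - κ (x, t')‖ ≤ 2 * (L * ‖t - t'‖) := by
    intro x hx t ht t' ht'
    have e1 := hκ (x, t) ⟨hx, ht⟩
    have e2 := hκ (x, t') ⟨hx, ht'⟩
    have m1 : κ (x, t) ∈ closedBall (0 : ℂ) r₁ := mem_closedBall_zero_iff.2 e1.2.2.1.le
    have m2 : κ (x, t') ∈ closedBall (0 : ℂ) r₁ := mem_closedBall_zero_iff.2 e2.2.2.1.le
    have e3 := norm_sub_root_le (g := fun k => q (f x + t + k • h x)) (r := r₁)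
      (hk1 x hx t ht) m1 m2
    refine e3.trans (mul_le_mul_of_nonneg_left ?_ (by norm_num))
    have e4 : q (f x + t + κ (x, t) • h x) = 0 := e1.1
    have e5 : q (f x + t' + κ (x, t') • h x) = 0 := e2.1
    show ‖q (f x + t + κ (x, t) • h x) - q (f x + t + κ (x, t') • h x)‖ ≤ L * ‖t - t'‖
    rw [e4, ← e5]
    have e6 := hqlip _ (hin x hx t' ht' _ m2) _ (hin x hx t ht _ m2)
    refine e6.trans (le_of_eq ?_)
    have e7 : f x + t' + κ (x, t') • h x - (f x + t + κ (x, t') • h x) = -(t - t') := by abel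
    rw [e7, norm_neg]
  have hlip : ∀ x ∈ D, ∀ t ∈ ball (0 : V) r, ∀ t' ∈ ball (0 : V) r,
      ‖(f x + t + κ (x, t) • h x) - (f x + t' + κ (x, t') • h x)‖ ≤ C * ‖t - t'‖ := by
    intro x hx t ht t' ht'
    have e1 : (f x + t + κ (x, t) • h x) - (f x + t' + κ (x, t') • h x) =
        (t - t') + (κ (x, t) - κ (x, t')) • h x := by rw [sub_smul]; abel
    rw [e1]
    refine (norm_add_le _ _).trans ?_
    rw [norm_smul]
    have e2 : ‖κ (x, t) - κ (x, t')‖ * ‖h x‖ ≤ 2 * (L * ‖t - t'‖) * M' :=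
      mul_le_mul (hκlip x hx t ht t' ht') ((hhM x hx).trans hMM) (norm_nonneg _) (by positivity)
    rw [hC]
    linarith
  have hzero : ∀ x ∈ D, f x + 0 + κ (x, 0) • h x = f x := by
    intro x hx
    have e1 := (hκ (x, 0) ⟨hx, mem_ball_self hrpos⟩).2.1
    have e2 : ‖κ (x, 0)‖ ≤ 2 * ‖q (f x + 0 + (0 : ℂ) • h x)‖ := e1
    rw [zero_smul, add_zero, add_zero, hq0 x hx, norm_zero, mul_zero] at e2
    rw [norm_le_zero_iff.1 e2, zero_smul, add_zero, add_zero]
  refine ⟨hrpos, hCpos.le, ?_, hzero, ?_, hlip, ?_⟩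
  · have e1 : DifferentiableOn ℂ (fun z : E × V => f z.1) (D ×ˢ ball (0 : V) r) :=
      hf.comp differentiableOn_fst (fun z hz => hz.1)
    have e2 : DifferentiableOn ℂ (fun z : E × V => h z.1) (D ×ˢ ball (0 : V) r) :=
      hh.comp differentiableOn_fst (fun z hz => hz.1)
    exact (e1.add differentiableOn_snd).add (hκdiff.smul e2)
  · intro x hx t ht
    refine ⟨?_, (hκ (x, t) ⟨hx, ht⟩).1⟩
    intro hcon
    have e1 := hlip x hx t ht 0 (mem_ball_self hrpos)
    rw [hzero x hx, hcon, zero_sub, norm_neg, sub_zero] at e1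
    have e2 := hfm x hx
    have e3 : C * ‖t‖ ≤ C * r := mul_le_mul_of_nonneg_left (mem_ball_zero_iff.1 ht).le hCpos.le
    linarith
  · intro x hx t F hF ht
    have hn := norm_nonneg (F - (f x + t + κ (x, t) • h x))
    have ht1 : t ∈ ball (0 : V) r := by
      rw [mem_ball_zero_iff]
      linarith
    have hγ : t + (F - (f x + t + κ (x, t) • h x)) ∈ ball (0 : V) r := by
      rw [mem_ball_zero_iff]
      exact lt_of_le_of_lt (norm_add_le _ _) ht
    have e1 : f x + (t + (F - (f x + t + κ (x, t) • h x))) + κ (x, t) • h x = F := by abel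
    have e2 := (hκ (x, t + (F - (f x + t + κ (x, t) • h x))) ⟨hx, hγ⟩).2.2.2 (κ (x, t))
      (mem_closedBall_zero_iff.2 (hκ (x, t) ⟨hx, ht1⟩).2.2.1.le) (by
        show q (f x + (t + (F - (f x + t + κ (x, t) • h x))) + κ (x, t) • h x) = 0
        rw [e1, hF])
    show f x + (t + (F - (f x + t + κ (x, t) • h x))) +
      κ (x, t + (F - (f x + t + κ (x, t) • h x))) • h x = F
    rw [← e2, e1]

end Crest.Agent.R279.Spray
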