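import Mathlib
import Crest.Agent.R279.Defs765
import Crest.Agent.R279.Spray477
import Crest.Agent.R279.MergeApp250
import Crest.Agent.R279.Deriv556

/-!
# R279: sprays over maps near compact convex sets (helper477)

`sprayData_of_convex` and `sprayTarget`, modulo helper250's `SplitProp`.
-/

set_option autoImplicit false

namespace Crest.Agent.R279.Spray

open Metric Filter Topology Set

/-- evaluation of a polynomial is smooth -/
theorem contDiff_eval (Q : MvPolynomial (Fin 4) ℂ) {n : WithTop ℕ∞} :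
    ContDiff ℂ n (fun v : C4 => MvPolynomial.eval v Q) := by
  induction Q using MvPolynomial.induction_on with
  | C a => simpa using contDiff_const
  | add p q hp hq => simpa using hp.add hq
  | mul_X p i hp =>
    have h1 : ContDiff ℂ n (fun v : C4 => v i) := contDiff_apply ℂ ℂ i
    simpa using hp.mul h1

/-- **Sprays over maps into the cone near a compact convex set** (modulo `SplitProp`) -/
theorem sprayData_of_convex {Q : MvPolynomial (Fin 4) ℂ}
    (hsmooth : ∀ p : Fin 4 → ℂ, p ≠ 0 → MvPolynomial.eval p Q = 0 →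
      ∃ i : Fin 4, MvPolynomial.eval p (MvPolynomial.pderiv i Q) ≠ 0)
    {m : ℕ} (hS : Merge.SplitProp m) {K : Set (Fin m → ℂ)} (hK : IsCompact K)
    (hKc : Convex ℝ K) {f : (Fin m → ℂ) → C4} (hf : HolNear (Vstar Q) f K) :
    Nonempty (SprayData (Vstar Q) f K) := by
  obtain ⟨U, hU, hKU, hfd, hfV⟩ := hf
  -- Bezout
  set w : (Fin m → ℂ) → Fin 4 → ℂ := fun x i => MvPolynomial.eval (f x) (MvPolynomial.pderiv i Q)
    with hw
  have hwd : DifferentiableOn ℂ w U := by
    refine differentiableOn_pi.2 fun i => ?_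
    exact (differentiable_eval (MvPolynomial.pderiv i Q)).comp_differentiableOn hfd
  have hw0 : ∀ x ∈ U, w x ≠ 0 := by
    intro x hx hcon
    obtain ⟨i, hi⟩ := hsmooth (f x) (hfV hx).1 (hfV hx).2
    exact hi (congrFun hcon i)
  obtain ⟨W, h, hW, hKW, hWU, hh, hone⟩ := Merge.bezout hS hK hKc hU hKU hwd hw0
  -- a relatively compact neighbourhood
  obtain ⟨L, hL, hKL, hLW⟩ := exists_compact_between hK hW hKW
  set D : Set (Fin m → ℂ) := interior L with hD
  have hDo : IsOpen D := isOpen_interior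
  have hDL : D ⊆ L := interior_subset
  have hDW : D ⊆ W := hDL.trans hLW
  have hfL : ContinuousOn f L := hfd.continuousOn.mono (hLW.trans hWU)
  have hhL : ContinuousOn h L := hh.continuousOn.mono hLW
  obtain ⟨M₁, hM₁⟩ := hL.exists_bound_of_continuousOn hfL
  obtain ⟨M₂, hM₂⟩ := hL.exists_bound_of_continuousOn hhL
  obtain ⟨m₀, hm₀, hfm⟩ : ∃ m₀ : ℝ, 0 < m₀ ∧ ∀ x ∈ L, m₀ ≤ ‖f x‖ := by
    rcases L.eq_empty_or_nonempty with hLe | hLn
    · exact ⟨1, one_pos, by simp [hLe]⟩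
    · obtain ⟨x₀, hx₀, hmin⟩ := hL.exists_isMinOn hLn hfL.norm
      exact ⟨‖f x₀‖, norm_pos_iff.2 (hfV (hWU (hLW hx₀))).1, fun x hx => hmin hx⟩
  obtain ⟨r, C, s, hs⟩ := exists_spray (contDiff_eval Q (n := 2)) hDo
    (hfd.mono (hDW.trans hWU)) (hh.mono hDW) (M := max M₁ M₂) hm₀
    (fun x hx => (hM₁ x (hDL hx)).trans (le_max_left _ _))
    (fun x hx => (hM₂ x (hDL hx)).trans (le_max_right _ _))
    (fun x hx => hfm x (hDL hx)) (fun x hx => (hfV (hWU (hDW hx))).2) (by
      intro x hx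
      have e1 := (hasFDerivAt_eval Q (f x)).fderiv
      rw [e1, dQ_apply]
      have e2 := hone x (hDW hx)
      rw [← e2])
  refine ⟨⟨fun z => s z.1 z.2, D, r, r / 2, hDo, hKL, hs.r_pos, half_pos hs.r_pos, hs.hol, ?_,
    hs.zero, ?_⟩⟩
  · rintro ⟨x, t⟩ ⟨hx, ht⟩
    exact hs.mem x hx t ht
  · intro x hx t ht y hy hyt
    have h1 : ‖t‖ < r / 2 := mem_ball_zero_iff.1 ht
    have h2 : ‖t‖ + ‖y - s x t‖ < r := by
      have : ‖y - s x t‖ < r / 2 := hyt
      linarith
    refine ⟨?_, hs.trans x hx t y hy.2 h2⟩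
    rw [mem_ball_zero_iff]
    exact lt_of_le_of_lt (norm_add_le _ _) h2

/-- polyrectangles are compact and convex -/
theorem isCompact_polyRect {n : ℕ} (P : Fin n → ℝ × ℝ × ℝ × ℝ) : IsCompact (polyRect P) := by
  have h : polyRect P = Set.pi univ fun i => rect (P i).1 (P i).2.1 (P i).2.2.1 (P i).2.2.2 := by
    ext x
    simp [polyRect]
  rw [h]
  refine isCompact_univ_pi fun i => ?_
  have h2 : rect (P i).1 (P i).2.1 (P i).2.2.1 (P i).2.2.2 =
      Icc (P i).1 (P i).2.1 ×ℂ Icc (P i).2.2.1 (P i).2.2.2 := by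
    ext z
    rfl
  rw [h2]
  exact isCompact_Icc.reProdIm isCompact_Icc

theorem convex_polyRect {n : ℕ} (P : Fin n → ℝ × ℝ × ℝ × ℝ) : Convex ℝ (polyRect P) := by
  intro x hx y hy a b ha hb hab i
  have h1 := hx i
  have h2 := hy i
  simp only [rect, mem_ofPred_eq, Pi.add_apply, Pi.smul_apply, Complex.add_re, Complex.smul_re,
    Complex.add_im, Complex.smul_im] at h1 h2 ⊢
  exact ⟨(convex_Icc _ _) h1.1 h2.1 ha hb hab, (convex_Icc _ _) h1.2 h2.2 ha hb hab⟩

/-- helper765's `SprayTarget` -/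
theorem sprayTarget {Q : MvPolynomial (Fin 4) ℂ}
    (hsmooth : ∀ p : Fin 4 → ℂ, p ≠ 0 → MvPolynomial.eval p Q = 0 →
      ∃ i : Fin 4, MvPolynomial.eval p (MvPolynomial.pderiv i Q) ≠ 0)
    (hS : ∀ m, Merge.SplitProp m) : SprayTarget (Vstar Q) :=
  fun n P _ _ hf => sprayData_of_convex hsmooth (hS n) (isCompact_polyRect P)
    (convex_polyRect P) hf

end Crest.Agent.R279.Spray
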