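import Mathlib
import Crest.Agent.R279.Conv532c
import Crest.Agent.R279.H777j
import Crest.Agent.R279.Conv28
import Crest.Agent.R279.SprayTarget477

/-!
R279 (helper532), Part 5 (e): gluing over compact convex sets in `ℂ^m` from (2.4), transport of
all notions by linear isomorphisms.
-/

set_option autoImplicit false
set_option linter.unusedSectionVars false

open Metric Set Filter Topology

namespace Crest.Agent.R279.Conv

open Crest.Agent.R279.Box Crest.Agent.R279.ConvGeo

/-- **(2.4), germ form**, in `ℂ^m`. -/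
theorem glueProp_fin (m : ℕ) : GlueProp (Fin m → ℂ) := by
  classical
  intro K hK hKc a s U hU hKU'
  have hKc' : Convex ℝ K := cconvex_iff_pi.1 hKc
  have hcont : Continuous fun x : Fin m → ℂ => (a x).re := Complex.continuous_re.comp a.continuous
  -- the open set
  have hUs : IsOpen (U ∪ {x : Fin m → ℂ | (a x).re ≠ s}) :=
    hU.union (isOpen_ne_fun hcont continuous_const)
  have hKUs : K ⊆ U ∪ {x : Fin m → ℂ | (a x).re ≠ s} := by
    intro x hx
    by_cases hxs : (a x).re = s
    · exact Or.inl (hKU' x hx hxs)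
    · exact Or.inr hxs
  obtain ⟨R0, hR0, hKR0⟩ := exists_OSq_supset hK
  set R : ℝ := R0 + 1 with hRdef
  obtain ⟨k, b, d, hbd, hP⟩ := exists_polytope hK hKc' hUs hKUs R
  set P : Set (Fin m → ℂ) := CSq R ∩ {x | ∀ j, (b j x).re ≤ d j} with hPdef
  have hPc : IsCompact P := by
    refine (isCompact_CSq R).inter_right ?_
    have : {x : Fin m → ℂ | ∀ j, (b j x).re ≤ d j} = ⋂ j, {x | (b j x).re ≤ d j} := by
      ext x; simp
    rw [this]
    exact isClosed_iInter fun j => isClosed_le (by fun_prop) continuous_const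
  -- a strip around the cut inside `U`
  obtain ⟨δ, hδ0, hδ⟩ : ∃ δ : ℝ, 0 < δ ∧ P ∩ {x | |(a x).re - s| ≤ δ} ⊆ U := by
    have hC : IsCompact (P \ U) := hPc.diff hU
    rcases (P \ U).eq_empty_or_nonempty with he | hne
    · refine ⟨1, one_pos, fun x hx => ?_⟩
      by_contra hxN
      have : x ∈ P \ U := ⟨hx.1, hxN⟩
      rw [he] at this
      exact this
    · obtain ⟨y, hy, hmin⟩ := hC.exists_isMinOn hne
        ((hcont.sub continuous_const).abs.continuousOn :
          ContinuousOn (fun x => |(a x).re - s|) (P \ U))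
      have hypos : 0 < |(a y).re - s| := by
        rw [abs_pos, sub_ne_zero]
        rcases hP hy.1 with h1 | h1
        · exact absurd h1 hy.2
        · exact h1
      refine ⟨|(a y).re - s| / 2, by positivity, fun x hx => ?_⟩
      by_contra hxN
      have h1 : |(a y).re - s| ≤ |(a x).re - s| := hmin (show x ∈ P \ U from ⟨hx.1, hxN⟩)
      have h2 : |(a x).re - s| ≤ |(a y).re - s| / 2 := hx.2
      linarith
  -- margins
  obtain ⟨σ, hσ0, hσR, hσab⟩ : ∃ σ : ℝ, 0 < σ ∧ σ ≤ 1 / 2 ∧
      ∀ j, ∀ x ∈ K, (b j x).re < d j - σ := by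
    have : ∀ j, ∃ σ : ℝ, 0 < σ ∧ ∀ x ∈ K, (b j x).re < d j - σ := by
      intro j
      rcases K.eq_empty_or_nonempty with he | hne
      · exact ⟨1, one_pos, by simp [he]⟩
      · obtain ⟨y, hy, hmax⟩ := hK.exists_isMaxOn hne
          ((by fun_prop : Continuous fun x => (b j x).re).continuousOn)
        refine ⟨(d j - (b j y).re) / 2, by linarith [hbd j y hy], fun x hx => ?_⟩
        have h1 : (b j x).re ≤ (b j y).re := hmax hx
        linarith [hbd j y hy]
    choose τ hτ0 hτ using this
    rcases isEmpty_or_nonempty (Fin k) with hk | hk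
    · exact ⟨1 / 2, by norm_num, le_rfl, fun j => isEmptyElim j⟩
    · obtain ⟨j0, -, hj0⟩ := Finset.exists_min_image Finset.univ τ Finset.univ_nonempty
      refine ⟨min (1 / 2) (τ j0), lt_min (by norm_num) (hτ0 j0), min_le_left _ _,
        fun j x hx => ?_⟩
      have h1 := hτ j x hx
      have h2 := hj0 j (Finset.mem_univ j)
      have h3 := min_le_right (1 / 2) (τ j0)
      linarith
  -- the constraints
  let c : Option (Fin k) → (Fin m → ℂ) →L[ℂ] ℂ := fun o => o.elim a b
  -- bound for the functionals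
  obtain ⟨M, hM0, hM⟩ : ∃ M : ℝ, 0 < M ∧
      ∀ j, ∀ x ∈ (CSq R : Set (Fin m → ℂ)), ‖c j x‖ < M := by
    have : ∀ j, ∃ M : ℝ, ∀ x ∈ (CSq R : Set (Fin m → ℂ)), ‖c j x‖ ≤ M := fun j => by
      obtain ⟨M, hM⟩ :=
        ((isCompact_CSq (ι := Fin m) R).image (c j).continuous).isBounded.exists_norm_le
      exact ⟨M, fun x hx => hM _ (mem_image_of_mem _ hx)⟩
    choose n hn using this
    refine ⟨∑ j, |n j| + 1, by positivity, fun j x hx => ?_⟩
    have h1 := hn j x hx
    have h2 : n j ≤ ∑ j, |n j| := (le_abs_self _).trans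
      (Finset.single_le_sum (f := fun j => |n j|) (fun _ _ => abs_nonneg _) (Finset.mem_univ j))
    linarith
  let hi : (Fin m ⊕ Option (Fin k)) × Bool → ℝ := fun l => match l with
    | (Sum.inl _, _) => R0
    | (Sum.inr (some j), false) => d j - σ
    | (Sum.inr (some _), true) => M
    | (Sum.inr none, _) => M
  let lo : (Fin m ⊕ Option (Fin k)) × Bool → ℝ := fun l => match l with
    | (Sum.inl _, _) => -R0
    | (Sum.inr _, _) => -M
  set κ : (Fin m ⊕ Option (Fin k)) × Bool := (Sum.inr none, false) with hκ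
  have hrcκ : ∀ x : Fin m → ℂ, rc (ell c κ.1 x) κ.2 = (a x).re := fun x => rfl
  set s' : ℝ := min (δ / 2) σ with hs'
  have hs'0 : 0 < s' := lt_min (by linarith) hσ0
  have hs'δ : s' ≤ δ / 2 := min_le_left _ _
  have hs'σ : s' ≤ σ := min_le_right _ _
  obtain ⟨C, hC0, hglue⟩ := glueD (V := C4) pslt c lo hi κ
    (show s - δ / 2 < s + δ / 2 by linarith) hs'0
  -- the large domain is inside `U`
  have hdom : Dom c (fun l => Function.update lo κ (s - δ / 2) l - s')
      (fun l => Function.update hi κ (s + δ / 2) l + s') ⊆ U := by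
    intro x hx
    rw [mem_Dom] at hx
    have hk := hx κ
    simp only [Function.update_self, hrcκ] at hk
    have hstrip : |(a x).re - s| ≤ δ := by
      rw [abs_le]
      constructor <;> linarith [hk.1, hk.2]
    have hcoord : ∀ (j : Fin m) (β : Bool), |rc (x j) β| ≤ R := by
      intro j β
      have hjk : ((Sum.inl j, β) : (Fin m ⊕ Option (Fin k)) × Bool) ≠ κ := by
        rw [hκ]; simp
      have h1 := hx (Sum.inl j, β)
      rw [Function.update_of_ne hjk, Function.update_of_ne hjk] at h1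
      have h2 : lo (Sum.inl j, β) = -R0 := rfl
      have h3 : hi (Sum.inl j, β) = R0 := rfl
      rw [h2, h3] at h1
      have h4 : ell c (Sum.inl j) x = x j := rfl
      simp only [h4] at h1
      rw [abs_le]
      constructor <;> linarith [h1.1, h1.2]
    have hxC : x ∈ (CSq R : Set (Fin m → ℂ)) := fun j => ⟨hcoord j false, hcoord j true⟩
    refine hδ ⟨⟨hxC, fun j => ?_⟩, hstrip⟩
    have hjk : ((Sum.inr (some j), false) : (Fin m ⊕ Option (Fin k)) × Bool) ≠ κ := by
      rw [hκ]; simp
    have h1 := (hx (Sum.inr (some j), false)).2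
    rw [Function.update_of_ne hjk] at h1
    have h2 : hi (Sum.inr (some j), false) = d j - σ := rfl
    rw [h2] at h1
    have h3 : (b j x).re < d j - σ + s' := h1
    linarith
  -- `K` lies in the domain
  have hbase : ∀ x ∈ K, ∀ l, lo l < rc (ell c l.1 x) l.2 ∧ rc (ell c l.1 x) l.2 < hi l := by
    intro x hxK l
    have hxO := hKR0 hxK
    have hxC : x ∈ (CSq R : Set (Fin m → ℂ)) := by
      intro l
      have := hxO l
      exact ⟨by linarith [this.1], by linarith [this.2]⟩
    rcases l with ⟨j | j, β⟩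
    · have h1 : |rc (x j) β| < R0 := by
        cases β
        · exact (hxO j).1
        · exact (hxO j).2
      rw [abs_lt] at h1
      exact h1
    · have h1 := hM j x hxC
      have h2 := abs_rc_le (c j x) β
      have h3 : |rc (c j x) β| < M := lt_of_le_of_lt h2 h1
      rw [abs_lt] at h3
      rcases j with _ | j
      · exact h3
      · cases β
        · exact ⟨h3.1, hσab j x hxK⟩
        · exact h3
  refine ⟨Dom c lo (Function.update hi κ (s + δ / 2)), Dom c (Function.update lo κ (s - δ / 2)) hi,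
    C, isOpen_Dom _ _ _, isOpen_Dom _ _ _, ?_, ?_, ?_, hC0, ?_⟩
  · intro x hxK hxs
    rw [mem_Dom]
    intro l
    by_cases hl : l = κ
    · subst hl
      rw [Function.update_self]
      refine ⟨(hbase x hxK κ).1, ?_⟩
      rw [hrcκ]
      linarith
    · rw [Function.update_of_ne hl]
      exact hbase x hxK l
  · intro x hxK hxs
    rw [mem_Dom]
    intro l
    by_cases hl : l = κ
    · subst hl
      rw [Function.update_self]
      refine ⟨?_, (hbase x hxK κ).2⟩
      rw [hrcκ]
      linarith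
    · rw [Function.update_of_ne hl]
      exact hbase x hxK l
  · rintro x ⟨hx1, hx2⟩
    have hx : x ∈ Dom c (Function.update lo κ (s - δ / 2)) (Function.update hi κ (s + δ / 2)) := by
      rw [mem_Dom] at *
      intro l
      exact ⟨(hx2 l).1, (hx1 l).2⟩
    exact hdom (Dom_mono (fun l => by linarith) (fun l => by linarith) hx)
  · intro ρ ε hρ hε hCε gA gB hgA hgB hA hB
    obtain ⟨A, B, hAd, hBd, hAb, hBb, hAB⟩ := hglue ρ ε hρ hε hCε gA gB
      (hgA.mono (prod_mono hdom Subset.rfl)) (hgB.mono (prod_mono hdom Subset.rfl))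
      (fun z hz => hA z.1 (hdom hz.1) z.2 hz.2) (fun z hz => hB z.1 (hdom hz.1) z.2 hz.2)
    exact ⟨A, B, hAd, hBd, fun x hx t ht => (hAb (x, t) ⟨hx, ht⟩).1,
      fun x hx t ht => (hBb (x, t) ⟨hx, ht⟩).1, fun x hx t ht => hAB (x, t) ⟨hx, ht⟩⟩

section transport
variable {X Y : Type*} [NormedAddCommGroup X] [NormedSpace ℂ X] [NormedAddCommGroup Y]
  [NormedSpace ℂ Y]

theorem holNear_comp {V : Set C4} (e : X ≃L[ℂ] Y) {f : Y → C4} {K : Set Y}
    (h : HolNear V f K) : HolNear V (fun x => f (e x)) (e ⁻¹' K) := by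
  obtain ⟨O, hO, hKO, hd, hm⟩ := h
  refine ⟨e ⁻¹' O, hO.preimage e.continuous, preimage_mono hKO, ?_, fun x hx => hm hx⟩
  exact hd.comp e.differentiable.differentiableOn (fun x hx => hx)

theorem holNear_symm {V : Set C4} (e : X ≃L[ℂ] Y) {f : X → C4} {K : Set Y}
    (h : HolNear V f (e ⁻¹' K)) : HolNear V (fun y => f (e.symm y)) K := by
  have h2 := holNear_comp e.symm h
  have e1 : e.symm ⁻¹' (e ⁻¹' K) = K := by
    ext y; simp
  rwa [e1] at h2

theorem apprSet_preimage {V : Set C4} (e : X ≃L[ℂ] Y) {K : Set Y} (h : ApprSet V K) :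
    ApprSet V (e ⁻¹' K) := by
  intro f hf K' hK' ε hε
  obtain ⟨G, hG, hcl⟩ := h (fun y => f (e.symm y)) (holNear_symm e hf) (e '' K')
    (hK'.image e.continuous) ε hε
  refine ⟨fun x => G (e x), ?_, fun x hx => ?_⟩
  · have := holNear_comp e hG
    rwa [preimage_image_eq _ e.injective] at this
  · have := hcl (e x) hx
    simpa using this

theorem rApp_preimage {V : Set C4} (e : X ≃L[ℂ] Y) {K L : Set Y} (h : RApp V K L) :
    RApp V (e ⁻¹' K) (e ⁻¹' L) := by
  intro f hf ε hε
  obtain ⟨G, hG, hcl⟩ := h (fun y => f (e.symm y)) (holNear_symm e hf) ε hε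
  refine ⟨fun x => G (e x), holNear_comp e hG, fun x hx => ?_⟩
  have := hcl (e x) hx
  simpa using this

theorem cconvex_symm (e : X ≃L[ℂ] Y) {K : Set X} (hK : CConvex K) :
    CConvex (e.symm ⁻¹' K) :=
  hK.preimage (e.symm : Y →L[ℂ] X).toLinearMap

theorem isCompact_symm (e : X ≃L[ℂ] Y) {K : Set X} (hK : IsCompact K) :
    IsCompact (e.symm ⁻¹' K) := by
  have : e.symm ⁻¹' K = e '' K := by
    ext y
    constructor
    · intro hy
      exact ⟨e.symm y, hy, by simp⟩
    · rintro ⟨x, hx, rfl⟩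
      simpa using hx
  rw [this]
  exact hK.image e.continuous

theorem sprayProp_of_equiv {V : Set C4} (e : X ≃L[ℂ] Y) (h : SprayProp V Y) :
    SprayProp V X := by
  intro K hK hKc f hf
  have hf' : HolNear V (fun y => f (e.symm y)) (e.symm ⁻¹' K) := holNear_comp e.symm hf
  obtain ⟨D⟩ := h (e.symm ⁻¹' K) (isCompact_symm e hK) (cconvex_symm e hKc) _ hf'
  exact ⟨{
    s := fun p => D.s (e p.1, p.2)
    O := e ⁻¹' D.O
    r := D.r
    e := D.e
    isOpen := D.isOpen.preimage e.continuous
    sub := fun x hx => D.sub (by simpa using hx)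
    rpos := D.rpos
    epos := D.epos
    diff := by
      refine D.diff.comp (f := fun p : X × C4 => (e p.1, p.2)) ?_ (fun p hp => ⟨hp.1, hp.2⟩)
      exact ((e.differentiable.comp differentiable_fst).prodMk
        differentiable_snd).differentiableOn
    maps := fun p hp => D.maps ⟨hp.1, hp.2⟩
    zero := fun x hx => by simpa using D.zero (e x) hx
    trans := fun x hx => D.trans (e x) hx }⟩

theorem glueProp_of_equiv (e : X ≃L[ℂ] Y) (h : GlueProp Y) : GlueProp X := by
  intro K hK hKc a s U hU hKU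
  obtain ⟨V₁, V₂, C, hV₁, hV₂, h1, h2, h3, hC, hgl⟩ := h (e.symm ⁻¹' K) (isCompact_symm e hK)
    (cconvex_symm e hKc) (a.comp (e.symm : Y →L[ℂ] X)) s (e.symm ⁻¹' U)
    (hU.preimage e.symm.continuous) (fun y hy hys => hKU _ hy hys)
  have he : Differentiable ℂ (fun p : X × C4 => (e p.1, p.2)) :=
    (e.differentiable.comp differentiable_fst).prodMk differentiable_snd
  have he' : Differentiable ℂ (fun p : Y × C4 => (e.symm p.1, p.2)) :=
    (e.symm.differentiable.comp differentiable_fst).prodMk differentiable_snd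
  refine ⟨e ⁻¹' V₁, e ⁻¹' V₂, C, hV₁.preimage e.continuous, hV₂.preimage e.continuous,
    fun x hx hxs => h1 (e x) (by simpa using hx) (by simpa using hxs),
    fun x hx hxs => h2 (e x) (by simpa using hx) (by simpa using hxs),
    fun x hx => by simpa using h3 (a := e x) ⟨hx.1, hx.2⟩, hC, ?_⟩
  intro ρ ε hρ hε hCε gA gB hgA hgB hA hB
  obtain ⟨α, β, hα, hβ, hαb, hβb, hαβ⟩ := hgl ρ ε hρ hε hCε
    (fun p => gA (e.symm p.1, p.2)) (fun p => gB (e.symm p.1, p.2))
    (hgA.comp he'.differentiableOn (fun p hp => ⟨hp.1, hp.2⟩))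
    (hgB.comp he'.differentiableOn (fun p hp => ⟨hp.1, hp.2⟩))
    (fun y hy t ht => hA _ hy t ht) (fun y hy t ht => hB _ hy t ht)
  refine ⟨fun p => α (e p.1, p.2), fun p => β (e p.1, p.2),
    hα.comp he.differentiableOn (fun p hp => ⟨hp.1, hp.2⟩),
    hβ.comp he.differentiableOn (fun p hp => ⟨hp.1, hp.2⟩),
    fun x hx t ht => hαb (e x) hx t ht, fun x hx t ht => hβb (e x) hx t ht, ?_⟩
  intro x hx t ht
  have := hαβ (e x) ⟨hx.1, hx.2⟩ t ht
  simpa using this

end transport

theorem exists_equiv_fin (X : Type*) [NormedAddCommGroup X] [NormedSpace ℂ X]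
    [FiniteDimensional ℂ X] : Nonempty (X ≃L[ℂ] (Fin (Module.finrank ℂ X) → ℂ)) :=
  ⟨(LinearEquiv.ofFinrankEq X (Fin (Module.finrank ℂ X) → ℂ) (by simp)).toContinuousLinearEquiv⟩

theorem glueProp (X : Type*) [NormedAddCommGroup X] [NormedSpace ℂ X] [FiniteDimensional ℂ X] :
    GlueProp X := by
  obtain ⟨e⟩ := exists_equiv_fin X
  exact glueProp_of_equiv e (glueProp_fin _)

theorem sprayProp {V : Set C4}
    (h : ∀ (m : ℕ) (K : Set (Fin m → ℂ)), IsCompact K → Convex ℝ K → ∀ f : (Fin m → ℂ) → C4,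
      HolNear V f K → Nonempty (SprayData V f K))
    (X : Type*) [NormedAddCommGroup X] [NormedSpace ℂ X] [FiniteDimensional ℂ X] :
    SprayProp V X := by
  obtain ⟨e⟩ := exists_equiv_fin X
  refine sprayProp_of_equiv e ?_
  intro K hK hKc f hf
  exact h _ K hK (cconvex_iff_pi.1 hKc) f hf

end Crest.Agent.R279.Conv
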