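import Mathlib
import Crest.Agent.R279.Comb806

/-!
R279 (helper806): mixed Runge / Hartogs-Rosenthal theorem.  `K` compact with the escape property,
`P ⊆ K` closed, `K \ P` of measure zero, `g` continuous and holomorphic near `P`: `g` is a uniform
limit of polynomials on `K`.
-/

set_option autoImplicit false

open Set Metric Filter MeasureTheory
open scoped Topology ContDiff

noncomputable section
namespace Crest.Agent.R279.HR

open Crest.Agent.R279.PSL

theorem dbar_holo {k : ℂ → ℂ} {z : ℂ} (h : DifferentiableAt ℂ k z) : dbar k z = 0 := by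
  have h1 := dbar_mul_holo (χ := fun _ => 1) (k := k) (z := z) (differentiableAt_const _) h
  have h2 : dbar (fun _ : ℂ => (1 : ℂ)) z = 0 := dbar_eq_zero (c := 1) (Eventually.of_forall fun _ => rfl)
  rw [h2, zero_mul] at h1
  simpa using h1

/-- escape hypothesis: the complement has no bounded component -/
def Escape (K : Set ℂ) : Prop :=
  ∀ a ∉ K, ∃ C : Set ℂ, IsPreconnected C ∧ a ∈ C ∧ Disjoint C K ∧ ¬ Bornology.IsBounded C

theorem core {K V : Set ℂ} (hK : IsCompact K) (hesc : Escape K) {G : ℂ → ℂ}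
    (hG : ContDiff ℝ 1 G) (hGs : HasCompactSupport G) (hV : IsOpen V) (hdV : ∀ z ∈ V, dbar G z = 0)
    (h0 : volume (K \ V) = 0) {ε : ℝ} (hε : 0 < ε) :
    ∃ p : Polynomial ℂ, ∀ z ∈ K, ‖p.eval z - G z‖ < ε := by
  have hdc := continuous_dbar hG
  have hds := hasCompactSupport_dbar hGs
  obtain ⟨C, hC⟩ := hdc.bounded_above_of_compact_support hds
  have hC0 : 0 ≤ C := (norm_nonneg _).trans (hC 0)
  have hdi : Integrable (dbar G) volume := hdc.integrable_of_hasCompactSupport hds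
  set ρ : ℝ := ε / (16 * (C + 1)) with hρdef
  have hρ : 0 < ρ := by positivity
  have htend : Tendsto (fun δ : ℝ => (volume.restrict Vᶜ) (cthickening δ K)) (𝓝 0) (𝓝 0) := by
    have h := tendsto_measure_cthickening_of_isCompact (μ := volume.restrict Vᶜ) hK
    rwa [Measure.restrict_apply hK.measurableSet, show K ∩ Vᶜ = K \ V from rfl, h0] at h
  have hev : ∀ᶠ δ in 𝓝[>] (0 : ℝ),
      (volume.restrict Vᶜ) (cthickening δ K) < ENNReal.ofReal (ρ ^ 2) := by
    refine (htend.mono_left nhdsWithin_le_nhds).eventually (gt_mem_nhds ?_)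
    rw [ENNReal.ofReal_pos]
    positivity
  obtain ⟨δ, hδv, hδ⟩ := (hev.and self_mem_nhdsWithin).exists
  have hδ : 0 < δ := hδ
  set N : Set ℂ := thickening δ K with hN
  have hNo : IsOpen N := isOpen_thickening
  have hNK : K ⊆ N := self_subset_thickening hδ K
  have hSm : MeasurableSet (N \ V) := hNo.measurableSet.diff hV.measurableSet
  have hNv : volume (N \ V) < ENNReal.ofReal (ρ ^ 2) := by
    refine lt_of_le_of_lt ?_ hδv
    rw [Measure.restrict_apply isClosed_cthickening.measurableSet]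
    exact measure_mono fun z hz => ⟨thickening_subset_cthickening _ _ hz.1, hz.2⟩
  have hNfin : volume (N \ V) ≠ ⊤ := (hNv.trans ENNReal.ofReal_lt_top).ne
  have hNreal : volume.real (N \ V) ≤ ρ ^ 2 := by
    rw [Measure.real]
    exact ENNReal.toReal_le_of_le_ofReal (by positivity) hNv.le
  set H : ℂ → ℂ := fun z => -(2 * Real.pi : ℂ)⁻¹ * ∫ ζ in Nᶜ, dbar G ζ * (ζ - z)⁻¹ with hH
  have hHd : DifferentiableOn ℂ H N := by
    intro z₀ hz₀
    obtain ⟨r, hr, hrN⟩ := Metric.isOpen_iff.mp hNo z₀ hz₀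
    refine DifferentiableAt.differentiableWithinAt ?_
    refine (differentiableAt_transform hdi hNo.measurableSet.compl (r := r / 2) (by linarith)
      (fun ζ hζ => ?_)).const_mul _
    by_contra hcon
    push Not at hcon
    apply hζ
    apply hrN
    rw [mem_ball]
    linarith
  obtain ⟨p, hp⟩ := Planar.runge K hK hesc N hNo hNK H hHd (ε / 2) (by linarith)
  refine ⟨p, fun z hz => ?_⟩
  have hkey : ‖H z - G z‖ ≤ ε / 4 := by
    have h1 : G z = -(2 * Real.pi : ℂ)⁻¹ * ∫ ζ, dbar G ζ * (ζ - z)⁻¹ := (pompeiu' hG hGs z).symm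
    have hint := Crest.Agent.R080.Pomp.integrable_div_sub hdc hds z
    have h2 : ∫ ζ, dbar G ζ * (ζ - z)⁻¹ =
        (∫ ζ in N, dbar G ζ * (ζ - z)⁻¹) + ∫ ζ in Nᶜ, dbar G ζ * (ζ - z)⁻¹ :=
      (integral_add_compl hNo.measurableSet hint).symm
    have h2' : ∫ ζ in N, dbar G ζ * (ζ - z)⁻¹ = ∫ ζ in N \ V, dbar G ζ * (ζ - z)⁻¹ := by
      refine setIntegral_eq_of_subset_of_forall_diff_eq_zero hNo.measurableSet diff_subset ?_
      intro ζ hζ
      have : ζ ∈ V := by
        by_contra hcon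
        exact hζ.2 ⟨hζ.1, hcon⟩
      rw [hdV ζ this, zero_mul]
    have h3 : H z - G z = (2 * Real.pi : ℂ)⁻¹ * ∫ ζ in N \ V, dbar G ζ * (ζ - z)⁻¹ := by
      rw [h1, h2, h2', hH]
      ring
    obtain ⟨hi, hle⟩ := kernel_le hSm hNfin hρ z
    have h4 : ‖∫ ζ in N \ V, dbar G ζ * (ζ - z)⁻¹‖ ≤
        C * (2 * Real.pi * ρ + volume.real (N \ V) / ρ) := by
      calc ‖∫ ζ in N \ V, dbar G ζ * (ζ - z)⁻¹‖ ≤ ∫ ζ in N \ V, ‖dbar G ζ * (ζ - z)⁻¹‖ :=
            norm_integral_le_integral_norm _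
        _ ≤ ∫ ζ in N \ V, C * ‖(ζ - z)⁻¹‖ := by
            refine setIntegral_mono hint.norm.integrableOn (hi.const_mul C) fun ζ => ?_
            show ‖dbar G ζ * (ζ - z)⁻¹‖ ≤ C * ‖(ζ - z)⁻¹‖
            rw [norm_mul]
            exact mul_le_mul_of_nonneg_right (hC ζ) (norm_nonneg _)
        _ = C * ∫ ζ in N \ V, ‖(ζ - z)⁻¹‖ := integral_const_mul _ _
        _ ≤ _ := mul_le_mul_of_nonneg_left hle hC0
    have h5 : volume.real (N \ V) / ρ ≤ ρ := by
      rw [div_le_iff₀ hρ]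
      calc volume.real (N \ V) ≤ ρ ^ 2 := hNreal
        _ = ρ * ρ := sq ρ
    have hpi := Real.pi_pos
    have hpi3 := Real.pi_gt_three
    rw [h3, norm_mul, norm_inv, norm_mul, Complex.norm_real, Real.norm_eq_abs, abs_of_pos hpi]
    have h6 : ‖(2 : ℂ)‖ = 2 := by norm_num
    rw [h6, inv_mul_le_iff₀ (by positivity)]
    have hCρ : C * ρ ≤ ε / 16 := by
      rw [hρdef, mul_div_assoc', div_le_div_iff₀ (by positivity) (by positivity)]
      nlinarith
    calc ‖∫ ζ in N \ V, dbar G ζ * (ζ - z)⁻¹‖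
        ≤ C * (2 * Real.pi * ρ + volume.real (N \ V) / ρ) := h4
      _ ≤ C * (2 * Real.pi * ρ + ρ) := by gcongr
      _ = (2 * Real.pi + 1) * (C * ρ) := by ring
      _ ≤ (2 * Real.pi + 1) * (ε / 16) := by gcongr
      _ ≤ 2 * Real.pi * (ε / 4) := by nlinarith
  have h7 := hp z hz
  calc ‖p.eval z - G z‖ = ‖(p.eval z - H z) + (H z - G z)‖ := by ring_nf
    _ ≤ ‖p.eval z - H z‖ + ‖H z - G z‖ := norm_add_le _ _
    _ < ε := by linarith

/-- **Mixed Runge / Hartogs-Rosenthal theorem.** -/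
theorem mixed_runge {K P U : Set ℂ} (hK : IsCompact K) (hesc : Escape K) (hP : IsClosed P)
    (hPK : P ⊆ K) (hU : IsOpen U) (hPU : P ⊆ U) (h0 : volume (K \ P) = 0) {g : ℂ → ℂ}
    (hg : Continuous g) (hgU : DifferentiableOn ℂ g U) {ε : ℝ} (hε : 0 < ε) :
    ∃ p : Polynomial ℂ, ∀ z ∈ K, ‖p.eval z - g z‖ < ε := by
  obtain ⟨G₁, hG₁, hG₁s, hG₁g⟩ := exists_smooth hK hg (ε := ε / 2) (by linarith)
  obtain ⟨R, hR⟩ := hK.isBounded.subset_closedBall (0 : ℂ)
  set s : Set ℂ := Uᶜ ∪ (ball 0 (R + 1))ᶜ with hs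
  have hsc : IsClosed s := hU.isClosed_compl.union isOpen_ball.isClosed_compl
  have hd : Disjoint s P := by
    rw [Set.disjoint_left]
    rintro x (hx | hx) hxP
    · exact hx (hPU hxP)
    · exact hx (closedBall_subset_ball (by linarith) (hR (hPK hxP)))
  obtain ⟨f, hf0, hf1, hf⟩ := exists_contMDiffMap_zero_one_nhds_of_isClosed (n := 1)
    (modelWithCornersSelf ℝ ℂ) hsc hP hd
  have hfs : ContDiff ℝ 1 fun z => (f z : ℂ) := Complex.ofRealCLM.contDiff.comp f.contMDiff.contDiff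
  have hf0' := eventually_nhdsSet_iff_forall.mp hf0
  have hf1' := eventually_nhdsSet_iff_forall.mp hf1
  -- `f g` is `C¹`
  have hfg : ContDiff ℝ 1 fun z => (f z : ℂ) * g z := by
    rw [contDiff_iff_contDiffAt]
    intro z
    by_cases hz : z ∈ U
    · refine hfs.contDiffAt.mul ?_
      exact ((hgU.contDiffOn hU).restrict_scalars ℝ).contDiffAt (hU.mem_nhds hz)
    · have : (fun z => (f z : ℂ) * g z) =ᶠ[𝓝 z] fun _ => 0 := by
        filter_upwards [hf0' z (Or.inl hz)] with w hw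
        simp [hw]
      exact contDiffAt_const.congr_of_eventuallyEq this
  have hfgs : HasCompactSupport fun z => (f z : ℂ) * g z := by
    refine HasCompactSupport.intro (isCompact_closedBall (0 : ℂ) (R + 1)) fun x hx => ?_
    have : x ∈ s := Or.inr fun h => hx (ball_subset_closedBall h)
    simp [hf0.self_of_nhdsSet x this]
  set G : ℂ → ℂ := fun z => (f z : ℂ) * g z + (1 - (f z : ℂ)) * G₁ z with hGdef
  have hG : ContDiff ℝ 1 G := hfg.add ((contDiff_const.sub hfs).mul hG₁)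
  have hGs : HasCompactSupport G := hfgs.add hG₁s.mul_left
  set V : Set ℂ := interior {z | f z = 1} with hVdef
  have hV : IsOpen V := isOpen_interior
  have hPV : P ⊆ V := fun z hz => mem_interior_iff_mem_nhds.mpr (hf1' z hz)
  have hdV : ∀ z ∈ V, dbar G z = 0 := by
    intro z hz
    have h1 : G =ᶠ[𝓝 z] g := by
      filter_upwards [hV.mem_nhds hz] with w hw
      have : f w = 1 := (interior_subset hw : w ∈ {z | f z = 1})
      simp [hGdef, this]
    rw [dbar_congr h1]
    have h2 : z ∈ U := by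
      by_contra hcon
      have h3 : f z = 1 := (interior_subset hz : z ∈ {z | f z = 1})
      have h4 : f z = 0 := hf0.self_of_nhdsSet z (Or.inl hcon)
      rw [h3] at h4
      exact one_ne_zero h4
    exact dbar_holo (hgU.differentiableAt (hU.mem_nhds h2))
  have h0' : volume (K \ V) = 0 :=
    measure_mono_null (s := K \ V) (t := K \ P) (fun z hz => ⟨hz.1, fun h => hz.2 (hPV h)⟩) h0
  obtain ⟨p, hp⟩ := core hK hesc hG hGs hV hdV h0' (ε := ε / 2) (by linarith)
  refine ⟨p, fun z hz => ?_⟩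
  have h1 : ‖G z - g z‖ < ε / 2 := by
    have h2 : G z - g z = ((1 - f z : ℝ) : ℂ) * (G₁ z - g z) := by
      simp only [hGdef]
      push_cast
      ring
    rw [h2, norm_mul, Complex.norm_real, Real.norm_eq_abs, abs_of_nonneg (by linarith [(hf z).2])]
    have h3 := hG₁g z hz
    have h4 := (hf z).1
    calc (1 - f z) * ‖G₁ z - g z‖ ≤ 1 * ‖G₁ z - g z‖ := by gcongr; linarith
      _ < ε / 2 := by rw [one_mul]; exact h3
  have h2 := hp z hz
  calc ‖p.eval z - g z‖ = ‖(p.eval z - G z) + (G z - g z)‖ := by ring_nf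
    _ ≤ ‖p.eval z - G z‖ + ‖G z - g z‖ := norm_add_le _ _
    _ < ε := by linarith

end Crest.Agent.R279.HR
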