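import Mathlib
import Crest.Agent.R279.Mixed806
import Crest.Agent.R279.H488Defs

/-!
R279 (helper806): `LemmaE'Target` (rectangle with hairs) from the mixed Runge theorem.
-/

set_option autoImplicit false

open Set Metric Filter MeasureTheory
open scoped Topology ContDiff

noncomputable section
namespace Crest.Agent.R279.Planar

open Crest.Agent.R279.HR

theorem exists_pos_le {ι : Type*} (s : Finset ι) (f : ι → ℝ) (hf : ∀ i ∈ s, 0 < f i) :
    ∃ d > 0, ∀ i ∈ s, d ≤ f i := by
  classical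
  induction s using Finset.induction_on with
  | empty => exact ⟨1, one_pos, by simp⟩
  | insert a s _ ih =>
    obtain ⟨d, hd, h⟩ := ih fun i hi => hf i (Finset.mem_insert_of_mem hi)
    refine ⟨min d (f a), lt_min hd (hf a (Finset.mem_insert_self _ _)), fun i hi => ?_⟩
    rcases Finset.mem_insert.mp hi with rfl | hi
    · exact min_le_right _ _
    · exact (min_le_left _ _).trans (h i hi)

theorem continuous_loc {P : Rect} (T : Hair P) : Continuous T.loc := by
  unfold Hair.loc
  fun_prop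

theorem norm_nu {P : Rect} (T : Hair P) : ‖T.ν‖ = 1 := by
  rcases T.h with ⟨h, -⟩ | ⟨h, -⟩ | ⟨h, -⟩ | ⟨h, -⟩ <;> simp [h]

theorem loc_inj {P : Rect} (T : Hair P) (z : ℂ) : T.q + T.ν * T.loc z = z := by
  rcases T.h with ⟨h, -⟩ | ⟨h, -⟩ | ⟨h, -⟩ | ⟨h, -⟩ <;> simp [Hair.loc, h] <;> ring_nf <;>
    simp [Complex.I_sq]

/-- near the rectangle the local coordinate has small real part -/
theorem loc_re_lt {P : Rect} (T : Hair P) {s : ℝ} {z : ℂ} (hz : z ∈ P.op s) :
    (T.loc z).re < s := by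
  obtain ⟨h1, h2, h3, h4⟩ := hz
  rcases T.h with ⟨h, hq, -⟩ | ⟨h, hq, -⟩ | ⟨h, hq, -⟩ | ⟨h, hq, -⟩ <;>
    simp [Hair.loc, h, hq] <;> linarith

/-- on another hair the local coordinate has nonpositive real part or large imaginary part -/
theorem loc_other {P : Rect} (T S : Hair P) {z : ℂ} (hz : z ∈ S.cl 0) :
    (T.loc z).re ≤ 0 ∨ ‖T.q - S.q‖ ≤ |(T.loc z).im| := by
  obtain ⟨h1, h2⟩ := hz
  have hre : ∀ w : ℂ, w.re = 0 → ‖w‖ = |w.im| := fun w hw => by
    rw [← Complex.abs_im_eq_norm.mpr hw]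
  have him : ∀ w : ℂ, w.im = 0 → ‖w‖ = |w.re| := fun w hw => by
    rw [← Complex.abs_re_eq_norm.mpr hw]
  have h2' : (S.loc z).im = 0 := by
    have := abs_nonneg (S.loc z).im
    exact abs_eq_zero.mp (le_antisymm h2 this)
  have h1' : 0 ≤ (S.loc z).re := by simpa using h1
  clear h1 h2
  have hPx := P.hx
  have hPy := P.hy
  rcases T.h with ⟨h, hq, hl, hr⟩ | ⟨h, hq, hl, hr⟩ | ⟨h, hq, hl, hr⟩ | ⟨h, hq, hl, hr⟩ <;>
  rcases S.h with ⟨h', hq', hl', hr'⟩ | ⟨h', hq', hl', hr'⟩ | ⟨h', hq', hl', hr'⟩ |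
    ⟨h', hq', hl', hr'⟩ <;>
  simp [Hair.loc, h'] at h1' h2' <;> simp [Hair.loc, h]
  · right
    rw [hre _ (by simp [hq, hq'])]
    simp only [Complex.sub_im]
    rw [abs_sub_comm]
    apply le_of_eq; congr 1; linarith
  · left; linarith
  · left; linarith
  · left; linarith
  · left; linarith
  · right
    rw [him _ (by simp [hq, hq'])]
    simp only [Complex.sub_re]
    apply le_of_eq; congr 1; linarith
  · left; linarith
  · left; linarith
  · left; linarith
  · left; linarith
  · right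
    rw [hre _ (by simp [hq, hq'])]
    simp only [Complex.sub_im]
    apply le_of_eq; congr 1; linarith
  · left; linarith
  · left; linarith
  · left; linarith
  · left; linarith
  · right
    rw [him _ (by simp [hq, hq'])]
    simp only [Complex.sub_re]
    rw [abs_sub_comm]
    apply le_of_eq; congr 1; linarith

theorem continuous_sn : Continuous sn := by
  unfold sn
  exact (Complex.continuous_re.abs).max (Complex.continuous_im.abs)

theorem sn_le_norm (z : ℂ) : sn z ≤ ‖z‖ :=
  max_le (Complex.abs_re_le_norm z) (Complex.abs_im_le_norm z)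

theorem norm_le_sn (z : ℂ) : ‖z‖ ≤ 2 * sn z := by
  have h1 := Complex.norm_le_abs_re_add_abs_im z
  have h2 : |z.re| ≤ sn z := le_max_left _ _
  have h3 : |z.im| ≤ sn z := le_max_right _ _
  linarith

theorem sn_add_le (z w : ℂ) : sn (z + w) ≤ sn z + sn w := by
  have h2 : |z.re| ≤ sn z := le_max_left _ _
  have h3 : |z.im| ≤ sn z := le_max_right _ _
  have h4 : |w.re| ≤ sn w := le_max_left _ _
  have h5 : |w.im| ≤ sn w := le_max_right _ _
  refine max_le ?_ ?_
  · rw [Complex.add_re]; exact (abs_add_le _ _).trans (by linarith)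
  · rw [Complex.add_im]; exact (abs_add_le _ _).trans (by linarith)

theorem isClosed_cl (P : Rect) (s : ℝ) : IsClosed (P.cl s) := by
  unfold Rect.cl
  have h1 := Complex.continuous_re
  have h2 := Complex.continuous_im
  exact (isClosed_le continuous_const h1).inter ((isClosed_le h1 continuous_const).inter
    ((isClosed_le continuous_const h2).inter (isClosed_le h2 continuous_const)))

theorem isOpen_op (P : Rect) (s : ℝ) : IsOpen (P.op s) := by
  unfold Rect.op
  have h1 := Complex.continuous_re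
  have h2 := Complex.continuous_im
  exact (isOpen_lt continuous_const h1).inter ((isOpen_lt h1 continuous_const).inter
    ((isOpen_lt continuous_const h2).inter (isOpen_lt h2 continuous_const)))

theorem isClosed_hair {P : Rect} (T : Hair P) (s : ℝ) : IsClosed (T.cl s) := by
  unfold Hair.cl
  have h1 := Complex.continuous_re.comp (continuous_loc T)
  have h2 := Complex.continuous_im.comp (continuous_loc T)
  exact (isClosed_le continuous_const h1).inter (isClosed_le h2.abs continuous_const)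

theorem volume_hair {P : Rect} (T : Hair P) : volume (T.cl 0) = 0 := by
  have hz : ∀ (s t : Set ℝ), MeasurableSet s → MeasurableSet t → (volume s = 0 ∨ volume t = 0) →
      volume {c : ℂ | c.re ∈ s ∧ c.im ∈ t} = 0 := by
    intro s t hs ht h
    have h1 : {c : ℂ | c.re ∈ s ∧ c.im ∈ t} = Complex.measurableEquivRealProd ⁻¹' (s ×ˢ t) := by
      ext c
      simp [Complex.measurableEquivRealProd]
    rw [h1, Complex.volume_preserving_equiv_real_prod.measure_preimage_equiv]
    rw [Measure.volume_eq_prod, Measure.prod_prod]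
    rcases h with h | h <;> simp [h]
  have key : T.cl 0 ⊆ {c : ℂ | c.re ∈ (univ : Set ℝ) ∧ c.im ∈ ({T.q.im} : Set ℝ)} ∪
      {c : ℂ | c.re ∈ ({T.q.re} : Set ℝ) ∧ c.im ∈ (univ : Set ℝ)} := by
    rintro z ⟨-, h2⟩
    have h2' : (T.loc z).im = 0 := abs_eq_zero.mp (le_antisymm h2 (abs_nonneg _))
    rcases T.h with ⟨h, -⟩ | ⟨h, -⟩ | ⟨h, -⟩ | ⟨h, -⟩ <;> simp [Hair.loc, h] at h2'
    · left; simp; linarith
    · right; simp; linarith
    · left; simp; linarith
    · right; simp; linarith
  refine measure_mono_null key (measure_union_null ?_ ?_)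
  · exact hz _ _ MeasurableSet.univ (measurableSet_singleton _) (Or.inr (by simp))
  · exact hz _ _ (measurableSet_singleton _) MeasurableSet.univ (Or.inl (by simp))

theorem ray_up (x y : ℝ) : IsPreconnected {c : ℂ | y ≤ c.im ∧ c.re = x} ∧
    ¬ Bornology.IsBounded {c : ℂ | y ≤ c.im ∧ c.re = x} := by
  constructor
  · refine Convex.isPreconnected ?_
    have : {c : ℂ | y ≤ c.im ∧ c.re = x} = {c : ℂ | y ≤ c.im} ∩ {c : ℂ | c.re = x} := by
      ext c; simp
    rw [this]
    refine (convex_halfSpace_im_ge y).inter ?_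
    exact convex_hyperplane (f := fun c : ℂ => c.re) Complex.reLm.isLinear x
  · intro h
    obtain ⟨M, hM⟩ := h.subset_closedBall (0 : ℂ)
    have h1 : (⟨x, max y (|M| + 1)⟩ : ℂ) ∈ {c : ℂ | y ≤ c.im ∧ c.re = x} :=
      ⟨le_max_left _ _, rfl⟩
    have h2 := hM h1
    rw [mem_closedBall, dist_zero_right] at h2
    have h3 := Complex.im_le_norm (⟨x, max y (|M| + 1)⟩ : ℂ)
    have h4 : |M| + 1 ≤ max y (|M| + 1) := le_max_right _ _
    have h5 := le_abs_self M
    simp only at h3
    linarith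

theorem ray_down (x y : ℝ) : IsPreconnected {c : ℂ | c.im ≤ y ∧ c.re = x} ∧
    ¬ Bornology.IsBounded {c : ℂ | c.im ≤ y ∧ c.re = x} := by
  constructor
  · refine Convex.isPreconnected ?_
    have : {c : ℂ | c.im ≤ y ∧ c.re = x} = {c : ℂ | c.im ≤ y} ∩ {c : ℂ | c.re = x} := by
      ext c; simp
    rw [this]
    refine (convex_halfSpace_im_le y).inter ?_
    exact convex_hyperplane (f := fun c : ℂ => c.re) Complex.reLm.isLinear x
  · intro h
    obtain ⟨M, hM⟩ := h.subset_closedBall (0 : ℂ)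
    have h1 : (⟨x, min y (-|M| - 1)⟩ : ℂ) ∈ {c : ℂ | c.im ≤ y ∧ c.re = x} :=
      ⟨min_le_left _ _, rfl⟩
    have h2 := hM h1
    rw [mem_closedBall, dist_zero_right] at h2
    have h3 := (abs_le.mp (Complex.abs_im_le_norm (⟨x, min y (-|M| - 1)⟩ : ℂ))).1
    have h4 : min y (-|M| - 1) ≤ -|M| - 1 := min_le_right _ _
    have h5 := le_abs_self M
    simp only at h3
    linarith

/-- escape property of rectangle plus hairs, cut at `sn ≤ R'` -/
theorem escape_hairs (P : Rect) {M : ℕ} (T : Fin M → Hair P) (R' : ℝ) :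
    Escape ({z | sn z ≤ R'} ∩ (P.cl 0 ∪ ⋃ j, (T j).cl 0)) := by
  intro a ha
  have hPx := P.hx
  have hPy := P.hy
  by_cases hR : sn a ≤ R'
  · have ha' : a ∉ P.cl 0 ∪ ⋃ j, (T j).cl 0 := fun h => ha ⟨hR, h⟩
    have haP : a ∉ P.cl 0 := fun h => ha' (Or.inl h)
    have haT : ∀ j, a ∉ (T j).cl 0 := fun j h => ha' (Or.inr (mem_iUnion.mpr ⟨j, h⟩))
    have hcase : a.re < P.x0 ∨ P.x1 < a.re ∨ a.im < P.y0 ∨ P.y1 < a.im := by
      by_contra hcon
      push Not at hcon
      apply haP
      simp only [Rect.cl, mem_ofPred_eq]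
      refine ⟨?_, ?_, ?_, ?_⟩ <;> linarith [hcon.1, hcon.2.1, hcon.2.2.1, hcon.2.2.2]
    rcases hcase with h | h | h | h
    · refine ⟨{w | w.re ≤ a.re ∧ w.im = a.im}, (ray_left _ _).1, ⟨le_rfl, rfl⟩, ?_,
        (ray_left _ _).2⟩
      rw [Set.disjoint_left]
      rintro w ⟨hw1, hw2⟩ ⟨-, hw | hw⟩
      · simp only [Rect.cl, mem_ofPred_eq] at hw
        linarith [hw.1]
      · obtain ⟨j, h1, h2⟩ := mem_iUnion.mp hw
        have h2' : ((T j).loc w).im = 0 := abs_eq_zero.mp (le_antisymm h2 (abs_nonneg _))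
        apply haT j
        simp only [Hair.cl, mem_ofPred_eq]
        rcases (T j).h with ⟨g, gq, gl, gr⟩ | ⟨g, gq, gl, gr⟩ | ⟨g, gq, gl, gr⟩ |
          ⟨g, gq, gl, gr⟩ <;> simp [Hair.loc, g] at h1 h2' ⊢
        · linarith
        · linarith
        · constructor <;> linarith
        · linarith
    · refine ⟨{w | a.re ≤ w.re ∧ w.im = a.im}, (ray_right _ _).1, ⟨le_rfl, rfl⟩, ?_,
        (ray_right _ _).2⟩
      rw [Set.disjoint_left]
      rintro w ⟨hw1, hw2⟩ ⟨-, hw | hw⟩
      · simp only [Rect.cl, mem_ofPred_eq] at hw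
        linarith [hw.2.1]
      · obtain ⟨j, h1, h2⟩ := mem_iUnion.mp hw
        have h2' : ((T j).loc w).im = 0 := abs_eq_zero.mp (le_antisymm h2 (abs_nonneg _))
        apply haT j
        simp only [Hair.cl, mem_ofPred_eq]
        rcases (T j).h with ⟨g, gq, gl, gr⟩ | ⟨g, gq, gl, gr⟩ | ⟨g, gq, gl, gr⟩ |
          ⟨g, gq, gl, gr⟩ <;> simp [Hair.loc, g] at h1 h2' ⊢
        · constructor <;> linarith
        · linarith
        · linarith
        · linarith
    · refine ⟨{w | w.im ≤ a.im ∧ w.re = a.re}, (ray_down _ _).1, ⟨le_rfl, rfl⟩, ?_,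
        (ray_down _ _).2⟩
      rw [Set.disjoint_left]
      rintro w ⟨hw1, hw2⟩ ⟨-, hw | hw⟩
      · simp only [Rect.cl, mem_ofPred_eq] at hw
        linarith [hw.2.2.1]
      · obtain ⟨j, h1, h2⟩ := mem_iUnion.mp hw
        have h2' : ((T j).loc w).im = 0 := abs_eq_zero.mp (le_antisymm h2 (abs_nonneg _))
        apply haT j
        simp only [Hair.cl, mem_ofPred_eq]
        rcases (T j).h with ⟨g, gq, gl, gr⟩ | ⟨g, gq, gl, gr⟩ | ⟨g, gq, gl, gr⟩ |
          ⟨g, gq, gl, gr⟩ <;> simp [Hair.loc, g] at h1 h2' ⊢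
        · linarith
        · linarith
        · linarith
        · constructor <;> linarith
    · refine ⟨{w | a.im ≤ w.im ∧ w.re = a.re}, (ray_up _ _).1, ⟨le_rfl, rfl⟩, ?_,
        (ray_up _ _).2⟩
      rw [Set.disjoint_left]
      rintro w ⟨hw1, hw2⟩ ⟨-, hw | hw⟩
      · simp only [Rect.cl, mem_ofPred_eq] at hw
        linarith [hw.2.2.2]
      · obtain ⟨j, h1, h2⟩ := mem_iUnion.mp hw
        have h2' : ((T j).loc w).im = 0 := abs_eq_zero.mp (le_antisymm h2 (abs_nonneg _))
        apply haT j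
        simp only [Hair.cl, mem_ofPred_eq]
        rcases (T j).h with ⟨g, gq, gl, gr⟩ | ⟨g, gq, gl, gr⟩ | ⟨g, gq, gl, gr⟩ |
          ⟨g, gq, gl, gr⟩ <;> simp [Hair.loc, g] at h1 h2' ⊢
        · linarith
        · constructor <;> linarith
        · linarith
        · linarith
  · push Not at hR
    rcases lt_max_iff.mp hR with h | h
    · rcases lt_abs.mp h with h | h
      · refine ⟨{w | a.re ≤ w.re ∧ w.im = a.im}, (ray_right _ _).1, ⟨le_rfl, rfl⟩, ?_,
          (ray_right _ _).2⟩
        rw [Set.disjoint_left]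
        rintro w ⟨hw1, hw2⟩ ⟨hw, -⟩
        have h1 : |w.re| ≤ R' := (le_max_left _ _).trans hw
        linarith [le_abs_self w.re]
      · refine ⟨{w | w.re ≤ a.re ∧ w.im = a.im}, (ray_left _ _).1, ⟨le_rfl, rfl⟩, ?_,
          (ray_left _ _).2⟩
        rw [Set.disjoint_left]
        rintro w ⟨hw1, hw2⟩ ⟨hw, -⟩
        have h1 : |w.re| ≤ R' := (le_max_left _ _).trans hw
        linarith [neg_abs_le w.re]
    · rcases lt_abs.mp h with h | h
      · refine ⟨{w | a.im ≤ w.im ∧ w.re = a.re}, (ray_up _ _).1, ⟨le_rfl, rfl⟩, ?_,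
          (ray_up _ _).2⟩
        rw [Set.disjoint_left]
        rintro w ⟨hw1, hw2⟩ ⟨hw, -⟩
        have h1 : |w.im| ≤ R' := (le_max_right _ _).trans hw
        linarith [le_abs_self w.im]
      · refine ⟨{w | w.im ≤ a.im ∧ w.re = a.re}, (ray_down _ _).1, ⟨le_rfl, rfl⟩, ?_,
          (ray_down _ _).2⟩
        rw [Set.disjoint_left]
        rintro w ⟨hw1, hw2⟩ ⟨hw, -⟩
        have h1 : |w.im| ≤ R' := (le_max_right _ _).trans hw
        linarith [neg_abs_le w.im]

theorem exists_shift (h : ℝ → ℂ) (hc : Continuous h) (B ε : ℝ) (hε : 0 < ε) :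
    ∃ s₀ > 0, s₀ ≤ 1 ∧ ∀ s, 0 ≤ s → s ≤ s₀ → ∀ t ∈ Icc (0 : ℝ) B, ‖h (t - s) - h t‖ < ε := by
  have h1 := (isCompact_Icc (a := (-1 : ℝ)) (b := B)).uniformContinuousOn_of_continuous
    hc.continuousOn
  rw [Metric.uniformContinuousOn_iff] at h1
  obtain ⟨δ, hδ, h2⟩ := h1 ε hε
  refine ⟨min (δ / 2) 1, lt_min (by positivity) one_pos, min_le_right _ _, ?_⟩
  intro s hs0 hs t ht
  have h3 : s ≤ δ / 2 := hs.trans (min_le_left _ _)
  have h4 : s ≤ 1 := hs.trans (min_le_right _ _)
  have := h2 (t - s) ⟨by linarith [ht.1], by linarith [ht.2]⟩ t ⟨by linarith [ht.1], ht.2⟩ (by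
    rw [Real.dist_eq]
    have : t - s - t = -s := by ring
    rw [this, abs_neg, abs_of_nonneg hs0]
    linarith)
  rwa [dist_eq_norm] at this

theorem loc_add {P : Rect} (T : Hair P) (w : ℂ) : T.loc (T.q + T.ν * w) = w := by
  rcases T.h with ⟨h, -⟩ | ⟨h, -⟩ | ⟨h, -⟩ | ⟨h, -⟩ <;> simp [Hair.loc, h] <;> ring_nf <;>
    simp [Complex.I_sq]

theorem norm_loc {P : Rect} (T : Hair P) (z : ℂ) : ‖T.loc z‖ = ‖z - T.q‖ := by
  have : ‖(starRingEnd ℂ) T.ν‖ = 1 := by rw [Complex.norm_conj, norm_nu]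
  rw [Hair.loc, norm_mul, this, mul_one]

theorem isCompact_of_sn {K : Set ℂ} (hK : IsClosed K) {R : ℝ} (h : ∀ z ∈ K, sn z ≤ R) :
    IsCompact K := by
  refine Metric.isCompact_of_isClosed_isBounded hK ?_
  refine (Metric.isBounded_iff_subset_closedBall 0).mpr ⟨2 * R, fun z hz => ?_⟩
  rw [mem_closedBall, dist_zero_right]
  exact (norm_le_sn z).trans (by linarith [h z hz])

theorem lemmaE' : LemmaE'Target := by
  classical
  intro P M T hinj φ h hcont h0 η R hη
  -- separation of the feet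
  obtain ⟨d, hd, hdq⟩ := exists_pos_le (Finset.univ.filter fun jk : Fin M × Fin M => jk.1 ≠ jk.2)
    (fun jk => ‖(T jk.1).q - (T jk.2).q‖) (by
      rintro ⟨j, k⟩ hjk
      simp only [Finset.mem_filter, Finset.mem_univ, true_and] at hjk
      rw [norm_pos_iff, sub_ne_zero]
      exact fun hc => hjk (hinj hc))
  -- the big radius
  obtain ⟨R', hR', hPR'⟩ : ∃ R' : ℝ, |R| + 1 ≤ R' ∧ ∀ z ∈ P.cl 0, sn z ≤ R' := by
    refine ⟨|R| + 1 + |P.x0| + |P.x1| + |P.y0| + |P.y1|, ?_, ?_⟩
    · linarith [abs_nonneg P.x0, abs_nonneg P.x1, abs_nonneg P.y0, abs_nonneg P.y1]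
    · rintro z ⟨h1, h2, h3, h4⟩
      refine max_le (abs_le.mpr ⟨?_, ?_⟩) (abs_le.mpr ⟨?_, ?_⟩) <;>
        linarith [abs_nonneg P.x0, abs_nonneg P.x1, abs_nonneg P.y0, abs_nonneg P.y1,
          abs_nonneg R, neg_abs_le P.x0, neg_abs_le P.y0, le_abs_self P.x1, le_abs_self P.y1]
  have hR'0 : 0 ≤ R' := by linarith [abs_nonneg R]
  -- the shift
  set B : ℝ := 2 * R' + ∑ j, ‖(T j).q‖ with hB
  choose s₀ hs₀ hs₀1 hs₀2 using fun j => exists_shift (h j) (hcont j) B (η / 4) (by positivity)
  obtain ⟨s₁, hs₁, hs₁le⟩ := exists_pos_le Finset.univ s₀ fun j _ => hs₀ j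
  set s : ℝ := min s₁ 1 with hs
  have hs0 : 0 < s := lt_min hs₁ one_pos
  have hsle : ∀ j, s ≤ s₀ j := fun j => (min_le_left _ _).trans (hs₁le j (Finset.mem_univ j))
  -- the function
  set g : ℂ → ℂ := fun z => φ.eval z +
    ∑ j, ((max 0 (1 - |((T j).loc z).im| / d) : ℝ) : ℂ) * h j (((T j).loc z).re - s) with hg
  have hgc : Continuous g := by
    refine φ.continuous.add (continuous_finsetSum _ fun j _ => ?_)
    have h1 := Complex.continuous_re.comp (continuous_loc (T j))
    have h2 := Complex.continuous_im.comp (continuous_loc (T j))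
    refine (Complex.continuous_ofReal.comp (continuous_const.max
      (continuous_const.sub (h2.abs.div_const d)))).mul ((hcont j).comp (h1.sub continuous_const))
  have hgP : ∀ z ∈ P.op s, g z = φ.eval z := by
    intro z hz
    rw [hg]
    simp only
    rw [Finset.sum_eq_zero, add_zero]
    intro j _
    rw [h0 j _ (by linarith [loc_re_lt (T j) hz]), mul_zero]
  have hgT : ∀ k, ∀ z ∈ (T k).cl 0, g z = φ.eval z + h k (((T k).loc z).re - s) := by
    intro k z hz
    rw [hg]
    simp only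
    congr 1
    rw [Finset.sum_eq_single k]
    · have h2 : ((T k).loc z).im = 0 := abs_eq_zero.mp (le_antisymm hz.2 (abs_nonneg _))
      rw [h2]; simp
    · intro j _ hjk
      rcases loc_other (T j) (T k) hz with h1 | h1
      · rw [h0 j _ (by linarith), mul_zero]
      · have h2 : d ≤ ‖(T j).q - (T k).q‖ := hdq (j, k) (by simp [hjk])
        have h3 : max 0 (1 - |((T j).loc z).im| / d) = 0 := by
          refine max_eq_left ?_
          rw [sub_nonpos, one_le_div hd]
          exact h2.trans h1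
        rw [h3]; simp
    · intro hk; exact absurd (Finset.mem_univ k) hk
  -- the compact set
  set K : Set ℂ := {z | sn z ≤ R'} ∩ (P.cl 0 ∪ ⋃ j, (T j).cl 0) with hKdef
  have hKcl : IsClosed K := (isClosed_le continuous_sn continuous_const).inter
    ((isClosed_cl P 0).union (isClosed_iUnion_of_finite fun j => isClosed_hair (T j) 0))
  have hK : IsCompact K := isCompact_of_sn hKcl fun z hz => hz.1
  have hPK : P.cl 0 ⊆ K := fun z hz => ⟨hPR' z hz, Or.inl hz⟩
  have hPU : P.cl 0 ⊆ P.op s := by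
    rintro z ⟨h1, h2, h3, h4⟩
    refine ⟨?_, ?_, ?_, ?_⟩ <;> linarith
  have hvol : volume (K \ P.cl 0) = 0 := by
    refine measure_mono_null (t := ⋃ j, (T j).cl 0) ?_ ?_
    · rintro z ⟨⟨-, hz | hz⟩, hz'⟩
      · exact absurd hz hz'
      · exact hz
    · exact measure_iUnion_null fun j => volume_hair (T j)
  obtain ⟨E, hE⟩ := mixed_runge hK (escape_hairs P T R') (isClosed_cl P 0) hPK (isOpen_op P s) hPU
    hvol hgc ((φ.differentiable.differentiableOn).congr hgP) (show 0 < η / 4 by positivity)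
  -- open neighbourhoods
  have hU0 : IsOpen {z : ℂ | ‖E.eval z - φ.eval z‖ < η} :=
    isOpen_lt (E.continuous.sub φ.continuous).norm continuous_const
  have hUj : ∀ j, IsOpen {z : ℂ | ‖E.eval z - (φ.eval z + h j ((T j).loc z).re)‖ < η} := by
    intro j
    refine isOpen_lt (E.continuous.sub (φ.continuous.add ((hcont j).comp
      (Complex.continuous_re.comp (continuous_loc (T j)))))).norm continuous_const
  have hPc : IsCompact (P.cl 0) := isCompact_of_sn (isClosed_cl P 0) hPR'
  have hTc : ∀ j, IsCompact ({z | sn z ≤ R'} ∩ (T j).cl 0) := fun j =>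
    isCompact_of_sn ((isClosed_le continuous_sn continuous_const).inter (isClosed_hair (T j) 0))
      fun z hz => hz.1
  obtain ⟨δ₀, hδ₀, hδ₀'⟩ := hPc.exists_cthickening_subset_open hU0 (by
    intro z hz
    have h1 := hE z (hPK hz)
    rw [hgP z (hPU hz)] at h1
    show ‖_‖ < _
    linarith)
  have hT : ∀ j, ∃ δ > 0, cthickening δ ({z | sn z ≤ R'} ∩ (T j).cl 0) ⊆
      {z : ℂ | ‖E.eval z - (φ.eval z + h j ((T j).loc z).re)‖ < η} := by
    intro j
    refine (hTc j).exists_cthickening_subset_open (hUj j) ?_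
    rintro z ⟨hz1, hz2⟩
    have h1 := hE z ⟨hz1, Or.inr (mem_iUnion.mpr ⟨j, hz2⟩)⟩
    rw [hgT j z hz2] at h1
    have h2 : ((T j).loc z).re ∈ Icc (0 : ℝ) B := by
      refine ⟨by simpa using hz2.1, ?_⟩
      refine (Complex.re_le_norm _).trans ?_
      rw [norm_loc, hB]
      refine (norm_sub_le _ _).trans (add_le_add ?_ ?_)
      · exact (norm_le_sn z).trans (by linarith [show sn z ≤ R' from hz1])
      · exact Finset.single_le_sum (f := fun j => ‖(T j).q‖) (fun i _ => norm_nonneg _)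
          (Finset.mem_univ j)
    have h3 := hs₀2 j s hs0.le (hsle j) _ h2
    show ‖_‖ < _
    have h4 : E.eval z - (φ.eval z + h j ((T j).loc z).re) =
      (E.eval z - (φ.eval z + h j (((T j).loc z).re - s))) +
        (h j (((T j).loc z).re - s) - h j ((T j).loc z).re) := by ring
    rw [h4]
    refine (norm_add_le _ _).trans_lt ?_
    linarith
  choose δ₁ hδ₁ hδ₁' using hT
  obtain ⟨δ₂, hδ₂, hδ₂le⟩ := exists_pos_le Finset.univ δ₁ fun j _ => hδ₁ j
  refine ⟨E, min (min (δ₀ / 2) (δ₂ / 2)) (1 / 2), by positivity, ?_, ?_⟩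
  · rintro z ⟨h1, h2, h3, h4⟩
    set δ := min (min (δ₀ / 2) (δ₂ / 2)) (1 / 2) with hδ
    have hδ0 : δ ≤ δ₀ / 2 := (min_le_left _ _).trans (min_le_left _ _)
    have hδpos : 0 < δ := by positivity
    refine hδ₀' ?_
    have hPx := P.hx
    have hPy := P.hy
    set w : ℂ := ⟨max P.x0 (min P.x1 z.re), max P.y0 (min P.y1 z.im)⟩ with hw
    refine mem_cthickening_of_dist_le z w δ₀ _ ?_ ?_
    · refine ⟨?_, ?_, ?_, ?_⟩ <;> simp [hw, hPx.le, hPy.le]
    · rw [dist_eq_norm]
      refine (norm_le_sn _).trans ?_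
      have : sn (z - w) ≤ δ := by
        refine max_le (abs_le.mpr ⟨?_, ?_⟩) (abs_le.mpr ⟨?_, ?_⟩) <;>
          simp only [Complex.sub_re, Complex.sub_im, hw]
        · have : max P.x0 (min P.x1 z.re) ≤ z.re + δ := by
            refine max_le (by linarith) ((min_le_right _ _).trans (by linarith))
          linarith
        · have : z.re - δ ≤ max P.x0 (min P.x1 z.re) := by
            refine le_max_of_le_right (le_min (by linarith) (by linarith))
          linarith
        · have : max P.y0 (min P.y1 z.im) ≤ z.im + δ := by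
            refine max_le (by linarith) ((min_le_right _ _).trans (by linarith))
          linarith
        · have : z.im - δ ≤ max P.y0 (min P.y1 z.im) := by
            refine le_max_of_le_right (le_min (by linarith) (by linarith))
          linarith
      linarith
  · rintro j z ⟨h1, h2⟩ hz
    set δ := min (min (δ₀ / 2) (δ₂ / 2)) (1 / 2) with hδ
    have hδ0 : δ ≤ δ₂ / 2 := (min_le_left _ _).trans (min_le_right _ _)
    have hδh : δ ≤ 1 / 2 := min_le_right _ _
    have hδpos : 0 < δ := by positivity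
    refine hδ₁' j ?_
    set t : ℝ := max 0 ((T j).loc z).re with ht
    set w : ℂ := (T j).q + (T j).ν * (t : ℂ) with hw
    have hloc : (T j).loc w = (t : ℂ) := loc_add _ _
    have hzw : ‖z - w‖ ≤ 2 * δ := by
      have e1 : z - w = (T j).ν * ((T j).loc z - t) := by
        rw [hw]
        nth_rewrite 1 [← loc_inj (T j) z]
        ring
      rw [e1, norm_mul, norm_nu, one_mul]
      refine (norm_le_sn _).trans ?_
      have : sn ((T j).loc z - t) ≤ δ := by
        refine max_le (abs_le.mpr ⟨?_, ?_⟩) ?_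
        · simp only [Complex.sub_re, Complex.ofReal_re]
          have : t ≤ ((T j).loc z).re + δ := max_le (by linarith) (by linarith)
          linarith
        · simp only [Complex.sub_re, Complex.ofReal_re]
          have : ((T j).loc z).re ≤ t := le_max_right _ _
          linarith
        · simpa using h2
      linarith
    refine mem_cthickening_of_dist_le z w (δ₁ j) _ ⟨?_, ?_⟩ ?_
    · show sn w ≤ R'
      have e2 : w = z + (w - z) := by ring
      rw [e2]
      refine (sn_add_le _ _).trans ?_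
      have e3 : sn (w - z) ≤ 2 * δ := (sn_le_norm _).trans (by rwa [norm_sub_rev])
      linarith [le_abs_self R]
    · refine ⟨?_, ?_⟩
      · rw [hloc]; simp [ht]
      · rw [hloc]; simp
    · rw [dist_eq_norm]
      have := hδ₂le j (Finset.mem_univ j)
      linarith

end Crest.Agent.R279.Planar
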