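import Mathlib
import Crest.Prelude.Def_ProjHolo
import Crest.Agent.R266.SCV

/-!
R279 (S0422), outermost reduction (helper625):
* `VS Q` the punctured cone, `CAPR Q`, `Lift21`;
* exhaustion: `CAPR Q` gives entire maps into `VS Q` (part 3.3);
* the frozen statement from `Lift21` and `CAPR`.
-/

set_option autoImplicit false

open Set Metric Filter Topology
open scoped BigOperators

namespace Crest.Agent.R279.Red

open Crest.AlgGeometry

/-- the punctured affine cone over the quartic surface -/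
def VS (Q : MvPolynomial (Fin 4) ℂ) : Set (Fin 4 → ℂ) :=
  {v | v ≠ 0 ∧ MvPolynomial.eval v Q = 0}

/-- (CAP_R) for the punctured cone -/
def CAPR (Q : MvPolynomial (Fin 4) ℂ) : Prop :=
  ∀ (m : ℕ) (K U : Set (Fin m → ℂ)) (f : (Fin m → ℂ) → Fin 4 → ℂ),
    IsCompact K → Convex ℝ K → IsOpen U → K ⊆ U → DifferentiableOn ℂ f U →
    (∀ z ∈ U, f z ∈ VS Q) → ∀ R : ℝ, ∀ ε > 0,
    ∃ (W : Set (Fin m → ℂ)) (G : (Fin m → ℂ) → Fin 4 → ℂ),
      IsOpen W ∧ closedBall 0 R ⊆ W ∧ DifferentiableOn ℂ G W ∧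
      (∀ z ∈ W, G z ∈ VS Q) ∧ ∀ z ∈ K, ‖G z - f z‖ < ε

/-- (2.1) global lifts near compact convex sets -/
def Lift21 : Prop :=
  ∀ (m n : ℕ) (K U : Set (Fin m → ℂ)) (f : (Fin m → ℂ) → Projectivization ℂ (Fin n → ℂ)),
    IsCompact K → Convex ℝ K → IsOpen U → K ⊆ U → ProjHolomorphicOn f U →
    ∃ (W : Set (Fin m → ℂ)) (g : (Fin m → ℂ) → (Fin n → ℂ)),
      IsOpen W ∧ K ⊆ W ∧ W ⊆ U ∧ DifferentiableOn ℂ g W ∧
      ∀ w ∈ W, ∃ h : g w ≠ 0, f w = Projectivization.mk ℂ (g w) h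

/-! ### the gap -/

section Gap

variable {n : ℕ}

/-- squared Hermitian norm -/
noncomputable def N2 (v : Fin n → ℂ) : ℝ := ∑ i, ‖v i‖ ^ 2

lemma N2_nonneg (v : Fin n → ℂ) : 0 ≤ N2 v := Finset.sum_nonneg fun _ _ => by positivity

lemma hermProd_self (v : Fin n → ℂ) : hermProd v v = (N2 v : ℂ) := by
  unfold hermProd N2
  push_cast
  refine Finset.sum_congr rfl fun i _ => ?_
  rw [← Complex.conj_mul']

lemma hermProd_self_re (v : Fin n → ℂ) : (hermProd v v).re = N2 v := by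
  rw [hermProd_self]; simp

lemma N2_pos {v : Fin n → ℂ} (hv : v ≠ 0) : 0 < N2 v := by
  obtain ⟨i, hi⟩ := Function.ne_iff.1 hv
  have : 0 < ‖v i‖ ^ 2 := by
    have : 0 < ‖v i‖ := norm_pos_iff.2 hi
    positivity
  exact lt_of_lt_of_le this
    (Finset.single_le_sum (f := fun i => ‖v i‖ ^ 2) (fun _ _ => by positivity) (Finset.mem_univ i))

lemma hermProd_smul_left (c : ℂ) (v w : Fin n → ℂ) :
    hermProd (c • v) w = (starRingEnd ℂ) c * hermProd v w := by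
  unfold hermProd
  rw [Finset.mul_sum]
  refine Finset.sum_congr rfl fun i _ => ?_
  simp; ring

lemma hermProd_smul_right (c : ℂ) (v w : Fin n → ℂ) :
    hermProd v (c • w) = c * hermProd v w := by
  unfold hermProd
  rw [Finset.mul_sum]
  refine Finset.sum_congr rfl fun i _ => ?_
  simp; ring

lemma hermProd_sub_left (u v w : Fin n → ℂ) :
    hermProd (u - v) w = hermProd u w - hermProd v w := by
  unfold hermProd
  rw [← Finset.sum_sub_distrib]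
  refine Finset.sum_congr rfl fun i _ => ?_
  simp; ring

lemma hermProd_sub_right (u v w : Fin n → ℂ) :
    hermProd u (v - w) = hermProd u v - hermProd u w := by
  unfold hermProd
  rw [← Finset.sum_sub_distrib]
  refine Finset.sum_congr rfl fun i _ => ?_
  simp; ring

lemma hermProd_conj (v w : Fin n → ℂ) :
    (starRingEnd ℂ) (hermProd v w) = hermProd w v := by
  unfold hermProd
  rw [map_sum]
  refine Finset.sum_congr rfl fun i _ => ?_
  simp; ring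

lemma N2_smul (c : ℂ) (v : Fin n → ℂ) : N2 (c • v) = ‖c‖ ^ 2 * N2 v := by
  unfold N2
  rw [Finset.mul_sum]
  refine Finset.sum_congr rfl fun i _ => ?_
  simp; ring

lemma vecGap_smul_smul {c d : ℂ} (hc : c ≠ 0) (hd : d ≠ 0) (v w : Fin n → ℂ) :
    vecGap (c • v) (d • w) = vecGap v w := by
  have hc' : ‖c‖ ≠ 0 := norm_ne_zero_iff.2 hc
  have hd' : ‖d‖ ≠ 0 := norm_ne_zero_iff.2 hd
  unfold vecGap
  rw [hermProd_self_re, hermProd_self_re, hermProd_self_re, hermProd_self_re, N2_smul, N2_smul,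
    hermProd_smul_left, hermProd_smul_right]
  congr 1
  rw [norm_mul, norm_mul, RCLike.norm_conj]
  rw [show (‖c‖ * (‖d‖ * ‖hermProd v w‖)) ^ 2 = (‖c‖ ^ 2 * ‖d‖ ^ 2) * ‖hermProd v w‖ ^ 2 by ring,
    show ‖c‖ ^ 2 * N2 v * (‖d‖ ^ 2 * N2 w) = (‖c‖ ^ 2 * ‖d‖ ^ 2) * (N2 v * N2 w) by ring]
  exact mul_div_mul_left _ _ (by positivity)

lemma N2_sub (v w : Fin n → ℂ) :
    N2 (v - w) = N2 v - 2 * (hermProd v w).re + N2 w := by
  have h1 : hermProd (v - w) (v - w)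
      = hermProd v v - hermProd v w - (hermProd w v - hermProd w w) := by
    rw [hermProd_sub_left, hermProd_sub_right, hermProd_sub_right]
  have h2 := congrArg Complex.re h1
  rw [hermProd_self_re] at h2
  simp only [Complex.sub_re] at h2
  rw [hermProd_self_re, hermProd_self_re] at h2
  have h3 : (hermProd w v).re = (hermProd v w).re := by
    rw [← hermProd_conj v w]; simp
  rw [h2, h3]; ring

/-- the gap is at most the relative squared distance -/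
lemma vecGap_le {v w : Fin n → ℂ} (hv : v ≠ 0) (hw : w ≠ 0) :
    vecGap v w ≤ N2 (v - w) / N2 w := by
  have hv' := N2_pos hv
  have hw' := N2_pos hw
  unfold vecGap
  rw [hermProd_self_re, hermProd_self_re]
  have key : 0 ≤ (N2 v - (hermProd v w).re) ^ 2 + (hermProd v w).im ^ 2 := by positivity
  have hn : ‖hermProd v w‖ ^ 2 = (hermProd v w).re ^ 2 + (hermProd v w).im ^ 2 := by
    rw [← Complex.normSq_eq_norm_sq, Complex.normSq_apply]; ring
  rw [N2_sub, hn]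
  have h1 : 1 - ((hermProd v w).re ^ 2 + (hermProd v w).im ^ 2) / (N2 v * N2 w)
      = (N2 v * N2 w - ((hermProd v w).re ^ 2 + (hermProd v w).im ^ 2)) / (N2 v * N2 w) := by
    field_simp
  have h2 : (N2 v - 2 * (hermProd v w).re + N2 w) / N2 w
      = (N2 v - 2 * (hermProd v w).re + N2 w) * N2 v / (N2 v * N2 w) := by
    field_simp
  rw [h1, h2]
  refine div_le_div_of_nonneg_right ?_ (by positivity)
  nlinarith [key]

end Gap

/-! ### exhaustion (3.3) -/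

section Exhaust

variable {Q : MvPolynomial (Fin 4) ℂ} {m : ℕ}

lemma exists_lower_bound {G : (Fin m → ℂ) → Fin 4 → ℂ} {W K : Set (Fin m → ℂ)}
    (hG : DifferentiableOn ℂ G W) (hV : ∀ z ∈ W, G z ∈ VS Q) (hK : IsCompact K) (hKW : K ⊆ W) :
    ∃ c > 0, ∀ z ∈ K, c ≤ ‖G z‖ := by
  rcases K.eq_empty_or_nonempty with rfl | hne
  · exact ⟨1, one_pos, by simp⟩
  · obtain ⟨x, hx, hmin⟩ := hK.exists_isMinOn hne (hG.continuousOn.mono hKW).norm
    exact ⟨‖G x‖, norm_pos_iff.2 (hV x (hKW hx)).1, fun z hz => hmin hz⟩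

/-- state of the exhaustion -/
structure Good (Q : MvPolynomial (Fin 4) ℂ) (m : ℕ) (R : ℝ)
    (W : Set (Fin m → ℂ)) (G : (Fin m → ℂ) → Fin 4 → ℂ) (δ : ℝ) : Prop where
  openW : IsOpen W
  sub : closedBall 0 R ⊆ W
  diff : DifferentiableOn ℂ G W
  val : ∀ z ∈ W, G z ∈ VS Q
  δpos : 0 < δ
  lb : ∀ z ∈ closedBall (0 : Fin m → ℂ) R, 4 * δ ≤ ‖G z‖

lemma step (hC : CAPR Q) {R R' : ℝ} {W : Set (Fin m → ℂ)} {G : (Fin m → ℂ) → Fin 4 → ℂ} {δ : ℝ}
    (s : Good Q m R W G δ) :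
    ∃ (W' : Set (Fin m → ℂ)) (G' : (Fin m → ℂ) → Fin 4 → ℂ) (δ' : ℝ), Good Q m R' W' G' δ' ∧
      δ' ≤ δ / 2 ∧
      ∀ z ∈ closedBall (0 : Fin m → ℂ) R, ‖G' z - G z‖ < δ := by
  obtain ⟨W', G', hW, hsub, hd, hv, hc⟩ := hC m (closedBall 0 R) W G
    (isCompact_closedBall _ _) (convex_closedBall _ _) s.openW s.sub s.diff s.val
    R' δ s.δpos
  obtain ⟨c, hc0, hcb⟩ := exists_lower_bound hd hv (isCompact_closedBall _ _) hsub
  refine ⟨W', G', min (δ / 2) (c / 4), ⟨hW, hsub, hd, hv, ?_, ?_⟩, min_le_left _ _, hc⟩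
  · exact lt_min (half_pos s.δpos) (by positivity)
  · intro z hz
    have := hcb z hz
    have h2 : min (δ / 2) (c / 4) ≤ c / 4 := min_le_right _ _
    linarith

lemma exists_seq (hC : CAPR Q) (R : ℕ → ℝ) {W₀ : Set (Fin m → ℂ)}
    {G₀ : (Fin m → ℂ) → Fin 4 → ℂ} {δ₀ : ℝ} (s0 : Good Q m (R 0) W₀ G₀ δ₀) :
    ∃ (W : ℕ → Set (Fin m → ℂ)) (G : ℕ → (Fin m → ℂ) → Fin 4 → ℂ) (δ : ℕ → ℝ),
      (∀ k, Good Q m (R k) (W k) (G k) (δ k)) ∧ G 0 = G₀ ∧ δ 0 = δ₀ ∧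
      ∀ k, δ (k + 1) ≤ δ k / 2 ∧
      ∀ z ∈ closedBall (0 : Fin m → ℂ) (R k), ‖G (k + 1) z - G k z‖ < δ k := by
  have hstep : ∀ (k : ℕ) (s : {s : Set (Fin m → ℂ) × ((Fin m → ℂ) → Fin 4 → ℂ) × ℝ //
      Good Q m (R k) s.1 s.2.1 s.2.2}),
      ∃ s' : {s : Set (Fin m → ℂ) × ((Fin m → ℂ) → Fin 4 → ℂ) × ℝ //
        Good Q m (R (k + 1)) s.1 s.2.1 s.2.2}, s'.1.2.2 ≤ s.1.2.2 / 2 ∧
        ∀ z ∈ closedBall (0 : Fin m → ℂ) (R k), ‖s'.1.2.1 z - s.1.2.1 z‖ < s.1.2.2 := by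
    intro k s
    obtain ⟨W', G', δ', h1, h2, h3⟩ := step hC (R' := R (k + 1)) s.2
    exact ⟨⟨⟨W', G', δ'⟩, h1⟩, h2, h3⟩
  choose nx hnx1 hnx2 using hstep
  obtain ⟨S, hS0, hS⟩ : ∃ S : (k : ℕ) → {s : Set (Fin m → ℂ) × ((Fin m → ℂ) → Fin 4 → ℂ) × ℝ //
      Good Q m (R k) s.1 s.2.1 s.2.2}, S 0 = ⟨⟨W₀, G₀, δ₀⟩, s0⟩ ∧ ∀ k, S (k + 1) = nx k (S k) :=
    ⟨fun k => Nat.rec ⟨⟨W₀, G₀, δ₀⟩, s0⟩ (fun k s => nx k s) k, rfl, fun k => rfl⟩
  refine ⟨fun k => (S k).1.1, fun k => (S k).1.2.1, fun k => (S k).1.2.2, fun k => (S k).2,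
    ?_, ?_, fun k => ?_⟩
  · simp only [hS0]
  · simp only [hS0]
  · simp only [hS k]
    exact ⟨hnx1 k _, hnx2 k _⟩

/-- (3.3): `CAPR` gives entire maps into the punctured cone. -/
theorem entire_of_CAPR (hC : CAPR Q) {K U : Set (Fin m → ℂ)} {f : (Fin m → ℂ) → Fin 4 → ℂ}
    (hK : IsCompact K) (hKc : Convex ℝ K) (hU : IsOpen U) (hKU : K ⊆ U)
    (hf : DifferentiableOn ℂ f U) (hv : ∀ z ∈ U, f z ∈ VS Q) {ε : ℝ} (hε : 0 < ε) :
    ∃ F : (Fin m → ℂ) → Fin 4 → ℂ, Differentiable ℂ F ∧ (∀ z, F z ∈ VS Q) ∧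
      ∀ z ∈ K, ‖F z - f z‖ < ε := by
  obtain ⟨R₀, hR₀⟩ := hK.isBounded.subset_closedBall (0 : Fin m → ℂ)
  obtain ⟨W₀, G₀, hW, hsub, hd, hvG, hc⟩ :=
    hC m K U f hK hKc hU hKU hf hv R₀ (ε / 2) (by positivity)
  obtain ⟨c, hc0, hcb⟩ := exists_lower_bound hd hvG (isCompact_closedBall _ _) hsub
  have s0 : Good Q m (R₀ + ((0 : ℕ) : ℝ)) W₀ G₀ (min (ε / 8) (c / 4)) :=
    ⟨hW, by simpa using hsub, hd, hvG, lt_min (by positivity) (by positivity), by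
      intro z hz
      have := hcb z (by simpa using hz)
      have h2 : min (ε / 8) (c / 4) ≤ c / 4 := min_le_right _ _
      linarith⟩
  obtain ⟨W, G, δ, hgood, hG0, hδ0, hS⟩ := exists_seq hC (fun k : ℕ => R₀ + (k : ℝ)) s0
  have hδ : ∀ k j : ℕ, δ (k + j) ≤ δ k / 2 ^ j := by
    intro k j
    induction j with
    | zero => simp
    | succ j ih =>
      have h1 : δ (k + (j + 1)) ≤ δ (k + j) / 2 := (hS (k + j)).1
      calc δ (k + (j + 1)) ≤ δ (k + j) / 2 := h1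
        _ ≤ δ k / 2 ^ j / 2 := by gcongr
        _ = δ k / 2 ^ (j + 1) := by rw [pow_succ]; field_simp
  have hmono : ∀ k j : ℕ, closedBall (0 : Fin m → ℂ) (R₀ + k) ⊆ closedBall 0 (R₀ + (k + j : ℕ)) :=
    fun k j => closedBall_subset_closedBall (by push_cast; linarith [(Nat.cast_nonneg j : (0:ℝ) ≤ j)])
  have hdist : ∀ k : ℕ, ∀ z ∈ closedBall (0 : Fin m → ℂ) (R₀ + k), ∀ n : ℕ,
      dist (G (k + n) z) (G (k + (n + 1)) z) ≤ 2 * δ k / 2 / 2 ^ n := by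
    intro k z hz n
    have h1 := (hS (k + n)).2 z (hmono k n hz)
    rw [dist_comm, dist_eq_norm]
    calc ‖G (k + (n + 1)) z - G (k + n) z‖ ≤ δ (k + n) := h1.le
      _ ≤ δ k / 2 ^ n := hδ k n
      _ = 2 * δ k / 2 / 2 ^ n := by ring
  have hex : ∀ z : Fin m → ℂ, ∃ k : ℕ, z ∈ closedBall (0 : Fin m → ℂ) (R₀ + k) := by
    intro z
    obtain ⟨k, hk⟩ := exists_nat_ge (‖z‖ - R₀)
    exact ⟨k, by rw [mem_closedBall_zero_iff]; linarith⟩
  have hlim : ∀ z : Fin m → ℂ, ∃ a, Tendsto (fun n => G n z) atTop (𝓝 a) := by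
    intro z
    obtain ⟨k, hk⟩ := hex z
    obtain ⟨a, ha⟩ := cauchySeq_tendsto_of_complete
      (cauchySeq_of_le_geometric_two (hdist k z hk))
    refine ⟨a, ?_⟩
    rw [← tendsto_add_atTop_iff_nat k]
    simpa [add_comm] using ha
  choose F hF using hlim
  have hFk : ∀ k : ℕ, ∀ z ∈ closedBall (0 : Fin m → ℂ) (R₀ + k), ∀ n : ℕ,
      dist (G (k + n) z) (F z) ≤ 2 * δ k / 2 ^ n := by
    intro k z hz n
    refine dist_le_of_le_geometric_two_of_tendsto (hdist k z hz) (a := F z) ?_ n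
    have := (tendsto_add_atTop_iff_nat k).2 (hF z)
    simpa [add_comm] using this
  have hF0 : ∀ k : ℕ, ∀ z ∈ closedBall (0 : Fin m → ℂ) (R₀ + k),
      dist (G k z) (F z) ≤ 2 * δ k := by
    intro k z hz
    simpa using hFk k z hz 0
  refine ⟨F, ?_, ?_, ?_⟩
  · intro z
    obtain ⟨k, hk⟩ := hex z
    have hz : z ∈ ball (0 : Fin m → ℂ) (R₀ + (k + 1 : ℕ)) := by
      rw [mem_ball_zero_iff]; rw [mem_closedBall_zero_iff] at hk; push_cast; linarith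
    have hu : TendstoUniformlyOn (fun n => G (k + 1 + n)) F atTop
        (closedBall (0 : Fin m → ℂ) (R₀ + (k + 1 : ℕ))) := by
      rw [Metric.tendstoUniformlyOn_iff]
      intro e he
      have h1 : Tendsto (fun n : ℕ => 2 * δ (k + 1) / 2 ^ n) atTop (𝓝 0) := by
        have := (tendsto_pow_atTop_nhds_zero_of_lt_one (r := (1 / 2 : ℝ)) (by norm_num)
          (by norm_num)).const_mul (2 * δ (k + 1))
        simpa [div_eq_mul_inv] using this
      filter_upwards [h1.eventually (gt_mem_nhds he)] with n hn x hx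
      rw [dist_comm]
      exact (hFk (k + 1) x hx n).trans_lt hn
    have hl : TendstoLocallyUniformlyOn (fun n => G (k + 1 + n)) F atTop
        (ball (0 : Fin m → ℂ) (R₀ + (k + 1 : ℕ))) :=
      (hu.mono ball_subset_closedBall).tendstoLocallyUniformlyOn
    have ha := Crest.Agent.R266.SCV.analyticOnNhd_of_tendstoLocallyUniformlyOn isOpen_ball hl
      (Eventually.of_forall fun n => (hgood (k + 1 + n)).diff.mono
        (ball_subset_closedBall.trans ((hmono (k + 1) n).trans (hgood (k + 1 + n)).sub)))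
    exact (ha z hz).differentiableAt
  · intro z
    obtain ⟨k, hk⟩ := hex z
    refine ⟨?_, ?_⟩
    · intro h0
      have h1 := hF0 k z hk
      have h2 := (hgood k).lb z hk
      rw [h0, dist_zero_right] at h1
      linarith [(hgood k).δpos]
    · have hcont : Continuous (fun v : Fin 4 → ℂ => MvPolynomial.eval v Q) :=
        MvPolynomial.continuous_eval Q
      have h1 := (hcont.tendsto (F z)).comp (hF z)
      have h2 : (fun n => MvPolynomial.eval (G n z) Q) =ᶠ[atTop] fun _ => (0 : ℂ) := by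
        filter_upwards [eventually_ge_atTop k] with n hn
        obtain ⟨j, rfl⟩ := Nat.exists_eq_add_of_le hn
        exact ((hgood (k + j)).val z ((hgood (k + j)).sub (hmono k j hk))).2
      exact tendsto_nhds_unique h1 (tendsto_const_nhds.congr' h2.symm)
  · intro z hz
    have h1 := hF0 0 z (by simpa using hR₀ hz)
    have h2 := hc z hz
    have h3 : min (ε / 8) (c / 4) ≤ ε / 8 := min_le_left _ _
    rw [hδ0, hG0, dist_comm, dist_eq_norm] at h1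
    calc ‖F z - f z‖ ≤ ‖F z - G₀ z‖ + ‖G₀ z - f z‖ := norm_sub_le_norm_sub_add_norm_sub _ _ _
      _ < ε := by linarith

end Exhaust

/-! ### the frozen statement -/

section Final

lemma eval_smul_of_homog {Q : MvPolynomial (Fin 4) ℂ} {d : ℕ} (hQ : Q.IsHomogeneous d)
    (c : ℂ) (v : Fin 4 → ℂ) :
    MvPolynomial.eval (c • v) Q = c ^ d * MvPolynomial.eval v Q := by
  rw [MvPolynomial.eval_eq, MvPolynomial.eval_eq, Finset.mul_sum]
  refine Finset.sum_congr rfl fun s hs => ?_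
  have h1 : ∑ i, s i = d := by
    have := hQ (MvPolynomial.mem_support_iff.1 hs)
    rw [← this, Finsupp.weight_apply, Finsupp.sum_fintype _ _ (by simp)]
    simp
  have h2 : ∏ i ∈ s.support, (c • v) i ^ s i = c ^ d * ∏ i ∈ s.support, v i ^ s i := by
    simp only [Pi.smul_apply, smul_eq_mul, mul_pow]
    rw [Finset.prod_mul_distrib, Finset.prod_pow_eq_pow_sum]
    congr 2
    rw [← h1]
    exact Finset.sum_subset (Finset.subset_univ _) (by intro i _ hi; simpa using hi)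
  rw [h2]; ring

lemma VS_smul {Q : MvPolynomial (Fin 4) ℂ} {d : ℕ} (hQ : Q.IsHomogeneous d)
    {c : ℂ} (hc : c ≠ 0) {v : Fin 4 → ℂ} : c • v ∈ VS Q ↔ v ∈ VS Q := by
  unfold VS
  simp only [Set.mem_ofPred_eq, eval_smul_of_homog hQ]
  constructor
  · rintro ⟨h1, h2⟩
    exact ⟨fun h => h1 (by rw [h, smul_zero]),
      (mul_eq_zero.1 h2).resolve_left (pow_ne_zero _ hc)⟩
  · rintro ⟨h1, h2⟩
    exact ⟨smul_ne_zero hc h1, by rw [h2, mul_zero]⟩

lemma rep_mem {Q : MvPolynomial (Fin 4) ℂ} {d : ℕ} (hQ : Q.IsHomogeneous d)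
    {v : Fin 4 → ℂ} (hv : v ≠ 0) :
    MvPolynomial.eval (Projectivization.mk ℂ v hv).rep Q = 0 ↔ v ∈ VS Q := by
  obtain ⟨a, ha⟩ := Projectivization.exists_smul_eq_mk_rep ℂ v hv
  have h1 : (Projectivization.mk ℂ v hv).rep = (a : ℂ) • v := by rw [← ha]; rfl
  have h2 := VS_smul hQ (c := (a : ℂ)) a.ne_zero (v := v)
  rw [← h2, ← h1]
  exact ⟨fun h => ⟨Projectivization.rep_nonzero _, h⟩, fun h => h.2⟩

lemma projGap_mk {n : ℕ} {v w : Fin n → ℂ} (hv : v ≠ 0) (hw : w ≠ 0) :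
    projGap (Projectivization.mk ℂ v hv) (Projectivization.mk ℂ w hw) = vecGap v w := by
  obtain ⟨a, ha⟩ := Projectivization.exists_smul_eq_mk_rep ℂ v hv
  obtain ⟨b, hb⟩ := Projectivization.exists_smul_eq_mk_rep ℂ w hw
  unfold projGap
  rw [← ha, ← hb]
  exact vecGap_smul_smul a.ne_zero b.ne_zero v w

lemma N2_le (v : Fin 4 → ℂ) : N2 v ≤ 4 * ‖v‖ ^ 2 := by
  unfold N2
  calc ∑ i, ‖v i‖ ^ 2 ≤ ∑ _i : Fin 4, ‖v‖ ^ 2 :=
        Finset.sum_le_sum fun i _ => by gcongr; exact norm_le_pi_norm v i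
    _ = 4 * ‖v‖ ^ 2 := by simp

lemma le_N2 (v : Fin 4 → ℂ) : ‖v‖ ^ 2 ≤ N2 v := by
  have h0 := N2_nonneg v
  have h : ‖v‖ ≤ Real.sqrt (N2 v) := by
    rw [pi_norm_le_iff_of_nonneg (Real.sqrt_nonneg _)]
    intro i
    apply Real.le_sqrt_of_sq_le
    exact Finset.single_le_sum (f := fun i => ‖v i‖ ^ 2) (fun _ _ => by positivity)
      (Finset.mem_univ i)
  calc ‖v‖ ^ 2 ≤ Real.sqrt (N2 v) ^ 2 := by gcongr
    _ = N2 v := Real.sq_sqrt h0

/-- the frozen statement S0422 from (2.1) and (CAP_R) -/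
theorem s0422_of (hL : Lift21)
    (hC : ∀ Q : MvPolynomial (Fin 4) ℂ, Q.IsHomogeneous 4 →
      (∀ p : Fin 4 → ℂ, p ≠ 0 → MvPolynomial.eval p Q = 0 →
        ∃ i : Fin 4, MvPolynomial.eval p (MvPolynomial.pderiv i Q) ≠ 0) → CAPR Q)
    (Q : MvPolynomial (Fin 4) ℂ) (hQ : Q.IsHomogeneous 4)
    (hsmooth : ∀ p : Fin 4 → ℂ, p ≠ 0 → MvPolynomial.eval p Q = 0 →
      ∃ i : Fin 4, MvPolynomial.eval p (MvPolynomial.pderiv i Q) ≠ 0)
    (m : ℕ) (_hm : 1 ≤ m) (K : Set (Fin m → ℂ)) (hK : IsCompact K) (hKc : Convex ℝ K)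
    (_hKn : K.Nonempty) (U : Set (Fin m → ℂ)) (hU : IsOpen U) (hKU : K ⊆ U)
    (f : (Fin m → ℂ) → Projectivization ℂ (Fin 4 → ℂ)) (hf : ProjHolomorphicOn f U)
    (hfQ : ∀ z ∈ U, MvPolynomial.eval (f z).rep Q = 0) (ε : ℝ) (hε : 0 < ε) :
    ∃ F : (Fin m → ℂ) → Projectivization ℂ (Fin 4 → ℂ),
      ProjHolomorphicOn F Set.univ ∧ (∀ z, MvPolynomial.eval (F z).rep Q = 0) ∧
      ∀ z ∈ K, projGap (F z) (f z) < ε := by
  obtain ⟨W, g, hW, hKW, hWU, hg, hgf⟩ := hL m 4 K U f hK hKc hU hKU hf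
  have hgV : ∀ w ∈ W, g w ∈ VS Q := by
    intro w hw
    obtain ⟨h, he⟩ := hgf w hw
    rw [← rep_mem hQ h, ← he]
    exact hfQ w (hWU hw)
  obtain ⟨c, hc0, hc⟩ := exists_lower_bound hg hgV hK hKW
  obtain ⟨δ, hδ0, hδ⟩ : ∃ δ > 0, 4 * δ ^ 2 / c ^ 2 < ε := by
    have h1 : Tendsto (fun δ : ℝ => 4 * δ ^ 2 / c ^ 2) (𝓝[>] 0) (𝓝 (4 * 0 ^ 2 / c ^ 2)) := by
      apply Tendsto.mono_left _ nhdsWithin_le_nhds
      exact (Continuous.tendsto (by fun_prop) 0)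
    have h2 : ∀ᶠ δ in 𝓝[>] (0 : ℝ), 4 * δ ^ 2 / c ^ 2 < ε :=
      h1.eventually (gt_mem_nhds (by simpa using hε))
    obtain ⟨δ, h3, h4⟩ := (h2.and self_mem_nhdsWithin).exists
    exact ⟨δ, h4, h3⟩
  obtain ⟨G, hG, hGV, hGa⟩ := entire_of_CAPR (hC Q hQ hsmooth) hK hKc hW hKW hg hgV hδ0
  refine ⟨fun z => Projectivization.mk ℂ (G z) (hGV z).1, ?_, ?_, ?_⟩
  · intro z _
    exact ⟨Set.univ, isOpen_univ, mem_univ z, G, hG.differentiableOn, fun w _ => ⟨(hGV w).1, rfl⟩⟩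
  · intro z
    exact (rep_mem hQ (hGV z).1).2 (hGV z)
  · intro z hz
    obtain ⟨h, he⟩ := hgf z (hKW hz)
    have h1 : projGap (Projectivization.mk ℂ (G z) (hGV z).1) (f z) = vecGap (G z) (g z) := by
      rw [he]; exact projGap_mk _ _
    rw [h1]
    have h2 := vecGap_le (hGV z).1 h
    have h3 : N2 (G z - g z) ≤ 4 * δ ^ 2 := by
      refine (N2_le _).trans ?_
      have := (hGa z hz).le
      gcongr
    have h4 : c ^ 2 ≤ N2 (g z) := by
      refine le_trans ?_ (le_N2 _)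
      have := hc z hz
      gcongr
    calc vecGap (G z) (g z) ≤ N2 (G z - g z) / N2 (g z) := h2
      _ ≤ 4 * δ ^ 2 / c ^ 2 := by gcongr
      _ < ε := hδ

end Final

end Crest.Agent.R279.Red
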