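import Mathlib
import Crest.Agent.R279.Conv532d
import Crest.Agent.R279.Conv532e
import Crest.Agent.R279.Red625
import Crest.Agent.R279.EPrime806

/-!
R279 (helper532), Part 5 (f): induction on the dimension and the final statement
`Cor41 (Vstar Q)` + all points good ⟹ `CAPR Q`.
-/

set_option autoImplicit false
set_option linter.unusedSectionVars false

open Metric Set Filter Topology

namespace Crest.Agent.R279.Conv

open Crest.Agent.R279.ConvGeo

/-- closed polyrectangle over any index type -/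
def prect {ι : Type*} (P : ι → ℝ × ℝ × ℝ × ℝ) : Set (ι → ℂ) :=
  {x | ∀ i, x i ∈ rect (P i).1 (P i).2.1 (P i).2.2.1 (P i).2.2.2}

theorem apprSet_trans {X : Type*} [NormedAddCommGroup X] [NormedSpace ℂ X] {V : Set C4}
    {K L : Set X} (hKL : K ⊆ L) (h : RApp V K L) (hL : ApprSet V L) : ApprSet V K := by
  intro f hf K' hK' ε hε
  obtain ⟨G, hG, hcl⟩ := h f hf (ε / 2) (half_pos hε)
  obtain ⟨G', hG', hcl'⟩ := hL G hG K' hK' (ε / 2) (half_pos hε)
  refine ⟨G', hG', fun x hx => ?_⟩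
  calc ‖G' x - f x‖ ≤ ‖G' x - G x‖ + ‖G x - f x‖ := norm_sub_le_norm_sub_add_norm_sub _ _ _
    _ < ε / 2 + ε / 2 := add_lt_add (hcl' x (hKL hx)) (hcl x hx)
    _ = ε := by ring

theorem apprSet_empty {X : Type*} [NormedAddCommGroup X] [NormedSpace ℂ X] {V : Set C4}
    (hV : V.Nonempty) : ApprSet V (∅ : Set X) := by
  intro f _ K' _ ε _
  obtain ⟨v, hv⟩ := hV
  exact ⟨fun _ => v, ⟨univ, isOpen_univ, subset_univ _, differentiableOn_const _,
    fun _ _ => hv⟩, fun x hx => absurd hx (notMem_empty x)⟩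

/-- the property proved by induction on the dimension `d` -/
def HProp (V : Set C4) (d : ℕ) : Prop :=
  ∀ (ι : Type) [Fintype ι] (P : ι → ℝ × ℝ × ℝ × ℝ), (∀ i, RectOK (P i)) →
    ∀ Sg : Set (Fin d → ℂ), IsCompact Sg → CConvex Sg → ApprSet V (Sg ×ˢ prect P)

section equivs

/-- `Z × ℂ × ℂ^ι × ℂ^4 ≃ Z × ℂ^(1 + ι + 4)` -/
def bigE (Z : Type*) [AddCommGroup Z] [Module ℂ Z] (ι : Type) :
    (((Z × ℂ) × (ι → ℂ)) × C4) ≃ₗ[ℂ] (Z × (Unit ⊕ (ι ⊕ Fin 4) → ℂ)) where
  toFun p := (p.1.1.1, Sum.elim (fun _ => p.1.1.2) (Sum.elim p.1.2 p.2))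
  invFun q := (((q.1, q.2 (Sum.inl ())), fun i => q.2 (Sum.inr (Sum.inl i))),
    fun i => q.2 (Sum.inr (Sum.inr i)))
  left_inv p := by rfl
  right_inv q := by
    refine Prod.ext rfl ?_
    funext i
    rcases i with i | i | i <;> rfl
  map_add' p q := by
    refine Prod.ext rfl ?_
    funext i
    rcases i with i | i | i <;> rfl
  map_smul' c p := by
    refine Prod.ext rfl ?_
    funext i
    rcases i with i | i | i <;> rfl

/-- `ℂ^(Fin d) × ℂ^ι ≃ ℂ^(Fin d ⊕ ι)` -/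
def sumE (d : ℕ) (ι : Type) : ((Fin d → ℂ) × (ι → ℂ)) ≃ₗ[ℂ] (Fin d ⊕ ι → ℂ) where
  toFun p := Sum.elim p.1 p.2
  invFun q := (fun i => q (Sum.inl i), fun i => q (Sum.inr i))
  left_inv p := by rfl
  right_inv q := by
    funext i
    rcases i with i | i <;> rfl
  map_add' p q := by
    funext i
    rcases i with i | i <;> rfl
  map_smul' c p := by
    funext i
    rcases i with i | i <;> rfl

end equivs

section box

variable {V : Set C4}

/-- boxes over any finite index type -/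
theorem apprSet_prect (hbox : ∀ (n : ℕ) (P : Fin n → ℝ × ℝ × ℝ × ℝ), (∀ i, RectOK (P i)) →
    ApprSet V (polyRect P)) {ι : Type} [Fintype ι] (P : ι → ℝ × ℝ × ℝ × ℝ)
    (hP : ∀ i, RectOK (P i)) : ApprSet V (prect P) := by
  let e : ι ≃ Fin (Fintype.card ι) := Fintype.equivFin ι
  let E : (ι → ℂ) ≃L[ℂ] (Fin (Fintype.card ι) → ℂ) :=
    (LinearEquiv.funCongrLeft ℂ ℂ e.symm).toContinuousLinearEquiv
  have h := apprSet_preimage E (hbox _ (fun i => P (e.symm i)) (fun i => hP _))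
  have e1 : E ⁻¹' (polyRect fun i => P (e.symm i)) = prect P := by
    ext x
    constructor
    · intro hx i
      have := hx (e i)
      have e2 : E x (e i) = x i := by
        show x (e.symm (e i)) = x i
        rw [e.symm_apply_apply]
      rw [e2] at this
      simpa using this
    · intro hx i
      exact hx (e.symm i)
  rwa [e1] at h

/-- products of boxes -/
theorem apprSet_box_prod (hbox : ∀ (n : ℕ) (P : Fin n → ℝ × ℝ × ℝ × ℝ), (∀ i, RectOK (P i)) →
    ApprSet V (polyRect P)) {d : ℕ} (P₁ : Fin d → ℝ × ℝ × ℝ × ℝ) (h₁ : ∀ i, RectOK (P₁ i))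
    {ι : Type} [Fintype ι] (P : ι → ℝ × ℝ × ℝ × ℝ)
    (hP : ∀ i, RectOK (P i)) : ApprSet V (prect P₁ ×ˢ prect P) := by
  let E : ((Fin d → ℂ) × (ι → ℂ)) ≃L[ℂ] (Fin d ⊕ ι → ℂ) := (sumE d ι).toContinuousLinearEquiv
  have h := apprSet_preimage E (apprSet_prect hbox (Sum.elim P₁ P) (by
    rintro (i | i)
    · exact h₁ i
    · exact hP i))
  have e1 : E ⁻¹' (prect (Sum.elim P₁ P)) = prect P₁ ×ˢ prect P := by
    ext x
    constructor
    · intro hx
      exact ⟨fun i => hx (Sum.inl i), fun i => hx (Sum.inr i)⟩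
    · rintro ⟨h1, h2⟩ (i | i)
      · exact h1 i
      · exact h2 i
  rwa [e1] at h

theorem isClosed_rect (a b c d : ℝ) : IsClosed (rect a b c d) := by
  have : rect a b c d = Complex.re ⁻¹' Icc a b ∩ Complex.im ⁻¹' Icc c d := rfl
  rw [this]
  exact (isClosed_Icc.preimage Complex.continuous_re).inter
    (isClosed_Icc.preimage Complex.continuous_im)

theorem isCompact_rect (a b c d : ℝ) : IsCompact (rect a b c d) := by
  refine Metric.isCompact_of_isClosed_isBounded (isClosed_rect a b c d) ?_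
  refine (Metric.isBounded_closedBall (x := (0 : ℂ)) (r := (|a| + |b|) + (|c| + |d|))).subset ?_
  intro z hz
  rw [mem_closedBall_zero_iff]
  have key : ∀ x p q : ℝ, p ≤ x → x ≤ q → |x| ≤ |p| + |q| := by
    intro x p q h1 h2
    rw [abs_le]
    have h3 := neg_abs_le p
    have h4 := le_abs_self q
    have h5 := abs_nonneg p
    have h6 := abs_nonneg q
    constructor <;> linarith
  calc ‖z‖ ≤ |z.re| + |z.im| := Complex.norm_le_abs_re_add_abs_im _
    _ ≤ _ := add_le_add (key _ _ _ hz.1.1 hz.1.2) (key _ _ _ hz.2.1 hz.2.2)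

theorem isCompact_prect {ι : Type} [Fintype ι] (P : ι → ℝ × ℝ × ℝ × ℝ) :
    IsCompact (prect P) := by
  have : prect P = Set.pi univ (fun i => rect (P i).1 (P i).2.1 (P i).2.2.1 (P i).2.2.2) := by
    ext x; simp [prect, Set.mem_pi]
  rw [this]
  exact isCompact_univ_pi fun i => isCompact_rect _ _ _ _

theorem cconvex_prect {ι : Type} [Fintype ι] (P : ι → ℝ × ℝ × ℝ × ℝ) :
    CConvex (prect P) := by
  intro x hx y hy u v hu hv huv i
  have h1 := hx i
  have h2 := hy i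
  have e1 : (((u : ℂ) • x + (v : ℂ) • y) i).re = u * (x i).re + v * (y i).re := by
    simp
  have e2 : (((u : ℂ) • x + (v : ℂ) • y) i).im = u * (x i).im + v * (y i).im := by
    simp
  have key : ∀ p q s t : ℝ, s ∈ Icc p q → t ∈ Icc p q → u * s + v * t ∈ Icc p q := by
    intro p q s t hs ht
    exact (convex_Icc p q) hs ht hu hv huv
  refine ⟨?_, ?_⟩
  · rw [e1]; exact key _ _ _ _ h1.1 h2.1
  · rw [e2]; exact key _ _ _ _ h1.2 h2.2

/-- enlarged rectangle -/
def enl (δ : ℝ) (p : ℝ × ℝ × ℝ × ℝ) : ℝ × ℝ × ℝ × ℝ :=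
  (p.1 - δ, p.2.1 + δ, p.2.2.1 - δ, p.2.2.2 + δ)

theorem prect_enl {ι : Type} [Fintype ι] (P : ι → ℝ × ℝ × ℝ × ℝ) (hP : ∀ i, RectOK (P i))
    {O : Set (ι → ℂ)} (hO : IsOpen O) (hPO : prect P ⊆ O) :
    ∃ δ : ℝ, 0 < δ ∧ prect (fun i => enl δ (P i)) ⊆ O ∧
      prect P ⊆ interior (prect (fun i => enl δ (P i))) := by
  obtain ⟨δ, hδ, hsub⟩ := (isCompact_prect P).exists_thickening_subset_open hO hPO
  refine ⟨δ / 3, by positivity, ?_, ?_⟩
  · intro x hx
    refine hsub (mem_thickening_iff.2 ⟨fun i => clampQ (P i).1 (P i).2.1 (P i).2.2.1 (P i).2.2.2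
      (x i), ?_, ?_⟩)
    · intro i
      have h1 := (hP i).1
      have h2 := (hP i).2
      refine ⟨⟨le_max_left _ _, max_le h1.le (min_le_left _ _)⟩,
        ⟨le_max_left _ _, max_le h2.le (min_le_left _ _)⟩⟩
    · rw [dist_pi_lt_iff hδ]
      intro i
      have hi := hx i
      have h1 := (hP i).1
      have h2 := (hP i).2
      simp only [enl, rect, Set.mem_ofPred_eq, mem_Icc] at hi
      have key : ∀ p q s : ℝ, p < q → p - δ / 3 ≤ s → s ≤ q + δ / 3 →
          |s - max p (min q s)| ≤ δ / 3 := by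
        intro p q s hpq h3 h4
        rcases le_total s p with h5 | h5
        · rw [min_eq_right (h5.trans hpq.le), max_eq_left h5, abs_le]
          constructor <;> linarith
        · rcases le_total s q with h6 | h6
          · rw [min_eq_right h6, max_eq_right h5, sub_self, abs_zero]
            positivity
          · rw [min_eq_left h6, max_eq_right hpq.le, abs_le]
            constructor <;> linarith
      rw [Complex.dist_eq]
      calc ‖x i - clampQ (P i).1 (P i).2.1 (P i).2.2.1 (P i).2.2.2 (x i)‖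
          ≤ |(x i - clampQ (P i).1 (P i).2.1 (P i).2.2.1 (P i).2.2.2 (x i)).re| +
            |(x i - clampQ (P i).1 (P i).2.1 (P i).2.2.1 (P i).2.2.2 (x i)).im| :=
            Complex.norm_le_abs_re_add_abs_im _
        _ ≤ δ / 3 + δ / 3 := by
            refine add_le_add ?_ ?_
            · exact key _ _ _ h1 hi.1.1 hi.1.2
            · exact key _ _ _ h2 hi.2.1 hi.2.2
        _ < δ := by linarith
  · have hopen : IsOpen {x : ι → ℂ | ∀ i, (P i).1 - δ / 3 < (x i).re ∧ (x i).re < (P i).2.1 + δ / 3 ∧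
        (P i).2.2.1 - δ / 3 < (x i).im ∧ (x i).im < (P i).2.2.2 + δ / 3} := by
      have : {x : ι → ℂ | ∀ i, (P i).1 - δ / 3 < (x i).re ∧ (x i).re < (P i).2.1 + δ / 3 ∧
        (P i).2.2.1 - δ / 3 < (x i).im ∧ (x i).im < (P i).2.2.2 + δ / 3} = ⋂ i,
        {x : ι → ℂ | (P i).1 - δ / 3 < (x i).re ∧ (x i).re < (P i).2.1 + δ / 3 ∧
        (P i).2.2.1 - δ / 3 < (x i).im ∧ (x i).im < (P i).2.2.2 + δ / 3} := by
        ext x; simp
      rw [this]
      refine isOpen_iInter_of_finite fun i => ?_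
      have hre : Continuous fun x : ι → ℂ => (x i).re :=
        Complex.continuous_re.comp (continuous_apply i)
      have him : Continuous fun x : ι → ℂ => (x i).im :=
        Complex.continuous_im.comp (continuous_apply i)
      exact (isOpen_lt continuous_const hre).inter ((isOpen_lt hre continuous_const).inter
        ((isOpen_lt continuous_const him).inter (isOpen_lt him continuous_const)))
    refine (subset_interior_iff.2 ⟨_, hopen, ?_, ?_⟩)
    · intro x hx i
      have hi := hx i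
      simp only [rect, Set.mem_ofPred_eq, mem_Icc] at hi
      have : 0 < δ / 3 := by positivity
      exact ⟨by linarith, by linarith, by linarith, by linarith⟩
    · intro x hx i
      have hi := hx i
      exact ⟨⟨hi.1.le, hi.2.1.le⟩, ⟨hi.2.2.1.le, hi.2.2.2.le⟩⟩

end box

theorem passiveOK {V : Set C4} {d : ℕ} (hH : HProp V d) {ι : Type} [Fintype ι]
    (P : ι → ℝ × ℝ × ℝ × ℝ) (hP : ∀ i, RectOK (P i)) :
    PassiveOK V (Fin d → ℂ) (prect P) := by
  intro O hO hPO
  obtain ⟨δ, hδ, h1, h2⟩ := prect_enl P hP hO hPO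
  refine ⟨prect (fun i => enl δ (P i)), isCompact_prect _, h2, h1, ?_⟩
  intro Sg hSg hSgc c₀ ρ r hρ hr
  let E : ((((Fin d → ℂ) × ℂ) × (ι → ℂ)) × C4) ≃L[ℂ]
      ((Fin d → ℂ) × (Unit ⊕ (ι ⊕ Fin 4) → ℂ)) := (bigE (Fin d → ℂ) ι).toContinuousLinearEquiv
  let P' : Unit ⊕ (ι ⊕ Fin 4) → ℝ × ℝ × ℝ × ℝ :=
    Sum.elim (fun _ => (c₀.re - ρ, c₀.re + ρ, c₀.im - ρ, c₀.im + ρ))
      (Sum.elim (fun i => enl δ (P i)) (fun _ => (-r, r, -r, r)))
  have hP' : ∀ i, RectOK (P' i) := by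
    rintro (i | i | i)
    · exact ⟨by simp only [P', Sum.elim_inl]; linarith, by simp only [P', Sum.elim_inl]; linarith⟩
    · have h1 := (hP i).1
      have h2 := (hP i).2
      exact ⟨by simp only [P', Sum.elim_inl, Sum.elim_inr, enl]; linarith,
        by simp only [P', Sum.elim_inl, Sum.elim_inr, enl]; linarith⟩
    · exact ⟨by simp only [P', Sum.elim_inr]; linarith, by simp only [P', Sum.elim_inr]; linarith⟩
  have h := apprSet_preimage E (hH _ P' hP' Sg hSg hSgc)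
  have e1 : E ⁻¹' (Sg ×ˢ prect P') =
      (((Sg ×ˢ Sq c₀ ρ) ×ˢ prect (fun i => enl δ (P i))) ×ˢ D4 r) := by
    ext x
    constructor
    · rintro ⟨h1, h2⟩
      exact ⟨⟨⟨h1, h2 (Sum.inl ())⟩, fun i => h2 (Sum.inr (Sum.inl i))⟩,
        fun i => h2 (Sum.inr (Sum.inr i))⟩
    · rintro ⟨⟨⟨h1, h2⟩, h3⟩, h4⟩
      refine ⟨h1, ?_⟩
      rintro (i | i | i)
      · exact h2
      · exact h3 i
      · exact h4 i
  rwa [e1] at h

theorem prect_csq {d : ℕ} (R : ℝ) :
    (CSq R : Set (Fin d → ℂ)) = prect (fun _ => (-R, R, -R, R)) := by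
  ext x
  simp only [CSq, prect, rect, Set.mem_ofPred_eq, mem_Icc, abs_le]

/-- half-space step in `ℂ^(d+1)`, arbitrary functional -/
theorem half_step' {V : Set C4} (hS : ∀ (X : Type) [NormedAddCommGroup X] [NormedSpace ℂ X]
    [FiniteDimensional ℂ X], SprayProp V X) {d : ℕ} (hH : HProp V d) {ι : Type} [Fintype ι]
    (P : ι → ℝ × ℝ × ℝ × ℝ) (hP : ∀ i, RectOK (P i)) {L : Set (Fin (d + 1) → ℂ)}
    (hL : IsCompact L) (hLc : CConvex L) (a : (Fin (d + 1) → ℂ) →L[ℂ] ℂ) (b : ℝ)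
    (hne : ∃ x ∈ L, (a x).re < b) :
    RApp V ((L ∩ {x | (a x).re ≤ b}) ×ˢ prect P) (L ×ˢ prect P) := by
  by_cases hall : ∀ x ∈ L, (a x).re ≤ b
  · have e1 : L ∩ {x | (a x).re ≤ b} = L := inter_eq_left.2 hall
    rw [e1]
    intro f hf ε hε
    exact ⟨f, hf, fun x _ => by rw [sub_self, norm_zero]; exact hε⟩
  · push Not at hall
    obtain ⟨x₁, hx₁, hx₁b⟩ := hall
    obtain ⟨x₀, hx₀, hx₀b⟩ := hne
    have ha : a ≠ 0 := by
      rintro rfl
      simp at hx₁b hx₀b
      linarith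
    obtain ⟨e, he⟩ := exists_coord (by simp : Module.finrank ℂ (Fin (d + 1) → ℂ) = d + 1) a ha
    -- a point on the wall
    have hwall : ∃ x ∈ L, (a x).re = b := by
      set v : ℝ := (b - (a x₀).re) / ((a x₁).re - (a x₀).re) with hv
      have hd : 0 < (a x₁).re - (a x₀).re := by linarith
      have hv0 : 0 ≤ v := div_nonneg (by linarith) hd.le
      have hv1 : v ≤ 1 := by rw [hv, div_le_one hd]; linarith
      refine ⟨_, hLc x₀ hx₀ x₁ hx₁ (1 - v) v (by linarith) hv0 (by ring), ?_⟩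
      rw [map_add, map_smul, map_smul, smul_eq_mul, smul_eq_mul, Complex.add_re,
        Complex.re_ofReal_mul, Complex.re_ofReal_mul]
      have : v * ((a x₁).re - (a x₀).re) = b - (a x₀).re := by
        rw [hv]; field_simp
      linarith
    let L' : Set ((Fin d → ℂ) × ℂ) := e.symm ⁻¹' L
    have hL' : IsCompact L' := isCompact_symm e hL
    have hL'c : CConvex L' := cconvex_symm e hLc
    have hwall' : ∃ p ∈ L', p.2.re = b := by
      obtain ⟨x, hx, hxb⟩ := hwall
      refine ⟨e x, ?_, ?_⟩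
      · show e.symm (e x) ∈ L
        simpa using hx
      · rw [he]; exact hxb
    have h := half_step (glueProp _) (hS _) Planar.lemmaE' (isCompact_prect P) (cconvex_prect P)
      (passiveOK hH P hP) hL' hL'c hwall'
    let E : ((Fin (d + 1) → ℂ) × (ι → ℂ)) ≃L[ℂ] (((Fin d → ℂ) × ℂ) × (ι → ℂ)) :=
      e.prodCongr (ContinuousLinearEquiv.refl ℂ (ι → ℂ))
    have h2 := rApp_preimage E h
    have e1 : E ⁻¹' ((L' ∩ {p | p.2.re ≤ b}) ×ˢ prect P) =
        (L ∩ {x | (a x).re ≤ b}) ×ˢ prect P := by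
      ext x
      constructor
      · rintro ⟨⟨h1, h2⟩, h3⟩
        have h1' : e.symm (e x.1) ∈ L := h1
        have h2' : (e x.1).2.re ≤ b := h2
        rw [he] at h2'
        exact ⟨⟨by simpa using h1', h2'⟩, h3⟩
      · rintro ⟨⟨h1, h2⟩, h3⟩
        refine ⟨⟨?_, ?_⟩, h3⟩
        · show e.symm (e x.1) ∈ L
          simpa using h1
        · show (e x.1).2.re ≤ b
          rw [he]; exact h2
    have e2 : E ⁻¹' (L' ×ˢ prect P) = L ×ˢ prect P := by
      ext x
      constructor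
      · rintro ⟨h1, h3⟩
        have h1' : e.symm (e x.1) ∈ L := h1
        exact ⟨by simpa using h1', h3⟩
      · rintro ⟨h1, h3⟩
        refine ⟨?_, h3⟩
        show e.symm (e x.1) ∈ L
        simpa using h1
    rwa [e1, e2] at h2

/-- **Induction step** -/
theorem hProp_succ {V : Set C4} (hV : V.Nonempty)
    (hS : ∀ (X : Type) [NormedAddCommGroup X] [NormedSpace ℂ X] [FiniteDimensional ℂ X],
      SprayProp V X)
    (hbox : ∀ (n : ℕ) (P : Fin n → ℝ × ℝ × ℝ × ℝ), (∀ i, RectOK (P i)) →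
      ApprSet V (polyRect P)) {d : ℕ} (hH : HProp V d) : HProp V (d + 1) := by
  intro ι _ P hP Sg hSg hSgc
  rcases Sg.eq_empty_or_nonempty with he | ⟨x₀, hx₀⟩
  · rw [he, empty_prod]
    exact apprSet_empty hV
  intro f hf K' hK' ε hε
  obtain ⟨O, hO, hKO, hd, hm⟩ := hf
  obtain ⟨u, v, hu, hv, hSu, hPv, huv⟩ := generalized_tube_lemma hSg (isCompact_prect P) hO hKO
  obtain ⟨R, hR, hSR⟩ := exists_OSq_supset hSg
  obtain ⟨k, a, b, hab, hpoly⟩ := exists_polytope hSg (cconvex_iff_pi.1 hSgc) hu hSu R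
  let Q : ℕ → Set (Fin (d + 1) → ℂ) := fun i => CSq R ∩ {x | ∀ j : Fin k, (j : ℕ) < i →
    (a j x).re ≤ b j}
  have hQc : ∀ i, IsCompact (Q i) := by
    intro i
    refine (isCompact_CSq R).inter_right ?_
    have : {x : Fin (d + 1) → ℂ | ∀ j : Fin k, (j : ℕ) < i → (a j x).re ≤ b j} =
        ⋂ j : Fin k, ⋂ _ : (j : ℕ) < i, {x | (a j x).re ≤ b j} := by
      ext x; simp
    rw [this]
    exact isClosed_iInter fun j => isClosed_iInter fun _ => isClosed_le (by fun_prop)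
      continuous_const
  have hQcc : ∀ i, CConvex (Q i) := by
    intro i
    refine CConvex.inter (cconvex_iff_pi.2 (convex_CSq R)) ?_
    intro x hx y hy p q hp hq hpq j hj
    exact cconvex_le (a j) (b j) x (hx j hj) y (hy j hj) p q hp hq hpq
  have hSQ : ∀ i, Sg ⊆ Q i := by
    intro i x hx
    refine ⟨fun l => ⟨(hSR hx l).1.le, (hSR hx l).2.le⟩, fun j _ => (hab j x hx).le⟩
  have hmain : ∀ i, i ≤ k → ApprSet V (Q i ×ˢ prect P) := by
    intro i
    induction i with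
    | zero =>
      intro _
      have e1 : Q 0 = prect (fun _ => (-R, R, -R, R)) := by
        rw [← prect_csq]
        refine inter_eq_left.2 fun x _ j hj => absurd hj (by omega)
      rw [e1]
      exact apprSet_box_prod hbox _ (fun _ => ⟨by show -R < R; linarith, by show -R < R; linarith⟩)
        P hP
    | succ i ih =>
      intro hi
      have e1 : Q (i + 1) = Q i ∩ {x | (a ⟨i, by omega⟩ x).re ≤ b ⟨i, by omega⟩} := by
        ext x
        constructor
        · rintro ⟨h1, h2⟩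
          exact ⟨⟨h1, fun j hj => h2 j (by omega)⟩, h2 ⟨i, by omega⟩ (by simp)⟩
        · rintro ⟨⟨h1, h2⟩, h3⟩
          refine ⟨h1, fun j hj => ?_⟩
          rcases Nat.lt_succ_iff_lt_or_eq.1 hj with h | h
          · exact h2 j h
          · have : j = ⟨i, by omega⟩ := Fin.ext h
            rw [this]
            exact h3
      rw [e1]
      refine apprSet_trans (prod_mono inter_subset_left Subset.rfl)
        (half_step' hS hH P hP (hQc i) (hQcc i) _ _ ⟨x₀, hSQ i hx₀, hab _ x₀ hx₀⟩) (ih (by omega))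
  have hQu : Q k ⊆ u := by
    intro x hx
    exact hpoly ⟨hx.1, fun j => hx.2 j j.2⟩
  obtain ⟨G, hG, hcl⟩ := hmain k le_rfl f ⟨O, hO, (prod_mono hQu hPv).trans huv, hd, hm⟩ K' hK'
    ε hε
  exact ⟨G, hG, fun x hx => hcl x ⟨hSQ k hx.1, hx.2⟩⟩

theorem hProp_all {V : Set C4} (hV : V.Nonempty)
    (hS : ∀ (X : Type) [NormedAddCommGroup X] [NormedSpace ℂ X] [FiniteDimensional ℂ X],
      SprayProp V X)
    (hbox : ∀ (n : ℕ) (P : Fin n → ℝ × ℝ × ℝ × ℝ), (∀ i, RectOK (P i)) →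
      ApprSet V (polyRect P)) (d : ℕ) : HProp V d := by
  induction d with
  | zero =>
    intro ι _ P hP Sg _ _
    rcases Sg.eq_empty_or_nonempty with he | ⟨x₀, hx₀⟩
    · rw [he, empty_prod]
      exact apprSet_empty hV
    · have e1 : Sg = prect (fun _ : Fin 0 => ((0 : ℝ), (1 : ℝ), (0 : ℝ), (1 : ℝ))) := by
        ext x
        constructor
        · intro _ i
          exact i.elim0
        · intro _
          rwa [Subsingleton.elim x x₀]
      rw [e1]
      exact apprSet_box_prod hbox _ (fun i => i.elim0) P hP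
  | succ d ih => exact hProp_succ hV hS hbox ih

/-- approximation near every compact convex set of `ℂ^m` -/
theorem apprSet_convex {V : Set C4} (hV : V.Nonempty)
    (hS : ∀ (X : Type) [NormedAddCommGroup X] [NormedSpace ℂ X] [FiniteDimensional ℂ X],
      SprayProp V X)
    (hbox : ∀ (n : ℕ) (P : Fin n → ℝ × ℝ × ℝ × ℝ), (∀ i, RectOK (P i)) →
      ApprSet V (polyRect P)) {m : ℕ} {K : Set (Fin m → ℂ)} (hK : IsCompact K)
    (hKc : Convex ℝ K) : ApprSet V K := by
  let P₀ : Fin 0 → ℝ × ℝ × ℝ × ℝ := fun i => i.elim0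
  have h := hProp_all hV hS hbox m (Fin 0) P₀ (fun i => i.elim0) K hK (cconvex_iff_pi.2 hKc)
  intro f hf K' hK' ε hε
  obtain ⟨O, hO, hKO, hd, hm⟩ := hf
  obtain ⟨G, ⟨O', hO', hKO', hd', hm'⟩, hcl⟩ := h (fun p => f p.1)
    ⟨Prod.fst ⁻¹' O, hO.preimage continuous_fst, fun p hp => hKO hp.1,
      hd.comp differentiableOn_fst (fun p hp => hp), fun p hp => hm hp⟩
    (K' ×ˢ {0}) (hK'.prod isCompact_singleton) ε hε
  have hmk : Differentiable ℂ (fun x : Fin m → ℂ => (x, (0 : Fin 0 → ℂ))) :=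
    differentiable_id.prodMk (differentiable_const _)
  refine ⟨fun x => G (x, 0), ⟨(fun x => (x, 0)) ⁻¹' O', hO'.preimage hmk.continuous,
    fun x hx => hKO' ⟨hx, rfl⟩, hd'.comp hmk.differentiableOn (fun x hx => hx),
    fun x hx => hm' hx⟩, fun x hx => hcl (x, 0) ⟨hx, fun i => i.elim0⟩⟩

/-- boxes: from goodness -/
theorem apprSet_of_good {V : Set C4} {n : ℕ} {K : Set (Fin n → ℂ)}
    (h : ∀ f : (Fin n → ℂ) → C4, HolNear V f K → Good V K f) : ApprSet V K := by
  intro f hf K' hK' ε hε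
  obtain ⟨R, hR⟩ := hK'.isBounded.subset_ball (0 : Fin n → ℂ)
  have hF : HolNear V (fun p : (Fin n → ℂ) × (Fin 0 → ℂ) => f p.1) (K ×ˢ {0}) := by
    obtain ⟨O, hO, hKO, hd, hm⟩ := hf
    exact ⟨Prod.fst ⁻¹' O, hO.preimage continuous_fst, fun p hp => hKO hp.1,
      hd.comp differentiableOn_fst (fun p hp => hp), fun p hp => hm hp⟩
  obtain ⟨ρ, hρ, h2⟩ := h f hf 0 (fun p => f p.1) hF (fun x _ => rfl)
  obtain ⟨G, hGd, hGm, hcl⟩ := h2 R ε hε
  have hmk : Differentiable ℂ (fun x : Fin n → ℂ => (x, (0 : Fin 0 → ℂ))) :=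
    differentiable_id.prodMk (differentiable_const _)
  have hmaps : ∀ x ∈ ball (0 : Fin n → ℂ) R, (x, (0 : Fin 0 → ℂ)) ∈ ball 0 R := by
    intro x hx
    rw [mem_ball_zero_iff] at hx ⊢
    rw [Prod.norm_mk, norm_zero, max_eq_left (norm_nonneg x)]
    exact hx
  exact ⟨fun x => G (x, 0), ⟨ball 0 R, isOpen_ball, hR,
    hGd.comp hmk.differentiableOn hmaps, fun x hx => hGm (hmaps x hx)⟩,
    fun x hx => hcl x hx 0 (mem_closedBall_self hρ.le)⟩

/-- **PART 5.** -/
theorem capr {Q : MvPolynomial (Fin 4) ℂ} (hQ : Q.IsHomogeneous 4)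
    (hsmooth : ∀ p : Fin 4 → ℂ, p ≠ 0 → MvPolynomial.eval p Q = 0 →
      ∃ i : Fin 4, MvPolynomial.eval p (MvPolynomial.pderiv i Q) ≠ 0)
    (hsplit : ∀ m, Merge.SplitProp m) (h41 : Cor41 (Vstar Q))
    (hgood : ∀ v ∈ Vstar Q, GoodPt (Vstar Q) v) (hne : (Vstar Q).Nonempty) : Red.CAPR Q := by
  intro m K U f hK hKc hU hKU hf hfV R ε hε
  have hS : ∀ (X : Type) [NormedAddCommGroup X] [NormedSpace ℂ X] [FiniteDimensional ℂ X],
      SprayProp (Vstar Q) X := fun X _ _ _ => sprayProp (fun m K hK hKc f hf =>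
        Spray.sprayData_of_convex hsmooth (hsplit m) hK hKc hf) X
  have hbox : ∀ (n : ℕ) (P : Fin n → ℝ × ℝ × ℝ × ℝ), (∀ i, RectOK (P i)) →
      ApprSet (Vstar Q) (polyRect P) := fun n P hP =>
    apprSet_of_good (h41 hgood n P hP)
  obtain ⟨G, ⟨W, hW, hKW, hGd, hGm⟩, hcl⟩ := apprSet_convex hne hS hbox hK hKc f
    ⟨U, hU, hKU, hf, fun z hz => hfV z hz⟩ (closedBall 0 R) (isCompact_closedBall _ _) ε hε
  exact ⟨W, G, hW, hKW, hGd, fun z hz => hGm hz, hcl⟩

end Crest.Agent.R279.Conv
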