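import Mathlib
import Crest.Agent.R279.Conv532f
import Crest.Agent.R279.Split250
import Crest.Agent.R279.H777j

/-!
R279 (helper532), Part 5 (g): final form (`ConvTarget` of `Final149`).
-/

set_option autoImplicit false

open Metric Set Filter Topology

namespace Crest.Agent.R279.Conv

/-- a quartic form in four variables has a nontrivial zero -/
theorem vstar_nonempty {Q : MvPolynomial (Fin 4) ℂ} (hQ : Q.IsHomogeneous 4) :
    (Vstar Q).Nonempty := by
  -- the univariate polynomial `Q(X, 1, 0, 0)`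
  let p : Polynomial ℂ := MvPolynomial.aeval (![Polynomial.X, 1, 0, 0] : Fin 4 → Polynomial ℂ) Q
  have hp : ∀ x : ℂ, p.eval x = MvPolynomial.eval ![x, 1, 0, 0] Q := by
    intro x
    have h1 : (Polynomial.evalRingHom x) (MvPolynomial.aeval
        (![Polynomial.X, 1, 0, 0] : Fin 4 → Polynomial ℂ) Q) =
        MvPolynomial.eval₂ (RingHom.id ℂ) ![x, 1, 0, 0] Q := by
      rw [MvPolynomial.aeval_def, MvPolynomial.hom_eval₂]
      congr 1
      · ext z
        simp
      · funext i
        fin_cases i <;> simp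
    exact h1
  by_cases hdeg : p.degree = 0
  · -- constant
    obtain ⟨c, hc⟩ : ∃ c, p = Polynomial.C c := ⟨_, Polynomial.eq_C_of_degree_eq_zero hdeg⟩
    have hval : ∀ x : ℂ, MvPolynomial.eval ![x, 1, 0, 0] Q = c := by
      intro x
      rw [← hp, hc, Polynomial.eval_C]
    have hf : Continuous fun y : ℂ => MvPolynomial.eval (![1, y, 0, 0] : Fin 4 → ℂ) Q := by
      refine (MvPolynomial.continuous_eval Q).comp ?_
      refine continuous_pi fun i => ?_
      fin_cases i <;> simp <;> fun_prop
    have hg : Continuous fun y : ℂ => y ^ 4 * c := by fun_prop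
    have heq : (fun y : ℂ => MvPolynomial.eval (![1, y, 0, 0] : Fin 4 → ℂ) Q) =
        fun y : ℂ => y ^ 4 * c := by
      refine Continuous.ext_on (dense_compl_singleton (0 : ℂ)) hf hg ?_
      intro y hy
      have hy0 : y ≠ 0 := hy
      have e1 : (![1, y, 0, 0] : Fin 4 → ℂ) = y • ![y⁻¹, 1, 0, 0] := by
        funext i
        fin_cases i <;> simp [hy0]
      show MvPolynomial.eval (![1, y, 0, 0] : Fin 4 → ℂ) Q = y ^ 4 * c
      rw [e1, ← hval y⁻¹]
      exact Red.eval_smul_of_homog hQ _ _
    refine ⟨![1, 0, 0, 0], ?_, ?_⟩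
    · intro h
      have := congrFun h 0
      simp at this
    · have := congrFun heq 0
      simpa using this
  · obtain ⟨x, hx⟩ := IsAlgClosed.exists_root p hdeg
    refine ⟨![x, 1, 0, 0], ?_, ?_⟩
    · intro h
      have := congrFun h 1
      simp at this
    · rw [← hp]
      exact hx

theorem splitProp_all (m : ℕ) : Merge.SplitProp m :=
  Merge.splitProp_of fun _ c => Box.sprop c

/-- **`ConvTarget`** -/
theorem convTarget (Q : MvPolynomial (Fin 4) ℂ) (hQ : Q.IsHomogeneous 4)
    (hsmooth : ∀ p : Fin 4 → ℂ, p ≠ 0 → MvPolynomial.eval p Q = 0 →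
      ∃ i : Fin 4, MvPolynomial.eval p (MvPolynomial.pderiv i Q) ≠ 0)
    (h41 : Cor41 (Vstar Q)) (hgood : ∀ v ∈ Vstar Q, GoodPt (Vstar Q) v) : Red.CAPR Q :=
  capr hQ hsmooth splitProp_all h41 hgood (vstar_nonempty hQ)

end Crest.Agent.R279.Conv
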