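import Crest.Agent.R279.NoStrict471
import Crest.Agent.R279.MaxB855

/-!
# R279, (D4') (helper421): the locus `D` is not contained in a 2-dimensional subspace

If `D ⊆ L`, `dim L = 2`, then `Q = 0` on `L` (no isolated rays in `D`), so `Q = ℓ₀ A + ℓ₁ B`; the cone
`Γ = {A = B = 0}` lies in `V*`, is disjoint from `L`, nonempty, and locally the zero set of one
holomorphic function, so Theorem E gives a point of `D` on `Γ`.
-/

set_option autoImplicit false

namespace Crest.Agent.R279.D4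

open MvPolynomial Metric Set Filter Topology Crest.Agent.R279.HV

abbrev V4 := Fin 4 → ℂ

/-- helper855's maximum principle in the form of helper471's `Max2`. -/
theorem max2 : HV.Max2 := by
  intro g φ U hU h0U hg hφ hg0 N hN
  obtain ⟨r, hr, hrs⟩ := Metric.mem_nhds_iff.1 (inter_mem (hU.mem_nhds h0U) hN)
  obtain ⟨z, hz, hz0, hgz, hle⟩ := MaxP.exists_norm_le hr (hg.mono fun z hz => (hrs hz).1)
    (hφ.mono fun z hz => (hrs hz).1) hg0
  exact ⟨z, (hrs hz).2, hz0, hgz, hle⟩

/-- bases adapted to a 2-dimensional subspace -/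
theorem adapted {L : Submodule ℂ V4} (hL : Module.finrank ℂ L = 2) {p v : V4} (hp : p ∈ L)
    (hv : v ∈ L) (hli : LinearIndependent ℂ ![p, v]) :
    ∃ (w0 w1 : V4) (f0 f1 l0 l1 : V4 →ₗ[ℂ] ℂ),
      (∀ x, x = (f0 x • p + f1 x • v) + (l0 x • w0 + l1 x • w1)) ∧
      (∀ x ∈ L, l0 x = 0 ∧ l1 x = 0) ∧ f0 p = 1 ∧ f1 p = 0 ∧ l0 w0 = 1 ∧ l1 w0 = 0 ∧
      f0 w0 = 0 ∧ f1 w0 = 0 := by
  obtain ⟨L', hLL⟩ := Submodule.exists_isCompl L
  have hL' : Module.finrank ℂ L' = 2 := by
    have h1 := Submodule.finrank_add_eq_of_isCompl hLL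
    have h2 : Module.finrank ℂ V4 = 4 := by simp
    omega
  have hli' : LinearIndependent ℂ (![⟨p, hp⟩, ⟨v, hv⟩] : Fin 2 → L) := by
    rw [LinearIndependent.pair_iff] at hli ⊢
    intro s t hst
    apply hli s t
    have := congrArg (fun z : L => (z : V4)) hst
    simpa using this
  let b : Module.Basis (Fin 2) ℂ L :=
    basisOfLinearIndependentOfCardEqFinrank hli' (by simp [hL])
  have hb : ⇑b = ![⟨p, hp⟩, ⟨v, hv⟩] := coe_basisOfLinearIndependentOfCardEqFinrank _ _
  let b' : Module.Basis (Fin 2) ℂ L' := Module.finBasisOfFinrankEq ℂ L' hL'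
  let bb : Module.Basis (Fin 2 ⊕ Fin 2) ℂ V4 := (b.prod b').map (Submodule.prodEquivOfIsCompl L L' hLL)
  have hb0 : bb (Sum.inl 0) = p := by
    simp [bb, hb]
  have hb1 : bb (Sum.inl 1) = v := by
    simp [bb, hb]
  refine ⟨bb (Sum.inr 0), bb (Sum.inr 1), bb.coord (Sum.inl 0), bb.coord (Sum.inl 1),
    bb.coord (Sum.inr 0), bb.coord (Sum.inr 1), ?_, ?_, ?_, ?_, ?_, ?_, ?_, ?_⟩
  · intro x
    have h := bb.sum_repr x
    rw [Fintype.sum_sum_type, Fin.sum_univ_two, Fin.sum_univ_two, hb0, hb1] at h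
    simpa [Module.Basis.coord_apply] using h.symm
  · intro x hx
    have hspan : x ∈ Submodule.span ℂ {p, v} := by
      have h1 : (⟨x, hx⟩ : L) = b.repr ⟨x, hx⟩ 0 • b 0 + b.repr ⟨x, hx⟩ 1 • b 1 := by
        have := b.sum_repr ⟨x, hx⟩
        rw [Fin.sum_univ_two] at this
        exact this.symm
      have h2 := congrArg (fun z : L => (z : V4)) h1
      simp only [hb, Matrix.cons_val_zero, Matrix.cons_val_one, Submodule.coe_add,
        Submodule.coe_smul] at h2
      rw [Submodule.mem_span_pair]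
      exact ⟨_, _, h2.symm⟩
    obtain ⟨s, t, rfl⟩ := Submodule.mem_span_pair.1 hspan
    rw [← hb0, ← hb1]
    simp [Module.Basis.coord_apply]
  · rw [← hb0]; simp [Module.Basis.coord_apply]
  · rw [← hb0]; simp [Module.Basis.coord_apply]
  · simp [Module.Basis.coord_apply]
  · simp [Module.Basis.coord_apply]
  · simp [Module.Basis.coord_apply]
  · simp [Module.Basis.coord_apply]

theorem root3 (a b c d : ℂ) (ha : a ≠ 0) : ∃ s : ℂ, a * s ^ 3 + b * s ^ 2 + c * s + d = 0 := by
  have hdeg : (Polynomial.C a * Polynomial.X ^ 3 + Polynomial.C b * Polynomial.X ^ 2 +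
      Polynomial.C c * Polynomial.X + Polynomial.C d : Polynomial ℂ).degree = 3 :=
    Polynomial.degree_cubic ha
  obtain ⟨s, hs⟩ := IsAlgClosed.exists_root _ (by rw [hdeg]; decide)
  refine ⟨s, ?_⟩
  simpa [Polynomial.IsRoot] using hs

theorem root4 (a b c d e : ℂ) (ha : a ≠ 0) :
    ∃ s : ℂ, a * s ^ 4 + b * s ^ 3 + c * s ^ 2 + d * s + e = 0 := by
  have hdeg : (Polynomial.C a * Polynomial.X ^ 4 + Polynomial.C b * Polynomial.X ^ 3 +
      Polynomial.C c * Polynomial.X ^ 2 + Polynomial.C d * Polynomial.X + Polynomial.C e :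
      Polynomial ℂ).degree = 4 := by
    compute_degree!
  obtain ⟨s, hs⟩ := IsAlgClosed.exists_root _ (by rw [hdeg]; decide)
  refine ⟨s, ?_⟩
  simpa [Polynomial.IsRoot] using hs

/-- `Q(y + r) - Q(y)`, polarised in one factor `r`. -/
noncomputable def NN (Q : MvPolynomial (Fin 4) ℂ) (y r s : V4) : ℂ :=
  4 * tens Q y y y s + 6 * tens Q y y r s + 4 * tens Q y r r s + tens Q r r r s

variable {Q : MvPolynomial (Fin 4) ℂ}

theorem NN_self (hQ : Q.IsHomogeneous 4) (y r : V4) :
    eval (y + r) Q = eval y Q + NN Q y r r := by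
  have := eval_comb hQ y r 1 1
  simp only [one_smul, one_pow, one_mul] at this
  rw [this, NN, q1, q2, q3, q4]; ring

theorem NN_comb (y r w0 w1 : V4) (a b : ℂ) :
    NN Q y r (a • w0 + b • w1) = a * NN Q y r w0 + b * NN Q y r w1 := by
  simp only [NN, tens_add4, tens_smul4]; ring

theorem NN_smul (c : ℂ) (y r s : V4) : NN Q (c • y) (c • r) s = c ^ 3 * NN Q y r s := by
  simp only [NN, tens_smul1, tens_smul2, tens_smul3]; ring

theorem NN_zero (y s : V4) : NN Q y 0 s = q1 Q y s := by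
  simp [NN, q1]

theorem NN_line (s : ℂ) (p w : V4) : NN Q (s • p) w w =
    (4 * tens Q p p p w) * s ^ 3 + (6 * tens Q p p w w) * s ^ 2 + (4 * tens Q p w w w) * s
      + tens Q w w w w := by
  simp only [NN, tens_smul1, tens_smul2, tens_smul3]; ring

theorem differentiable_tens' {ι : Type*} [NormedAddCommGroup ι] [NormedSpace ℂ ι]
    {a b c d : ι → V4} (ha : Differentiable ℂ a) (hb : Differentiable ℂ b)
    (hc : Differentiable ℂ c) (hd : Differentiable ℂ d) :
    Differentiable ℂ (fun x => tens Q (a x) (b x) (c x) (d x)) := by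
  have ha' : ∀ i, Differentiable ℂ (fun x => a x i) := fun i => differentiable_pi.1 ha i
  have hb' : ∀ i, Differentiable ℂ (fun x => b x i) := fun i => differentiable_pi.1 hb i
  have hc' : ∀ i, Differentiable ℂ (fun x => c x i) := fun i => differentiable_pi.1 hc i
  have hd' : ∀ i, Differentiable ℂ (fun x => d x i) := fun i => differentiable_pi.1 hd i
  unfold tens
  fun_prop

theorem differentiable_NN {y r : V4 → V4} (hy : Differentiable ℂ y) (hr : Differentiable ℂ r)
    (s : V4) : Differentiable ℂ (fun x => NN Q (y x) (r x) s) := by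
  have hs : Differentiable ℂ (fun _ : V4 => s) := differentiable_const s
  have k1 := differentiable_tens' (Q := Q) hy hy hy hs
  have k2 := differentiable_tens' (Q := Q) hy hy hr hs
  have k3 := differentiable_tens' (Q := Q) hy hr hr hs
  have k4 := differentiable_tens' (Q := Q) hr hr hr hs
  unfold NN
  exact (((k1.const_mul 4).add (k2.const_mul 6)).add (k3.const_mul 4)).add k4

theorem differentiable_evalQ (hQ : Q.IsHomogeneous 4) {ι : Type*} [NormedAddCommGroup ι]
    [NormedSpace ℂ ι] {y : ι → V4} (hy : Differentiable ℂ y) :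
    Differentiable ℂ (fun x => eval (y x) Q) := by
  have : (fun x => eval (y x) Q) = fun x => tens Q (y x) (y x) (y x) (y x) := by
    funext x; rw [eval_eq_tens hQ]
  rw [this]
  exact differentiable_tens' hy hy hy hy

theorem eval_smul4 (hQ : Q.IsHomogeneous 4) (c : ℂ) (x : V4) :
    eval (c • x) Q = c ^ 4 * eval x Q := by
  rw [eval_eq_tens hQ, eval_eq_tens hQ]
  simp only [tens_smul1, tens_smul2, tens_smul3, tens_smul4]
  ring

/-- If `D ⊆ L`, `dim L = 2`, then `Q = 0` on `L`. -/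
theorem eval_zero_of_subset (hQ : Q.IsHomogeneous 4) {L : Submodule ℂ V4}
    (hL : Module.finrank ℂ L = 2) (hM : NoStrictMax (DD Q)) (hne : (DD Q).Nonempty)
    (hsub : DD Q ⊆ (L : Set V4)) :
    ∃ p v : V4, p ∈ L ∧ v ∈ L ∧ LinearIndependent ℂ ![p, v] ∧ ∀ x ∈ L, eval x Q = 0 := by
  obtain ⟨p, hp⟩ := hne
  obtain ⟨v, hv, -, hli, -⟩ := hM p hp (fun _ => 0) univ isOpen_univ (mem_univ _)
    (differentiableOn_const 0) univ univ_mem
  refine ⟨p, v, hsub hp, hsub hv, hli, ?_⟩
  obtain ⟨w0, w1, f0, f1, l0, l1, hx, hLl, hf0, hf1, -⟩ := adapted hL (hsub hp) (hsub hv) hli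
  have hLx : ∀ x ∈ L, x = f0 x • p + f1 x • v := by
    intro x hxL
    have h1 := hx x
    rw [(hLl x hxL).1, (hLl x hxL).2, zero_smul, zero_smul, add_zero, add_zero] at h1
    exact h1
  have c0 : Continuous f0 := LinearMap.continuous_of_finiteDimensional f0
  have c1 : Continuous f1 := LinearMap.continuous_of_finiteDimensional f1
  have hline : Differentiable ℂ (fun τ : ℂ => p + τ • v) :=
    (differentiable_const p).add (differentiable_id.smul_const v)
  have hd : Differentiable ℂ (fun τ : ℂ => eval (p + τ • v) Q) := differentiable_evalQ hQ hline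
  have hfreq : ∃ᶠ τ in 𝓝[≠] (0 : ℂ), eval (p + τ • v) Q = 0 := by
    rw [Filter.frequently_iff]
    intro U hU
    obtain ⟨ε, hε, hεU⟩ := Metric.mem_nhdsWithin_iff.1 hU
    have hN : {q : V4 | f0 q ≠ 0 ∧ ‖f1 q / f0 q‖ < ε} ∈ 𝓝 p := by
      have e1 : ∀ᶠ q in 𝓝 p, f0 q ≠ 0 := by
        apply c0.continuousAt.eventually_ne
        rw [hf0]; exact one_ne_zero
      have e2 : ContinuousAt (fun q => ‖f1 q / f0 q‖) p :=
        ((c1.continuousAt).div (c0.continuousAt) (by rw [hf0]; exact one_ne_zero)).norm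
      have e3 : ∀ᶠ q in 𝓝 p, ‖f1 q / f0 q‖ < ε := by
        apply e2.eventually_lt continuousAt_const
        rw [hf1, zero_div, norm_zero]; exact hε
      exact e1.and e3
    obtain ⟨q, hq, hqN, hpq, -⟩ := hM p hp (fun _ => 0) univ isOpen_univ (mem_univ _)
      (differentiableOn_const 0) _ hN
    have hqx := hLx q (hsub hq)
    have hqe : q = f0 q • (p + (f1 q / f0 q) • v) := by
      rw [smul_add, smul_smul, mul_div_cancel₀ _ hqN.1]
      exact hqx
    refine ⟨f1 q / f0 q, hεU ⟨?_, ?_⟩, ?_⟩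
    · simpa [Metric.mem_ball, dist_zero_right] using hqN.2
    · intro h0
      rw [mem_singleton_iff] at h0
      rw [h0, zero_smul, add_zero] at hqe
      rw [LinearIndependent.pair_iff] at hpq
      have := (hpq (f0 q) (-1) (by
        rw [neg_smul, one_smul, ← hqe, add_neg_cancel])).2
      simp at this
    · have h1 : eval q Q = 0 := hq.1.2
      rw [hqe, eval_smul4 hQ] at h1
      exact (mul_eq_zero.1 h1).resolve_left (pow_ne_zero _ hqN.1)
  have han : AnalyticOnNhd ℂ (fun τ : ℂ => eval (p + τ • v) Q) univ :=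
    hd.differentiableOn.analyticOnNhd isOpen_univ
  have hz := han.eqOn_zero_of_preconnected_of_frequently_eq_zero isPreconnected_univ
    (mem_univ 0) hfreq
  have hz' : ∀ τ : ℂ, eval (p + τ • v) Q = 0 := fun τ => hz (mem_univ τ)
  have hv' : eval v Q = 0 := by
    have hc : Continuous (fun s : ℂ => eval (s • p + v) Q) :=
      (differentiable_evalQ hQ ((differentiable_id.smul_const p).add_const v)).continuous
    have h1 : (fun s : ℂ => eval (s • p + v) Q) = fun _ => 0 := by
      refine Continuous.ext_on (dense_compl_singleton (0 : ℂ)) hc continuous_const ?_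
      intro s hs
      have h2 : s • p + v = s • (p + s⁻¹ • v) := by
        rw [smul_add, smul_smul, mul_inv_cancel₀ hs, one_smul]
      show eval (s • p + v) Q = 0
      rw [h2, eval_smul4 hQ, hz', mul_zero]
    have h2 := congrFun h1 0
    simpa using h2
  intro x hxL
  rw [hLx x hxL]
  by_cases hs : f0 x = 0
  · rw [hs, zero_smul, zero_add, eval_smul4 hQ, hv', mul_zero]
  · have h2 : f0 x • p + f1 x • v = f0 x • (p + (f1 x / f0 x) • v) := by
      rw [smul_add, smul_smul, mul_div_cancel₀ _ hs]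
    rw [h2, eval_smul4 hQ, hz', mul_zero]

theorem q1_zero_of_line (hQ : Q.IsHomogeneous 4) {x u : V4}
    (h : ∀ s t : ℂ, eval (s • x + t • u) Q = 0) : q1 Q x u = 0 := by
  have e := fun t : ℂ => (eval_comb hQ x u 1 t).symm.trans (h 1 t)
  have h0 : eval x Q = 0 := by simpa using h 1 0
  have h4 : q4 Q u = 0 := by rw [q4_eq hQ]; simpa using h 0 1
  have e1 := e 1
  have e2 := e (-1)
  have e3 := e 2
  rw [h0, h4] at e1 e2 e3
  linear_combination e1 - (1/3) * e2 - (1/6) * e3

/-- Theorem E in general form (helper855): every nonempty relatively closed cone in `V*` with the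
local maximum principle meets `D`. -/
def ThmE (Q : MvPolynomial (Fin 4) ℂ) : Prop :=
  ∀ G : Set V4, (∀ v ∈ G, v ≠ 0 ∧ eval v Q = 0) → G.Nonempty →
    (∀ v ∈ G, ∀ s : ℂ, s ≠ 0 → s • v ∈ G) → (∀ q : V4, q ≠ 0 → q ∈ closure G → q ∈ G) →
    NoStrictMax G → ∃ p ∈ G, InD Q p

/-- a closed condition defines a relatively closed cone -/
theorem closed_of {f : V4 → Prop} (hf : IsClosed {x : V4 | f x}) {G : Set V4}
    (hG : ∀ x, x ∈ G ↔ x ≠ 0 ∧ f x) : ∀ q : V4, q ≠ 0 → q ∈ closure G → q ∈ G := by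
  intro q hq0 hq
  refine (hG q).2 ⟨hq0, ?_⟩
  have h1 : closure G ⊆ {x : V4 | f x} := closure_minimal (fun x hx => ((hG x).1 hx).2) hf
  exact h1 hq

/-- `V*` is not empty -/
theorem exists_zero (hQ : Q.IsHomogeneous 4) : ∃ x : V4, x ≠ 0 ∧ eval x Q = 0 := by
  set e : V4 := Pi.single 0 1 with he
  set f : V4 := Pi.single 1 1 with hf
  by_cases h : eval e Q = 0
  · exact ⟨e, by rw [he]; simp, h⟩
  · obtain ⟨s, hs⟩ := root4 (eval e Q) (q1 Q e f) (q2 Q e f) (q3 Q e f) (q4 Q f) h
    refine ⟨s • e + (1 : ℂ) • f, ?_, ?_⟩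
    · intro h0
      have := congrFun h0 1
      simp [he, hf] at this
    · rw [eval_comb hQ]
      linear_combination hs

/-- `V*` satisfies the local maximum principle. -/
theorem noStrictMax_V (hQ : Q.IsHomogeneous 4)
    (hsmooth : ∀ p : V4, p ≠ 0 → eval p Q = 0 → ∃ i, eval p (pderiv i Q) ≠ 0) :
    NoStrictMax {v : V4 | v ≠ 0 ∧ eval v Q = 0} := by
  refine noStrictMax_zero max2 hQ hsmooth (fun v hv => hv) ?_
  intro v _
  exact ⟨fun _ => 0, univ, isOpen_univ, mem_univ _, differentiableOn_const 0, rfl,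
    fun y _ hy0 hyQ _ => ⟨hy0, hyQ⟩⟩

theorem evalQ_closed (hQ : Q.IsHomogeneous 4) : IsClosed {x : V4 | eval x Q = 0} :=
  isClosed_eq (differentiable_evalQ hQ differentiable_id).continuous continuous_const

/-- `D` is not empty. -/
theorem DD_nonempty (hQ : Q.IsHomogeneous 4)
    (hsmooth : ∀ p : V4, p ≠ 0 → eval p Q = 0 → ∃ i, eval p (pderiv i Q) ≠ 0)
    (hE : ThmE Q) : (DD Q).Nonempty := by
  obtain ⟨p, hp, hpD⟩ := hE {v : V4 | v ≠ 0 ∧ eval v Q = 0} (fun v hv => hv) (exists_zero hQ)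
    (fun v hv s hs => ⟨smul_ne_zero hs hv.1, by rw [eval_smul4 hQ, hv.2, mul_zero]⟩)
    (closed_of (evalQ_closed hQ) (fun x => Iff.rfl)) (noStrictMax_V hQ hsmooth)
  exact ⟨p, hp, hpD⟩

/-- **(D4')** the locus `D` is not contained in a 2-dimensional subspace. -/
theorem not_DD_subset (hQ : Q.IsHomogeneous 4)
    (hsmooth : ∀ p : V4, p ≠ 0 → eval p Q = 0 → ∃ i, eval p (pderiv i Q) ≠ 0)
    (hE : ThmE Q) (L : Submodule ℂ V4) (hL : Module.finrank ℂ L = 2) :
    ¬ DD Q ⊆ (L : Set V4) := by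
  intro hsub
  obtain ⟨p, v, hp, hv, hli, hL0⟩ := eval_zero_of_subset hQ hL
    (noStrictMax_DD max2 hQ hsmooth) (DD_nonempty hQ hsmooth hE) hsub
  obtain ⟨w0, w1, f0, f1, l0, l1, hx, hLl, hf0p, hf1p, hl0w, hl1w, hf0w, hf1w⟩ :=
    adapted hL hp hv hli
  -- the projections
  have cf0 : Differentiable ℂ (fun x : V4 => f0 x) :=
    (LinearMap.toContinuousLinearMap f0).differentiable
  have cf1 : Differentiable ℂ (fun x : V4 => f1 x) :=
    (LinearMap.toContinuousLinearMap f1).differentiable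
  have cl0 : Differentiable ℂ (fun x : V4 => l0 x) :=
    (LinearMap.toContinuousLinearMap l0).differentiable
  have cl1 : Differentiable ℂ (fun x : V4 => l1 x) :=
    (LinearMap.toContinuousLinearMap l1).differentiable
  set y : V4 → V4 := fun x => f0 x • p + f1 x • v with hy
  set r : V4 → V4 := fun x => l0 x • w0 + l1 x • w1 with hr
  have dy : Differentiable ℂ y := (cf0.smul_const p).add (cf1.smul_const v)
  have dr : Differentiable ℂ r := (cl0.smul_const w0).add (cl1.smul_const w1)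
  set A : V4 → ℂ := fun x => NN Q (y x) (r x) w0 with hA
  set B : V4 → ℂ := fun x => NN Q (y x) (r x) w1 with hB
  have dA : Differentiable ℂ A := differentiable_NN dy dr w0
  have dB : Differentiable ℂ B := differentiable_NN dy dr w1
  have hyL : ∀ x, y x ∈ L := fun x => L.add_mem (L.smul_mem _ hp) (L.smul_mem _ hv)
  have hQAB : ∀ x : V4, eval x Q = l0 x * A x + l1 x * B x := by
    intro x
    have h1 : x = y x + r x := hx x
    have h2 : eval x Q = eval (y x) Q + NN Q (y x) (r x) (r x) := by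
      conv_lhs => rw [h1]
      exact NN_self hQ _ _
    rw [h2, hL0 _ (hyL x), zero_add]
    exact NN_comb (y x) (r x) w0 w1 (l0 x) (l1 x)
  have hys : ∀ (s : ℂ) (x : V4), y (s • x) = s • y x := by
    intro s x; simp only [hy, map_smul, smul_eq_mul, smul_add, smul_smul]
  have hrs : ∀ (s : ℂ) (x : V4), r (s • x) = s • r x := by
    intro s x; simp only [hr, map_smul, smul_eq_mul, smul_add, smul_smul]
  have hAs : ∀ (s : ℂ) (x : V4), A (s • x) = s ^ 3 * A x := by
    intro s x; simp only [hA, hys, hrs, NN_smul]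
  have hBs : ∀ (s : ℂ) (x : V4), B (s • x) = s ^ 3 * B x := by
    intro s x; simp only [hB, hys, hrs, NN_smul]
  -- on `L`
  have hmemL : ∀ x : V4, l0 x = 0 → l1 x = 0 → x ∈ L := by
    intro x h0 h1
    have h2 := hx x
    rw [h0, h1, zero_smul, zero_smul, add_zero, add_zero] at h2
    rw [h2]
    exact hyL x
  have hdisj : ∀ x ∈ L, x ≠ 0 → A x = 0 → B x = 0 → False := by
    intro x hxL hx0 hAx hBx
    have hyx : y x = x ∧ r x = 0 := by
      have h2 : r x = 0 := by simp only [hr, (hLl x hxL).1, (hLl x hxL).2]; simp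
      have h3 : x = y x + r x := hx x
      rw [h2, add_zero] at h3
      exact ⟨h3.symm, h2⟩
    simp only [hA, hB, hyx.1, hyx.2, NN_zero] at hAx hBx
    have hp1 : q1 Q x p = 0 := q1_zero_of_line hQ fun s t =>
      hL0 _ (L.add_mem (L.smul_mem _ hxL) (L.smul_mem _ hp))
    have hv1 : q1 Q x v = 0 := q1_zero_of_line hQ fun s t =>
      hL0 _ (L.add_mem (L.smul_mem _ hxL) (L.smul_mem _ hv))
    have hall : ∀ z : V4, q1 Q x z = 0 := by
      intro z
      have e := hx z
      rw [e]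
      simp only [q1, tens_add4, tens_smul4] at hp1 hv1 hAx hBx ⊢
      linear_combination (f0 z) * hp1 + (f1 z) * hv1 + (l0 z) * hAx + (l1 z) * hBx
    obtain ⟨i, hi⟩ := hsmooth x hx0 (hL0 x hxL)
    apply hi
    have := hall (Pi.single i 1)
    rw [q1_eq hQ] at this
    simpa [Pi.single_apply] using this
  -- the plane cubic `E = {l1 = A = 0}`
  set E : Set V4 := {x | x ≠ 0 ∧ (l1 x = 0 ∧ A x = 0)} with hEdef
  have hEV : ∀ x ∈ E, x ≠ 0 ∧ eval x Q = 0 := by
    intro x hxE
    refine ⟨hxE.1, ?_⟩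
    rw [hQAB, hxE.2.1, hxE.2.2]; ring
  have hEM : NoStrictMax E := by
    refine noStrictMax_zero max2 hQ hsmooth hEV ?_
    intro x hxE
    by_cases h0 : l0 x = 0
    · have hBx : B x ≠ 0 := fun hBx => hdisj x (hmemL x h0 hxE.2.1) hxE.1 hxE.2.2 hBx
      refine ⟨A, {z | B z ≠ 0}, isOpen_ne_fun dB.continuous continuous_const, hBx,
        dA.differentiableOn, hxE.2.2, ?_⟩
      intro z hz hz0 hzQ hAz
      refine ⟨hz0, ?_, hAz⟩
      rw [hQAB, hAz, mul_zero, zero_add] at hzQ
      exact (mul_eq_zero.1 hzQ).resolve_right hz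
    · refine ⟨fun z => l1 z, {z | l0 z ≠ 0}, isOpen_ne_fun cl0.continuous continuous_const, h0,
        cl1.differentiableOn, hxE.2.1, ?_⟩
      intro z hz hz0 hzQ hlz
      refine ⟨hz0, hlz, ?_⟩
      change l1 z = 0 at hlz
      rw [hQAB, hlz, zero_mul, add_zero] at hzQ
      exact (mul_eq_zero.1 hzQ).resolve_left hz
  have hEc : ∀ x ∈ E, ∀ s : ℂ, s ≠ 0 → s • x ∈ E := by
    intro x hxE s hs
    refine ⟨smul_ne_zero hs hxE.1, ?_, ?_⟩
    · rw [map_smul, hxE.2.1, smul_zero]
    · rw [hAs, hxE.2.2, mul_zero]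
  have hEcl : ∀ q : V4, q ≠ 0 → q ∈ closure E → q ∈ E :=
    closed_of ((isClosed_eq cl1.continuous continuous_const).inter
      (isClosed_eq dA.continuous continuous_const)) (fun x => Iff.rfl)
  have hEne : E.Nonempty := by
    have hp0 : p ≠ 0 := by
      intro h0
      rw [h0, map_zero] at hf0p
      exact zero_ne_one hf0p
    by_cases hT : tens Q p p p w0 = 0
    · refine ⟨p, hp0, (hLl p hp).2, ?_⟩
      have h1 : y p = p := by simp only [hy, hf0p, hf1p]; simp
      have h2 : r p = 0 := by simp only [hr, (hLl p hp).1, (hLl p hp).2]; simp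
      simp only [hA, h1, h2, NN_zero, q1, hT, mul_zero]
    · obtain ⟨s, hs⟩ := root3 (4 * tens Q p p p w0) (6 * tens Q p p w0 w0)
        (4 * tens Q p w0 w0 w0) (tens Q w0 w0 w0 w0) (mul_ne_zero (by norm_num) hT)
      have hl0x : l0 (s • p + w0) = 1 := by
        rw [map_add, map_smul, (hLl p hp).1, hl0w, smul_zero, zero_add]
      have hl1x : l1 (s • p + w0) = 0 := by
        rw [map_add, map_smul, (hLl p hp).2, hl1w, smul_zero, zero_add]
      have hf0x : f0 (s • p + w0) = s := by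
        rw [map_add, map_smul, hf0p, hf0w, smul_eq_mul, mul_one, add_zero]
      have hf1x : f1 (s • p + w0) = 0 := by
        rw [map_add, map_smul, hf1p, hf1w, smul_zero, zero_add]
      refine ⟨s • p + w0, ?_, hl1x, ?_⟩
      · intro h0
        rw [h0, map_zero] at hl0x
        exact zero_ne_one hl0x
      · have h1 : y (s • p + w0) = s • p := by simp only [hy, hf0x, hf1x]; simp
        have h2 : r (s • p + w0) = w0 := by simp only [hr, hl0x, hl1x]; simp
        simp only [hA, h1, h2, NN_line]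
        exact hs
  -- the curve `Γ = {A = B = 0}`
  set Γ : Set V4 := {x | x ≠ 0 ∧ (eval x Q = 0 ∧ (A x = 0 ∧ B x = 0))} with hΓ
  have hΓne : Γ.Nonempty := by
    by_contra hemp
    rw [not_nonempty_iff_eq_empty] at hemp
    have hB0 : ∀ x ∈ E, B x ≠ 0 := by
      intro x hxE hBx
      have : x ∈ Γ := ⟨hxE.1, (hEV x hxE).2, hxE.2.2, hBx⟩
      rw [hemp] at this
      exact this
    obtain ⟨x, hxE⟩ := hEne
    have := hom_vanish (G := E) (S := ∅) (fun q hq => hq.1) hEc hEcl hEM (m := 3) (by norm_num)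
      (fun z => (B z)⁻¹) (fun q _ _ s _ => notMem_empty _)
      (fun z hz _ => ⟨{z | B z ≠ 0}, isOpen_ne_fun dB.continuous continuous_const, hB0 z hz,
        (dB.differentiableOn).inv (fun z hz => hz), fun q _ _ => notMem_empty _⟩)
      (fun q _ _ s _ => by rw [hBs, mul_inv]) (fun q _ hq => absurd hq (notMem_empty _)) x hxE
      (notMem_empty _)
    exact inv_ne_zero (hB0 x hxE) this
  have hΓM : NoStrictMax Γ := by
    refine noStrictMax_zero max2 hQ hsmooth (fun x hx => ⟨hx.1, hx.2.1⟩) ?_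
    intro x hxΓ
    by_cases h0 : l0 x = 0
    · have h1 : l1 x ≠ 0 := fun h1 => hdisj x (hmemL x h0 h1) hxΓ.1 hxΓ.2.2.1 hxΓ.2.2.2
      refine ⟨A, {z | l1 z ≠ 0}, isOpen_ne_fun cl1.continuous continuous_const, h1,
        dA.differentiableOn, hxΓ.2.2.1, ?_⟩
      intro z hz hz0 hzQ hAz
      refine ⟨hz0, hzQ, hAz, ?_⟩
      rw [hQAB, hAz, mul_zero, zero_add] at hzQ
      exact (mul_eq_zero.1 hzQ).resolve_left hz
    · refine ⟨B, {z | l0 z ≠ 0}, isOpen_ne_fun cl0.continuous continuous_const, h0,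
        dB.differentiableOn, hxΓ.2.2.2, ?_⟩
      intro z hz hz0 hzQ hBz
      refine ⟨hz0, hzQ, ?_, hBz⟩
      rw [hQAB, hBz, mul_zero, add_zero] at hzQ
      exact (mul_eq_zero.1 hzQ).resolve_left hz
  have hΓc : ∀ x ∈ Γ, ∀ s : ℂ, s ≠ 0 → s • x ∈ Γ := by
    intro x hxΓ s hs
    refine ⟨smul_ne_zero hs hxΓ.1, ?_, ?_, ?_⟩
    · rw [eval_smul4 hQ, hxΓ.2.1, mul_zero]
    · rw [hAs, hxΓ.2.2.1, mul_zero]
    · rw [hBs, hxΓ.2.2.2, mul_zero]
  have hΓcl : ∀ q : V4, q ≠ 0 → q ∈ closure Γ → q ∈ Γ :=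
    closed_of ((evalQ_closed hQ).inter ((isClosed_eq dA.continuous continuous_const).inter
      (isClosed_eq dB.continuous continuous_const))) (fun x => Iff.rfl)
  obtain ⟨z, hzΓ, hzD⟩ := hE Γ (fun x hx => ⟨hx.1, hx.2.1⟩) hΓne hΓc hΓcl hΓM
  have hzL : z ∈ L := hsub ⟨⟨hzΓ.1, hzΓ.2.1⟩, hzD⟩
  exact hdisj z hzL hzΓ.1 hzΓ.2.2.1 hzΓ.2.2.2

end Crest.Agent.R279.D4
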