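import Mathlib
import Crest.Agent.R266.SCV

/-!
# R279, Part 9: local holomorphic flows with joint holomorphy in initial value and complex time
-/

set_option autoImplicit false

namespace Crest.Agent.R279.Ell

open Set Metric Filter Topology MeasureTheory Crest.Agent.R266.SCV

noncomputable section

variable {V : Type*} [NormedAddCommGroup V] [NormedSpace ℂ V]

/-- Picard iterates of `z' = f z` -/
def pic (f : V → V) : ℕ → V × ℂ → V
  | 0, p => p.1
  | n + 1, p => p.1 + p.2 • ∫ θ in (0 : ℝ)..1, f (pic f n (p.1, (θ : ℂ) * p.2))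

/-- the data of the local flow construction -/
structure FlowData (f : V → V) (R M L r : ℝ) : Prop where
  R_pos : 0 < R
  M_pos : 0 < M
  L_nonneg : 0 ≤ L
  r_pos : 0 < r
  rM : r * M ≤ R
  rL : r * L ≤ 1 / 2
  diff : Differentiable ℂ f
  bd : ∀ z ∈ closedBall (0 : V) (2 * R), ‖f z‖ ≤ M
  lip : ∀ z ∈ closedBall (0 : V) (2 * R), ∀ w ∈ closedBall (0 : V) (2 * R),
    ‖f z - f w‖ ≤ L * ‖z - w‖

/-- the domain -/
def dom (V : Type*) [NormedAddCommGroup V] [NormedSpace ℂ V] (R r : ℝ) : Set (V × ℂ) :=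
  ball (0 : V) R ×ˢ ball (0 : ℂ) r

lemma isOpen_dom (R r : ℝ) : IsOpen (dom V R r) := isOpen_ball.prod isOpen_ball

lemma dom_mul {R r : ℝ} {p : V × ℂ} (hp : p ∈ dom V R r) {θ : ℝ} (hθ : θ ∈ uIcc (0 : ℝ) 1) :
    (p.1, (θ : ℂ) * p.2) ∈ dom V R r := by
  rw [uIcc_of_le zero_le_one] at hθ
  refine ⟨hp.1, ?_⟩
  have h2 : ‖p.2‖ < r := by simpa using hp.2
  have : ‖(θ : ℂ) * p.2‖ ≤ ‖p.2‖ := by
    rw [norm_mul, Complex.norm_real, Real.norm_of_nonneg hθ.1]
    exact mul_le_of_le_one_left (norm_nonneg _) hθ.2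
  simpa using this.trans_lt h2

variable {f : V → V} {R M L r : ℝ}

lemma pic_aux [FiniteDimensional ℂ V] (h : FlowData f R M L r) (n : ℕ) :
    (∀ p ∈ dom V R r, pic f n p ∈ closedBall (0 : V) (2 * R)) ∧
      DifferentiableOn ℂ (pic f n) (dom V R r) := by
  have : CompleteSpace V := FiniteDimensional.complete ℂ V
  induction n with
  | zero =>
    refine ⟨fun p hp => ?_, differentiable_fst.differentiableOn⟩
    have h1 : ‖p.1‖ < R := by simpa using hp.1
    have := h.R_pos
    simp only [pic, mem_closedBall, dist_zero_right]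
    linarith
  | succ n ih =>
    obtain ⟨ih1, ih2⟩ := ih
    constructor
    · intro p hp
      have h1 : ‖p.1‖ < R := by simpa using hp.1
      have h2 : ‖p.2‖ < r := by simpa using hp.2
      have h3 : ‖∫ θ in (0 : ℝ)..1, f (pic f n (p.1, (θ : ℂ) * p.2))‖ ≤ M * |1 - 0| := by
        refine intervalIntegral.norm_integral_le_of_norm_le_const fun θ hθ => ?_
        exact h.bd _ (ih1 _ (dom_mul hp (uIoc_subset_uIcc hθ)))
      have h4 : ‖p.2 • ∫ θ in (0 : ℝ)..1, f (pic f n (p.1, (θ : ℂ) * p.2))‖ ≤ r * M := by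
        rw [norm_smul]
        refine mul_le_mul h2.le (by simpa using h3) (norm_nonneg _) h.r_pos.le
      have h5 := norm_add_le p.1 (p.2 • ∫ θ in (0 : ℝ)..1, f (pic f n (p.1, (θ : ℂ) * p.2)))
      have h6 := h.rM
      simp only [pic, mem_closedBall, dist_zero_right]
      linarith
    · have hG : AnalyticOnNhd ℂ (fun p : V × ℂ =>
          ∫ θ in (0 : ℝ)..1, (fun q : (V × ℂ) × ℝ => f (pic f n (q.1.1, (q.2 : ℂ) * q.1.2))) (p, θ))
          (dom V R r) := by
        refine analyticOnNhd_intervalIntegral (E := V × ℂ) (F := V)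
          (f := fun q : (V × ℂ) × ℝ => f (pic f n (q.1.1, (q.2 : ℂ) * q.1.2)))
          (isOpen_dom R r) ?_ ?_
        · refine h.diff.continuous.comp_continuousOn ?_
          refine ih2.continuousOn.comp (f := fun q : (V × ℂ) × ℝ =>
            ((q.1.1, (q.2 : ℂ) * q.1.2) : V × ℂ)) (by fun_prop) ?_
          intro q hq
          exact dom_mul hq.1 hq.2
        · intro θ hθ
          refine h.diff.comp_differentiableOn ?_
          refine ih2.comp (f := fun q : V × ℂ => ((q.1, (θ : ℂ) * q.2) : V × ℂ))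
            (by fun_prop) ?_
          intro q hq
          exact dom_mul hq hθ
      have h1 := hG.differentiableOn
      exact differentiable_fst.differentiableOn.add
        (differentiable_snd.differentiableOn.smul h1)

lemma pic_step [FiniteDimensional ℂ V] (h : FlowData f R M L r) (n : ℕ) :
    ∀ p ∈ dom V R r, dist (pic f n p) (pic f (n + 1) p) ≤ R * (1 / 2) ^ n := by
  have : CompleteSpace V := FiniteDimensional.complete ℂ V
  induction n with
  | zero =>
    intro p hp
    have h2 : ‖p.2‖ < r := by simpa using hp.2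
    have h3 : ‖∫ θ in (0 : ℝ)..1, f (pic f 0 (p.1, (θ : ℂ) * p.2))‖ ≤ M * |1 - 0| := by
      refine intervalIntegral.norm_integral_le_of_norm_le_const fun θ hθ => ?_
      exact h.bd _ ((pic_aux h 0).1 _ (dom_mul hp (uIoc_subset_uIcc hθ)))
    have h4 : ‖p.2 • ∫ θ in (0 : ℝ)..1, f (pic f 0 (p.1, (θ : ℂ) * p.2))‖ ≤ r * M := by
      rw [norm_smul]
      exact mul_le_mul h2.le (by simpa using h3) (norm_nonneg _) h.r_pos.le
    have h6 := h.rM
    rw [dist_eq_norm, ← norm_neg]
    have h7 : -(pic f 0 p - pic f (0 + 1) p) =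
        p.2 • ∫ θ in (0 : ℝ)..1, f (pic f 0 (p.1, (θ : ℂ) * p.2)) := by
      simp only [pic]; abel
    rw [h7]
    linarith
  | succ n ih =>
    intro p hp
    have h2 : ‖p.2‖ < r := by simpa using hp.2
    have hcont : ∀ k, ContinuousOn (fun θ : ℝ => f (pic f k (p.1, (θ : ℂ) * p.2)))
        (uIcc (0 : ℝ) 1) := by
      intro k
      refine h.diff.continuous.comp_continuousOn ?_
      refine (pic_aux h k).2.continuousOn.comp (f := fun θ : ℝ =>
        ((p.1, (θ : ℂ) * p.2) : V × ℂ)) (by fun_prop) ?_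
      intro θ hθ
      exact dom_mul hp hθ
    have h3 : ‖∫ θ in (0 : ℝ)..1, (f (pic f n (p.1, (θ : ℂ) * p.2)) -
        f (pic f (n + 1) (p.1, (θ : ℂ) * p.2)))‖ ≤ (L * (R * (1 / 2) ^ n)) * |1 - 0| := by
      refine intervalIntegral.norm_integral_le_of_norm_le_const fun θ hθ => ?_
      have hm := dom_mul hp (uIoc_subset_uIcc hθ)
      refine (h.lip _ ((pic_aux h n).1 _ hm) _ ((pic_aux h (n + 1)).1 _ hm)).trans ?_
      refine mul_le_mul_of_nonneg_left ?_ h.L_nonneg
      rw [← dist_eq_norm]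
      exact ih _ hm
    rw [intervalIntegral.integral_sub ((hcont n).intervalIntegrable)
      ((hcont (n + 1)).intervalIntegrable)] at h3
    rw [dist_eq_norm]
    have h7 : pic f (n + 1) p - pic f (n + 1 + 1) p =
        p.2 • ((∫ θ in (0 : ℝ)..1, f (pic f n (p.1, (θ : ℂ) * p.2))) -
          ∫ θ in (0 : ℝ)..1, f (pic f (n + 1) (p.1, (θ : ℂ) * p.2))) := by
      simp only [pic, smul_sub]; abel
    rw [h7, norm_smul]
    have h8 : ‖p.2‖ * ‖(∫ θ in (0 : ℝ)..1, f (pic f n (p.1, (θ : ℂ) * p.2))) -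
          ∫ θ in (0 : ℝ)..1, f (pic f (n + 1) (p.1, (θ : ℂ) * p.2))‖ ≤
        r * ((L * (R * (1 / 2) ^ n)) * |1 - 0|) :=
      mul_le_mul h2.le h3 (norm_nonneg _) h.r_pos.le
    refine h8.trans ?_
    have h9 := h.rL
    have h10 : 0 ≤ R * (1 / 2 : ℝ) ^ n := by have := h.R_pos; positivity
    calc r * ((L * (R * (1 / 2) ^ n)) * |1 - 0|) = (r * L) * (R * (1 / 2) ^ n) := by
          simp; ring
      _ ≤ (1 / 2) * (R * (1 / 2) ^ n) := mul_le_mul_of_nonneg_right h9 h10
      _ = R * (1 / 2) ^ (n + 1) := by rw [pow_succ]; ring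

open Classical in
/-- the local flow -/
def flo (f : V → V) (p : V × ℂ) : V :=
  if h : ∃ v, Tendsto (fun n => pic f n p) atTop (𝓝 v) then h.choose else 0

lemma flo_tendsto [FiniteDimensional ℂ V] (h : FlowData f R M L r) {p : V × ℂ}
    (hp : p ∈ dom V R r) : Tendsto (fun n => pic f n p) atTop (𝓝 (flo f p)) := by
  have : CompleteSpace V := FiniteDimensional.complete ℂ V
  have hc : CauchySeq (fun n => pic f n p) :=
    cauchySeq_of_le_geometric (1 / 2) R (by norm_num) (fun n => pic_step h n p hp)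
  obtain ⟨v, hv⟩ := cauchySeq_tendsto_of_complete hc
  have hex : ∃ v, Tendsto (fun n => pic f n p) atTop (𝓝 v) := ⟨v, hv⟩
  rw [flo, dif_pos hex]
  exact hex.choose_spec

lemma flo_dist [FiniteDimensional ℂ V] (h : FlowData f R M L r) {p : V × ℂ}
    (hp : p ∈ dom V R r) (n : ℕ) : dist (pic f n p) (flo f p) ≤ 2 * R * (1 / 2) ^ n := by
  have := dist_le_of_le_geometric_of_tendsto (1 / 2) R (by norm_num)
    (fun n => pic_step h n p hp) (flo_tendsto h hp) n
  refine this.trans (le_of_eq ?_)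
  ring

lemma flo_mem_closed [FiniteDimensional ℂ V] (h : FlowData f R M L r) {p : V × ℂ}
    (hp : p ∈ dom V R r) : flo f p ∈ closedBall (0 : V) (2 * R) :=
  isClosed_closedBall.mem_of_tendsto (flo_tendsto h hp)
    (Eventually.of_forall fun n => (pic_aux h n).1 p hp)

lemma flo_unif [FiniteDimensional ℂ V] (h : FlowData f R M L r) :
    TendstoUniformlyOn (pic f) (flo f) atTop (dom V R r) := by
  rw [Metric.tendstoUniformlyOn_iff]
  intro ε hε
  have h1 : Tendsto (fun n : ℕ => 2 * R * (1 / 2 : ℝ) ^ n) atTop (𝓝 (2 * R * 0)) :=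
    (tendsto_pow_atTop_nhds_zero_of_lt_one (by norm_num) (by norm_num)).const_mul _
  rw [mul_zero] at h1
  filter_upwards [h1.eventually (gt_mem_nhds hε)] with n hn p hp
  rw [dist_comm]
  exact (flo_dist h hp n).trans_lt hn

lemma flo_diff [FiniteDimensional ℂ V] (h : FlowData f R M L r) :
    DifferentiableOn ℂ (flo f) (dom V R r) := by
  have : CompleteSpace V := FiniteDimensional.complete ℂ V
  exact (analyticOnNhd_of_tendstoLocallyUniformlyOn (isOpen_dom R r)
    (flo_unif h).tendstoLocallyUniformlyOn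
    (Eventually.of_forall fun n => (pic_aux h n).2)).differentiableOn

lemma flo_contOn [FiniteDimensional ℂ V] (h : FlowData f R M L r) {p : V × ℂ}
    (hp : p ∈ dom V R r) : ContinuousOn (fun θ : ℝ => f (flo f (p.1, (θ : ℂ) * p.2)))
      (uIcc (0 : ℝ) 1) := by
  refine h.diff.continuous.comp_continuousOn ?_
  refine (flo_diff h).continuousOn.comp (f := fun θ : ℝ =>
    ((p.1, (θ : ℂ) * p.2) : V × ℂ)) (by fun_prop) ?_
  intro θ hθ
  exact dom_mul hp hθ

lemma flo_eq [FiniteDimensional ℂ V] (h : FlowData f R M L r) {p : V × ℂ}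
    (hp : p ∈ dom V R r) :
    flo f p = p.1 + p.2 • ∫ θ in (0 : ℝ)..1, f (flo f (p.1, (θ : ℂ) * p.2)) := by
  have : CompleteSpace V := FiniteDimensional.complete ℂ V
  have h1 := (flo_tendsto h hp).comp (tendsto_add_atTop_nat 1)
  refine tendsto_nhds_unique h1 ?_
  have h2 : ((fun n => pic f n p) ∘ fun a => a + 1) = fun n =>
      p.1 + p.2 • ∫ θ in (0 : ℝ)..1, f (pic f n (p.1, (θ : ℂ) * p.2)) := rfl
  rw [h2]
  refine tendsto_const_nhds.add (Tendsto.const_smul ?_ _)
  rw [tendsto_iff_norm_sub_tendsto_zero]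
  have hcont : ∀ k, ContinuousOn (fun θ : ℝ => f (pic f k (p.1, (θ : ℂ) * p.2)))
      (uIcc (0 : ℝ) 1) := by
    intro k
    refine h.diff.continuous.comp_continuousOn ?_
    refine (pic_aux h k).2.continuousOn.comp (f := fun θ : ℝ =>
      ((p.1, (θ : ℂ) * p.2) : V × ℂ)) (by fun_prop) ?_
    intro θ hθ
    exact dom_mul hp hθ
  have h3 : ∀ n, ‖(∫ θ in (0 : ℝ)..1, f (pic f n (p.1, (θ : ℂ) * p.2))) -
      ∫ θ in (0 : ℝ)..1, f (flo f (p.1, (θ : ℂ) * p.2))‖ ≤ (L * (2 * R * (1 / 2) ^ n)) := by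
    intro n
    rw [← intervalIntegral.integral_sub ((hcont n).intervalIntegrable)
      ((flo_contOn h hp).intervalIntegrable)]
    have := intervalIntegral.norm_integral_le_of_norm_le_const
      (f := fun θ : ℝ => f (pic f n (p.1, (θ : ℂ) * p.2)) - f (flo f (p.1, (θ : ℂ) * p.2)))
      (a := 0) (b := 1) (C := L * (2 * R * (1 / 2) ^ n)) (fun θ hθ => by
        have hm := dom_mul hp (uIoc_subset_uIcc hθ)
        refine (h.lip _ ((pic_aux h n).1 _ hm) _ (flo_mem_closed h hm)).trans ?_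
        refine mul_le_mul_of_nonneg_left ?_ h.L_nonneg
        rw [← dist_eq_norm]
        exact flo_dist h hm n)
    simpa using this
  have h4 : Tendsto (fun n : ℕ => L * (2 * R * (1 / 2 : ℝ) ^ n)) atTop
      (𝓝 (L * (2 * R * 0))) :=
    ((tendsto_pow_atTop_nhds_zero_of_lt_one (by norm_num) (by norm_num)).const_mul _).const_mul _
  simp only [mul_zero] at h4
  exact squeeze_zero (fun n => norm_nonneg _) h3 h4

lemma flo_zero [FiniteDimensional ℂ V] (h : FlowData f R M L r) {z : V}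
    (hz : z ∈ ball (0 : V) R) : flo f (z, 0) = z := by
  have hp : ((z, 0) : V × ℂ) ∈ dom V R r := ⟨hz, by simpa using h.r_pos⟩
  have := flo_eq h hp
  simpa using this

lemma flo_mem [FiniteDimensional ℂ V] (h : FlowData f R M L r) {p : V × ℂ}
    (hp : p ∈ dom V R r) : flo f p ∈ ball (0 : V) (2 * R) := by
  rw [flo_eq h hp]
  have h1 : ‖p.1‖ < R := by simpa using hp.1
  have h2 : ‖p.2‖ < r := by simpa using hp.2
  have h3 : ‖∫ θ in (0 : ℝ)..1, f (flo f (p.1, (θ : ℂ) * p.2))‖ ≤ M * |1 - 0| := by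
    refine intervalIntegral.norm_integral_le_of_norm_le_const fun θ hθ => ?_
    exact h.bd _ (flo_mem_closed h (dom_mul hp (uIoc_subset_uIcc hθ)))
  have h4 : ‖p.2 • ∫ θ in (0 : ℝ)..1, f (flo f (p.1, (θ : ℂ) * p.2))‖ ≤ r * M := by
    rw [norm_smul]
    refine mul_le_mul h2.le (by simpa using h3) (norm_nonneg _) h.r_pos.le
  have h5 := norm_add_le p.1 (p.2 • ∫ θ in (0 : ℝ)..1, f (flo f (p.1, (θ : ℂ) * p.2)))
  have h6 := h.rM
  simp only [mem_ball, dist_zero_right]
  linarith

lemma flo_hasDerivAt [FiniteDimensional ℂ V] (h : FlowData f R M L r) {z : V}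
    (hz : z ∈ ball (0 : V) R) {τ : ℂ} (hτ : τ ∈ ball (0 : ℂ) r) :
    HasDerivAt (fun t => flo f (z, t)) (f (flo f (z, τ))) τ := by
  have : CompleteSpace V := FiniteDimensional.complete ℂ V
  have hd : DifferentiableOn ℂ (fun t : ℂ => f (flo f (z, t))) (ball 0 r) := by
    refine h.diff.comp_differentiableOn ?_
    exact (flo_diff h).comp (f := fun t : ℂ => ((z, t) : V × ℂ)) (by fun_prop)
      (fun t ht => ⟨hz, ht⟩)
  obtain ⟨P, hP⟩ := hd.isExactOn_ball
  have key : ∀ t ∈ ball (0 : ℂ) r, flo f (z, t) = z + (P t - P 0) := by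
    intro t ht
    have hp : ((z, t) : V × ℂ) ∈ dom V R r := ⟨hz, ht⟩
    rw [flo_eq h hp]
    congr 1
    have h1 : ∀ θ ∈ uIcc (0 : ℝ) 1,
        HasDerivAt (fun θ : ℝ => P ((θ : ℂ) * t)) (t • f (flo f (z, (θ : ℂ) * t))) θ := by
      intro θ hθ
      have hm := dom_mul hp hθ
      have h2 := hP ((θ : ℂ) * t) hm.2
      have h3 : HasDerivAt (fun θ : ℝ => (θ : ℂ) * t) t θ := by
        have := (Complex.ofRealCLM.hasDerivAt (x := θ)).mul_const t
        simpa using this
      have := h2.scomp θ h3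
      simpa [Function.comp_def] using this
    have h4 := intervalIntegral.integral_eq_sub_of_hasDerivAt h1
      (((flo_contOn h hp).const_smul t).intervalIntegrable)
    rw [intervalIntegral.integral_smul] at h4
    simpa using h4
  have h5 : HasDerivAt (fun t => z + (P t - P 0)) (f (flo f (z, τ))) τ :=
    ((hP τ hτ).sub_const _).const_add z
  refine h5.congr_of_eventuallyEq ?_
  filter_upwards [isOpen_ball.mem_nhds hτ] with t ht
  exact key t ht

/-- the constants exist for every entire vector field -/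
lemma exists_flowData [FiniteDimensional ℂ V] (hf : Differentiable ℂ f) (hR : 0 < R) :
    ∃ M L r, FlowData f R M L r := by
  have : CompleteSpace V := FiniteDimensional.complete ℂ V
  have : ProperSpace V := FiniteDimensional.proper ℂ V
  have hc : IsCompact (closedBall (0 : V) (2 * R)) := isCompact_closedBall _ _
  obtain ⟨M, hM⟩ := hc.exists_bound_of_continuousOn hf.continuous.continuousOn
  have hcd : ContDiff ℂ 1 f := by
    have : AnalyticOnNhd ℂ f univ :=
      Crest.Agent.R266.SCV.analyticOnNhd_of_differentiableOn isOpen_univ hf.differentiableOn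
    have h2 : ContDiffOn ℂ 1 f univ := (this.contDiffOn uniqueDiffOn_univ)
    exact contDiffOn_univ.1 h2
  obtain ⟨L, hL⟩ := hc.exists_bound_of_continuousOn
    (hcd.continuous_fderiv (by norm_num)).continuousOn
  have hM1 : 0 < max M 1 := lt_max_of_lt_right one_pos
  have hL1 : 0 < max L 1 := lt_max_of_lt_right one_pos
  refine ⟨max M 1, max L 1, min (R / max M 1) (1 / 2 / max L 1), ?_⟩
  refine ⟨hR, hM1, hL1.le, by positivity, ?_, ?_, hf, ?_, ?_⟩
  · calc min (R / max M 1) (1 / 2 / max L 1) * max M 1 ≤ R / max M 1 * max M 1 :=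
          mul_le_mul_of_nonneg_right (min_le_left _ _) hM1.le
      _ = R := by field_simp
  · calc min (R / max M 1) (1 / 2 / max L 1) * max L 1 ≤ 1 / 2 / max L 1 * max L 1 :=
          mul_le_mul_of_nonneg_right (min_le_right _ _) hL1.le
      _ = 1 / 2 := by field_simp
  · intro z hz
    exact (hM z hz).trans (le_max_left _ _)
  · intro z hz w hw
    let _ : NormedSpace ℝ V := NormedSpace.restrictScalars ℝ ℂ V
    refine (convex_closedBall (0 : V) (2 * R)).norm_image_sub_le_of_norm_fderiv_le (𝕜 := ℂ)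
      (fun x _ => hf x) (fun x hx => (hL x hx).trans (le_max_left _ _)) hw hz

end

end Crest.Agent.R279.Ell
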