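import Mathlib
import Crest.Agent.R279.Flow299

/-!
# R279, Part 9: the global flow on `y² = g(s₁,s₂)` in homogeneous coordinates
-/

set_option autoImplicit false

namespace Crest.Agent.R279.Ell

open Set Metric Filter Topology Complex

noncomputable section

/-- states `(g, s₁, s₂, p₁, p₂)` -/
abbrev W := (Fin 5 → ℂ) × ℂ × ℂ × ℂ × ℂ

/-- the binary quartic form -/
def qf (g : Fin 5 → ℂ) (s1 s2 : ℂ) : ℂ :=
  g 0 * s2 ^ 4 + g 1 * s1 * s2 ^ 3 + g 2 * s1 ^ 2 * s2 ^ 2 + g 3 * s1 ^ 3 * s2 + g 4 * s1 ^ 4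

lemma qf_eq_sum (g : Fin 5 → ℂ) (s1 s2 : ℂ) :
    qf g s1 s2 = ∑ i : Fin 5, g i * s1 ^ (i : ℕ) * s2 ^ (4 - (i : ℕ)) := by
  simp [Fin.sum_univ_succ, qf]
  ring

/-- the chart vector field in `(g, t, Y, B, Λ)` -/
def fld (w : W) : W :=
  (0, w.2.2.1, (w.1 1 + 2 * w.1 2 * w.2.1 + 3 * w.1 3 * w.2.1 ^ 2 + 4 * w.1 4 * w.2.1 ^ 3) / 2,
    -(w.1 4 * w.2.1 ^ 2 + w.1 3 / 2 * w.2.1), w.2.2.2.1)

lemma fld_diff : Differentiable ℂ fld := by
  unfold fld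
  fun_prop

/-- the residual of the bilinear system -/
def Res (q : W × W) : (Fin 5 → ℂ) × ℂ × ℂ × ℂ × ℂ × ℂ :=
  (q.2.1, q.2.2.1 - q.1.2.2.2.1, q.2.2.2.1 - q.1.2.2.2.2,
    q.1.2.1 * q.2.2.2.2.1 - (q.1.2.2.2.1 ^ 2 -
      (q.1.1 0 * q.1.2.2.1 ^ 2 + q.1.1 1 / 2 * q.1.2.1 * q.1.2.2.1)),
    q.1.2.2.1 * q.2.2.2.2.2 - (q.1.2.2.2.2 ^ 2 -
      (q.1.1 4 * q.1.2.1 ^ 2 + q.1.1 3 / 2 * q.1.2.1 * q.1.2.2.1)),
    q.2.2.2.2.1 * q.1.2.2.1 + q.1.2.1 * q.2.2.2.2.2 -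
      (2 * q.1.2.2.2.1 * q.1.2.2.2.2 + q.1.1 3 / 2 * q.1.2.1 ^ 2 + q.1.1 2 * q.1.2.1 * q.1.2.2.1
        + q.1.1 1 / 2 * q.1.2.2.1 ^ 2))

lemma Res_diff : Differentiable ℂ Res := by
  unfold Res
  fun_prop

/-- the constraint variety -/
def Mh : Set W :=
  {w | (w.2.1 ≠ 0 ∨ w.2.2.1 ≠ 0) ∧
    (w.2.2.2.1 * w.2.2.1 - w.2.1 * w.2.2.2.2) ^ 2 = qf w.1 w.2.1 w.2.2.1}

/-- solutions on a set of times -/
def IsSol (D : Set ℂ) (γ : ℂ → W) : Prop :=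
  ∀ τ ∈ D, DifferentiableAt ℂ γ τ ∧ γ τ ∈ Mh ∧ Res (γ τ, deriv γ τ) = 0

lemma IsSol.mono {D D' : Set ℂ} {γ : ℂ → W} (h : IsSol D γ) (hD : D' ⊆ D) : IsSol D' γ :=
  fun τ hτ => h τ (hD hτ)

lemma IsSol.congr {D : Set ℂ} (hD : IsOpen D) {γ γ' : ℂ → W} (h : IsSol D γ)
    (he : EqOn γ' γ D) : IsSol D γ' := by
  intro τ hτ
  have h1 : γ' =ᶠ[𝓝 τ] γ := he.eventuallyEq_of_mem (hD.mem_nhds hτ)
  obtain ⟨a, b, c⟩ := h τ hτ
  refine ⟨h1.differentiableAt_iff.2 a, ?_, ?_⟩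
  · rw [he hτ]; exact b
  · rw [he hτ, h1.deriv_eq]; exact c

lemma IsSol.shift {D : Set ℂ} {γ : ℂ → W} (h : IsSol D γ) (a : ℂ) :
    IsSol {τ | a + τ ∈ D} (fun τ => γ (a + τ)) := by
  intro τ hτ
  obtain ⟨h1, h2, h3⟩ := h _ hτ
  refine ⟨?_, h2, ?_⟩
  · exact h1.comp τ (by fun_prop : DifferentiableAt ℂ (fun τ => a + τ) τ)
  · rwa [deriv_comp_const_add]

/-! ### components -/

lemma hasDerivAt_comps {γ : ℂ → W} {v : W} {τ : ℂ} (h : HasDerivAt γ v τ) :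
    HasDerivAt (fun t => (γ t).1) v.1 τ ∧ HasDerivAt (fun t => (γ t).2.1) v.2.1 τ ∧
    HasDerivAt (fun t => (γ t).2.2.1) v.2.2.1 τ ∧ HasDerivAt (fun t => (γ t).2.2.2.1) v.2.2.2.1 τ ∧
    HasDerivAt (fun t => (γ t).2.2.2.2) v.2.2.2.2 τ := by
  have h1 : ∀ {A B : Type} [NormedAddCommGroup A] [NormedSpace ℂ A] [NormedAddCommGroup B]
      [NormedSpace ℂ B] {δ : ℂ → A × B} {u : A × B}, HasDerivAt δ u τ →
      HasDerivAt (fun t => (δ t).1) u.1 τ ∧ HasDerivAt (fun t => (δ t).2) u.2 τ := by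
    intro A B _ _ _ _ δ u hδ
    refine ⟨?_, ?_⟩
    · exact (ContinuousLinearMap.fst ℂ A B).hasFDerivAt.comp_hasDerivAt τ hδ
    · exact (ContinuousLinearMap.snd ℂ A B).hasFDerivAt.comp_hasDerivAt τ hδ
  have a := h1 h
  have b := h1 a.2
  have c := h1 b.2
  have d := h1 c.2
  exact ⟨a.1, b.1, c.1, d.1, d.2⟩

/-! ### chart `A` -/

/-- chart coordinates -/
def cA (w : W) : W :=
  (w.1, w.2.1 / w.2.2.1, (w.2.2.2.1 * w.2.2.1 - w.2.1 * w.2.2.2.2) / w.2.2.1 ^ 2, 0, 0)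

/-- local flow in the chart `s₂ ≠ 0` -/
def FA (w : W) (τ : ℂ) : W :=
  (w.1,
    (flo fld (cA w, τ)).2.1 *
      (w.2.2.1 * exp (w.2.2.2.2 / w.2.2.1 * τ + (flo fld (cA w, τ)).2.2.2.2)),
    w.2.2.1 * exp (w.2.2.2.2 / w.2.2.1 * τ + (flo fld (cA w, τ)).2.2.2.2),
    (flo fld (cA w, τ)).2.2.1 *
      (w.2.2.1 * exp (w.2.2.2.2 / w.2.2.1 * τ + (flo fld (cA w, τ)).2.2.2.2)) +
    (flo fld (cA w, τ)).2.1 * ((w.2.2.2.2 / w.2.2.1 + (flo fld (cA w, τ)).2.2.2.1) *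
      (w.2.2.1 * exp (w.2.2.2.2 / w.2.2.1 * τ + (flo fld (cA w, τ)).2.2.2.2))),
    (w.2.2.2.2 / w.2.2.1 + (flo fld (cA w, τ)).2.2.2.1) *
      (w.2.2.1 * exp (w.2.2.2.2 / w.2.2.1 * τ + (flo fld (cA w, τ)).2.2.2.2)))

variable {R M L r : ℝ}

lemma const_of_deriv_zero {A : Type*} [NormedAddCommGroup A] [NormedSpace ℂ A] {φ : ℂ → A}
    (h : ∀ τ ∈ ball (0 : ℂ) r, HasDerivAt φ 0 τ) {τ : ℂ} (hτ : τ ∈ ball (0 : ℂ) r) :
    φ τ = φ 0 := by
  have hr : 0 < r := by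
    have := mem_ball.1 hτ
    exact lt_of_le_of_lt dist_nonneg this
  refine isOpen_ball.is_const_of_fderiv_eq_zero (𝕜 := ℂ)
    (convex_ball (0 : ℂ) r).isPreconnected
    (fun x hx => (h x hx).differentiableAt.differentiableWithinAt) ?_ hτ (mem_ball_self hr)
  intro x hx
  have := (h x hx).hasFDerivAt.fderiv
  rw [this]
  ext
  simp

lemma chart_sol (g : Fin 5 → ℂ) {a : ℂ} (ha : a ≠ 0) (β : ℂ) {T H B Λ : ℂ → ℂ} {τ : ℂ}
    (hT : HasDerivAt T (H τ) τ)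
    (hH : HasDerivAt H ((g 1 + 2 * g 2 * T τ + 3 * g 3 * T τ ^ 2 + 4 * g 4 * T τ ^ 3) / 2) τ)
    (hB : HasDerivAt B (-(g 4 * T τ ^ 2 + g 3 / 2 * T τ)) τ)
    (hΛ : HasDerivAt Λ (B τ) τ)
    (hC : H τ ^ 2 = g 0 + g 1 * T τ + g 2 * T τ ^ 2 + g 3 * T τ ^ 3 + g 4 * T τ ^ 4)
    {γ : ℂ → W} (hγ : ∀ t, γ t = (g, T t * (a * exp (β * t + Λ t)), a * exp (β * t + Λ t),
      H t * (a * exp (β * t + Λ t)) + T t * ((β + B t) * (a * exp (β * t + Λ t))),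
      (β + B t) * (a * exp (β * t + Λ t)))) :
    DifferentiableAt ℂ γ τ ∧ γ τ ∈ Mh ∧ Res (γ τ, deriv γ τ) = 0 := by
  set S : ℂ → ℂ := fun t => a * exp (β * t + Λ t) with hS
  have hSne : S τ ≠ 0 := mul_ne_zero ha (exp_ne_zero _)
  have dS : HasDerivAt S ((β + B τ) * S τ) τ := by
    have e0 : HasDerivAt (fun t => β * t + Λ t) (β * 1 + B τ) τ :=
      ((hasDerivAt_id τ).const_mul β).add hΛ
    rw [mul_one] at e0
    have e1 := (e0.cexp).const_mul a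
    refine e1.congr_deriv ?_
    simp only [hS]
    ring
  have dP : HasDerivAt (fun t => (β + B t) * S t)
      (-(g 4 * T τ ^ 2 + g 3 / 2 * T τ) * S τ + (β + B τ) * ((β + B τ) * S τ)) τ :=
    (hB.const_add β).mul dS
  have dS1 : HasDerivAt (fun t => T t * S t) (H τ * S τ + T τ * ((β + B τ) * S τ)) τ :=
    hT.mul dS
  have dP1 : HasDerivAt (fun t => H t * S t + T t * ((β + B t) * S t))
      (((g 1 + 2 * g 2 * T τ + 3 * g 3 * T τ ^ 2 + 4 * g 4 * T τ ^ 3) / 2 * S τ +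
        H τ * ((β + B τ) * S τ)) + (H τ * ((β + B τ) * S τ) +
        T τ * (-(g 4 * T τ ^ 2 + g 3 / 2 * T τ) * S τ + (β + B τ) * ((β + B τ) * S τ)))) τ :=
    (hH.mul dS).add (hT.mul dP)
  have hγ' : γ = fun t => (g, T t * S t, S t, H t * S t + T t * ((β + B t) * S t),
      (β + B t) * S t) := funext hγ
  have dγ : HasDerivAt γ (0, H τ * S τ + T τ * ((β + B τ) * S τ), (β + B τ) * S τ,
      (((g 1 + 2 * g 2 * T τ + 3 * g 3 * T τ ^ 2 + 4 * g 4 * T τ ^ 3) / 2 * S τ +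
        H τ * ((β + B τ) * S τ)) + (H τ * ((β + B τ) * S τ) +
        T τ * (-(g 4 * T τ ^ 2 + g 3 / 2 * T τ) * S τ + (β + B τ) * ((β + B τ) * S τ)))),
      -(g 4 * T τ ^ 2 + g 3 / 2 * T τ) * S τ + (β + B τ) * ((β + B τ) * S τ)) τ := by
    rw [hγ']
    exact (hasDerivAt_const τ g).prodMk (dS1.prodMk (dS.prodMk (dP1.prodMk dP)))
  refine ⟨dγ.differentiableAt, ?_, ?_⟩
  · rw [hγ']
    refine ⟨Or.inr hSne, ?_⟩
    simp only [qf]
    linear_combination (S τ ^ 4) * hC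
  · rw [dγ.deriv, hγ']
    simp only [Res]
    refine Prod.ext rfl (Prod.ext ?_ (Prod.ext ?_ (Prod.ext ?_ (Prod.ext ?_ ?_))))
    · simp
    · simp
    · simp only [Prod.snd_zero, Prod.fst_zero]
      linear_combination (-S τ ^ 2) * hC
    · simp only [Prod.snd_zero, Prod.fst_zero]
      ring
    · simp only [Prod.snd_zero]
      ring

lemma FA_sol (h : FlowData fld R M L r) {w : W} (hw : w ∈ Mh) (h2 : w.2.2.1 ≠ 0)
    (hR : cA w ∈ ball (0 : W) R) : IsSol (ball 0 r) (FA w) ∧ FA w 0 = w := by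
  have hz : ∀ τ ∈ ball (0 : ℂ) r, HasDerivAt (fun t => flo fld (cA w, t))
      (fld (flo fld (cA w, τ))) τ := fun τ hτ => flo_hasDerivAt h hR hτ
  have hz0 : flo fld (cA w, 0) = cA w := flo_zero h hR
  have hg : ∀ τ ∈ ball (0 : ℂ) r, (flo fld (cA w, τ)).1 = w.1 := by
    intro τ hτ
    have := const_of_deriv_zero (r := r) (φ := fun t => (flo fld (cA w, t)).1)
      (fun t ht => by simpa [fld] using (hasDerivAt_comps (hz t ht)).1) hτ
    simp only [hz0] at this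
    rw [this, cA]
  have hQ : ∀ τ ∈ ball (0 : ℂ) r, (flo fld (cA w, τ)).2.2.1 ^ 2 =
      w.1 0 + w.1 1 * (flo fld (cA w, τ)).2.1 + w.1 2 * (flo fld (cA w, τ)).2.1 ^ 2 +
      w.1 3 * (flo fld (cA w, τ)).2.1 ^ 3 + w.1 4 * (flo fld (cA w, τ)).2.1 ^ 4 := by
    intro τ hτ
    have := const_of_deriv_zero (r := r) (φ := fun τ => (flo fld (cA w, τ)).2.2.1 ^ 2 -
      (w.1 0 + w.1 1 * (flo fld (cA w, τ)).2.1 + w.1 2 * (flo fld (cA w, τ)).2.1 ^ 2 +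
      w.1 3 * (flo fld (cA w, τ)).2.1 ^ 3 + w.1 4 * (flo fld (cA w, τ)).2.1 ^ 4))
      (fun t ht => by
        obtain ⟨-, c1, c2, -, -⟩ := hasDerivAt_comps (hz t ht)
        have e1 := (c2.pow 2).sub ((((((hasDerivAt_const t (w.1 0)).add (c1.const_mul (w.1 1))).add
          ((c1.pow 2).const_mul (w.1 2)))).add ((c1.pow 3).const_mul (w.1 3))).add
          ((c1.pow 4).const_mul (w.1 4)))
        refine e1.congr_deriv ?_
        simp only [fld, hg t ht]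
        ring) hτ
    simp only [hz0] at this
    have hw' := hw.2
    rw [qf] at hw'
    have h3 : (cA w).2.2.1 ^ 2 - (w.1 0 + w.1 1 * (cA w).2.1 + w.1 2 * (cA w).2.1 ^ 2 +
      w.1 3 * (cA w).2.1 ^ 3 + w.1 4 * (cA w).2.1 ^ 4) = 0 := by
      simp only [cA]
      field_simp
      linear_combination hw'
    linear_combination this + h3
  refine ⟨?_, ?_⟩
  · intro τ hτ
    obtain ⟨-, c1, c2, c3, c4⟩ := hasDerivAt_comps (hz τ hτ)
    simp only [fld, hg τ hτ] at c1 c2 c3 c4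
    refine chart_sol w.1 h2 (w.2.2.2.2 / w.2.2.1) (T := fun t => (flo fld (cA w, t)).2.1)
      (H := fun t => (flo fld (cA w, t)).2.2.1) (B := fun t => (flo fld (cA w, t)).2.2.2.1)
      (Λ := fun t => (flo fld (cA w, t)).2.2.2.2) (γ := FA w) (τ := τ) c1 c2 c3 c4 (hQ τ hτ) ?_
    intro t
    rw [FA]
  · rw [FA]
    simp only [hz0]
    simp only [cA]
    refine Prod.ext rfl (Prod.ext ?_ (Prod.ext ?_ (Prod.ext ?_ ?_)))
    · simp [h2]
    · simp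
    · simp only [mul_zero, add_zero, exp_zero, mul_one]
      field_simp
      ring
    · simp [h2]

/-! ### the swap symmetry -/

/-- swap of the two charts -/
def sw (w : W) : W := (fun i => w.1 (Fin.rev i), w.2.2.1, w.2.1, w.2.2.2.2, w.2.2.2.1)

lemma sw_sw (w : W) : sw (sw w) = w := by
  simp [sw]

lemma sw_diff : Differentiable ℂ sw := by
  unfold sw
  fun_prop

lemma qf_rev (g : Fin 5 → ℂ) (s1 s2 : ℂ) : qf (fun i => g (Fin.rev i)) s2 s1 = qf g s1 s2 := by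
  have e0 : Fin.rev (0 : Fin 5) = 4 := rfl
  have e1 : Fin.rev (1 : Fin 5) = 3 := rfl
  have e2 : Fin.rev (2 : Fin 5) = 2 := rfl
  have e3 : Fin.rev (3 : Fin 5) = 1 := rfl
  have e4 : Fin.rev (4 : Fin 5) = 0 := rfl
  simp only [qf, e0, e1, e2, e3, e4]
  ring

lemma sw_mem {w : W} (hw : w ∈ Mh) : sw w ∈ Mh := by
  refine ⟨hw.1.symm, ?_⟩
  have h := hw.2
  simp only [sw]
  rw [qf_rev]
  linear_combination h

lemma Res_sw {w v : W} (h : Res (w, v) = 0) : Res (sw w, sw v) = 0 := by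
  simp only [Res, Prod.mk_eq_zero] at h
  obtain ⟨h0, h1, h2, h3, h4, h5⟩ := h
  have e0 : Fin.rev (0 : Fin 5) = 4 := rfl
  have e1 : Fin.rev (1 : Fin 5) = 3 := rfl
  have e2 : Fin.rev (2 : Fin 5) = 2 := rfl
  have e3 : Fin.rev (3 : Fin 5) = 1 := rfl
  have e4 : Fin.rev (4 : Fin 5) = 0 := rfl
  simp only [Res, sw, Prod.mk_eq_zero, e0, e1, e2, e3, e4]
  refine ⟨?_, h2, h1, by linear_combination h4, ?_, ?_⟩
  · rw [h0]; rfl
  · linear_combination h3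
  · linear_combination h5

lemma hasDerivAt_sw {γ : ℂ → W} {v : W} {τ : ℂ} (h : HasDerivAt γ v τ) :
    HasDerivAt (fun t => sw (γ t)) (sw v) τ := by
  obtain ⟨c0, c1, c2, c3, c4⟩ := hasDerivAt_comps h
  have c0' : HasDerivAt (fun t => fun i => (γ t).1 (Fin.rev i)) (fun i => v.1 (Fin.rev i)) τ := by
    rw [hasDerivAt_pi] at c0 ⊢
    exact fun i => c0 _
  exact c0'.prodMk (c2.prodMk (c1.prodMk (c4.prodMk c3)))

lemma IsSol.sw {D : Set ℂ} {γ : ℂ → W} (h : IsSol D γ) : IsSol D (fun t => sw (γ t)) := by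
  intro τ hτ
  obtain ⟨h1, h2, h3⟩ := h τ hτ
  have h4 := hasDerivAt_sw h1.hasDerivAt
  refine ⟨h4.differentiableAt, sw_mem h2, ?_⟩
  rw [h4.deriv]
  exact Res_sw h3

/-! ### uniqueness -/

/-- the explicit vector field where `s₂ ≠ 0` -/
def VA (w : W) : W :=
  (0, w.2.2.2.1, w.2.2.2.2,
    (2 * w.2.2.2.1 * w.2.2.2.2 + w.1 3 / 2 * w.2.1 ^ 2 + w.1 2 * w.2.1 * w.2.2.1
        + w.1 1 / 2 * w.2.2.1 ^ 2 - w.2.1 * ((w.2.2.2.2 ^ 2 -
      (w.1 4 * w.2.1 ^ 2 + w.1 3 / 2 * w.2.1 * w.2.2.1)) / w.2.2.1)) / w.2.2.1,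
    (w.2.2.2.2 ^ 2 - (w.1 4 * w.2.1 ^ 2 + w.1 3 / 2 * w.2.1 * w.2.2.1)) / w.2.2.1)

lemma eq_VA {w v : W} (h : Res (w, v) = 0) (h2 : w.2.2.1 ≠ 0) : v = VA w := by
  simp only [Res, Prod.mk_eq_zero] at h
  obtain ⟨k0, k1, k2, k3, k4, k5⟩ := h
  have h5 : v.2.2.2.2 = (w.2.2.2.2 ^ 2 -
      (w.1 4 * w.2.1 ^ 2 + w.1 3 / 2 * w.2.1 * w.2.2.1)) / w.2.2.1 := by
    rw [eq_div_iff h2]
    linear_combination k4
  refine Prod.ext k0 (Prod.ext ?_ (Prod.ext ?_ (Prod.ext ?_ ?_)))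
  · simp only [VA]; linear_combination k1
  · simp only [VA]; linear_combination k2
  · simp only [VA]
    rw [eq_div_iff h2, ← h5]
    linear_combination k5
  · simp only [VA]; exact h5

lemma VA_diffAt {w : W} (h2 : w.2.2.1 ≠ 0) : DifferentiableAt ℂ VA w := by
  unfold VA
  fun_prop (disch := exact h2)

lemma VA_lip {w : W} (h2 : w.2.2.1 ≠ 0) : ∃ K, ∃ t ∈ 𝓝 w, LipschitzOnWith K VA t := by
  have hev : ∀ᶠ y in 𝓝 w, y.2.2.1 ≠ 0 :=
    (by fun_prop : Continuous fun y : W => y.2.2.1).continuousAt.eventually_ne h2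
  have h1 : AnalyticAt ℂ VA w :=
    Crest.Agent.R266.SCV.analyticAt_of_eventually_differentiableAt
      (hev.mono fun y hy => VA_diffAt hy)
  exact (h1.contDiffAt (n := 1)).exists_lipschitzOnWith

lemma local_uniq {V : Type*} [NormedAddCommGroup V] [NormedSpace ℂ V] {X : V → V} {z0 : V}
    (hX : ∃ K, ∃ t ∈ 𝓝 z0, LipschitzOnWith K X t) {γ1 γ2 : ℂ → V}
    (h1 : ∀ᶠ τ in 𝓝 (0 : ℂ), HasDerivAt γ1 (X (γ1 τ)) τ)
    (h2 : ∀ᶠ τ in 𝓝 (0 : ℂ), HasDerivAt γ2 (X (γ2 τ)) τ)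
    (e1 : γ1 0 = z0) (e2 : γ2 0 = z0) : γ1 =ᶠ[𝓝 0] γ2 := by
  obtain ⟨K, t, ht, hK⟩ := hX
  have c1 : ContinuousAt γ1 0 := h1.self_of_nhds.continuousAt
  have c2 : ContinuousAt γ2 0 := h2.self_of_nhds.continuousAt
  have m1 : ∀ᶠ τ in 𝓝 (0 : ℂ), γ1 τ ∈ t := c1 (by rw [e1]; exact ht)
  have m2 : ∀ᶠ τ in 𝓝 (0 : ℂ), γ2 τ ∈ t := c2 (by rw [e2]; exact ht)
  obtain ⟨δ, hδ, hall⟩ := Metric.eventually_nhds_iff_ball.1 (h1.and (h2.and (m1.and m2)))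
  set ε : ℝ := min (δ / 2) (1 / (2 * ((K : ℝ) + 1))) with hε
  have hε0 : 0 < ε := by positivity
  have hεδ : ε < δ := lt_of_le_of_lt (min_le_left _ _) (by linarith)
  have hεK : (K : ℝ) * ε ≤ 1 / 2 := by
    have hK0 : (0 : ℝ) ≤ K := K.2
    calc (K : ℝ) * ε ≤ ((K : ℝ) + 1) * (1 / (2 * ((K : ℝ) + 1))) :=
          mul_le_mul (by linarith) (min_le_right _ _) hε0.le (by linarith)
      _ = 1 / 2 := by field_simp
  have hsub : closedBall (0 : ℂ) ε ⊆ ball 0 δ := closedBall_subset_ball hεδ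
  have hcont : ContinuousOn (fun τ => ‖γ1 τ - γ2 τ‖) (closedBall (0 : ℂ) ε) := by
    intro τ hτ
    have := hall τ (hsub hτ)
    exact (this.1.continuousAt.sub this.2.1.continuousAt).norm.continuousWithinAt
  obtain ⟨m, hm, hmax⟩ := (isCompact_closedBall (0 : ℂ) ε).exists_isMaxOn
    ⟨0, mem_closedBall_self hε0.le⟩ hcont
  have hS : ∀ τ ∈ closedBall (0 : ℂ) ε, ‖γ1 τ - γ2 τ‖ ≤ ‖γ1 m - γ2 m‖ := fun τ hτ => hmax hτ
  have hmv := (convex_closedBall (0 : ℂ) ε).norm_image_sub_le_of_norm_hasDerivWithin_le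
    (f := fun τ => γ1 τ - γ2 τ) (f' := fun τ => X (γ1 τ) - X (γ2 τ))
    (C := (K : ℝ) * ‖γ1 m - γ2 m‖) (x := 0) (y := m)
    (fun τ hτ => ((hall τ (hsub hτ)).1.sub (hall τ (hsub hτ)).2.1).hasDerivWithinAt)
    (fun τ hτ => by
      have := hall τ (hsub hτ)
      have h3 := hK.norm_sub_le this.2.2.1 this.2.2.2
      exact h3.trans (mul_le_mul_of_nonneg_left (hS τ hτ) K.2))
    (mem_closedBall_self hε0.le) hm
  rw [e1, e2, sub_self, sub_zero, sub_zero] at hmv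
  have hmn : ‖m‖ ≤ ε := by simpa using hm
  have hm0 : ‖γ1 m - γ2 m‖ = 0 := by
    have h4 : (K : ℝ) * ‖γ1 m - γ2 m‖ * ‖m‖ ≤ (K : ℝ) * ‖γ1 m - γ2 m‖ * ε :=
      mul_le_mul_of_nonneg_left hmn (mul_nonneg K.2 (norm_nonneg _))
    have h5 : (K : ℝ) * ‖γ1 m - γ2 m‖ * ε = ((K : ℝ) * ε) * ‖γ1 m - γ2 m‖ := by ring
    have h6 : ((K : ℝ) * ε) * ‖γ1 m - γ2 m‖ ≤ 1 / 2 * ‖γ1 m - γ2 m‖ :=
      mul_le_mul_of_nonneg_right hεK (norm_nonneg _)
    have h7 := norm_nonneg (γ1 m - γ2 m)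
    linarith
  filter_upwards [ball_mem_nhds (0 : ℂ) hε0] with τ hτ
  have := hS τ (ball_subset_closedBall hτ)
  rw [hm0] at this
  exact sub_eq_zero.1 (norm_eq_zero.1 (le_antisymm this (norm_nonneg _)))

lemma IsSol.diffOn {D : Set ℂ} {γ : ℂ → W} (h : IsSol D γ) : DifferentiableOn ℂ γ D :=
  fun τ hτ => (h τ hτ).1.differentiableWithinAt

lemma IsSol.uniq_near {D : Set ℂ} (hD : IsOpen D) (h0 : (0 : ℂ) ∈ D) {γ1 γ2 : ℂ → W}
    (h1 : IsSol D γ1) (h2 : IsSol D γ2) (he : γ1 0 = γ2 0) (hne : (γ1 0).2.2.1 ≠ 0) :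
    γ1 =ᶠ[𝓝 0] γ2 := by
  have key : ∀ γ : ℂ → W, IsSol D γ → (γ 0).2.2.1 ≠ 0 →
      ∀ᶠ τ in 𝓝 (0 : ℂ), HasDerivAt γ (VA (γ τ)) τ := by
    intro γ hγ hn
    have hc : ContinuousAt (fun τ => (γ τ).2.2.1) 0 :=
      (by fun_prop : Continuous fun y : W => y.2.2.1).continuousAt.comp (hγ 0 h0).1.continuousAt
    filter_upwards [hD.mem_nhds h0, hc.eventually_ne hn] with τ hτ hτn
    obtain ⟨a, b, c⟩ := hγ τ hτ
    have := a.hasDerivAt
    rwa [eq_VA c hτn] at this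
  exact local_uniq (VA_lip hne) (key γ1 h1 hne) (key γ2 h2 (by rw [← he]; exact hne)) rfl he.symm

lemma IsSol.uniq {D : Set ℂ} (hD : IsOpen D) (hc : IsPreconnected D) (h0 : (0 : ℂ) ∈ D)
    {γ1 γ2 : ℂ → W} (h1 : IsSol D γ1) (h2 : IsSol D γ2) (he : γ1 0 = γ2 0) :
    EqOn γ1 γ2 D := by
  have hnear : γ1 =ᶠ[𝓝 0] γ2 := by
    rcases (h1 0 h0).2.1.1 with hs | hs
    · have := IsSol.uniq_near hD h0 h1.sw h2.sw (by simp only [he]) hs
      filter_upwards [this] with τ hτ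
      have := congrArg Ell.sw hτ
      simpa only [sw_sw] using this
    · exact IsSol.uniq_near hD h0 h1 h2 he hs
  exact (h1.diffOn.analyticOnNhd hD).eqOn_of_preconnected_of_eventuallyEq
    (h2.diffOn.analyticOnNhd hD) hc h0 hnear

/-- the equations propagate by the identity theorem -/
lemma IsSol.extend {D D' : Set ℂ} (hD : IsOpen D) (hD' : IsOpen D') (hc : IsPreconnected D')
    (h0 : (0 : ℂ) ∈ D) (hsub : D ⊆ D') {γ : ℂ → W} (h : IsSol D γ)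
    (hd : DifferentiableOn ℂ γ D') (hm : ∀ τ ∈ D', γ τ ∈ Mh) : IsSol D' γ := by
  have ha : AnalyticOnNhd ℂ γ D' := hd.analyticOnNhd hD'
  have hR : DifferentiableOn ℂ (fun τ => Res (γ τ, deriv γ τ)) D' := by
    refine Res_diff.comp_differentiableOn ?_
    exact hd.prodMk ha.deriv.differentiableOn
  have hz : (fun τ => Res (γ τ, deriv γ τ)) =ᶠ[𝓝 0] 0 := by
    filter_upwards [hD.mem_nhds h0] with τ hτ
    exact (h τ hτ).2.2
  have := (hR.analyticOnNhd hD').eqOn_zero_of_preconnected_of_eventuallyEq_zero hc (hsub h0) hz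
  intro τ hτ
  exact ⟨hd.differentiableAt (hD'.mem_nhds hτ), hm τ hτ, this hτ⟩

/-! ### the uniform local flow on the constraint variety -/

lemma cA_mem {A : ℝ} {w : W} (hw : w ∈ Mh) (hA : ‖w.1‖ ≤ A) (h : ‖w.2.1‖ < 2 * ‖w.2.2.1‖) :
    cA w ∈ ball (0 : W) (31 * A + 3) := by
  have h2 : w.2.2.1 ≠ 0 := by
    intro h0
    rw [h0, norm_zero, mul_zero] at h
    exact absurd h (not_lt.2 (norm_nonneg _))
  have hn : 0 < ‖w.2.2.1‖ := norm_pos_iff.2 h2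
  have hA0 : 0 ≤ A := (norm_nonneg _).trans hA
  have ht : ‖w.2.1 / w.2.2.1‖ < 2 := by
    rw [norm_div, div_lt_iff₀ hn]
    exact h
  have hgi : ∀ i, ‖w.1 i‖ ≤ A := fun i => (norm_le_pi_norm _ i).trans hA
  set t := w.2.1 / w.2.2.1 with htd
  set Y := (w.2.2.2.1 * w.2.2.1 - w.2.1 * w.2.2.2.2) / w.2.2.1 ^ 2 with hY
  have hY2 : Y ^ 2 = w.1 0 + w.1 1 * t + w.1 2 * t ^ 2 + w.1 3 * t ^ 3 + w.1 4 * t ^ 4 := by
    have hw' := hw.2
    rw [qf] at hw'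
    rw [hY, htd]
    field_simp
    linear_combination hw'
  have hY3 : ‖Y‖ ^ 2 ≤ 31 * A := by
    rw [← norm_pow, hY2]
    have b0 : ‖w.1 0‖ ≤ A * 1 := by simpa using hgi 0
    have b : ∀ (i : Fin 5) (k : ℕ), ‖w.1 i * t ^ k‖ ≤ A * 2 ^ k := by
      intro i k
      rw [norm_mul, norm_pow]
      exact mul_le_mul (hgi i) (pow_le_pow_left₀ (norm_nonneg _) ht.le k) (by positivity) hA0
    have b1 : ‖w.1 1 * t‖ ≤ A * 2 ^ 1 := by simpa using b 1 1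
    have b2 := b 2 2
    have b3 := b 3 3
    have b4 := b 4 4
    have n1 := norm_add_le (w.1 0) (w.1 1 * t)
    have n2 := norm_add_le (w.1 0 + w.1 1 * t) (w.1 2 * t ^ 2)
    have n3 := norm_add_le (w.1 0 + w.1 1 * t + w.1 2 * t ^ 2) (w.1 3 * t ^ 3)
    have n4 := norm_add_le (w.1 0 + w.1 1 * t + w.1 2 * t ^ 2 + w.1 3 * t ^ 3) (w.1 4 * t ^ 4)
    linarith
  have hY4 : ‖Y‖ ≤ 31 * A + 1 := by nlinarith [norm_nonneg Y]
  rw [mem_ball_zero_iff]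
  simp only [cA, Prod.norm_def, norm_zero, max_lt_iff]
  refine ⟨by linarith, by linarith, by linarith, by linarith, by linarith⟩

/-- local flow -/
def FF (w : W) (τ : ℂ) : W := if ‖w.2.1‖ ≤ ‖w.2.2.1‖ then FA w τ else sw (FA (sw w) τ)

lemma sw_norm (w : W) : ‖(sw w).1‖ ≤ ‖w.1‖ := by
  rw [pi_norm_le_iff_of_nonneg (norm_nonneg _)]
  intro i
  exact norm_le_pi_norm w.1 (Fin.rev i)

variable {A : ℝ}

lemma solA (h : FlowData fld (31 * A + 3) M L r) {w : W} (hw : w ∈ Mh) (hA : ‖w.1‖ ≤ A)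
    (h1 : ‖w.2.1‖ < 2 * ‖w.2.2.1‖) : IsSol (ball 0 r) (FA w) ∧ FA w 0 = w := by
  refine FA_sol h hw ?_ (cA_mem hw hA h1)
  intro h0
  rw [h0, norm_zero, mul_zero] at h1
  exact absurd h1 (not_lt.2 (norm_nonneg _))

lemma solB (h : FlowData fld (31 * A + 3) M L r) {w : W} (hw : w ∈ Mh) (hA : ‖w.1‖ ≤ A)
    (h1 : ‖w.2.2.1‖ < 2 * ‖w.2.1‖) :
    IsSol (ball 0 r) (fun τ => sw (FA (sw w) τ)) ∧ sw (FA (sw w) 0) = w := by
  obtain ⟨a, b⟩ := solA h (sw_mem hw) ((sw_norm w).trans hA) h1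
  exact ⟨a.sw, by rw [b, sw_sw]⟩

lemma FF_sol (h : FlowData fld (31 * A + 3) M L r) {w : W} (hw : w ∈ Mh) (hA : ‖w.1‖ ≤ A) :
    IsSol (ball 0 r) (FF w) ∧ FF w 0 = w := by
  by_cases hc : ‖w.2.1‖ ≤ ‖w.2.2.1‖
  · have e : FF w = FA w := by
      funext τ
      simp [FF, hc]
    rw [e]
    refine solA h hw hA ?_
    rcases hw.1 with h1 | h1
    · have := norm_pos_iff.2 h1
      linarith
    · have := norm_pos_iff.2 h1
      linarith
  · have e : FF w = fun τ => sw (FA (sw w) τ) := by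
      funext τ
      simp [FF, hc]
    rw [e]
    refine solB h hw hA ?_
    have := norm_nonneg w.2.2.1
    linarith [not_le.1 hc]

lemma FF_eqA (h : FlowData fld (31 * A + 3) M L r) {w : W} (hw : w ∈ Mh) (hA : ‖w.1‖ ≤ A)
    (h1 : ‖w.2.1‖ < 2 * ‖w.2.2.1‖) : EqOn (FF w) (FA w) (ball 0 r) := by
  obtain ⟨a, b⟩ := FF_sol h hw hA
  obtain ⟨c, d⟩ := solA h hw hA h1
  exact a.uniq isOpen_ball (convex_ball _ _).isPreconnected (mem_ball_self h.r_pos) c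
    (by rw [b, d])

lemma FF_eqB (h : FlowData fld (31 * A + 3) M L r) {w : W} (hw : w ∈ Mh) (hA : ‖w.1‖ ≤ A)
    (h1 : ‖w.2.2.1‖ < 2 * ‖w.2.1‖) :
    EqOn (FF w) (fun τ => sw (FA (sw w) τ)) (ball 0 r) := by
  obtain ⟨a, b⟩ := FF_sol h hw hA
  obtain ⟨c, d⟩ := solB h hw hA h1
  exact a.uniq isOpen_ball (convex_ball _ _).isPreconnected (mem_ball_self h.r_pos) c
    (by rw [b]; exact d.symm)

lemma cA_diffAt {w : W} (h2 : w.2.2.1 ≠ 0) : DifferentiableAt ℂ cA w := by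
  unfold cA
  fun_prop (disch := first | exact h2 | exact pow_ne_zero 2 h2)

lemma FA_diffAt (h : FlowData fld R M L r) {w : W} (h2 : w.2.2.1 ≠ 0)
    (hR : cA w ∈ ball (0 : W) R) {τ : ℂ} (hτ : τ ∈ ball (0 : ℂ) r) :
    DifferentiableAt ℂ (fun q : W × ℂ => FA q.1 q.2) (w, τ) := by
  have h1 : DifferentiableAt ℂ (flo fld) (cA w, τ) :=
    (flo_diff h).differentiableAt ((isOpen_dom R r).mem_nhds ⟨hR, hτ⟩)
  have h3 : DifferentiableAt ℂ (fun q : W × ℂ => (cA q.1, q.2)) (w, τ) := by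
    refine DifferentiableAt.prodMk ?_ differentiableAt_snd
    have hfst : DifferentiableAt ℂ (fun q : W × ℂ => q.1) (w, τ) := differentiableAt_fst
    exact DifferentiableAt.comp (g := cA) (f := fun q : W × ℂ => q.1) (w, τ) (cA_diffAt h2) hfst
  have h4 : DifferentiableAt ℂ (fun q : W × ℂ => flo fld (cA q.1, q.2)) (w, τ) :=
    DifferentiableAt.comp (w, τ) (f := fun q : W × ℂ => (cA q.1, q.2)) h1 h3
  have hne : (fun q : W × ℂ => q.1.2.2.1) (w, τ) ≠ 0 := h2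
  unfold FA
  fun_prop (disch := exact hne)

/-- families -/
lemma FF_family {E : Type*} [NormedAddCommGroup E] [NormedSpace ℂ E]
    (h : FlowData fld (31 * A + 3) M L r) {Ω : Set E} (hΩ : IsOpen Ω) {m : E → W}
    (hm : DifferentiableOn ℂ m Ω) (hM : ∀ x ∈ Ω, m x ∈ Mh) (hA : ∀ x ∈ Ω, ‖(m x).1‖ ≤ A) :
    DifferentiableOn ℂ (fun q : E × ℂ => FF (m q.1) q.2) (Ω ×ˢ ball 0 r) := by
  rintro ⟨x, τ⟩ ⟨hx, hτ⟩
  refine DifferentiableAt.differentiableWithinAt ?_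
  have hopen : IsOpen (Ω ×ˢ ball (0 : ℂ) r) := hΩ.prod isOpen_ball
  have hmx : DifferentiableAt ℂ m x := hm.differentiableAt (hΩ.mem_nhds hx)
  have hm' : DifferentiableAt ℂ (fun q : E × ℂ => (m q.1, q.2)) (x, τ) := by
    refine DifferentiableAt.prodMk ?_ differentiableAt_snd
    exact hmx.comp (x, τ) differentiableAt_fst
  have hsw' : DifferentiableAt ℂ (fun q : E × ℂ => (sw (m q.1), q.2)) (x, τ) := by
    refine DifferentiableAt.prodMk ?_ differentiableAt_snd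
    exact (sw_diff _).comp (x, τ) (hmx.comp (x, τ) differentiableAt_fst)
  have hcm : ContinuousAt (fun q : E × ℂ => m q.1) (x, τ) :=
    (hmx.comp (x, τ) differentiableAt_fst).continuousAt
  by_cases hc : ‖(m x).2.1‖ < 2 * ‖(m x).2.2.1‖
  · have h2 : (m x).2.2.1 ≠ 0 := by
      intro h0
      rw [h0, norm_zero, mul_zero] at hc
      exact absurd hc (not_lt.2 (norm_nonneg _))
    have hd : DifferentiableAt ℂ (fun q : E × ℂ => FA (m q.1) q.2) (x, τ) :=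
      DifferentiableAt.comp (x, τ) (f := fun q : E × ℂ => (m q.1, q.2))
        (FA_diffAt h h2 (cA_mem (hM x hx) (hA x hx) hc) hτ) hm'
    have hlt : ∀ᶠ q : E × ℂ in 𝓝 (x, τ), ‖(m q.1).2.1‖ < 2 * ‖(m q.1).2.2.1‖ := by
      have c1 : ContinuousAt (fun q : E × ℂ => ‖(m q.1).2.1‖) (x, τ) :=
        ((by fun_prop : Continuous fun y : W => ‖y.2.1‖).continuousAt).comp hcm
      have c2 : ContinuousAt (fun q : E × ℂ => 2 * ‖(m q.1).2.2.1‖) (x, τ) :=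
        ((by fun_prop : Continuous fun y : W => 2 * ‖y.2.2.1‖).continuousAt).comp hcm
      exact c1.eventually_lt c2 hc
    refine hd.congr_of_eventuallyEq ?_
    filter_upwards [hlt, hopen.mem_nhds (⟨hx, hτ⟩ : (x, τ) ∈ Ω ×ˢ ball (0 : ℂ) r)] with q hq hq2
    exact FF_eqA h (hM _ hq2.1) (hA _ hq2.1) hq hq2.2
  · have hs1 : ‖(m x).2.2.1‖ < 2 * ‖(m x).2.1‖ := by
      have h3 := not_lt.1 hc
      rcases (hM x hx).1 with h1 | h1
      · have := norm_pos_iff.2 h1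
        linarith
      · have := norm_pos_iff.2 h1
        linarith
    have h2 : (sw (m x)).2.2.1 ≠ 0 := by
      intro h0
      have h0' : (m x).2.1 = 0 := h0
      rw [h0', norm_zero, mul_zero] at hs1
      exact absurd hs1 (not_lt.2 (norm_nonneg _))
    have hd : DifferentiableAt ℂ (fun q : E × ℂ => sw (FA (sw (m q.1)) q.2)) (x, τ) :=
      (sw_diff _).comp (x, τ) (DifferentiableAt.comp (x, τ)
        (f := fun q : E × ℂ => (sw (m q.1), q.2))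
        (FA_diffAt h h2 (cA_mem (sw_mem (hM x hx)) ((sw_norm _).trans (hA x hx)) hs1) hτ) hsw')
    have hlt : ∀ᶠ q : E × ℂ in 𝓝 (x, τ), ‖(m q.1).2.2.1‖ < 2 * ‖(m q.1).2.1‖ := by
      have c1 : ContinuousAt (fun q : E × ℂ => ‖(m q.1).2.2.1‖) (x, τ) :=
        ((by fun_prop : Continuous fun y : W => ‖y.2.2.1‖).continuousAt).comp hcm
      have c2 : ContinuousAt (fun q : E × ℂ => 2 * ‖(m q.1).2.1‖) (x, τ) :=
        ((by fun_prop : Continuous fun y : W => 2 * ‖y.2.1‖).continuousAt).comp hcm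
      exact c1.eventually_lt c2 hs1
    refine hd.congr_of_eventuallyEq ?_
    filter_upwards [hlt, hopen.mem_nhds (⟨hx, hτ⟩ : (x, τ) ∈ Ω ×ˢ ball (0 : ℂ) r)] with q hq hq2
    exact FF_eqB h (hM _ hq2.1) (hA _ hq2.1) hq hq2.2

/-! ### continuation -/

/-- solutions of size `ρ` for the family `m` -/
def HasSol {E : Type*} [NormedAddCommGroup E] [NormedSpace ℂ E] (Ω : Set E) (m : E → W)
    (ρ : ℝ) : Prop :=
  ∃ F : E × ℂ → W, DifferentiableOn ℂ F (Ω ×ˢ ball 0 ρ) ∧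
    ∀ x ∈ Ω, F (x, 0) = m x ∧ IsSol (ball 0 ρ) (fun τ => F (x, τ))

lemma IsSol.g_const {ρ : ℝ} {γ : ℂ → W} (h : IsSol (ball 0 ρ) γ) {τ : ℂ}
    (hτ : τ ∈ ball (0 : ℂ) ρ) : (γ τ).1 = (γ 0).1 := by
  refine const_of_deriv_zero (r := ρ) (φ := fun t => (γ t).1) (fun t ht => ?_) hτ
  obtain ⟨a, b, c⟩ := h t ht
  have h1 := (hasDerivAt_comps a.hasDerivAt).1
  simp only [Res, Prod.mk_eq_zero] at c
  rwa [c.1] at h1

lemma HasSol.step {E : Type*} [NormedAddCommGroup E] [NormedSpace ℂ E]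
    (h : FlowData fld (31 * A + 3) M L r) {Ω : Set E} (hΩ : IsOpen Ω) {m : E → W}
    (hA : ∀ x ∈ Ω, ‖(m x).1‖ ≤ A) {ρ : ℝ} (hρ : 0 < ρ) (hs : HasSol Ω m ρ) :
    HasSol Ω m (ρ + r / 2) := by
  obtain ⟨F, hF, hFs⟩ := hs
  have hr := h.r_pos
  have hρ' : 0 < ρ + r / 2 := by positivity
  set c : ℝ := ρ / (ρ + r / 2) with hc
  have hc0 : 0 < c := by positivity
  have hc1 : c < 1 := by rw [hc, div_lt_one hρ']; linarith
  have hcρ : c * (ρ + r / 2) = ρ := by rw [hc]; field_simp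
  have hcm : ∀ τ ∈ ball (0 : ℂ) (ρ + r / 2), (c : ℂ) * τ ∈ ball (0 : ℂ) ρ := by
    intro τ hτ
    rw [mem_ball_zero_iff] at hτ ⊢
    rw [norm_mul, Complex.norm_real, Real.norm_of_nonneg hc0.le]
    calc c * ‖τ‖ < c * (ρ + r / 2) := mul_lt_mul_of_pos_left hτ hc0
      _ = ρ := hcρ
  have hcm2 : ∀ τ ∈ ball (0 : ℂ) (ρ + r / 2), ((1 - c : ℝ) : ℂ) * τ ∈ ball (0 : ℂ) r := by
    intro τ hτ
    rw [mem_ball_zero_iff] at hτ ⊢
    rw [norm_mul, Complex.norm_real, Real.norm_of_nonneg (by linarith)]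
    calc (1 - c) * ‖τ‖ ≤ (1 - c) * (ρ + r / 2) :=
          mul_le_mul_of_nonneg_left hτ.le (by linarith)
      _ = r / 2 := by linarith
      _ < r := by linarith
  set m' : E × ℂ → W := fun q => F (q.1, (c : ℂ) * q.2) with hm'
  have hm'd : DifferentiableOn ℂ m' (Ω ×ˢ ball 0 (ρ + r / 2)) := by
    refine hF.comp (f := fun q : E × ℂ => (q.1, (c : ℂ) * q.2)) (by fun_prop) ?_
    rintro ⟨x, τ⟩ ⟨hx, hτ⟩
    exact ⟨hx, hcm τ hτ⟩
  have hm'M : ∀ q ∈ Ω ×ˢ ball (0 : ℂ) (ρ + r / 2), m' q ∈ Mh := by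
    rintro ⟨x, τ⟩ ⟨hx, hτ⟩
    exact ((hFs x hx).2 _ (hcm τ hτ)).2.1
  have hm'A : ∀ q ∈ Ω ×ˢ ball (0 : ℂ) (ρ + r / 2), ‖(m' q).1‖ ≤ A := by
    rintro ⟨x, τ⟩ ⟨hx, hτ⟩
    have := (hFs x hx).2.g_const (hcm τ hτ)
    simp only [(hFs x hx).1] at this
    simp only [hm', this]
    exact hA x hx
  have hfam := FF_family h (hΩ.prod isOpen_ball) hm'd hm'M hm'A
  refine ⟨fun q => FF (m' q) (((1 - c : ℝ) : ℂ) * q.2), ?_, ?_⟩
  · refine hfam.comp (f := fun q : E × ℂ => (q, ((1 - c : ℝ) : ℂ) * q.2)) (by fun_prop) ?_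
    rintro ⟨x, τ⟩ ⟨hx, hτ⟩
    exact ⟨⟨hx, hτ⟩, hcm2 τ hτ⟩
  · intro x hx
    have hF0 := (hFs x hx).1
    have hFx := (hFs x hx).2
    have heq : EqOn (fun τ => FF (m' (x, τ)) (((1 - c : ℝ) : ℂ) * τ)) (fun τ => F (x, τ))
        (ball 0 ρ) := by
      intro τ hτ
      have hτ' : τ ∈ ball (0 : ℂ) (ρ + r / 2) := ball_subset_ball (by linarith) hτ
      have hq : (x, τ) ∈ Ω ×ˢ ball (0 : ℂ) (ρ + r / 2) := ⟨hx, hτ'⟩
      obtain ⟨s1, s2⟩ := FF_sol h (hm'M _ hq) (hm'A _ hq)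
      have hD : IsOpen (ball (0 : ℂ) r ∩ ball (-((c : ℂ) * τ)) ρ) := isOpen_ball.inter isOpen_ball
      have hpre : IsPreconnected (ball (0 : ℂ) r ∩ ball (-((c : ℂ) * τ)) ρ) :=
        ((convex_ball _ _).inter (convex_ball _ _)).isPreconnected
      have hsub : ball (0 : ℂ) r ∩ ball (-((c : ℂ) * τ)) ρ ⊆
          {t | (c : ℂ) * τ + t ∈ ball (0 : ℂ) ρ} := by
        rintro t ⟨-, ht⟩
        rw [mem_ball, dist_eq_norm] at ht
        have e : (c : ℂ) * τ + t = t - -((c : ℂ) * τ) := by ring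
        show (c : ℂ) * τ + t ∈ ball (0 : ℂ) ρ
        rw [mem_ball_zero_iff, e]
        exact ht
      have h0 : (0 : ℂ) ∈ ball (0 : ℂ) r ∩ ball (-((c : ℂ) * τ)) ρ := by
        refine ⟨mem_ball_self hr, ?_⟩
        have := hcm τ hτ'
        rw [mem_ball_zero_iff] at this
        rw [mem_ball, dist_eq_norm]
        simpa using this
      have hu := (s1.mono inter_subset_left).uniq hD hpre h0 ((hFx.shift ((c : ℂ) * τ)).mono hsub)
        (by rw [s2]; simp only [hm', add_zero])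
      have hmem : ((1 - c : ℝ) : ℂ) * τ ∈ ball (0 : ℂ) r ∩ ball (-((c : ℂ) * τ)) ρ := by
        refine ⟨hcm2 τ hτ', ?_⟩
        rw [mem_ball_zero_iff] at hτ
        have e : ((1 - c : ℝ) : ℂ) * τ - -((c : ℂ) * τ) = τ := by push_cast; ring
        rw [mem_ball, dist_eq_norm, e]
        exact hτ
      have := hu hmem
      simp only at this ⊢
      rw [this]
      congr 2
      push_cast
      ring
    refine ⟨?_, ?_⟩
    · have := heq (mem_ball_self hρ)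
      simp only [hF0] at this
      exact this
    · refine (hFx.congr isOpen_ball heq).extend isOpen_ball isOpen_ball
        (convex_ball _ _).isPreconnected (mem_ball_self hρ) (ball_subset_ball (by linarith)) ?_ ?_
      · refine (hfam.comp (f := fun q : E × ℂ => (q, ((1 - c : ℝ) : ℂ) * q.2))
          (s := Ω ×ˢ ball 0 (ρ + r / 2)) (by fun_prop) ?_).comp
          (f := fun τ : ℂ => (x, τ)) (by fun_prop) (fun τ hτ => ⟨hx, hτ⟩)
        rintro ⟨y, τ⟩ ⟨hy, hτ⟩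
        exact ⟨⟨hy, hτ⟩, hcm2 τ hτ⟩
      · intro τ hτ
        have hq : (x, τ) ∈ Ω ×ˢ ball (0 : ℂ) (ρ + r / 2) := ⟨hx, hτ⟩
        exact ((FF_sol h (hm'M _ hq) (hm'A _ hq)).1 _ (hcm2 τ hτ)).2.1

theorem global_flow {E : Type*} [NormedAddCommGroup E] [NormedSpace ℂ E] {Ω : Set E}
    (hΩ : IsOpen Ω) {m : E → W} (hm : DifferentiableOn ℂ m Ω) (hM : ∀ x ∈ Ω, m x ∈ Mh)
    (hA : ∀ x ∈ Ω, ‖(m x).1‖ ≤ A) (hA0 : 0 ≤ A) :
    ∃ Φ : E × ℂ → W, DifferentiableOn ℂ Φ (Ω ×ˢ univ) ∧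
      ∀ x ∈ Ω, Φ (x, 0) = m x ∧ IsSol univ (fun τ => Φ (x, τ)) := by
  obtain ⟨M, L, r, h⟩ := exists_flowData (V := W) (R := 31 * A + 3) fld_diff (by linarith)
  have hr := h.r_pos
  have hall : ∀ n : ℕ, HasSol Ω m (r + n * (r / 2)) := by
    intro n
    induction n with
    | zero =>
      refine ⟨fun q => FF (m q.1) q.2, ?_, ?_⟩
      · simpa using FF_family h hΩ hm hM hA
      · intro x hx
        obtain ⟨a, b⟩ := FF_sol h (hM x hx) (hA x hx)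
        exact ⟨b, by simpa using a⟩
    | succ n ih =>
      have := ih.step h hΩ hA (by positivity)
      have e : r + (n : ℝ) * (r / 2) + r / 2 = r + ((n + 1 : ℕ) : ℝ) * (r / 2) := by
        push_cast; ring
      rwa [e] at this
  choose F hF hFs using hall
  have hNat : ∀ τ : ℂ, ∃ n : ℕ, τ ∈ ball (0 : ℂ) (r + n * (r / 2)) := by
    intro τ
    obtain ⟨n, hn⟩ := exists_nat_gt (‖τ‖ / (r / 2))
    refine ⟨n, ?_⟩
    rw [mem_ball_zero_iff]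
    rw [div_lt_iff₀ (by positivity)] at hn
    linarith
  choose N hN using hNat
  have key : ∀ x ∈ Ω, ∀ (n : ℕ), ∀ τ ∈ ball (0 : ℂ) (r + n * (r / 2)),
      F (N τ) (x, τ) = F n (x, τ) := by
    intro x hx n τ hτ
    have hD : IsPreconnected (ball (0 : ℂ) (r + (N τ) * (r / 2)) ∩ ball 0 (r + n * (r / 2))) :=
      ((convex_ball _ _).inter (convex_ball _ _)).isPreconnected
    have p1 : 0 < r + (N τ : ℝ) * (r / 2) := by positivity
    have p2 : 0 < r + (n : ℝ) * (r / 2) := by positivity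
    exact ((hFs (N τ) x hx).2.mono inter_subset_left).uniq (isOpen_ball.inter isOpen_ball) hD
      ⟨mem_ball_self p1, mem_ball_self p2⟩ ((hFs n x hx).2.mono inter_subset_right)
      (by simp only [(hFs (N τ) x hx).1, (hFs n x hx).1]) ⟨hN τ, hτ⟩
  refine ⟨fun q => F (N q.2) q, ?_, ?_⟩
  · rintro ⟨x, τ⟩ ⟨hx, -⟩
    obtain ⟨n, hn⟩ : ∃ n : ℕ, τ ∈ ball (0 : ℂ) (r + n * (r / 2)) := ⟨_, hN τ⟩
    have hopen : IsOpen (Ω ×ˢ ball (0 : ℂ) (r + n * (r / 2))) := hΩ.prod isOpen_ball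
    have hd : DifferentiableAt ℂ (F n) (x, τ) :=
      (hF n).differentiableAt (hopen.mem_nhds ⟨hx, hn⟩)
    refine (hd.congr_of_eventuallyEq ?_).differentiableWithinAt
    filter_upwards [hopen.mem_nhds (⟨hx, hn⟩ : (x, τ) ∈ Ω ×ˢ ball (0 : ℂ) (r + n * (r / 2)))]
      with q hq
    exact key q.1 hq.1 n q.2 hq.2
  · intro x hx
    refine ⟨(hFs _ x hx).1, ?_⟩
    intro τ _
    exact ((hFs (N τ) x hx).2.congr isOpen_ball
      (γ' := fun τ => F (N τ) (x, τ)) (fun t ht => key x hx _ t ht)) τ (hN τ)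

theorem ell_flow {E : Type*} [NormedAddCommGroup E] [NormedSpace ℂ E] {N : Set E}
    (hN : IsOpen N) {g : E → Fin 5 → ℂ} {a1 a2 b : E → ℂ} (hg : DifferentiableOn ℂ g N)
    (ha1 : DifferentiableOn ℂ a1 N) (ha2 : DifferentiableOn ℂ a2 N)
    (hb : DifferentiableOn ℂ b N) (hne : ∀ x ∈ N, a1 x ≠ 0 ∨ a2 x ≠ 0)
    (hq : ∀ x ∈ N, b x ^ 2 = qf (g x) (a1 x) (a2 x)) {x0 : E} (hx0 : x0 ∈ N) :
    ∃ N' ⊆ N, IsOpen N' ∧ x0 ∈ N' ∧ ∃ S1 S2 Y : E × ℂ → ℂ,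
      DifferentiableOn ℂ S1 (N' ×ˢ univ) ∧ DifferentiableOn ℂ S2 (N' ×ˢ univ) ∧
      DifferentiableOn ℂ Y (N' ×ˢ univ) ∧
      ∀ x ∈ N', S1 (x, 0) = a1 x ∧ S2 (x, 0) = a2 x ∧ Y (x, 0) = b x ∧
        ∀ τ, (S1 (x, τ) ≠ 0 ∨ S2 (x, τ) ≠ 0) ∧
          Y (x, τ) ^ 2 = qf (g x) (S1 (x, τ)) (S2 (x, τ)) ∧
          deriv (fun t => S1 (x, t)) τ * S2 (x, τ) - S1 (x, τ) * deriv (fun t => S2 (x, t)) τ
            = Y (x, τ) := by
  -- initial momenta near `x0`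
  obtain ⟨N1, hN1, hN1o, hx1, p1, p2, hp1, hp2, hpb⟩ : ∃ N1 ⊆ N, IsOpen N1 ∧ x0 ∈ N1 ∧
      ∃ p1 p2 : E → ℂ, DifferentiableOn ℂ p1 N1 ∧ DifferentiableOn ℂ p2 N1 ∧
        ∀ x ∈ N1, p1 x * a2 x - a1 x * p2 x = b x := by
    rcases hne x0 hx0 with h1 | h1
    · refine ⟨{x ∈ N | a1 x ≠ 0}, fun x hx => hx.1, ?_, ⟨hx0, h1⟩, fun _ => 0,
        fun x => -(b x / a1 x), differentiableOn_const _, ?_, ?_⟩
      · exact ha1.continuousOn.isOpen_inter_preimage hN isOpen_compl_singleton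
      · have hs : {x ∈ N | a1 x ≠ 0} ⊆ N := fun x hx => hx.1
        intro x hx
        have h2 : DifferentiableWithinAt ℂ (fun x => b x * (a1 x)⁻¹) {x ∈ N | a1 x ≠ 0} x :=
          ((hb.mono hs) x hx).fun_mul (((ha1.mono hs) x hx).fun_inv hx.2)
        simp only [div_eq_mul_inv]
        exact h2.fun_neg
      · rintro x ⟨-, hx⟩
        field_simp
        ring
    · refine ⟨{x ∈ N | a2 x ≠ 0}, fun x hx => hx.1, ?_, ⟨hx0, h1⟩, fun x => b x / a2 x,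
        fun _ => 0, ?_, differentiableOn_const _, ?_⟩
      · exact ha2.continuousOn.isOpen_inter_preimage hN isOpen_compl_singleton
      · have hs : {x ∈ N | a2 x ≠ 0} ⊆ N := fun x hx => hx.1
        intro x hx
        have h2 : DifferentiableWithinAt ℂ (fun x => b x * (a2 x)⁻¹) {x ∈ N | a2 x ≠ 0} x :=
          ((hb.mono hs) x hx).fun_mul (((ha2.mono hs) x hx).fun_inv hx.2)
        simp only [div_eq_mul_inv]
        exact h2
      · rintro x ⟨-, hx⟩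
        field_simp
        ring
  set N' : Set E := {x ∈ N1 | ‖g x‖ < ‖g x0‖ + 1} with hN'
  have hN'o : IsOpen N' :=
    ((hg.mono hN1).continuousOn.norm).isOpen_inter_preimage hN1o isOpen_Iio
  have hsub : N' ⊆ N := fun x hx => hN1 hx.1
  set m : E → W := fun x => (g x, a1 x, a2 x, p1 x, p2 x) with hm
  have hmd : DifferentiableOn ℂ m N' :=
    (hg.mono hsub).prodMk ((ha1.mono hsub).prodMk ((ha2.mono hsub).prodMk
      ((hp1.mono fun x hx => hx.1).prodMk (hp2.mono fun x hx => hx.1))))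
  have hmM : ∀ x ∈ N', m x ∈ Mh := by
    intro x hx
    refine ⟨hne x (hsub hx), ?_⟩
    simp only [hm]
    rw [hpb x hx.1, hq x (hsub hx)]
  obtain ⟨Φ, hΦ, hΦs⟩ := global_flow (A := ‖g x0‖ + 1) hN'o hmd hmM (fun x hx => hx.2.le)
    (by positivity)
  refine ⟨N', hsub, hN'o, ⟨hx1, by linarith⟩, fun q => (Φ q).2.1, fun q => (Φ q).2.2.1,
    fun q => (Φ q).2.2.2.1 * (Φ q).2.2.1 - (Φ q).2.1 * (Φ q).2.2.2.2, ?_, ?_, ?_, ?_⟩
  · exact (by fun_prop : Differentiable ℂ fun y : W => y.2.1).comp_differentiableOn hΦ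
  · exact (by fun_prop : Differentiable ℂ fun y : W => y.2.2.1).comp_differentiableOn hΦ
  · exact (by fun_prop : Differentiable ℂ fun y : W =>
      y.2.2.2.1 * y.2.2.1 - y.2.1 * y.2.2.2.2).comp_differentiableOn hΦ
  · intro x hx
    obtain ⟨h0, hs⟩ := hΦs x hx
    refine ⟨by simp only [h0, hm], by simp only [h0, hm], ?_, ?_⟩
    · simp only [h0, hm]
      exact hpb x hx.1
    · intro τ
      obtain ⟨c1, c2, c3⟩ := hs τ (mem_univ τ)
      have hgc : (Φ (x, τ)).1 = g x := by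
        have := (IsSol.mono hs (subset_univ (ball (0 : ℂ) (‖τ‖ + 1)))).g_const
          (τ := τ) (by rw [mem_ball_zero_iff]; linarith)
        simp only [h0, hm] at this
        exact this
      refine ⟨c2.1, ?_, ?_⟩
      · have := c2.2
        simp only [hgc] at this
        exact this
      · obtain ⟨-, d1, d2, -, -⟩ := hasDerivAt_comps c1.hasDerivAt
        simp only [Res, Prod.mk_eq_zero] at c3
        rw [d1.deriv, d2.deriv]
        linear_combination (Φ (x, τ)).2.2.1 * c3.2.1 - (Φ (x, τ)).2.1 * c3.2.2.1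

end

end Crest.Agent.R279.Ell
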