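import Crest.Agent.R279.EllMap928
import Crest.Agent.R279.Boot556

/-!
R279 (helper928), Part 9, assembly: two branches with independent gradients give `TwoFam`.
-/

set_option autoImplicit false

open Set Metric

namespace Crest.Agent.R279.EllAlg

open Fam (C2)

variable {Q : MvPolynomial (Fin 4) ℂ} {x₁ : C4}

theorem pr_comm (a b : C4) : pr a b = pr b a := by
  unfold pr
  exact Finset.sum_congr rfl fun i _ => mul_comm _ _

/-- The common kernel of three independent covectors is a line. -/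
theorem kernel_line {g₁ g₂ g₃ v w : C4} (h : LinearIndependent ℂ ![g₁, g₂, g₃]) (hv : v ≠ 0)
    (hv₁ : pr g₁ v = 0) (hv₂ : pr g₂ v = 0) (hv₃ : pr g₃ v = 0)
    (hw₁ : pr g₁ w = 0) (hw₂ : pr g₂ w = 0) (hw₃ : pr g₃ w = 0) : ∃ k : ℂ, w = k • v := by
  obtain ⟨g₄, hg⟩ := exists_complete h
  obtain ⟨A, hA⟩ := isUnit_of_inj (frameL g₁ g₂ g₃ g₄) (fun k hk => by
    rw [frameL_apply] at hk; exact hg k hk)
  have hsurj : ∀ e : C4, ∃ k : C4, frameL g₁ g₂ g₃ g₄ k = e := by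
    intro e
    refine ⟨(↑A⁻¹ : C4 →L[ℂ] C4) e, ?_⟩
    rw [← hA, ← mul_apply_eq_comp, Units.mul_inv]
    rfl
  -- a vector killed by the four covectors is zero
  have hkill : ∀ x : C4, pr g₁ x = 0 → pr g₂ x = 0 → pr g₃ x = 0 → pr g₄ x = 0 → x = 0 := by
    intro x h1 h2 h3 h4
    funext i
    obtain ⟨k, hk⟩ := hsurj (Pi.single i 1)
    have e : pr (frameL g₁ g₂ g₃ g₄ k) x = 0 := by
      rw [frameL_apply, pr_comm, pr_add, pr_add, pr_add, pr_smul, pr_smul, pr_smul, pr_smul,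
        pr_comm x, pr_comm x, pr_comm x, pr_comm x, h1, h2, h3, h4]
      ring
    rw [hk] at e
    simpa [pr, Pi.single_apply] using e
  have hv4 : pr g₄ v ≠ 0 := fun h4 => hv (hkill v hv₁ hv₂ hv₃ h4)
  refine ⟨pr g₄ w / pr g₄ v, ?_⟩
  have hz : w + (-(pr g₄ w / pr g₄ v)) • v = 0 := by
    apply hkill
    · rw [pr_add, pr_smul, hv₁, hw₁]; ring
    · rw [pr_add, pr_smul, hv₂, hw₂]; ring
    · rw [pr_add, pr_smul, hv₃, hw₃]; ring
    · rw [pr_add, pr_smul]
      field_simp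
      ring
  rw [neg_smul, ← sub_eq_add_neg] at hz
  exact sub_eq_zero.1 hz

/-- **Part 9**: two branches with independent gradients give two families. -/
theorem twoFam (hGL : GlobalLiftTarget) (hFl : FlowTarget) (hQ : Q.IsHomogeneous 4)
    (hsm : ∀ v ∈ Vstar Q, grad Q v ≠ 0) (hx₁ : x₁ ∈ Vstar Q) (β β' : BranchAt Q x₁)
    (hi : LinearIndependent ℂ ![grad Q x₁, grad Q (β.b β.c₁), grad Q (β'.b β'.c₁)]) :
    Fam.TwoFam (Vstar Q) x₁ := by
  obtain ⟨C, -⟩ := Boot.exists_chart hQ hx₁.1 hx₁.2 (by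
    by_contra hcon
    push Not at hcon
    exact hsm x₁ hx₁ (funext hcon)) (ε := 1) one_pos
  -- the section
  obtain ⟨j, hj⟩ : ∃ j : C2 →L[ℂ] ℂ × ℂ, ∀ z, j z = (z 0, z 1) :=
    ⟨(ContinuousLinearMap.proj 0 : C2 →L[ℂ] ℂ).prod (ContinuousLinearMap.proj 1), fun z => rfl⟩
  have hjn : ∀ z : C2, ‖j z‖ ≤ ‖z‖ := by
    intro z
    rw [hj, Prod.norm_mk]
    exact max_le (norm_le_pi_norm z 0) (norm_le_pi_norm z 1)
  have hjb : ∀ z ∈ ball (0 : C2) C.r, j z ∈ ball (0 : ℂ × ℂ) C.r := by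
    intro z hz
    rw [mem_ball_zero_iff] at hz ⊢
    exact lt_of_le_of_lt (hjn z) hz
  set ψ : C2 → C4 := fun z => C.x (j z) with hψ
  have hψd : DifferentiableOn ℂ ψ (ball 0 C.r) := C.diff_x.comp j.differentiable.differentiableOn hjb
  have hψm : MapsTo ψ (ball 0 C.r) (Vstar Q) := fun z hz => (C.x_mem _ (hjb z hz)).1
  have hψ0 : ψ 0 = x₁ := by rw [hψ]; simp only [map_zero, C.x_zero]
  have haψ : ∀ z ∈ ball (0 : C2) C.r, C.a (ψ z) = 1 := fun z hz => C.a_x _ (hjb z hz)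
  have hbψ : ∀ z ∈ ball (0 : C2) C.r, C.b (ψ z) = j z := fun z hz => C.b_x _ (hjb z hz)
  obtain ⟨r₁, hr₁, hr₁C, L₁, hL₁d, hL₁m, hL₁0, hL₁b, hL₁x, hL₁n⟩ :=
    exists_branch_family hGL hFl hQ hsm β C.r_pos hψd hψm hψ0 C.a haψ
  obtain ⟨r₂, hr₂, hr₂C, L₂, hL₂d, hL₂m, hL₂0, hL₂b, hL₂x, hL₂n⟩ :=
    exists_branch_family hGL hFl hQ hsm β' C.r_pos hψd hψm hψ0 C.a haψ
  have h1 : ball (0 : C2) (min r₁ r₂) ⊆ ball 0 r₁ := ball_subset_ball (min_le_left _ _)
  have h2 : ball (0 : C2) (min r₁ r₂) ⊆ ball 0 r₂ := ball_subset_ball (min_le_right _ _)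
  have hC : ball (0 : C2) (min r₁ r₂) ⊆ ball 0 C.r := h1.trans (ball_subset_ball hr₁C)
  refine ⟨min r₁ r₂, ψ, L₁, L₂, lt_min hr₁ hr₂, hψd.mono hC, hψm.mono_left hC, hψ0,
    hL₁d.mono (prod_mono h1 Subset.rfl), hL₁m.mono_left (prod_mono h1 Subset.rfl),
    hL₂d.mono (prod_mono h2 Subset.rfl), hL₂m.mono_left (prod_mono h2 Subset.rfl),
    fun z hz => hL₁0 z (h1 hz), fun z hz => hL₂0 z (h2 hz), ?_, ?_⟩
  · -- the section is immersed modulo `x₁`
    have hmem : (0 : C2) ∈ ball (0 : C2) C.r := mem_ball_self C.r_pos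
    have hat : DifferentiableAt ℂ ψ 0 := (hψd 0 hmem).differentiableAt (isOpen_ball.mem_nhds hmem)
    have hev : ∀ᶠ z in nhds (0 : C2), z ∈ ball (0 : C2) C.r := isOpen_ball.mem_nhds hmem
    have ha' : C.a.comp (fderiv ℂ ψ 0) = 0 := by
      have e1 : HasFDerivAt (fun z => C.a (ψ z)) (C.a.comp (fderiv ℂ ψ 0)) 0 :=
        C.a.hasFDerivAt.comp (0 : C2) hat.hasFDerivAt
      have e2 : HasFDerivAt (fun z => C.a (ψ z)) (0 : C2 →L[ℂ] ℂ) 0 :=
        (hasFDerivAt_const (1 : ℂ) (0 : C2)).congr_of_eventuallyEq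
          (hev.mono fun z hz => haψ z hz)
      exact e1.unique e2
    have hb' : C.b.comp (fderiv ℂ ψ 0) = j := by
      have e1 : HasFDerivAt (fun z => C.b (ψ z)) (C.b.comp (fderiv ℂ ψ 0)) 0 :=
        C.b.hasFDerivAt.comp (0 : C2) hat.hasFDerivAt
      have e2 : HasFDerivAt (fun z => C.b (ψ z)) j 0 :=
        j.hasFDerivAt.congr_of_eventuallyEq (hev.mono fun z hz => hbψ z hz)
      exact e1.unique e2
    have ha'' : ∀ v, C.a (fderiv ℂ ψ 0 v) = 0 := fun v => by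
      have := congrArg (fun l : C2 →L[ℂ] ℂ => l v) ha'
      simpa using this
    have hb'' : ∀ v, C.b (fderiv ℂ ψ 0 v) = (v 0, v 1) := fun v => by
      have := congrArg (fun l : C2 →L[ℂ] ℂ × ℂ => l v) hb'
      rw [← hj]
      simpa using this
    have ha0 : C.a x₁ = 1 := by
      have h := haψ 0 hmem
      rwa [hψ0] at h
    have hb0 : C.b x₁ = 0 := by
      have h := hbψ 0 hmem
      rwa [hψ0, map_zero] at h
    rw [Fintype.linearIndependent_iff]
    intro g hg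
    simp only [Fin.sum_univ_three, Matrix.cons_val_zero, Matrix.cons_val_one,
      Matrix.cons_val] at hg
    have g0 : g 0 = 0 := by
      have := congrArg C.a hg
      simpa [ha0, ha''] using this
    have g12 := congrArg C.b hg
    simp only [map_add, map_smul, hb0, hb'', smul_zero, zero_add, map_zero] at g12
    have g1 := congrArg Prod.fst g12
    have g2 := congrArg Prod.snd g12
    simp at g1 g2
    intro i
    fin_cases i
    · exact g0
    · exact g1
    · exact g2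
  · -- the velocities
    set D₁ := deriv (fun τ => L₁ (0, τ)) 0 with hD₁
    set D₂ := deriv (fun τ => L₂ (0, τ)) 0 with hD₂
    have hgx : pr (grad Q x₁) x₁ = 0 := by rw [euler hQ, hx₁.2]; ring
    have hgb : pr (grad Q (β.b β.c₁)) x₁ = 0 := by
      have := β.pr_cf x₁ β.x₁_mem
      rwa [β.cf_x₁] at this
    have hgb' : pr (grad Q (β'.b β'.c₁)) x₁ = 0 := by
      have := β'.pr_cf x₁ β'.x₁_mem
      rwa [β'.cf_x₁] at this
    rw [Fintype.linearIndependent_iff]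
    intro g hg
    simp only [Fin.sum_univ_three, Matrix.cons_val_zero, Matrix.cons_val_one,
      Matrix.cons_val] at hg
    have n1 : pr (grad Q (β'.b β'.c₁)) D₁ ≠ 0 := fun h =>
      hL₁n (kernel_line hi hx₁.1 hgx hgb hgb' hL₁x hL₁b h)
    have n2 : pr (grad Q (β.b β.c₁)) D₂ ≠ 0 := fun h =>
      hL₂n (kernel_line hi hx₁.1 hgx hgb hgb' hL₂x h hL₂b)
    have z : ∀ c : C4, pr c 0 = 0 := fun c => by simp [pr]
    have e1 := congrArg (pr (grad Q (β'.b β'.c₁))) hg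
    rw [pr_add, pr_add, pr_smul, pr_smul, pr_smul, hgb', hL₂b, z] at e1
    have e2 := congrArg (pr (grad Q (β.b β.c₁))) hg
    rw [pr_add, pr_add, pr_smul, pr_smul, pr_smul, hgb, hL₁b, z] at e2
    have g1 : g 1 = 0 := by
      have : g 1 * pr (grad Q (β'.b β'.c₁)) D₁ = 0 := by linear_combination e1
      exact (mul_eq_zero.1 this).resolve_right n1
    have g2 : g 2 = 0 := by
      have : g 2 * pr (grad Q (β.b β.c₁)) D₂ = 0 := by linear_combination e2
      exact (mul_eq_zero.1 this).resolve_right n2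
    have g0 : g 0 = 0 := by
      rw [g1, g2, zero_smul, zero_smul, add_zero, add_zero] at hg
      exact (smul_eq_zero.1 hg).resolve_right hx₁.1
    intro i
    fin_cases i
    · exact g0
    · exact g1
    · exact g2

end Crest.Agent.R279.EllAlg
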