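import Crest.Agent.R279.AlgDefs149
import Crest.Agent.R279.EllDefs928
import Crest.Agent.R279.Thin556

/-!
# R279, M14 (helper28): genericity of the two branches, definitions and interfaces

* input 1 `TwoArcsTarget Q` (A5, A7, A9: helpers 524, 545, 471): outside a thin set two transversal
  arcs of `D` with different tangent planes;
* input 2 `ArcTarget Q` (A10 (iii), (iv): helper269): data along an arc of `D`;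
* output `LL0Target Q` (input of Part 9, helper928).
-/

set_option autoImplicit false

namespace Crest.Agent.R279.Gen

open Metric Set EllAlg

/-- `b` is a holomorphic arc of `D`, `⟨H(b 0), x⟩ = 0` and `γ = 0` is a simple zero of
`γ ↦ ⟨H(b γ), x⟩`. -/
structure ArcThrough (Q : MvPolynomial (Fin 4) ℂ) (x : C4) (b : ℂ → C4) : Prop where
  diff : DifferentiableOn ℂ b (ball 0 1)
  mem : ∀ γ ∈ ball (0 : ℂ) 1, b γ ∈ DD Q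
  zero : q1 Q (b 0) x = 0
  trans : deriv (fun γ => q1 Q (b γ) x) 0 ≠ 0

/-- Two transversal arcs of `D` at `x` with different tangent planes. -/
def TwoArcs (Q : MvPolynomial (Fin 4) ℂ) (x : C4) : Prop :=
  ∃ b b' : ℂ → C4, ArcThrough Q x b ∧ ArcThrough Q x b' ∧
    LinearIndependent ℂ ![grad Q (b 0), grad Q (b' 0)]

/-- Input 1. -/
def TwoArcsTarget (Q : MvPolynomial (Fin 4) ℂ) : Prop :=
  Thin (Vstar Q) {x | ¬ TwoArcs Q x}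

/-- The data along the arc `b` near the parameter `c₁`: `BranchAt` without its `x₁`-part. -/
structure ArcAt (Q : MvPolynomial (Fin 4) ℂ) (b : ℂ → C4) (c₁ : ℂ) where
  e : ℕ
  e_le : e ≤ 1
  B : Set ℂ
  isOpen_B : IsOpen B
  c₁_mem : c₁ ∈ B
  u₁ : ℂ → C4
  u₂ : ℂ → C4
  diff_b : DifferentiableOn ℂ b B
  diff_u₁ : DifferentiableOn ℂ u₁ B
  diff_u₂ : DifferentiableOn ℂ u₂ B
  b_mem : ∀ c ∈ B, b c ∈ Vstar Q
  pr_u₁ : ∀ c ∈ B, pr (grad Q (b c)) (u₁ c) = 0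
  pr_u₂ : ∀ c ∈ B, pr (grad Q (b c)) (u₂ c) = 0
  indep : ∀ c ∈ B, LinearIndependent ℂ ![b c, u₁ c, u₂ c]
  d : ℂ × ℂ × ℂ → ℂ
  h : ℂ × ℂ × ℂ → ℂ
  q2 : ℂ × ℂ × ℂ → ℂ
  q3 : ℂ × ℂ × ℂ → ℂ
  q4 : ℂ × ℂ × ℂ → ℂ
  diff_d : DifferentiableOn ℂ d (B ×ˢ univ)
  diff_h : DifferentiableOn ℂ h (B ×ˢ univ)
  diff_q2 : DifferentiableOn ℂ q2 (B ×ˢ univ)
  diff_q3 : DifferentiableOn ℂ q3 (B ×ˢ univ)
  diff_q4 : DifferentiableOn ℂ q4 (B ×ˢ univ)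
  hom_d : ∀ c ∈ B, ∀ t s₁ s₂ : ℂ, d (c, t * s₁, t * s₂) = t ^ e * d (c, s₁, s₂)
  hom_h : ∀ c ∈ B, ∀ t s₁ s₂ : ℂ, h (c, t * s₁, t * s₂) = t ^ (1 - e) * h (c, s₁, s₂)
  hom_q2 : ∀ c ∈ B, ∀ t s₁ s₂ : ℂ, q2 (c, t * s₁, t * s₂) = t ^ (2 - e) * q2 (c, s₁, s₂)
  hom_q3 : ∀ c ∈ B, ∀ t s₁ s₂ : ℂ, q3 (c, t * s₁, t * s₂) = t ^ (3 - e) * q3 (c, s₁, s₂)
  hom_q4 : ∀ c ∈ B, ∀ t s₁ s₂ : ℂ, q4 (c, t * s₁, t * s₂) = t ^ (4 - e) * q4 (c, s₁, s₂)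
  a : Fin 5 → ℂ → ℂ
  diff_a : ∀ i, DifferentiableOn ℂ (a i) B
  expand : ∀ c ∈ B, ∀ l s₁ s₂ : ℂ,
    MvPolynomial.eval (l • b c + s₁ • u₁ c + s₂ • u₂ c) Q
      = d (c, s₁, s₂) * (l ^ 2 * q2 (c, s₁, s₂) + l * q3 (c, s₁, s₂) + q4 (c, s₁, s₂))
  disc : ∀ c ∈ B, ∀ s₁ s₂ : ℂ,
    q3 (c, s₁, s₂) ^ 2 - 4 * q2 (c, s₁, s₂) * q4 (c, s₁, s₂)
      = h (c, s₁, s₂) ^ 2 * quart (fun i => a i c) s₁ s₂
  nocommon : ∀ c ∈ B, ∀ s₁ s₂ : ℂ, (s₁ ≠ 0 ∨ s₂ ≠ 0) →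
    ¬ (q2 (c, s₁, s₂) = 0 ∧ q3 (c, s₁, s₂) = 0 ∧ q4 (c, s₁, s₂) = 0)

/-- Input 2: along a projectively nonconstant arc of `D` the data exist outside a countable set. -/
def ArcTarget (Q : MvPolynomial (Fin 4) ℂ) : Prop :=
  ∀ b : ℂ → C4, DifferentiableOn ℂ b (ball 0 1) → (∀ γ ∈ ball (0 : ℂ) 1, b γ ∈ DD Q) →
    (¬ ∃ p₀ : C4, ∀ γ ∈ ball (0 : ℂ) 1, ∃ s : ℂ, b γ = s • p₀) →
    ∃ N₀ : Set ℂ, N₀.Countable ∧ ∀ c₁ ∈ ball (0 : ℂ) 1 \ N₀, Nonempty (ArcAt Q b c₁)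

/-- Two branches at `x` as in Part 9, with independent tangent planes at `x`, `p`, `p'`. -/
def LL0 (Q : MvPolynomial (Fin 4) ℂ) (x : C4) : Prop :=
  ∃ be be' : BranchAt Q x,
    LinearIndependent ℂ ![grad Q x, grad Q (be.b be.c₁), grad Q (be'.b be'.c₁)]

/-- Output. -/
def LL0Target (Q : MvPolynomial (Fin 4) ℂ) : Prop :=
  Thin (Vstar Q) {x | ¬ LL0 Q x}

/-- `ArcAt` and a branch function give `BranchAt`. -/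
def ArcAt.toBranchAt {Q : MvPolynomial (Fin 4) ℂ} {b : ℂ → C4} {c₁ : ℂ} (A : ArcAt Q b c₁)
    {x₁ : C4} (N : Set C4) (hN : IsOpen N) (hx : x₁ ∈ N) (cf : C4 → ℂ)
    (hcf : DifferentiableOn ℂ cf N) (hm : MapsTo cf N A.B) (h1 : cf x₁ = c₁)
    (h2 : ∀ x ∈ N, pr (grad Q (b (cf x))) x = 0) (h3 : pr (grad Q x₁) (b c₁) ≠ 0) :
    BranchAt Q x₁ :=
  { e := A.e, e_le := A.e_le, B := A.B, isOpen_B := A.isOpen_B, c₁ := c₁, c₁_mem := A.c₁_mem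
    b := b, u₁ := A.u₁, u₂ := A.u₂, diff_b := A.diff_b, diff_u₁ := A.diff_u₁
    diff_u₂ := A.diff_u₂, b_mem := A.b_mem, pr_u₁ := A.pr_u₁, pr_u₂ := A.pr_u₂
    indep := A.indep, d := A.d, h := A.h, q2 := A.q2, q3 := A.q3, q4 := A.q4
    diff_d := A.diff_d, diff_h := A.diff_h, diff_q2 := A.diff_q2, diff_q3 := A.diff_q3
    diff_q4 := A.diff_q4, hom_d := A.hom_d, hom_h := A.hom_h, hom_q2 := A.hom_q2
    hom_q3 := A.hom_q3, hom_q4 := A.hom_q4, a := A.a, diff_a := A.diff_a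
    expand := A.expand, disc := A.disc, nocommon := A.nocommon
    N := N, isOpen_N := hN, x₁_mem := hx, cf := cf, diff_cf := hcf, cf_mem := hm
    cf_x₁ := h1, pr_cf := h2, trans := h3 }

end Crest.Agent.R279.Gen
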