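import Mathlib
import Crest.Agent.R266.Osgood
import Crest.Agent.R279.MergeApp250

/-!
# R279, (2.3): polynomial approximation on compact convex subsets of `Fin n → ℂ`
-/

set_option autoImplicit false

open Set Filter Topology Metric

namespace Crest.Agent.R279.CRunge

variable {n : ℕ}

/-- polynomial functions as continuous functions on `K` -/
noncomputable def polyMap (K : Set (Fin n → ℂ)) : MvPolynomial (Fin n) ℂ →ₗ[ℂ] C(K, ℂ) where
  toFun p := ⟨fun z => MvPolynomial.eval z.1 p,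
    (MvPolynomial.continuous_eval p).comp continuous_subtype_val⟩
  map_add' p q := by ext z; simp
  map_smul' c p := by ext z; simp

theorem polyMap_apply (K : Set (Fin n → ℂ)) (p : MvPolynomial (Fin n) ℂ) (z : K) :
    polyMap K p z = MvPolynomial.eval z.1 p := rfl

/-- homogeneous parts of multilinear maps are polynomials -/
theorem exists_poly_multilinear {k : ℕ} (M : ContinuousMultilinearMap ℂ (fun _ : Fin k => Fin n → ℂ) ℂ) :
    ∃ p : MvPolynomial (Fin n) ℂ, ∀ y : Fin n → ℂ, MvPolynomial.eval y p = M (fun _ => y) := by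
  classical
  refine ⟨∑ r : Fin k → Fin n, MvPolynomial.C (M (fun i => Pi.single (r i) 1)) *
    ∏ i, MvPolynomial.X (r i), fun y => ?_⟩
  have hy : y = ∑ j, y j • (Pi.single j (1 : ℂ) : Fin n → ℂ) := by
    funext l
    simp [Finset.sum_apply, Pi.single_apply]
  have h1 : M (fun _ => y) = M (fun _ : Fin k => ∑ j, y j • (Pi.single j (1 : ℂ) : Fin n → ℂ)) := by
    rw [← hy]
  rw [h1, M.map_sum]
  rw [map_sum]
  refine Finset.sum_congr rfl fun r _ => ?_
  rw [M.map_smul_univ]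
  simp only [map_mul, MvPolynomial.eval_C, map_prod, MvPolynomial.eval_X, smul_eq_mul]
  ring

theorem exists_poly_partialSum (q : FormalMultilinearSeries ℂ (Fin n → ℂ) ℂ) (N : ℕ)
    (x0 : Fin n → ℂ) (r : ℂ) :
    ∃ p : MvPolynomial (Fin n) ℂ, ∀ z : Fin n → ℂ,
      MvPolynomial.eval z p = q.partialSum N (r • (z - x0)) := by
  classical
  choose P hP using fun k => exists_poly_multilinear (q k)
  refine ⟨∑ k ∈ Finset.range N, MvPolynomial.bind₁
    (fun i => MvPolynomial.C r * (MvPolynomial.X i - MvPolynomial.C (x0 i))) (P k), fun z => ?_⟩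
  rw [map_sum]
  rw [FormalMultilinearSeries.partialSum]
  refine Finset.sum_congr rfl fun k _ => ?_
  rw [← hP k]
  rw [← MvPolynomial.coe_aeval_eq_eval, ← MvPolynomial.coe_aeval_eq_eval]
  simp only [RingHom.coe_coe]
  rw [MvPolynomial.aeval_bind₁]
  congr 2
  funext i
  simp

/-- a convex open neighbourhood of `[0,1]` in `ℂ` -/
theorem exists_tube {K U : Set (Fin n → ℂ)} (hK : IsCompact K) (hKc : Convex ℝ K)
    (hU : IsOpen U) (hKU : K ⊆ U) {x0 : Fin n → ℂ} (hx0 : x0 ∈ K) :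
    ∃ Ω : Set ℂ, IsOpen Ω ∧ Convex ℝ Ω ∧ (0 : ℂ) ∈ Ω ∧ (1 : ℂ) ∈ Ω ∧
      ∀ r ∈ Ω, ∀ z ∈ K, x0 + r • (z - x0) ∈ U := by
  set s : Set ℂ := (fun t : ℝ => (t : ℂ)) '' Icc (0 : ℝ) 1 with hs
  have hsc : IsCompact s := isCompact_Icc.image Complex.continuous_ofReal
  have hsv : Convex ℝ s := by
    have := (convex_Icc (0 : ℝ) 1).linear_image (Complex.ofRealLI.toLinearMap)
    exact this
  have hcont : Continuous fun p : ℂ × (Fin n → ℂ) => x0 + p.1 • (p.2 - x0) := by fun_prop
  have hsub : s ×ˢ K ⊆ (fun p : ℂ × (Fin n → ℂ) => x0 + p.1 • (p.2 - x0)) ⁻¹' U := by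
    rintro ⟨r, z⟩ ⟨⟨t, ht, rfl⟩, hz⟩
    apply hKU
    have h1 : x0 + (t : ℂ) • (z - x0) = (1 - t) • x0 + t • z := by
      funext i
      simp only [Pi.add_apply, Pi.smul_apply, Pi.sub_apply, smul_eq_mul, Complex.real_smul]
      push_cast
      ring
    show x0 + (t : ℂ) • (z - x0) ∈ K
    rw [h1]
    exact hKc hx0 hz (by linarith [ht.2]) ht.1 (by ring)
  obtain ⟨u, v, hu, hv, hsu, hKv, huv⟩ := generalized_tube_lemma hsc hK (hU.preimage hcont) hsub
  obtain ⟨Ω, hΩ, hΩc, hsΩ, hΩu⟩ := Merge.exists_convex_nhd hsc hsv hu hsu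
  exact ⟨Ω, hΩ, hΩc, hsΩ ⟨0, by simp, by simp⟩, hsΩ ⟨1, by simp, by simp⟩,
    fun r hr z hz => huv (mk_mem_prod (hΩu hr) (hKv hz))⟩

/-- **(2.3) Convex Runge**, scalar case. -/
theorem convex_runge {K U : Set (Fin n → ℂ)} (hK : IsCompact K) (hKc : Convex ℝ K)
    (hU : IsOpen U) (hKU : K ⊆ U) {g : (Fin n → ℂ) → ℂ} (hg : DifferentiableOn ℂ g U)
    {ε : ℝ} (hε : 0 < ε) :
    ∃ p : MvPolynomial (Fin n) ℂ, ∀ z ∈ K, ‖MvPolynomial.eval z p - g z‖ < ε := by
  classical
  rcases K.eq_empty_or_nonempty with rfl | ⟨x0, hx0⟩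
  · exact ⟨0, by simp⟩
  have : CompactSpace K := isCompact_iff_compactSpace.1 hK
  obtain ⟨Ω, hΩ, hΩc, h0, h1, hΩU⟩ := exists_tube hK hKc hU hKU hx0
  -- the curve in `C(K, ℂ)`
  let G : ℂ → C(K, ℂ) := fun r => if h : r ∈ Ω then
    ⟨fun z => g (x0 + r • (z.1 - x0)), by
      refine continuous_iff_continuousAt.2 fun z => ?_
      have hz := hΩU r h z.1 z.2
      have hc : ContinuousAt g (x0 + r • (z.1 - x0)) :=
        (hg.continuousOn _ hz).continuousAt (hU.mem_nhds hz)
      exact ContinuousAt.comp (f := fun z : K => x0 + r • (z.1 - x0)) hc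
        (by fun_prop)⟩ else 0
  have hGval : ∀ r ∈ Ω, ∀ z : K, G r z = g (x0 + r • (z.1 - x0)) := by
    intro r hr z
    simp only [G, dif_pos hr]
    rfl
  have hGc : ContinuousOn G Ω := by
    rw [continuousOn_iff_continuous_domRestrict]
    let Φ : C(Ω × K, ℂ) := ⟨fun p => g (x0 + p.1.1 • (p.2.1 - x0)), by
      refine continuous_iff_continuousAt.2 fun p => ?_
      have hz := hΩU p.1.1 p.1.2 p.2.1 p.2.2
      have hc : ContinuousAt g (x0 + p.1.1 • (p.2.1 - x0)) :=
        (hg.continuousOn _ hz).continuousAt (hU.mem_nhds hz)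
      exact ContinuousAt.comp (f := fun p : Ω × K => x0 + p.1.1 • (p.2.1 - x0)) hc
        (by fun_prop)⟩
    have : Ω.domRestrict G = Φ.curry := by
      funext r
      ext z
      exact hGval r.1 r.2 z
    rw [this]
    exact Φ.curry.continuous
  have hGd : DifferentiableOn ℂ G Ω := by
    intro r hr
    obtain ⟨ρ, hρ, hρΩ⟩ := Metric.isOpen_iff.1 hΩ r hr
    have hcb : closedBall r (ρ / 2) ⊆ Ω :=
      (closedBall_subset_ball (by linarith)).trans hρΩ
    have hd : DifferentiableOn ℂ G (ball r (ρ / 2)) := by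
      refine Crest.Agent.R266.SCV.differentiableOn_of_separating (ι := K)
        (fun z => ContinuousMap.evalCLM ℂ z) ?_ (hGc.mono hcb) ?_
      · intro f1 f2 h
        ext z
        exact h z
      · intro z t ht
        have htΩ : t ∈ Ω := hcb (ball_subset_closedBall ht)
        have hz := hΩU t htΩ z.1 z.2
        have h2 : DifferentiableAt ℂ (fun t : ℂ => g (x0 + t • (z.1 - x0))) t := by
          refine DifferentiableAt.comp t (f := fun t : ℂ => x0 + t • (z.1 - x0))
            (hg.differentiableAt (hU.mem_nhds hz)) (by fun_prop)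
        refine h2.congr_of_eventuallyEq ?_
        filter_upwards [hΩ.mem_nhds htΩ] with t' ht'
        exact hGval t' ht' z
    exact ((hd r (mem_ball_self (by linarith))).differentiableAt
      (isOpen_ball.mem_nhds (mem_ball_self (by linarith)))).differentiableWithinAt
  -- closure of polynomials
  set S : Submodule ℂ C(K, ℂ) := (LinearMap.range (polyMap K)).topologicalClosure with hSdef
  have hScl : IsClosed (S : Set C(K, ℂ)) := Submodule.isClosed_topologicalClosure _
  -- near 0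
  have hnear : ∀ᶠ r in 𝓝 (0 : ℂ), G r ∈ S := by
    have hgan : AnalyticAt ℂ g x0 :=
      Crest.Agent.R266.SCV.analyticOnNhd_of_differentiableOn hU hg x0 (hKU hx0)
    obtain ⟨q, ρ, hq⟩ := hgan
    obtain ⟨ρ', hρ'0, hρ'⟩ := ENNReal.lt_iff_exists_nnreal_btwn.1 hq.r_pos
    have hρ'0' : (0 : ℝ) < ρ' := by exact_mod_cast hρ'0
    have hunif := hq.tendstoUniformlyOn hρ'
    obtain ⟨D, hD⟩ := hK.isBounded.exists_norm_le
    have hsmall : ∀ᶠ r in 𝓝 (0 : ℂ), r ∈ Ω ∧ ‖r‖ * (D + ‖x0‖ + 1) < ρ' := by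
      refine Filter.Eventually.and (hΩ.mem_nhds h0) ?_
      have : Tendsto (fun r : ℂ => ‖r‖ * (D + ‖x0‖ + 1)) (𝓝 0) (𝓝 (‖(0 : ℂ)‖ * (D + ‖x0‖ + 1))) :=
        (continuous_norm.mul continuous_const).tendsto 0
      rw [norm_zero, zero_mul] at this
      exact (tendsto_order.1 this).2 _ hρ'0'
    filter_upwards [hsmall] with r hr
    show G r ∈ closure ((LinearMap.range (polyMap K) : Submodule ℂ C(K, ℂ)) : Set C(K, ℂ))
    rw [Metric.mem_closure_iff]
    intro δ hδ
    have hδ2 : 0 < δ / 2 := by linarith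
    obtain ⟨N, hN⟩ := ((Metric.tendstoUniformlyOn_iff.1 hunif) (δ / 2) hδ2).exists
    obtain ⟨p, hp⟩ := exists_poly_partialSum q N x0 r
    refine ⟨polyMap K p, ⟨p, rfl⟩, ?_⟩
    refine lt_of_le_of_lt ?_ (half_lt_self hδ)
    rw [ContinuousMap.dist_le hδ2.le]
    intro z
    rw [hGval r hr.1 z, polyMap_apply, hp z.1]
    refine (hN (r • (z.1 - x0)) ?_).le
    rw [mem_ball_zero_iff, norm_smul]
    refine lt_of_le_of_lt ?_ hr.2
    apply mul_le_mul_of_nonneg_left _ (norm_nonneg _)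
    calc ‖z.1 - x0‖ ≤ ‖z.1‖ + ‖x0‖ := norm_sub_le _ _
      _ ≤ D + ‖x0‖ + 1 := by linarith [hD z.1 z.2]
  -- identity theorem in the quotient
  have han : AnalyticOnNhd ℂ (fun r => S.mkQL (G r)) Ω :=
    (S.mkQL.differentiable.comp_differentiableOn hGd).analyticOnNhd hΩ
  have hzero : EqOn (fun r => S.mkQL (G r)) 0 Ω := by
    refine han.eqOn_zero_of_preconnected_of_eventuallyEq_zero hΩc.isPreconnected h0 ?_
    filter_upwards [hnear] with r hr
    show S.mkQL (G r) = 0
    rw [Submodule.mkQL_apply, Submodule.mkQ_apply, Submodule.Quotient.mk_eq_zero]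
    exact hr
  have h1S : G 1 ∈ S := by
    have := hzero h1
    simp only [Pi.zero_apply] at this
    rw [Submodule.mkQL_apply, Submodule.mkQ_apply, Submodule.Quotient.mk_eq_zero] at this
    exact this
  have h1S' : G 1 ∈ closure ((LinearMap.range (polyMap K) : Submodule ℂ C(K, ℂ)) :
      Set C(K, ℂ)) := h1S
  obtain ⟨_, ⟨p, rfl⟩, hp⟩ := Metric.mem_closure_iff.1 h1S' ε hε
  refine ⟨p, fun z hz => ?_⟩
  have h2 : dist (G 1 ⟨z, hz⟩) (polyMap K p ⟨z, hz⟩) < ε :=
    lt_of_le_of_lt (ContinuousMap.dist_apply_le_dist _) hp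
  rw [hGval 1 h1, polyMap_apply, dist_comm, dist_eq_norm] at h2
  simpa using h2

/-- **(2.3) Convex Runge**, vector valued. -/
theorem convex_runge_pi {J : Type*} [Fintype J] {K U : Set (Fin n → ℂ)} (hK : IsCompact K)
    (hKc : Convex ℝ K) (hU : IsOpen U) (hKU : K ⊆ U) {g : (Fin n → ℂ) → J → ℂ}
    (hg : DifferentiableOn ℂ g U) {ε : ℝ} (hε : 0 < ε) :
    ∃ p : J → MvPolynomial (Fin n) ℂ,
      ∀ z ∈ K, ‖(fun j => MvPolynomial.eval z (p j)) - g z‖ < ε := by
  have h : ∀ j : J, ∃ p : MvPolynomial (Fin n) ℂ, ∀ z ∈ K,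
      ‖MvPolynomial.eval z p - g z j‖ < ε / 2 := fun j =>
    convex_runge hK hKc hU hKU (differentiableOn_pi.1 hg j) (by linarith)
  choose p hp using h
  refine ⟨p, fun z hz => ?_⟩
  refine lt_of_le_of_lt ?_ (half_lt_self hε)
  rw [pi_norm_le_iff_of_nonneg (by linarith)]
  intro j
  exact (hp j z hz).le

/-- polynomial maps are entire -/
theorem differentiable_eval (p : MvPolynomial (Fin n) ℂ) :
    Differentiable ℂ (fun z : Fin n → ℂ => MvPolynomial.eval z p) := by
  induction p using MvPolynomial.induction_on with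
  | C a => simp
  | add p q hp hq =>
    simp only [map_add]
    exact hp.fun_add hq
  | mul_X p i hp =>
    simp only [map_mul, MvPolynomial.eval_X]
    exact hp.fun_mul (differentiable_apply (𝕜 := ℂ) i)

end Crest.Agent.R279.CRunge
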