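import Crest.Agent.R279.MergeApp250
import Crest.Agent.R279.Runge250
import Crest.Agent.R279.H777a

/-! Row 279 (helper250). Global lifting of holomorphic maps into projective space over an
increasing union of compact convex sets. -/

set_option autoImplicit false
open Set Filter Topology Metric

namespace Crest.Agent.R279.Merge

/-- The quotient of two lifts of the same map into projective space. -/
theorem exists_quot {m n : ℕ} {V1 V2 : Set (Fin m → ℂ)} {g1 g2 : (Fin m → ℂ) → (Fin n → ℂ)}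
    {f : (Fin m → ℂ) → Projectivization ℂ (Fin n → ℂ)} (hV1 : IsOpen V1) (hV2 : IsOpen V2)
    (hd1 : DifferentiableOn ℂ g1 V1) (hd2 : DifferentiableOn ℂ g2 V2)
    (he1 : ∀ w ∈ V1, ∃ h : g1 w ≠ 0, f w = Projectivization.mk ℂ (g1 w) h)
    (he2 : ∀ w ∈ V2, ∃ h : g2 w ≠ 0, f w = Projectivization.mk ℂ (g2 w) h) :
    ∃ u : (Fin m → ℂ) → ℂ, DifferentiableOn ℂ u (V1 ∩ V2) ∧
      ∀ x ∈ V1 ∩ V2, u x ≠ 0 ∧ g1 x = u x • g2 x := by
  have hq : ∀ x, ∃ u : ℂ, x ∈ V1 ∩ V2 → u ≠ 0 ∧ g1 x = u • g2 x := by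
    intro x
    by_cases hx : x ∈ V1 ∩ V2
    · obtain ⟨a, ha⟩ := he1 x hx.1
      obtain ⟨b, hb⟩ := he2 x hx.2
      obtain ⟨u, hu⟩ := (Projectivization.mk_eq_mk_iff ℂ _ _ a b).1 (ha.symm.trans hb)
      exact ⟨u, fun _ => ⟨u.ne_zero, hu.symm⟩⟩
    · exact ⟨0, fun h => absurd h hx⟩
  choose u hu using hq
  refine ⟨u, ?_, hu⟩
  intro x hx
  obtain ⟨b, -⟩ := he2 x hx.2
  obtain ⟨j, hj⟩ := Function.ne_iff.1 b
  have hj : g2 x j ≠ 0 := hj
  have hD1 : DifferentiableAt ℂ (fun y => g1 y j) x :=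
    differentiableAt_pi.1 ((hd1 x hx.1).differentiableAt (hV1.mem_nhds hx.1)) j
  have hD2 : DifferentiableAt ℂ (fun y => g2 y j) x :=
    differentiableAt_pi.1 ((hd2 x hx.2).differentiableAt (hV2.mem_nhds hx.2)) j
  refine DifferentiableAt.differentiableWithinAt ?_
  refine (hD1.fun_mul (hD2.fun_inv hj)).congr_of_eventuallyEq ?_
  have hne : ∀ᶠ y in 𝓝 x, g2 y j ≠ 0 := hD2.continuousAt.eventually_ne hj
  filter_upwards [hne, (hV1.inter hV2).mem_nhds hx] with y hy hyV
  have := (hu y hyV).2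
  rw [this]
  simp only [Pi.smul_apply, smul_eq_mul]
  field_simp

/-- **Global lifting over an exhaustion.** -/
theorem global_lift {m n : ℕ} (hS : Merge.SplitProp m) {U : Set (Fin m → ℂ)} (hU : IsOpen U)
    {K : ℕ → Set (Fin m → ℂ)} (hK : ∀ k, IsCompact (K k)) (hKc : ∀ k, Convex ℝ (K k))
    (hKK : ∀ k, K k ⊆ interior (K (k + 1))) (hKU : (⋃ k, K k) = U)
    {φ : (Fin m → ℂ) → Projectivization ℂ (Fin n → ℂ)}
    (hφ : Crest.AlgGeometry.ProjHolomorphicOn φ U) :
    ∃ G : (Fin m → ℂ) → (Fin n → ℂ), DifferentiableOn ℂ G U ∧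
      ∀ w ∈ U, ∃ h : G w ≠ 0, φ w = Projectivization.mk ℂ (G w) h := by
  have hsub : ∀ k, K k ⊆ U := fun k => by
    rw [← hKU]
    exact subset_iUnion K k
  have hstep : ∀ k, K k ⊆ K (k + 1) := fun k => (hKK k).trans interior_subset
  have hmono : Monotone K := monotone_nat_of_le_succ hstep
  -- local lifts
  have h1 : ∀ k, ∃ (W : Set (Fin m → ℂ)) (g : (Fin m → ℂ) → (Fin n → ℂ)), IsOpen W ∧ K k ⊆ W ∧
      W ⊆ U ∧ DifferentiableOn ℂ g W ∧
      ∀ w ∈ W, ∃ h : g w ≠ 0, φ w = Projectivization.mk ℂ (g w) h := fun k =>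
    lifting' hS (hK k) (hKc k) hU (hsub k) hφ
  choose V g hVo hKV hVU hgd hge using h1
  -- the quotients and their logarithms
  have h2 : ∀ k, ∃ (W : Set (Fin m → ℂ)) (h : (Fin m → ℂ) → ℂ), IsOpen W ∧ K k ⊆ W ∧
      W ⊆ V k ∩ V (k + 1) ∧ DifferentiableOn ℂ h W ∧
      ∀ x ∈ W, g (k + 1) x = Complex.exp (h x) • g k x := by
    intro k
    obtain ⟨u, hud, hu⟩ := exists_quot (hVo (k + 1)) (hVo k) (hgd (k + 1)) (hgd k)
      (hge (k + 1)) (hge k)
    obtain ⟨W, h, hW, hKW, hWV, hh, hhe⟩ := exists_log (hK k) (hKc k)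
      ((hVo (k + 1)).inter (hVo k))
      (subset_inter ((hstep k).trans (hKV (k + 1))) (hKV k)) hud (fun x hx => (hu x hx).1)
    refine ⟨W, h, hW, hKW, fun x hx => ⟨(hWV hx).2, (hWV hx).1⟩, hh, fun x hx => ?_⟩
    rw [hhe x hx]
    exact (hu x (hWV hx)).2
  choose W h hWo hKW hWV hhd hhe using h2
  -- polynomial approximation
  have h3 : ∀ k, ∃ p : MvPolynomial (Fin m) ℂ,
      ∀ z ∈ K k, ‖MvPolynomial.eval z p - h k z‖ < (1 / 2 : ℝ) ^ k := fun k =>
    CRunge.convex_runge (hK k) (hKc k) (hWo k) (hKW k) (hhd k) (by positivity)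
  choose p hp using h3
  set d : ℕ → (Fin m → ℂ) → ℂ := fun k z => h k z - MvPolynomial.eval z (p k) with hd
  have hdb : ∀ k z, z ∈ K k → ‖d k z‖ ≤ (1 / 2 : ℝ) ^ k := by
    intro k z hz
    rw [hd]
    simp only
    rw [norm_sub_rev]
    exact (hp k z hz).le
  have hdd : ∀ k, DifferentiableOn ℂ (d k) (W k) := fun k =>
    (hhd k).sub (CRunge.differentiable_eval (p k)).differentiableOn
  -- the tails
  set E : ℕ → (Fin m → ℂ) → ℂ := fun j z => ∑' i, d (j + i) z with hE
  have hbnd : ∀ j i z, z ∈ K j → ‖d (j + i) z‖ ≤ (1 / 2 : ℝ) ^ i := by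
    intro j i z hz
    refine (hdb (j + i) z (hmono (Nat.le_add_right j i) hz)).trans ?_
    exact pow_le_pow_of_le_one (by norm_num) (by norm_num) (Nat.le_add_left i j)
  have hsummable : Summable (fun i : ℕ => (1 / 2 : ℝ) ^ i) :=
    summable_geometric_of_lt_one (by norm_num) (by norm_num)
  have hEd : ∀ j, DifferentiableOn ℂ (E j) (interior (K j)) := by
    intro j
    refine PG.differentiableOn_of_tendstoUniformlyOn isOpen_interior
      (f := fun N z => ∑ i ∈ Finset.range N, d (j + i) z) ?_ ?_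
    · intro N
      refine DifferentiableOn.fun_sum fun i _ => (hdd (j + i)).mono ?_
      exact interior_subset.trans ((hmono (Nat.le_add_right j i)).trans (hKW (j + i)))
    · exact tendstoUniformlyOn_tsum_nat hsummable fun i z hz => hbnd j i z (interior_subset hz)
  have hErec : ∀ j z, z ∈ K j → E j z = d j z + E (j + 1) z := by
    intro j z hz
    have hs : Summable (fun i => d (j + i) z) :=
      Summable.of_norm_bounded hsummable fun i => hbnd j i z hz
    rw [hE]
    simp only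
    rw [hs.tsum_eq_zero_add]
    simp only [add_zero, add_comm, add_left_comm]
  -- the corrected lifts
  set S : ℕ → (Fin m → ℂ) → ℂ := fun k z => ∑ i ∈ Finset.range k, MvPolynomial.eval z (p i) with hS'
  set F : ℕ → (Fin m → ℂ) → (Fin n → ℂ) := fun k z =>
    Complex.exp (E k z - S k z) • g k z with hF
  have hSd : ∀ k, Differentiable ℂ (S k) := fun k =>
    Differentiable.fun_sum fun i _ => CRunge.differentiable_eval (p i)
  have hFd : ∀ k, DifferentiableOn ℂ (F k) (interior (K k)) := fun k =>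
    (((hEd k).sub (hSd k).differentiableOn).cexp).smul
      ((hgd k).mono (interior_subset.trans (hKV k)))
  have hFrec : ∀ k z, z ∈ K k → F (k + 1) z = F k z := by
    intro k z hz
    rw [hF]
    simp only
    rw [hhe k z (hKW k hz), smul_smul, ← Complex.exp_add, hErec k z hz]
    congr 2
    rw [hS', hd]
    simp only [Finset.sum_range_succ]
    ring
  have hFle : ∀ j k z, j ≤ k → z ∈ K j → F k z = F j z := by
    intro j k z hjk hz
    induction k, hjk using Nat.le_induction with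
    | base => rfl
    | succ k hjk ih =>
      rw [hFrec k z (hmono hjk hz), ih]
  have hex : ∀ z, ∃ j, z ∈ U → z ∈ K j := by
    intro z
    by_cases hz : z ∈ U
    · rw [← hKU, mem_iUnion] at hz
      obtain ⟨j, hj⟩ := hz
      exact ⟨j, fun _ => hj⟩
    · exact ⟨0, fun h => absurd h hz⟩
  choose J hJ using hex
  have hG : ∀ j z, z ∈ K j → F (J z) z = F j z := by
    intro j z hz
    rcases le_total j (J z) with hle | hle
    · exact hFle j (J z) z hle hz
    · exact (hFle (J z) j z hle (hJ z (hsub j hz))).symm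
  refine ⟨fun z => F (J z) z, ?_, ?_⟩
  · intro z hz
    have hz1 : z ∈ interior (K (J z + 1)) := hKK (J z) (hJ z hz)
    refine DifferentiableAt.differentiableWithinAt ?_
    refine ((hFd (J z + 1)).differentiableAt (isOpen_interior.mem_nhds hz1)).congr_of_eventuallyEq
      ?_
    filter_upwards [isOpen_interior.mem_nhds hz1] with w hw
    exact hG (J z + 1) w (interior_subset hw)
  · intro z hz
    obtain ⟨a, ha⟩ := hge (J z) z (hKV (J z) (hJ z hz))
    have hne : F (J z) z ≠ 0 := smul_ne_zero (Complex.exp_ne_zero _) a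
    refine ⟨hne, ?_⟩
    rw [ha, Projectivization.mk_eq_mk_iff']
    refine ⟨Complex.exp (-(E (J z) z - S (J z) z)), ?_⟩
    rw [hF]
    simp only
    rw [smul_smul, ← Complex.exp_add]
    simp

end Crest.Agent.R279.Merge
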