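import Crest.Agent.R279.EllFinal928
import Crest.Agent.R279.Ell299
import Crest.Agent.R279.GlobalLift250
import Crest.Agent.R279.Split250
import Crest.Agent.R279.H777j
import Crest.Agent.R279.GenDefs28

/-!
R279 (helper928), Part 9: `twoFam` without hypotheses, in the form consumed by `Final149`.
-/

set_option autoImplicit false

open Set Metric

namespace Crest.Agent.R279.EllAlg

theorem flowTarget : FlowTarget := by
  intro N g a1 a2 b hN hg ha1 ha2 hb hne hq x0 hx0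
  obtain ⟨N', h1, h2, h3, S1, S2, Y, h4, h5, h6, h7⟩ := Ell.ell_flow hN hg ha1 ha2 hb hne
    (fun x hx => by rw [hq x hx, Ell.qf_eq_sum]; rfl) hx0
  refine ⟨N', h1, h2, h3, S1, S2, Y, h4, h5, h6, fun x hx => ?_⟩
  obtain ⟨k1, k2, k3, k4⟩ := h7 x hx
  refine ⟨k1, k2, k3, fun τ => ⟨(k4 τ).1, ?_, (k4 τ).2.2⟩⟩
  rw [(k4 τ).2.1, Ell.qf_eq_sum]
  rfl

theorem globalLiftTarget : GlobalLiftTarget := by
  intro m n U K φ hU hK hKc hKK hKU hφ
  exact Merge.global_lift (Merge.splitProp_of fun _ c => Box.sprop c) hU hK hKc hKK hKU hφ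

/-- **Part 9**, unconditional. -/
theorem twoFam_of_LL0 (Q : MvPolynomial (Fin 4) ℂ) (hQ : Q.IsHomogeneous 4)
    (hs : ∀ p : Fin 4 → ℂ, p ≠ 0 → MvPolynomial.eval p Q = 0 →
      ∃ i : Fin 4, MvPolynomial.eval p (MvPolynomial.pderiv i Q) ≠ 0)
    (x : C4) (hx : x ∈ Vstar Q) (h : Gen.LL0 Q x) : Fam.TwoFam (Vstar Q) x := by
  obtain ⟨β, β', hi⟩ := h
  refine twoFam globalLiftTarget flowTarget hQ (fun v hv hg => ?_) hx β β' hi
  obtain ⟨i, hi⟩ := hs v hv.1 hv.2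
  exact hi (congrFun hg i)

end Crest.Agent.R279.EllAlg
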