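import Crest.Agent.R279.Defs765
import Crest.Agent.R279.FamDefs520
import Crest.Prelude.Def_ProjHolo

/-!
R279 (helper928), Part 9: from a family of curves in the projective space given by two
homogeneous lifts (each possibly with zeros) to one lift into the cone.
-/

set_option autoImplicit false

open Set Metric

namespace Crest.Agent.R279.EllAlg

open Fam (C2)

/-- (helper250) global lifts over an exhaustion by compact convex sets. -/
def GlobalLiftTarget : Prop :=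
  ∀ (m n : ℕ) (U : Set (Fin m → ℂ)) (K : ℕ → Set (Fin m → ℂ))
    (φ : (Fin m → ℂ) → Projectivization ℂ (Fin n → ℂ)),
    IsOpen U → (∀ k, IsCompact (K k)) → (∀ k, Convex ℝ (K k)) →
    (∀ k, K k ⊆ interior (K (k + 1))) → (⋃ k, K k) = U →
    Crest.AlgGeometry.ProjHolomorphicOn φ U →
    ∃ G : (Fin m → ℂ) → (Fin n → ℂ), DifferentiableOn ℂ G U ∧
      ∀ w ∈ U, ∃ h : G w ≠ 0, φ w = Projectivization.mk ℂ (G w) h

/-- `ℂ³ ≃ ℂ² × ℂ`. -/
noncomputable def e3 : (Fin 3 → ℂ) ≃L[ℂ] C2 × ℂ :=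
  LinearEquiv.toContinuousLinearEquiv
    { toFun := fun w => (![w 0, w 1], w 2)
      invFun := fun p => ![p.1 0, p.1 1, p.2]
      map_add' := by
        intro v w
        ext i
        · fin_cases i <;> simp
        · simp
      map_smul' := by
        intro t w
        ext i
        · fin_cases i <;> simp
        · simp
      left_inv := by
        intro w
        ext i
        fin_cases i <;> simp
      right_inv := by
        intro p
        ext i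
        · fin_cases i <;> simp
        · simp }

/-- exhaustion of `ball 0 r × ℂ` -/
theorem exists_exhaustion {r : ℝ} (hr : 0 < r) :
    ∃ K : ℕ → Set (C2 × ℂ), (∀ k, IsCompact (K k)) ∧ (∀ k, Convex ℝ (K k)) ∧
      (∀ k, ∃ O, IsOpen O ∧ K k ⊆ O ∧ O ⊆ K (k + 1)) ∧
      (⋃ k, K k) = ball (0 : C2) r ×ˢ (univ : Set ℂ) := by
  set ρ : ℕ → ℝ := fun k => r - r / (k + 1) with hρ
  have hρr : ∀ k, ρ k < r := fun k => by
    have : 0 < r / (k + 1) := by positivity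
    simp only [hρ]; linarith
  have hρm : ∀ k, ρ k < ρ (k + 1) := fun k => by
    simp only [hρ]
    have : r / ((k + 1 : ℕ) + 1) < r / (k + 1) := by
      apply div_lt_div_of_pos_left hr (by positivity)
      push_cast
      linarith
    linarith
  refine ⟨fun k => closedBall (0 : C2) (ρ k) ×ˢ closedBall (0 : ℂ) k, ?_, ?_, ?_, ?_⟩
  · intro k
    exact (isCompact_closedBall _ _).prod (isCompact_closedBall _ _)
  · intro k
    exact (convex_closedBall _ _).prod (convex_closedBall _ _)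
  · intro k
    refine ⟨ball (0 : C2) (ρ (k + 1)) ×ˢ ball (0 : ℂ) ((k + 1 : ℕ) : ℝ),
      isOpen_ball.prod isOpen_ball, ?_, ?_⟩
    · exact prod_mono (closedBall_subset_ball (hρm k))
        (closedBall_subset_ball (by push_cast; linarith))
    · exact prod_mono ball_subset_closedBall ball_subset_closedBall
  · ext ⟨z, τ⟩
    simp only [mem_iUnion, mem_prod, mem_closedBall, mem_ball, dist_zero_right, mem_univ, and_true]
    constructor
    · rintro ⟨k, h1, -⟩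
      exact lt_of_le_of_lt h1 (hρr k)
    · intro h
      obtain ⟨k1, hk1⟩ := exists_nat_gt (r / (r - ‖z‖))
      obtain ⟨k2, hk2⟩ := exists_nat_ge ‖τ‖
      refine ⟨max k1 k2, ?_, ?_⟩
      · have h0 : 0 < r - ‖z‖ := by linarith
        have h1 : r / (r - ‖z‖) < ((max k1 k2 : ℕ) : ℝ) + 1 := by
          have : (k1 : ℝ) ≤ ((max k1 k2 : ℕ) : ℝ) := by exact_mod_cast le_max_left _ _
          linarith
        have h2 : r / (((max k1 k2 : ℕ) : ℝ) + 1) < r - ‖z‖ := by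
          rw [div_lt_iff₀ (by positivity)]
          rw [div_lt_iff₀ h0] at h1
          linarith
        simp only [hρ]
        linarith
      · have : (k2 : ℝ) ≤ ((max k1 k2 : ℕ) : ℝ) := by exact_mod_cast le_max_right _ _
        linarith

theorem exists_family (hGL : GlobalLiftTarget) {S : Set C4}
    (hS : ∀ t : ℂ, t ≠ 0 → ∀ v ∈ S, t • v ∈ S) {r : ℝ} (hr : 0 < r) {ψ : C2 → C4}
    {v₁ v₂ : C2 × ℂ → C4} (a : C4 →L[ℂ] ℂ) (ha : ∀ z ∈ ball (0 : C2) r, a (ψ z) = 1)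
    (h₁ : DifferentiableOn ℂ v₁ (ball 0 r ×ˢ univ))
    (h₂ : DifferentiableOn ℂ v₂ (ball 0 r ×ˢ univ))
    (hS₁ : ∀ p ∈ ball (0 : C2) r ×ˢ (univ : Set ℂ), v₁ p ≠ 0 → v₁ p ∈ S)
    (hS₂ : ∀ p ∈ ball (0 : C2) r ×ˢ (univ : Set ℂ), v₂ p ≠ 0 → v₂ p ∈ S)
    (hne : ∀ p ∈ ball (0 : C2) r ×ˢ (univ : Set ℂ), v₁ p ≠ 0 ∨ v₂ p ≠ 0)
    (hprop : ∀ p ∈ ball (0 : C2) r ×ˢ (univ : Set ℂ), v₁ p ≠ 0 → v₂ p ≠ 0 →
      ∃ t : ℂ, t ≠ 0 ∧ v₁ p = t • v₂ p)
    (h0 : ∀ z ∈ ball (0 : C2) r, ∃ t₁ t₂ : ℂ, v₁ (z, 0) = t₁ • ψ z ∧ v₂ (z, 0) = t₂ • ψ z) :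
    ∃ L : C2 × ℂ → C4, DifferentiableOn ℂ L (ball 0 r ×ˢ univ) ∧
      (∀ z ∈ ball (0 : C2) r, L (z, 0) = ψ z) ∧
      ∀ p ∈ ball (0 : C2) r ×ˢ (univ : Set ℂ), L p ∈ S ∧
        ∃ t : ℂ, t ≠ 0 ∧ (L p = t • v₁ p ∨ L p = t • v₂ p) := by
  classical
  obtain ⟨K, hK, hKc, hKK, hKU⟩ := exists_exhaustion hr
  set D : Set (C2 × ℂ) := ball (0 : C2) r ×ˢ (univ : Set ℂ) with hD
  have hDo : IsOpen D := isOpen_ball.prod isOpen_univ
  set φ : (Fin 3 → ℂ) → Projectivization ℂ (Fin 4 → ℂ) := fun w =>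
    if h : v₂ (e3 w) ≠ 0 then Projectivization.mk ℂ (v₂ (e3 w)) h
    else if h' : v₁ (e3 w) ≠ 0 then Projectivization.mk ℂ (v₁ (e3 w)) h'
    else Projectivization.mk ℂ (fun _ => 1) (by
      intro h; have := congrFun h 0; simp at this) with hφ
  have hφ2 : ∀ w (h : v₂ (e3 w) ≠ 0), φ w = Projectivization.mk ℂ (v₂ (e3 w)) h := by
    intro w h
    simp only [hφ]
    rw [dif_pos h]
  have hφ1 : ∀ w, e3 w ∈ D → ∀ (h : v₁ (e3 w) ≠ 0), φ w = Projectivization.mk ℂ (v₁ (e3 w)) h := by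
    intro w hw h
    by_cases h2 : v₂ (e3 w) ≠ 0
    · rw [hφ2 w h2, Projectivization.mk_eq_mk_iff']
      obtain ⟨t, ht, htv⟩ := hprop _ hw h h2
      exact ⟨t⁻¹, by rw [htv, smul_smul, inv_mul_cancel₀ ht, one_smul]⟩
    · simp only [hφ]
      rw [dif_neg h2, dif_pos h]
  set U : Set (Fin 3 → ℂ) := e3 ⁻¹' D with hU
  have hUo : IsOpen U := hDo.preimage e3.continuous
  have he3 : Differentiable ℂ (e3 : (Fin 3 → ℂ) → C2 × ℂ) := e3.differentiable
  have h1U : DifferentiableOn ℂ (fun w => v₁ (e3 w)) U :=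
    h₁.comp he3.differentiableOn (fun w hw => hw)
  have h2U : DifferentiableOn ℂ (fun w => v₂ (e3 w)) U :=
    h₂.comp he3.differentiableOn (fun w hw => hw)
  have hhol : Crest.AlgGeometry.ProjHolomorphicOn φ U := by
    intro w hw
    rcases hne (e3 w) hw with h | h
    · refine ⟨U ∩ (fun w => v₁ (e3 w)) ⁻¹' {0}ᶜ,
        h1U.continuousOn.isOpen_inter_preimage hUo isOpen_compl_singleton, ⟨hw, h⟩,
        fun w => v₁ (e3 w), h1U.mono inter_subset_left, fun w' hw' => ⟨hw'.2, hφ1 w' hw'.1 hw'.2⟩⟩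
    · refine ⟨U ∩ (fun w => v₂ (e3 w)) ⁻¹' {0}ᶜ,
        h2U.continuousOn.isOpen_inter_preimage hUo isOpen_compl_singleton, ⟨hw, h⟩,
        fun w => v₂ (e3 w), h2U.mono inter_subset_left, fun w' hw' => ⟨hw'.2, hφ2 w' hw'.2⟩⟩
  obtain ⟨G, hG, hGφ⟩ := hGL 3 4 U (fun k => e3 ⁻¹' K k) φ hUo
    (fun k => e3.toHomeomorph.isCompact_preimage.2 (hK k))
    (fun k => by
      have := (hKc k).linear_preimage ((e3 : (Fin 3 → ℂ) →ₗ[ℂ] C2 × ℂ).restrictScalars ℝ)
      exact this)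
    (fun k => by
      obtain ⟨O, hO, h1, h2⟩ := hKK k
      exact (preimage_mono h1).trans (interior_maximal (preimage_mono h2)
        (hO.preimage e3.continuous)))
    (by rw [hU, ← hKU, preimage_iUnion]) hhol
  -- the lift in the original coordinates
  set M : C2 × ℂ → C4 := fun p => G (e3.symm p) with hM
  have hMd : DifferentiableOn ℂ M D :=
    hG.comp e3.symm.differentiable.differentiableOn
      (fun p hp => by rw [hU, mem_preimage, e3.apply_symm_apply]; exact hp)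
  have hMv : ∀ p ∈ D, M p ≠ 0 ∧ ∃ t : ℂ, t ≠ 0 ∧
      ((v₁ p ≠ 0 ∧ M p = t • v₁ p) ∨ (v₂ p ≠ 0 ∧ M p = t • v₂ p)) := by
    intro p hp
    have hpU : e3.symm p ∈ U := by rw [hU, mem_preimage, e3.apply_symm_apply]; exact hp
    obtain ⟨hne', he⟩ := hGφ _ hpU
    refine ⟨hne', ?_⟩
    rcases hne p hp with h | h
    · have h' : v₁ (e3 (e3.symm p)) ≠ 0 := by rwa [e3.apply_symm_apply]
      rw [hφ1 _ hpU h', Projectivization.mk_eq_mk_iff'] at he
      obtain ⟨t, ht⟩ := he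
      rw [e3.apply_symm_apply] at ht
      have ht0 : t ≠ 0 := by
        rintro rfl
        rw [zero_smul] at ht
        exact h ht.symm
      exact ⟨t⁻¹, inv_ne_zero ht0, Or.inl ⟨h, by
        rw [← ht, smul_smul, inv_mul_cancel₀ ht0, one_smul]⟩⟩
    · have h' : v₂ (e3 (e3.symm p)) ≠ 0 := by rwa [e3.apply_symm_apply]
      rw [hφ2 _ h', Projectivization.mk_eq_mk_iff'] at he
      obtain ⟨t, ht⟩ := he
      rw [e3.apply_symm_apply] at ht
      have ht0 : t ≠ 0 := by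
        rintro rfl
        rw [zero_smul] at ht
        exact h ht.symm
      exact ⟨t⁻¹, inv_ne_zero ht0, Or.inr ⟨h, by
        rw [← ht, smul_smul, inv_mul_cancel₀ ht0, one_smul]⟩⟩
  have hM0 : ∀ z ∈ ball (0 : C2) r, a (M (z, 0)) ≠ 0 ∧ M (z, 0) = a (M (z, 0)) • ψ z := by
    intro z hz
    have hp : (z, (0 : ℂ)) ∈ D := ⟨hz, mem_univ _⟩
    obtain ⟨hne', t, ht, hor⟩ := hMv _ hp
    obtain ⟨t₁, t₂, e₁, e₂⟩ := h0 z hz
    have key : ∃ k : ℂ, M (z, 0) = k • ψ z := by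
      rcases hor with ⟨-, h⟩ | ⟨-, h⟩
      · exact ⟨t * t₁, by rw [h, e₁, smul_smul]⟩
      · exact ⟨t * t₂, by rw [h, e₂, smul_smul]⟩
    obtain ⟨k, hk⟩ := key
    have hk' : a (M (z, 0)) = k := by rw [hk, map_smul, ha z hz, smul_eq_mul, mul_one]
    rw [hk']
    refine ⟨?_, hk⟩
    rintro rfl
    rw [zero_smul] at hk
    exact hne' hk
  have hs : DifferentiableOn ℂ (fun p : C2 × ℂ => a (M (p.1, 0))) D := by
    have h1 : DifferentiableOn ℂ (fun p : C2 × ℂ => M (p.1, 0)) D :=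
      hMd.comp (f := fun p : C2 × ℂ => (p.1, (0 : ℂ)))
        (differentiable_fst.prodMk (differentiable_const _)).differentiableOn
        (fun p hp => ⟨hp.1, mem_univ _⟩)
    exact a.differentiable.comp_differentiableOn h1
  refine ⟨fun p => (a (M (p.1, 0)))⁻¹ • M p, ?_, ?_, ?_⟩
  · exact (hs.inv (fun p hp => (hM0 p.1 hp.1).1)).smul hMd
  · intro z hz
    obtain ⟨h1, h2⟩ := hM0 z hz
    calc (a (M (z, 0)))⁻¹ • M (z, 0) = (a (M (z, 0)))⁻¹ • (a (M (z, 0)) • ψ z) := by rw [← h2]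
      _ = ψ z := by rw [smul_smul, inv_mul_cancel₀ h1, one_smul]
  · intro p hp
    have h1 := (hM0 p.1 hp.1).1
    obtain ⟨hne', t, ht, hor⟩ := hMv _ hp
    rcases hor with ⟨hv, h⟩ | ⟨hv, h⟩
    · refine ⟨?_, (a (M (p.1, 0)))⁻¹ * t, mul_ne_zero (inv_ne_zero h1) ht, Or.inl ?_⟩
      · exact hS _ (inv_ne_zero h1) _ (by rw [h]; exact hS _ ht _ (hS₁ p hp hv))
      · simp only; rw [h, smul_smul]
    · refine ⟨?_, (a (M (p.1, 0)))⁻¹ * t, mul_ne_zero (inv_ne_zero h1) ht, Or.inr ?_⟩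
      · exact hS _ (inv_ne_zero h1) _ (by rw [h]; exact hS _ ht _ (hS₂ p hp hv))
      · simp only; rw [h, smul_smul]

end Crest.Agent.R279.EllAlg
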