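import Crest.Agent.R279.EllStart928
import Crest.Agent.R279.EllLift928

/-!
R279 (helper928), Part 9: the flow on the genus one curve mapped into the plane sections of the
quartic: the two homogeneous lifts `v₁`, `v₂`, and the velocity of the resulting family.
-/

set_option autoImplicit false

open Set Metric

namespace Crest.Agent.R279.EllAlg

open Fam (C2)

variable {Q : MvPolynomial (Fin 4) ℂ} {x₁ : C4}

/-- (helper299) the global flow on the curves `y² = g(s)`, in homogeneous form. -/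
def FlowTarget : Prop :=
  ∀ (N : Set C2) (g : C2 → Fin 5 → ℂ) (a1 a2 b : C2 → ℂ), IsOpen N →
    DifferentiableOn ℂ g N → DifferentiableOn ℂ a1 N → DifferentiableOn ℂ a2 N →
    DifferentiableOn ℂ b N → (∀ x ∈ N, a1 x ≠ 0 ∨ a2 x ≠ 0) →
    (∀ x ∈ N, b x ^ 2 = quart (g x) (a1 x) (a2 x)) → ∀ x0 ∈ N,
    ∃ N' ⊆ N, IsOpen N' ∧ x0 ∈ N' ∧ ∃ S1 S2 Y : C2 × ℂ → ℂ,
      DifferentiableOn ℂ S1 (N' ×ˢ univ) ∧ DifferentiableOn ℂ S2 (N' ×ˢ univ) ∧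
      DifferentiableOn ℂ Y (N' ×ˢ univ) ∧
      ∀ x ∈ N', S1 (x, 0) = a1 x ∧ S2 (x, 0) = a2 x ∧ Y (x, 0) = b x ∧
        ∀ τ, (S1 (x, τ) ≠ 0 ∨ S2 (x, τ) ≠ 0) ∧
          Y (x, τ) ^ 2 = quart (g x) (S1 (x, τ)) (S2 (x, τ)) ∧
          deriv (fun t => S1 (x, t)) τ * S2 (x, τ) - S1 (x, τ) * deriv (fun t => S2 (x, t)) τ
            = Y (x, τ)

/-- `Q` on the plane of the branch, with a common scalar on the `u`-part. -/
theorem eval_plane (β : BranchAt Q x₁) {c : ℂ} (hc : c ∈ β.B) (l m s₁ s₂ : ℂ) :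
    MvPolynomial.eval (l • β.b c + m • (s₁ • β.u₁ c + s₂ • β.u₂ c)) Q
      = β.d (c, s₁, s₂) * m ^ 2 * (l ^ 2 * β.q2 (c, s₁, s₂) + l * m * β.q3 (c, s₁, s₂)
          + m ^ 2 * β.q4 (c, s₁, s₂)) := by
  have h := β.expand c hc l (m * s₁) (m * s₂)
  rw [β.hom_d c hc, β.hom_q2 c hc, β.hom_q3 c hc, β.hom_q4 c hc] at h
  have e : l • β.b c + m • (s₁ • β.u₁ c + s₂ • β.u₂ c)
      = l • β.b c + (m * s₁) • β.u₁ c + (m * s₂) • β.u₂ c := by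
    rw [smul_add, smul_smul, smul_smul, add_assoc]
  rw [e, h]
  have he := β.e_le
  interval_cases β.e
  · ring
  · ring

/-- The coefficients of the two lifts. -/
theorem eval_v₂ (β : BranchAt Q x₁) {c : ℂ} (hc : c ∈ β.B) {s₁ s₂ y : ℂ}
    (hy : y ^ 2 = quart (fun i => β.a i c) s₁ s₂) :
    MvPolynomial.eval ((-β.q3 (c, s₁, s₂) + β.h (c, s₁, s₂) * y) • β.b c
      + (2 * β.q2 (c, s₁, s₂)) • (s₁ • β.u₁ c + s₂ • β.u₂ c)) Q = 0 := by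
  rw [eval_plane β hc]
  have h := β.disc c hc s₁ s₂
  rw [← hy] at h
  linear_combination (-4 * β.d (c, s₁, s₂) * β.q2 (c, s₁, s₂) ^ 3) * h

theorem eval_v₁ (β : BranchAt Q x₁) {c : ℂ} (hc : c ∈ β.B) {s₁ s₂ y : ℂ}
    (hy : y ^ 2 = quart (fun i => β.a i c) s₁ s₂) :
    MvPolynomial.eval ((2 * β.q4 (c, s₁, s₂)) • β.b c
      + (-β.q3 (c, s₁, s₂) - β.h (c, s₁, s₂) * y) • (s₁ • β.u₁ c + s₂ • β.u₂ c)) Q = 0 := by
  rw [eval_plane β hc]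
  have h := β.disc c hc s₁ s₂
  rw [← hy] at h
  linear_combination (-β.d (c, s₁, s₂) * (-β.q3 (c, s₁, s₂) - β.h (c, s₁, s₂) * y) ^ 2
    * β.q4 (c, s₁, s₂)) * h

/-- A combination `l b + m u(s)` vanishes only for `l = m = 0`. -/
theorem comb_eq_zero {b u₁ u₂ : C4} (hi : LinearIndependent ℂ ![b, u₁, u₂]) {l m s₁ s₂ : ℂ}
    (hs : s₁ ≠ 0 ∨ s₂ ≠ 0) (h : l • b + m • (s₁ • u₁ + s₂ • u₂) = 0) : l = 0 ∧ m = 0 := by
  have h' := Fintype.linearIndependent_iff.1 hi ![l, m * s₁, m * s₂] (by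
    simp only [Fin.sum_univ_three, Matrix.cons_val_zero, Matrix.cons_val_one, Matrix.cons_val]
    rw [← h, smul_add, smul_smul, smul_smul, add_assoc])
  have h0 := h' 0
  have h1 := h' 1
  have h2 := h' 2
  simp at h0 h1 h2
  refine ⟨h0, ?_⟩
  rcases hs with hs | hs
  · exact h1.resolve_right hs
  · exact h2.resolve_right hs

/-- Proportional nonzero vectors with vanishing determinant of coefficients. -/
theorem prop_of_det {b u : C4} {l₁ m₁ l₂ m₂ : ℂ} (hdet : l₁ * m₂ = l₂ * m₁)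
    (h₁ : l₁ • b + m₁ • u ≠ 0) (h₂ : l₂ • b + m₂ • u ≠ 0) :
    ∃ t : ℂ, t ≠ 0 ∧ l₁ • b + m₁ • u = t • (l₂ • b + m₂ • u) := by
  have key1 : m₂ • (l₁ • b + m₁ • u) = m₁ • (l₂ • b + m₂ • u) := by
    simp only [smul_add, smul_smul]
    congr 1
    · congr 1; linear_combination hdet
    · congr 1; ring
  have key2 : l₂ • (l₁ • b + m₁ • u) = l₁ • (l₂ • b + m₂ • u) := by
    simp only [smul_add, smul_smul]
    congr 1
    · congr 1; ring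
    · congr 1; linear_combination -hdet
  by_cases hm : m₂ = 0
  · have hl : l₂ ≠ 0 := by
      rintro rfl
      apply h₂
      rw [hm, zero_smul, zero_smul, zero_add]
    have hl1 : l₁ ≠ 0 := by
      rintro rfl
      rw [zero_smul ℂ (l₂ • b + m₂ • u)] at key2
      exact h₁ ((smul_eq_zero.1 key2).resolve_left hl)
    refine ⟨l₂⁻¹ * l₁, mul_ne_zero (inv_ne_zero hl) hl1, ?_⟩
    rw [mul_smul, ← key2, smul_smul, inv_mul_cancel₀ hl, one_smul]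
  · have hm1 : m₁ ≠ 0 := by
      rintro rfl
      rw [zero_smul _ (l₂ • b + m₂ • u)] at key1
      exact h₁ ((smul_eq_zero.1 key1).resolve_left hm)
    refine ⟨m₂⁻¹ * m₁, mul_ne_zero (inv_ne_zero hm) hm1, ?_⟩
    rw [mul_smul, ← key1, smul_smul, inv_mul_cancel₀ hm, one_smul]

/-- Dual functionals of a frame of the plane. -/
theorem exists_dual {b u₁ u₂ : C4} (h : LinearIndependent ℂ ![b, u₁, u₂]) :
    ∃ P₁ P₂ : C4 →L[ℂ] ℂ, (P₁ b = 0 ∧ P₁ u₁ = 1 ∧ P₁ u₂ = 0) ∧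
      (P₂ b = 0 ∧ P₂ u₁ = 0 ∧ P₂ u₂ = 1) := by
  obtain ⟨w, hw⟩ := exists_complete h
  obtain ⟨A, hA⟩ := isUnit_of_inj (frameL b u₁ u₂ w) (fun k hk => by
    rw [frameL_apply] at hk; exact hw k hk)
  have inv : ∀ k : C4, (↑A⁻¹ : C4 →L[ℂ] C4) (frameL b u₁ u₂ w k) = k := by
    intro k
    rw [← hA, ← mul_apply_eq_comp, Units.inv_mul]
    rfl
  have hb : frameL b u₁ u₂ w (Pi.single 0 1) = b := by simp [frameL_apply]
  have h1 : frameL b u₁ u₂ w (Pi.single 1 1) = u₁ := by simp [frameL_apply]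
  have h2 : frameL b u₁ u₂ w (Pi.single 2 1) = u₂ := by simp [frameL_apply]
  have ib := inv (Pi.single 0 1)
  have i1 := inv (Pi.single 1 1)
  have i2 := inv (Pi.single 2 1)
  rw [hb] at ib
  rw [h1] at i1
  rw [h2] at i2
  refine ⟨(ContinuousLinearMap.proj 1 : C4 →L[ℂ] ℂ).comp (↑A⁻¹ : C4 →L[ℂ] C4),
    (ContinuousLinearMap.proj 2 : C4 →L[ℂ] ℂ).comp (↑A⁻¹ : C4 →L[ℂ] C4), ?_, ?_⟩
  · simp [ib, i1, i2]
  · simp [ib, i1, i2]

/-- The velocity of a curve staying in the planes `⟨b, S₁u₁ + S₂u₂⟩` of the cone. -/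
theorem velocity {b u₁ u₂ : C4} (hi : LinearIndependent ℂ ![b, u₁, u₂]) {ℓ : ℂ → C4} {D : C4}
    {S₁ S₂ : ℂ → ℂ} {S₁' S₂' α y : ℂ} (hℓ : HasDerivAt ℓ D 0) (hS₁ : HasDerivAt S₁ S₁' 0)
    (hS₂ : HasDerivAt S₂ S₂' 0) (hx : ℓ 0 = α • b + S₁ 0 • u₁ + S₂ 0 • u₂)
    (hW : S₁' * S₂ 0 - S₁ 0 * S₂' = y) (hy : y ≠ 0)
    (hpl : ∀ τ, ∃ A M : ℂ, ℓ τ = A • b + M • (S₁ τ • u₁ + S₂ τ • u₂)) :
    ¬ ∃ k : ℂ, D = k • ℓ 0 := by
  obtain ⟨P₁, P₂, ⟨p1, p2, p3⟩, ⟨p4, p5, p6⟩⟩ := exists_dual hi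
  have hF : ∀ τ, P₁ (ℓ τ) * S₂ τ - P₂ (ℓ τ) * S₁ τ = 0 := by
    intro τ
    obtain ⟨A, M, h⟩ := hpl τ
    rw [h]
    simp only [map_add, map_smul, smul_eq_mul, p1, p2, p3, p4, p5, p6]
    ring
  have hP₁ : HasDerivAt (fun τ => P₁ (ℓ τ)) (P₁ D) 0 := P₁.hasFDerivAt.comp_hasDerivAt 0 hℓ
  have hP₂ : HasDerivAt (fun τ => P₂ (ℓ τ)) (P₂ D) 0 := P₂.hasFDerivAt.comp_hasDerivAt 0 hℓ
  have hd := (hP₁.mul hS₂).sub (hP₂.mul hS₁)
  have hd0 : HasDerivAt (fun τ => P₁ (ℓ τ) * S₂ τ - P₂ (ℓ τ) * S₁ τ) 0 0 := by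
    have : (fun τ => P₁ (ℓ τ) * S₂ τ - P₂ (ℓ τ) * S₁ τ) = fun _ => 0 := funext hF
    rw [this]
    exact hasDerivAt_const _ _
  have he := hd.unique hd0
  have x1 : P₁ (ℓ 0) = S₁ 0 := by
    rw [hx]
    simp only [map_add, map_smul, smul_eq_mul, p1, p2, p3]
    ring
  have x2 : P₂ (ℓ 0) = S₂ 0 := by
    rw [hx]
    simp only [map_add, map_smul, smul_eq_mul, p4, p5, p6]
    ring
  rintro ⟨k, hk⟩
  rw [hk] at he
  simp only [map_smul, smul_eq_mul, x1, x2] at he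
  apply hy
  rw [← hW]
  linear_combination -he

theorem eval_smul_zero (hQ : Q.IsHomogeneous 4) (t : ℂ) {v : C4}
    (h : MvPolynomial.eval v Q = 0) : MvPolynomial.eval (t • v) Q = 0 := by
  have : MvPolynomial.eval (t • v) Q = t ^ 4 * MvPolynomial.eval v Q := by
    rw [MvPolynomial.eval_eq, MvPolynomial.eval_eq, Finset.mul_sum]
    refine Finset.sum_congr rfl fun d hd => ?_
    have h4 := hQ (MvPolynomial.mem_support_iff.1 hd)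
    have h5 : ∑ i ∈ d.support, d i = 4 := by
      simpa [Finsupp.weight_apply, Finsupp.sum] using h4
    simp only [Pi.smul_apply, smul_eq_mul, mul_pow, Finset.prod_mul_distrib]
    rw [Finset.prod_pow_eq_pow_sum, h5]
    ring
  rw [this, h, mul_zero]

/-- **The family of entire curves of one branch.** -/
theorem exists_branch_family (hGL : GlobalLiftTarget) (hFl : FlowTarget)
    (hQ : Q.IsHomogeneous 4) (hsm : ∀ v ∈ Vstar Q, grad Q v ≠ 0) (β : BranchAt Q x₁)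
    {ψ : C2 → C4} {r₀ : ℝ} (hr₀ : 0 < r₀) (hψ : DifferentiableOn ℂ ψ (ball 0 r₀))
    (hm : MapsTo ψ (ball 0 r₀) (Vstar Q)) (h0 : ψ 0 = x₁) (a : C4 →L[ℂ] ℂ)
    (ha : ∀ z ∈ ball (0 : C2) r₀, a (ψ z) = 1) :
    ∃ r : ℝ, 0 < r ∧ r ≤ r₀ ∧ ∃ L : C2 × ℂ → C4,
      DifferentiableOn ℂ L (ball 0 r ×ˢ univ) ∧ MapsTo L (ball 0 r ×ˢ univ) (Vstar Q) ∧
      (∀ z ∈ ball (0 : C2) r, L (z, 0) = ψ z) ∧
      pr (grad Q (β.b β.c₁)) (deriv (fun τ => L (0, τ)) 0) = 0 ∧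
      pr (grad Q x₁) (deriv (fun τ => L (0, τ)) 0) = 0 ∧
      ¬ ∃ k : ℂ, deriv (fun τ => L (0, τ)) 0 = k • x₁ := by
  obtain ⟨W, hWs, ⟨sd⟩⟩ := exists_start hQ hsm β isOpen_ball
    (mem_ball_self hr₀ : (0 : C2) ∈ ball (0 : C2) r₀) hψ hm h0
  have hgd : DifferentiableOn ℂ (fun (z : C2) (i : Fin 5) => β.a i (sd.c z)) W :=
    differentiableOn_pi.2 fun i => (β.diff_a i).comp sd.diff_c sd.c_mem
  obtain ⟨N', hN'W, hN'o, h0N', S₁, S₂, Y, hS₁, hS₂, hY, hflow⟩ :=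
    hFl W (fun z i => β.a i (sd.c z)) sd.s₁ sd.s₂ sd.y sd.isOpen hgd sd.diff_s₁ sd.diff_s₂
      sd.diff_y sd.ne sd.y_sq 0 sd.mem
  obtain ⟨r', hr', hr'N⟩ := Metric.isOpen_iff.1 hN'o 0 h0N'
  set r : ℝ := min r' r₀ with hr
  have hrpos : 0 < r := lt_min hr' hr₀
  have hrN : ball (0 : C2) r ⊆ N' := (ball_subset_ball (min_le_left _ _)).trans hr'N
  have hrr₀ : ball (0 : C2) r ⊆ ball 0 r₀ := ball_subset_ball (min_le_right _ _)
  set D : Set (C2 × ℂ) := ball (0 : C2) r ×ˢ (univ : Set ℂ) with hD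
  have hDo : IsOpen D := isOpen_ball.prod isOpen_univ
  have hDN : D ⊆ N' ×ˢ univ := prod_mono hrN Subset.rfl
  -- abbreviations
  obtain ⟨q2, hq2⟩ : ∃ q2 : C2 × ℂ → ℂ, ∀ p, q2 p = β.q2 (sd.c p.1, S₁ p, S₂ p) := ⟨_, fun _ => rfl⟩
  obtain ⟨q3, hq3⟩ : ∃ q3 : C2 × ℂ → ℂ, ∀ p, q3 p = β.q3 (sd.c p.1, S₁ p, S₂ p) := ⟨_, fun _ => rfl⟩
  obtain ⟨q4, hq4⟩ : ∃ q4 : C2 × ℂ → ℂ, ∀ p, q4 p = β.q4 (sd.c p.1, S₁ p, S₂ p) := ⟨_, fun _ => rfl⟩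
  obtain ⟨H, hH⟩ : ∃ H : C2 × ℂ → ℂ, ∀ p, H p = β.h (sd.c p.1, S₁ p, S₂ p) := ⟨_, fun _ => rfl⟩
  obtain ⟨u, hu⟩ : ∃ u : C2 × ℂ → C4, ∀ p, u p = S₁ p • β.u₁ (sd.c p.1) + S₂ p • β.u₂ (sd.c p.1) :=
    ⟨_, fun _ => rfl⟩
  obtain ⟨b, hb⟩ : ∃ b : C2 × ℂ → C4, ∀ p, b p = β.b (sd.c p.1) := ⟨_, fun _ => rfl⟩
  have hcB : ∀ p ∈ D, sd.c p.1 ∈ β.B := fun p hp => sd.c_mem _ (hN'W (hrN hp.1))
  have hcd : DifferentiableOn ℂ (fun p : C2 × ℂ => sd.c p.1) D :=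
    sd.diff_c.comp differentiable_fst.differentiableOn (fun p hp => hN'W (hrN hp.1))
  have hS₁D := hS₁.mono hDN
  have hS₂D := hS₂.mono hDN
  have hYD := hY.mono hDN
  have hargs : DifferentiableOn ℂ (fun p : C2 × ℂ => (sd.c p.1, S₁ p, S₂ p)) D :=
    hcd.prodMk (hS₁D.prodMk hS₂D)
  have hmaps : MapsTo (fun p : C2 × ℂ => (sd.c p.1, S₁ p, S₂ p)) D (β.B ×ˢ univ) :=
    fun p hp => ⟨hcB p hp, mem_univ _⟩
  have dq2 : DifferentiableOn ℂ q2 D := (β.diff_q2.comp hargs hmaps).congr fun p _ => hq2 p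
  have dq3 : DifferentiableOn ℂ q3 D := (β.diff_q3.comp hargs hmaps).congr fun p _ => hq3 p
  have dq4 : DifferentiableOn ℂ q4 D := (β.diff_q4.comp hargs hmaps).congr fun p _ => hq4 p
  have dH : DifferentiableOn ℂ H D := (β.diff_h.comp hargs hmaps).congr fun p _ => hH p
  have db : DifferentiableOn ℂ b D := (β.diff_b.comp hcd hcB).congr fun p _ => hb p
  have du1 : DifferentiableOn ℂ (fun p : C2 × ℂ => β.u₁ (sd.c p.1)) D := β.diff_u₁.comp hcd hcB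
  have du2 : DifferentiableOn ℂ (fun p : C2 × ℂ => β.u₂ (sd.c p.1)) D := β.diff_u₂.comp hcd hcB
  have du : DifferentiableOn ℂ u D :=
    ((hS₁D.smul du1).add (hS₂D.smul du2)).congr fun p _ => hu p
  -- the two lifts
  obtain ⟨v₁, hv₁⟩ : ∃ v₁ : C2 × ℂ → C4, ∀ p, v₁ p = (2 * q4 p) • b p + (-q3 p - H p * Y p) • u p :=
    ⟨_, fun _ => rfl⟩
  obtain ⟨v₂, hv₂⟩ : ∃ v₂ : C2 × ℂ → C4, ∀ p, v₂ p = (-q3 p + H p * Y p) • b p + (2 * q2 p) • u p :=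
    ⟨_, fun _ => rfl⟩
  have dv₁ : DifferentiableOn ℂ v₁ D := by
    refine DifferentiableOn.congr ?_ (fun p _ => hv₁ p)
    exact ((dq4.const_mul 2).smul db).add ((dq3.neg.sub (dH.mul hYD)).smul du)
  have dv₂ : DifferentiableOn ℂ v₂ D := by
    refine DifferentiableOn.congr ?_ (fun p _ => hv₂ p)
    exact ((dq3.neg.add (dH.mul hYD)).smul db).add ((dq2.const_mul 2).smul du)
  have hfl : ∀ p ∈ D, (S₁ p ≠ 0 ∨ S₂ p ≠ 0) ∧
      Y p ^ 2 = quart (fun i => β.a i (sd.c p.1)) (S₁ p) (S₂ p) := by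
    rintro ⟨z, τ⟩ hp
    obtain ⟨-, -, -, h⟩ := hflow z (hrN hp.1)
    exact ⟨(h τ).1, (h τ).2.1⟩
  have hQ₁ : ∀ p ∈ D, MvPolynomial.eval (v₁ p) Q = 0 := by
    intro p hp
    rw [hv₁, hq4, hq3, hH, hb, hu]
    exact eval_v₁ β (hcB p hp) (hfl p hp).2
  have hQ₂ : ∀ p ∈ D, MvPolynomial.eval (v₂ p) Q = 0 := by
    intro p hp
    rw [hv₂, hq2, hq3, hH, hb, hu]
    exact eval_v₂ β (hcB p hp) (hfl p hp).2
  have hdisc : ∀ p ∈ D, q3 p ^ 2 - 4 * q2 p * q4 p = (H p * Y p) ^ 2 := by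
    intro p hp
    rw [mul_pow, (hfl p hp).2, hH, ← β.disc _ (hcB p hp), hq2, hq3, hq4]
  have hne : ∀ p ∈ D, v₁ p ≠ 0 ∨ v₂ p ≠ 0 := by
    intro p hp
    by_contra hcon
    push Not at hcon
    obtain ⟨h1, h2⟩ := hcon
    rw [hv₁, hb, hu] at h1
    rw [hv₂, hb, hu] at h2
    obtain ⟨g1, g2⟩ := comb_eq_zero (β.indep _ (hcB p hp)) (hfl p hp).1 h1
    obtain ⟨g3, g4⟩ := comb_eq_zero (β.indep _ (hcB p hp)) (hfl p hp).1 h2
    refine β.nocommon _ (hcB p hp) (S₁ p) (S₂ p) (hfl p hp).1 ⟨?_, ?_, ?_⟩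
    · rw [← hq2]; linear_combination g4 / 2
    · rw [← hq3]; linear_combination -(g2 + g3) / 2
    · rw [← hq4]; linear_combination g1 / 2
  have hprop : ∀ p ∈ D, v₁ p ≠ 0 → v₂ p ≠ 0 → ∃ t : ℂ, t ≠ 0 ∧ v₁ p = t • v₂ p := by
    intro p hp h1 h2
    rw [hv₁] at h1 ⊢
    rw [hv₂] at h2 ⊢
    exact prop_of_det (by linear_combination -hdisc p hp) h1 h2
  have hzero : ∀ z ∈ ball (0 : C2) r, ∃ t₁ t₂ : ℂ, v₁ (z, 0) = t₁ • ψ z ∧ v₂ (z, 0) = t₂ • ψ z := by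
    intro z hz
    have hzW := hN'W (hrN hz)
    obtain ⟨f1, f2, f3, -⟩ := hflow z (hrN hz)
    have hy := sd.y_eq z hzW
    have hroot := sd.root z hzW
    have hdec := sd.dec z hzW
    have e2 : q2 (z, 0) = β.q2 (sd.c z, sd.s₁ z, sd.s₂ z) := by rw [hq2]; simp only [f1, f2]
    have e3 : q3 (z, 0) = β.q3 (sd.c z, sd.s₁ z, sd.s₂ z) := by rw [hq3]; simp only [f1, f2]
    have e4 : q4 (z, 0) = β.q4 (sd.c z, sd.s₁ z, sd.s₂ z) := by rw [hq4]; simp only [f1, f2]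
    have eH : H (z, 0) = β.h (sd.c z, sd.s₁ z, sd.s₂ z) := by rw [hH]; simp only [f1, f2]
    rw [← e2, ← e3, ← eH] at hy
    rw [← e2, ← e3, ← e4] at hroot
    have eu : ψ z = sd.α z • b (z, 0) + u (z, 0) := by
      rw [hdec, hb, hu]; simp only [f1, f2, add_assoc]
    refine ⟨-2 * (sd.α z * q2 (z, 0) + q3 (z, 0)), 2 * q2 (z, 0), ?_, ?_⟩
    · rw [hv₁, f3, hy, eu, smul_add, smul_smul]
      congr 1
      · congr 1; linear_combination 2 * hroot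
      · congr 1; ring
    · rw [hv₂, f3, hy, eu, smul_add, smul_smul]
      congr 1
      congr 1; ring
  obtain ⟨L, hLd, hL0, hL⟩ := exists_family hGL (S := Vstar Q)
    (fun t ht v hv => ⟨smul_ne_zero ht hv.1, eval_smul_zero hQ t hv.2⟩) hrpos a
    (fun z hz => ha z (hrr₀ hz)) dv₁ dv₂ (fun p hp h => ⟨h, hQ₁ p hp⟩)
    (fun p hp h => ⟨h, hQ₂ p hp⟩) hne hprop hzero
  have hz0 : (0 : C2) ∈ ball (0 : C2) r := mem_ball_self hrpos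
  have hD0 : ∀ τ : ℂ, ((0 : C2), τ) ∈ D := fun τ => ⟨hz0, mem_univ _⟩
  have hslice : ∀ {F : C2 × ℂ → C4}, DifferentiableOn ℂ F D →
      DifferentiableAt ℂ (fun τ : ℂ => F (0, τ)) 0 := by
    intro F hF
    have h1 : DifferentiableAt ℂ F ((0 : C2), (0 : ℂ)) :=
      (hF _ (hD0 0)).differentiableAt (hDo.mem_nhds (hD0 0))
    exact h1.comp (f := fun τ : ℂ => ((0 : C2), τ)) (0 : ℂ)
      ((differentiableAt_const _).prodMk differentiableAt_id)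
  have hslice1 : ∀ {F : C2 × ℂ → ℂ}, DifferentiableOn ℂ F D →
      DifferentiableAt ℂ (fun τ : ℂ => F (0, τ)) 0 := by
    intro F hF
    have h1 : DifferentiableAt ℂ F ((0 : C2), (0 : ℂ)) :=
      (hF _ (hD0 0)).differentiableAt (hDo.mem_nhds (hD0 0))
    exact h1.comp (f := fun τ : ℂ => ((0 : C2), τ)) (0 : ℂ)
      ((differentiableAt_const _).prodMk differentiableAt_id)
  have hℓ := (hslice hLd).hasDerivAt
  have hs1 := (hslice1 hS₁D).hasDerivAt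
  have hs2 := (hslice1 hS₂D).hasDerivAt
  obtain ⟨f1, f2, f3, f4⟩ := hflow 0 (hrN hz0)
  have hL00 : L (0, 0) = x₁ := by rw [hL0 0 hz0, h0]
  have hpl : ∀ τ, ∃ A M : ℂ, L (0, τ) = A • β.b β.c₁
      + M • (S₁ (0, τ) • β.u₁ β.c₁ + S₂ (0, τ) • β.u₂ β.c₁) := by
    intro τ
    obtain ⟨-, t, -, h⟩ := hL _ (hD0 τ)
    rcases h with h | h
    · refine ⟨t * (2 * q4 (0, τ)), t * (-q3 (0, τ) - H (0, τ) * Y (0, τ)), ?_⟩
      rw [h, hv₁, hb, hu]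
      simp only [sd.c_eq]
      rw [smul_add, smul_smul, smul_smul]
    · refine ⟨t * (-q3 (0, τ) + H (0, τ) * Y (0, τ)), t * (2 * q2 (0, τ)), ?_⟩
      rw [h, hv₂, hb, hu]
      simp only [sd.c_eq]
      rw [smul_add, smul_smul, smul_smul]
  refine ⟨r, hrpos, min_le_right _ _, L, hLd, fun p hp => (hL p hp).1, hL0, ?_, ?_, ?_⟩
  · have h1 : ∀ τ, pr (grad Q (β.b β.c₁)) (L (0, τ)) = 0 := by
      intro τ
      obtain ⟨A, M, h⟩ := hpl τ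
      rw [h, pr_add, pr_smul, pr_smul, pr_add, pr_smul, pr_smul, β.pr_u₁ _ β.c₁_mem,
        β.pr_u₂ _ β.c₁_mem, euler hQ, (β.b_mem _ β.c₁_mem).2]
      ring
    have h2 : HasDerivAt (fun τ => prL (grad Q (β.b β.c₁)) (L (0, τ)))
        (prL (grad Q (β.b β.c₁)) (deriv (fun τ => L (0, τ)) 0)) 0 :=
      (prL (grad Q (β.b β.c₁))).hasFDerivAt.comp_hasDerivAt 0 hℓ
    have h3 : (fun τ => prL (grad Q (β.b β.c₁)) (L (0, τ))) = fun _ => 0 := by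
      funext τ; rw [prL_apply, h1]
    rw [h3] at h2
    rw [← prL_apply]
    exact h2.unique (hasDerivAt_const _ _)
  · have h1 : ∀ τ, MvPolynomial.eval (L (0, τ)) Q = 0 := fun τ => (hL _ (hD0 τ)).1.2
    have h2 : HasDerivAt (fun τ => MvPolynomial.eval (L (0, τ)) Q)
        (prL (grad Q (L (0, 0))) (deriv (fun τ => L (0, τ)) 0)) 0 :=
      HasFDerivAt.comp_hasDerivAt (l := fun v : C4 => MvPolynomial.eval v Q)
        (f := fun τ : ℂ => L (0, τ)) 0 (hasFDerivAt_eval Q (L (0, 0))) hℓ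
    have h3 : (fun τ => MvPolynomial.eval (L (0, τ)) Q) = fun _ => 0 := funext h1
    rw [h3, hL00] at h2
    rw [← prL_apply]
    exact h2.unique (hasDerivAt_const _ _)
  · have hv := velocity (β.indep _ β.c₁_mem) hℓ hs1 hs2 (α := sd.α 0) (y := Y (0, 0))
      (by
        have hd := sd.dec 0 sd.mem
        rw [h0, sd.c_eq] at hd
        simp only [f1, f2]
        rw [hL00]
        exact hd)
      (f4 0).2.2 (by rw [f3]; exact sd.y_ne 0 sd.mem) hpl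
    rintro ⟨k, hk⟩
    exact hv ⟨k, by rw [hk, hL00]⟩

end Crest.Agent.R279.EllAlg
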