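import Crest.Agent.R279.EllDefs928

/-!
R279 (helper928), Part 9, START: decomposition of a moving point of the cone in the frame of the
branch, and the starting point on the genus one curve.
-/

set_option autoImplicit false

namespace Crest.Agent.R279.EllAlg

open Metric Set

section Basic

variable {Q : MvPolynomial (Fin 4) ℂ}

theorem pr_add (a v w : C4) : pr a (v + w) = pr a v + pr a w := by
  simp [pr, mul_add, Finset.sum_add_distrib]

theorem pr_smul (a v : C4) (t : ℂ) : pr a (t • v) = t * pr a v := by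
  simp only [pr, Pi.smul_apply, smul_eq_mul, Finset.mul_sum]
  exact Finset.sum_congr rfl fun i _ => by ring

/-- The pairing as a continuous linear functional in the second variable. -/
noncomputable def prL (a : C4) : C4 →L[ℂ] ℂ :=
  ∑ i, a i • (ContinuousLinearMap.proj i : C4 →L[ℂ] ℂ)

theorem prL_apply (a v : C4) : prL a v = pr a v := by
  simp [prL, pr]

/-- Derivative of the evaluation of a polynomial. -/
theorem hasFDerivAt_eval (Q : MvPolynomial (Fin 4) ℂ) (v : C4) :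
    HasFDerivAt (fun v : C4 => MvPolynomial.eval v Q) (prL (grad Q v)) v := by
  induction Q using MvPolynomial.induction_on with
  | C a =>
    have : prL (grad (MvPolynomial.C a) v) = 0 := by
      ext w
      simp [prL_apply, pr, grad]
    rw [this]
    simpa using hasFDerivAt_const a v
  | add p q hp hq =>
    have h := hp.add hq
    have e : prL (grad (p + q) v) = prL (grad p v) + prL (grad q v) := by
      ext w
      simp [prL_apply, pr, grad, add_mul, Finset.sum_add_distrib]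
    rw [e]
    refine h.congr_of_eventuallyEq (Filter.Eventually.of_forall fun w => ?_)
    simp
  | mul_X p i hp =>
    have h1 : HasFDerivAt (fun v : C4 => v i) (ContinuousLinearMap.proj i : C4 →L[ℂ] ℂ) v :=
      (ContinuousLinearMap.proj i : C4 →L[ℂ] ℂ).hasFDerivAt
    have h := hp.mul h1
    have e : prL (grad (p * MvPolynomial.X i) v)
        = MvPolynomial.eval v p • (ContinuousLinearMap.proj i : C4 →L[ℂ] ℂ)
          + v i • prL (grad p v) := by
      ext w
      simp only [prL_apply, pr, grad, _root_.add_apply, _root_.smul_apply,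
        ContinuousLinearMap.proj_apply, smul_eq_mul, MvPolynomial.pderiv_mul, map_add, map_mul,
        MvPolynomial.eval_X, add_mul, Finset.sum_add_distrib, Finset.mul_sum]
      rw [add_comm]
      congr 1
      · rw [Finset.sum_eq_single i]
        · simp
        · intro j _ hj
          rw [MvPolynomial.pderiv_X_of_ne (Ne.symm hj)]
          simp
        · simp
      · exact Finset.sum_congr rfl fun j _ => by ring
    rw [e]
    refine h.congr_of_eventuallyEq (Filter.Eventually.of_forall fun w => ?_)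
    simp

theorem continuous_grad (Q : MvPolynomial (Fin 4) ℂ) : Continuous (grad Q) := by
  refine continuous_pi fun i => ?_
  exact MvPolynomial.continuous_eval (MvPolynomial.pderiv i Q)

theorem continuous_pr : Continuous fun p : C4 × C4 => pr p.1 p.2 := by
  unfold pr
  fun_prop

theorem ContinuousAt.pr_grad {X : Type*} [TopologicalSpace X] {f g : X → C4} {z : X}
    (hf : ContinuousAt f z) (hg : ContinuousAt g z) :
    ContinuousAt (fun z => pr (grad Q (f z)) (g z)) z := by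
  have h1 : ContinuousAt (fun z => grad Q (f z)) z :=
    (continuous_grad Q).continuousAt.comp hf
  have h3 : ∀ i, ContinuousAt (fun z => grad Q (f z) i * g z i) z :=
    fun i => (continuousAt_pi.1 h1 i).mul (continuousAt_pi.1 hg i)
  exact tendsto_finsetSum _ fun i _ => h3 i

/-- Euler's identity. -/
theorem euler {n : ℕ} (hQ : Q.IsHomogeneous n) (v : C4) :
    pr (grad Q v) v = n * MvPolynomial.eval v Q := by
  have h := congrArg (MvPolynomial.eval v) hQ.sum_X_mul_pderiv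
  simp only [map_sum, map_mul, MvPolynomial.eval_X, nsmul_eq_mul, map_natCast] at h
  rw [← h]
  exact Finset.sum_congr rfl fun i _ => mul_comm _ _

end Basic

section Frame

/-- The linear map with prescribed images of the four basis vectors. -/
noncomputable def frameL (b u₁ u₂ w : C4) : C4 →L[ℂ] C4 :=
  (ContinuousLinearMap.proj 0 : C4 →L[ℂ] ℂ).smulRight b
    + (ContinuousLinearMap.proj 1 : C4 →L[ℂ] ℂ).smulRight u₁
    + (ContinuousLinearMap.proj 2 : C4 →L[ℂ] ℂ).smulRight u₂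
    + (ContinuousLinearMap.proj 3 : C4 →L[ℂ] ℂ).smulRight w

theorem frameL_apply (b u₁ u₂ w k : C4) :
    frameL b u₁ u₂ w k = k 0 • b + k 1 • u₁ + k 2 • u₂ + k 3 • w := by
  simp [frameL]

theorem isUnit_of_inj (A : C4 →L[ℂ] C4) (h : ∀ k, A k = 0 → k = 0) : IsUnit A := by
  have hinj : Function.Injective A := (injective_iff_map_eq_zero A).2 h
  have hb : Function.Bijective (A : C4 →ₗ[ℂ] C4) :=
    ⟨hinj, LinearMap.injective_iff_surjective.1 hinj⟩
  let e : C4 ≃L[ℂ] C4 := (LinearEquiv.ofBijective (A : C4 →ₗ[ℂ] C4) hb).toContinuousLinearEquiv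
  refine ⟨ContinuousLinearEquiv.toUnit e, ?_⟩
  ext x
  rfl

/-- Three independent vectors can be completed to a basis. -/
theorem exists_complete {b u₁ u₂ : C4} (h : LinearIndependent ℂ ![b, u₁, u₂]) :
    ∃ w : C4, ∀ k : C4, k 0 • b + k 1 • u₁ + k 2 • u₂ + k 3 • w = 0 → k = 0 := by
  have hlt : Submodule.span ℂ (Set.range ![b, u₁, u₂]) < ⊤ := by
    apply Submodule.lt_top_of_finrank_lt_finrank
    rw [finrank_span_eq_card h]
    simp
  obtain ⟨w, -, hw⟩ := SetLike.exists_of_lt hlt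
  refine ⟨w, fun k hk => ?_⟩
  have h3 : k 3 = 0 := by
    by_contra h3
    apply hw
    have e : w = (-(k 3)⁻¹ * k 0) • b + (-(k 3)⁻¹ * k 1) • u₁ + (-(k 3)⁻¹ * k 2) • u₂ := by
      have : k 3 • w = -(k 0 • b + k 1 • u₁ + k 2 • u₂) := by
        rw [eq_neg_iff_add_eq_zero, ← hk]; abel
      have e2 : w = (k 3)⁻¹ • (k 3 • w) := by rw [smul_smul, inv_mul_cancel₀ h3, one_smul]
      rw [e2, this]
      simp only [smul_neg, smul_add, smul_smul, neg_mul, neg_smul, neg_add_rev]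
      abel
    rw [e]
    refine Submodule.add_mem _ (Submodule.add_mem _ ?_ ?_) ?_ <;>
      refine Submodule.smul_mem _ _ (Submodule.subset_span ?_)
    · exact ⟨0, rfl⟩
    · exact ⟨1, rfl⟩
    · exact ⟨2, rfl⟩
  have hs : ∑ i : Fin 3, (![k 0, k 1, k 2] : Fin 3 → ℂ) i • (![b, u₁, u₂] : Fin 3 → C4) i = 0 := by
    simp only [Fin.sum_univ_three, Matrix.cons_val_zero, Matrix.cons_val_one, Matrix.cons_val]
    rw [← hk, h3, zero_smul, add_zero]
  have h' := Fintype.linearIndependent_iff.1 h _ hs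
  funext i
  fin_cases i
  · exact h' 0
  · exact h' 1
  · exact h' 2
  · exact h3

end Frame

section Start

variable {Q : MvPolynomial (Fin 4) ℂ} {x₁ : C4} {E : Type*} [NormedAddCommGroup E]
  [NormedSpace ℂ E]

/-- Derivative of `Q` along `b` at a point of the plane `T_b`. -/
theorem pr_grad_b (β : BranchAt Q x₁) {c : ℂ} (hc : c ∈ β.B) (l s₁ s₂ : ℂ) :
    pr (grad Q (l • β.b c + s₁ • β.u₁ c + s₂ • β.u₂ c)) (β.b c)
      = β.d (c, s₁, s₂) * (2 * l * β.q2 (c, s₁, s₂) + β.q3 (c, s₁, s₂)) := by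
  have h1 : HasDerivAt (fun l : ℂ => MvPolynomial.eval (l • β.b c + s₁ • β.u₁ c + s₂ • β.u₂ c) Q)
      (prL (grad Q (l • β.b c + s₁ • β.u₁ c + s₂ • β.u₂ c)) (β.b c)) l := by
    have h := (hasFDerivAt_eval Q (l • β.b c + s₁ • β.u₁ c + s₂ • β.u₂ c)).comp_hasDerivAt l
      ((((hasDerivAt_id l).smul_const (β.b c)).add_const (s₁ • β.u₁ c)).add_const
        (s₂ • β.u₂ c))
    simpa [Function.comp_def] using h
  have h2 : HasDerivAt (fun l : ℂ => MvPolynomial.eval (l • β.b c + s₁ • β.u₁ c + s₂ • β.u₂ c) Q)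
      (β.d (c, s₁, s₂) * (2 * l * β.q2 (c, s₁, s₂) + β.q3 (c, s₁, s₂))) l := by
    have e : (fun l : ℂ => MvPolynomial.eval (l • β.b c + s₁ • β.u₁ c + s₂ • β.u₂ c) Q)
        = fun l : ℂ => β.d (c, s₁, s₂) * (l ^ 2 * β.q2 (c, s₁, s₂) + l * β.q3 (c, s₁, s₂)
            + β.q4 (c, s₁, s₂)) := by
      funext l; exact β.expand c hc l s₁ s₂
    rw [e]
    have h := ((((hasDerivAt_pow 2 l).mul_const (β.q2 (c, s₁, s₂))).add
      ((hasDerivAt_id l).mul_const (β.q3 (c, s₁, s₂)))).add_const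
        (β.q4 (c, s₁, s₂))).const_mul (β.d (c, s₁, s₂))
    simpa using h
  have := h1.unique h2
  rwa [prL_apply] at this

theorem q_zero (β : BranchAt Q x₁) {c : ℂ} (hc : c ∈ β.B) :
    β.q2 (c, 0, 0) = 0 ∧ β.q3 (c, 0, 0) = 0 ∧ β.q4 (c, 0, 0) = 0 := by
  have he := β.e_le
  have h2 := β.hom_q2 c hc 0 0 0
  have h3 := β.hom_q3 c hc 0 0 0
  have h4 := β.hom_q4 c hc 0 0 0
  rw [mul_zero, zero_pow (by omega), zero_mul] at h2 h3 h4
  exact ⟨h2, h3, h4⟩

/-- The starting point over a moving point `ψ z` of the cone. -/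
structure StartData (β : BranchAt Q x₁) (ψ : E → C4) (z₀ : E) (W : Set E) where
  isOpen : IsOpen W
  mem : z₀ ∈ W
  c : E → ℂ
  α : E → ℂ
  s₁ : E → ℂ
  s₂ : E → ℂ
  y : E → ℂ
  diff_c : DifferentiableOn ℂ c W
  diff_α : DifferentiableOn ℂ α W
  diff_s₁ : DifferentiableOn ℂ s₁ W
  diff_s₂ : DifferentiableOn ℂ s₂ W
  diff_y : DifferentiableOn ℂ y W
  c_mem : ∀ z ∈ W, c z ∈ β.B
  c_eq : c z₀ = β.c₁
  dec : ∀ z ∈ W, ψ z = α z • β.b (c z) + s₁ z • β.u₁ (c z) + s₂ z • β.u₂ (c z)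
  ne : ∀ z ∈ W, s₁ z ≠ 0 ∨ s₂ z ≠ 0
  y_ne : ∀ z ∈ W, y z ≠ 0
  y_sq : ∀ z ∈ W, y z ^ 2 = quart (fun i => β.a i (c z)) (s₁ z) (s₂ z)
  y_eq : ∀ z ∈ W, β.h (c z, s₁ z, s₂ z) * y z
    = 2 * α z * β.q2 (c z, s₁ z, s₂ z) + β.q3 (c z, s₁ z, s₂ z)
  root : ∀ z ∈ W, α z ^ 2 * β.q2 (c z, s₁ z, s₂ z) + α z * β.q3 (c z, s₁ z, s₂ z)
    + β.q4 (c z, s₁ z, s₂ z) = 0

set_option maxHeartbeats 1600000 in
theorem exists_start (hQ : Q.IsHomogeneous 4) (hsm : ∀ v ∈ Vstar Q, grad Q v ≠ 0)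
    (β : BranchAt Q x₁) {ψ : E → C4} {z₀ : E} {U : Set E} (hU : IsOpen U) (hz₀ : z₀ ∈ U)
    (hψ : DifferentiableOn ℂ ψ U) (hm : MapsTo ψ U (Vstar Q)) (h0 : ψ z₀ = x₁) :
    ∃ W ⊆ U, Nonempty (StartData β ψ z₀ W) := by
  classical
  obtain ⟨w, hw⟩ := exists_complete (β.indep β.c₁ β.c₁_mem)
  set A : ℂ → (C4 →L[ℂ] C4) := fun c => frameL (β.b c) (β.u₁ c) (β.u₂ c) w with hA
  have hAd : DifferentiableOn ℂ A β.B := by
    have key : ∀ (f : ℂ → C4) (j : Fin 4), DifferentiableOn ℂ f β.B →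
        DifferentiableOn ℂ (fun c => (ContinuousLinearMap.proj j : C4 →L[ℂ] ℂ).smulRight (f c))
          β.B := by
      intro f j hf
      exact ((ContinuousLinearMap.smulRightL ℂ C4 C4
        (ContinuousLinearMap.proj j : C4 →L[ℂ] ℂ)).differentiable.comp_differentiableOn hf)
    exact (((key _ 0 β.diff_b).add (key _ 1 β.diff_u₁)).add (key _ 2 β.diff_u₂)).add
      (key _ 3 (differentiableOn_const w))
  have hA1 : IsUnit (A β.c₁) := by
    apply isUnit_of_inj
    intro k hk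
    apply hw
    rwa [hA, frameL_apply] at hk
  -- the function `c`
  set c : E → ℂ := fun z => β.cf (ψ z) with hc
  set U1 : Set E := U ∩ ψ ⁻¹' β.N with hU1
  have hU1o : IsOpen U1 := hψ.continuousOn.isOpen_inter_preimage hU β.isOpen_N
  have hz1 : z₀ ∈ U1 := ⟨hz₀, by rw [mem_preimage, h0]; exact β.x₁_mem⟩
  have hψ1 : DifferentiableOn ℂ ψ U1 := hψ.mono inter_subset_left
  have hcd : DifferentiableOn ℂ c U1 := β.diff_cf.comp hψ1 (fun z hz => hz.2)
  have hcB : ∀ z ∈ U1, c z ∈ β.B := fun z hz => β.cf_mem hz.2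
  have hc0 : c z₀ = β.c₁ := by rw [hc]; simp only [h0, β.cf_x₁]
  have hbd : DifferentiableOn ℂ (fun z => β.b (c z)) U1 := β.diff_b.comp hcd hcB
  have hAcd : DifferentiableOn ℂ (fun z => A (c z)) U1 := hAd.comp hcd hcB
  have hU1n : U1 ∈ nhds z₀ := hU1o.mem_nhds hz1
  -- eventual conditions
  have e1 : ∀ᶠ z in nhds z₀, IsUnit (A (c z)) := by
    have hcont : ContinuousAt (fun z => A (c z)) z₀ := hAcd.continuousOn.continuousAt hU1n
    have : {B : C4 →L[ℂ] C4 | IsUnit B} ∈ nhds (A (c z₀)) :=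
      Units.isOpen.mem_nhds (by rw [hc0]; exact hA1)
    exact hcont this
  have hgb : pr (grad Q (β.b β.c₁)) w ≠ 0 := by
    intro h
    apply hsm _ (β.b_mem _ β.c₁_mem)
    obtain ⟨u, hu⟩ := hA1
    funext i
    have hs : ∃ k : C4, A β.c₁ k = Pi.single i 1 := by
      refine ⟨(↑u⁻¹ : C4 →L[ℂ] C4) (Pi.single i 1), ?_⟩
      rw [← hu, ← mul_apply_eq_comp, Units.mul_inv]
      rfl
    obtain ⟨k, hk⟩ := hs
    have hk2 : pr (grad Q (β.b β.c₁)) (A β.c₁ k) = 0 := by
      rw [hA, frameL_apply, pr_add, pr_add, pr_add, pr_smul, pr_smul, pr_smul, pr_smul, h,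
        β.pr_u₁ _ β.c₁_mem, β.pr_u₂ _ β.c₁_mem, euler hQ, (β.b_mem _ β.c₁_mem).2]
      ring
    rw [hk] at hk2
    simpa [pr, Pi.single_apply] using hk2
  have e2 : ∀ᶠ z in nhds z₀, pr (grad Q (β.b (c z))) w ≠ 0 := by
    have hcont : ContinuousAt (fun z => pr (grad Q (β.b (c z))) w) z₀ :=
      ContinuousAt.pr_grad (hbd.continuousOn.continuousAt hU1n) continuousAt_const
    exact hcont.eventually_ne (by rw [hc0]; exact hgb)
  have e3 : ∀ᶠ z in nhds z₀, pr (grad Q (ψ z)) (β.b (c z)) ≠ 0 := by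
    have hcont : ContinuousAt (fun z => pr (grad Q (ψ z)) (β.b (c z))) z₀ :=
      ContinuousAt.pr_grad (hψ1.continuousOn.continuousAt hU1n)
        (hbd.continuousOn.continuousAt hU1n)
    exact hcont.eventually_ne (by rw [hc0, h0]; exact β.trans)
  obtain ⟨W, hWsub, hWo, hWz⟩ := _root_.mem_nhds_iff.1 (((e1.and e2).and e3).and hU1n)
  have hWU : W ⊆ U1 := fun z hz => (hWsub hz).2
  -- coordinates
  set k : E → C4 := fun z => Ring.inverse (A (c z)) (ψ z) with hk
  have hkd : DifferentiableOn ℂ k W := by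
    intro z hz
    obtain ⟨u, hu⟩ := (hWsub hz).1.1.1
    have h1 : DifferentiableAt ℂ (fun z => A (c z)) z :=
      (hAcd z (hWU hz)).differentiableAt (hU1o.mem_nhds (hWU hz))
    have h2 : DifferentiableAt ℂ (fun z => Ring.inverse (A (c z))) z := by
      have h3 : DifferentiableAt ℂ (Ring.inverse : (C4 →L[ℂ] C4) → (C4 →L[ℂ] C4)) (A (c z)) := by
        rw [← hu]; exact differentiableAt_inverse u.isUnit
      exact h3.comp z h1
    exact (h2.clm_apply ((hψ1 z (hWU hz)).differentiableAt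
      (hU1o.mem_nhds (hWU hz)))).differentiableWithinAt
  have hAk : ∀ z ∈ W, A (c z) (k z) = ψ z := by
    intro z hz
    have h1 := Ring.mul_inverse_cancel _ (hWsub hz).1.1.1
    rw [hk, ← mul_apply_eq_comp, h1]
    rfl
  have hk3 : ∀ z ∈ W, k z 3 = 0 := by
    intro z hz
    have h1 := hAk z hz
    rw [hA, frameL_apply] at h1
    have h2 : pr (grad Q (β.b (c z))) (ψ z) = 0 := β.pr_cf _ (hWU hz).2
    have hB := hcB z (hWU hz)
    rw [← h1, pr_add, pr_add, pr_add, pr_smul, pr_smul, pr_smul, pr_smul,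
        β.pr_u₁ _ hB, β.pr_u₂ _ hB, euler hQ, (β.b_mem _ hB).2] at h2
    have h3 : k z 3 * pr (grad Q (β.b (c z))) w = 0 := by linear_combination h2
    exact (mul_eq_zero.1 h3).resolve_right (hWsub hz).1.1.2
  have hdec : ∀ z ∈ W, ψ z = k z 0 • β.b (c z) + k z 1 • β.u₁ (c z) + k z 2 • β.u₂ (c z) := by
    intro z hz
    have h1 := hAk z hz
    rw [hA, frameL_apply, hk3 z hz, zero_smul, add_zero] at h1
    exact h1.symm
  have hd : ∀ j : Fin 4, DifferentiableOn ℂ (fun z => k z j) W := fun j =>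
    differentiableOn_pi.1 hkd j
  have hcW := hcd.mono hWU
  have hargs : DifferentiableOn ℂ (fun z => (c z, k z 1, k z 2)) W :=
    hcW.prodMk ((hd 1).prodMk (hd 2))
  have hmaps : MapsTo (fun z => (c z, k z 1, k z 2)) W (β.B ×ˢ univ) :=
    fun z hz => ⟨hcB z (hWU hz), mem_univ _⟩
  have hder : ∀ z ∈ W, β.d (c z, k z 1, k z 2) * (2 * k z 0 * β.q2 (c z, k z 1, k z 2)
      + β.q3 (c z, k z 1, k z 2)) ≠ 0 := by
    intro z hz
    have h1 := pr_grad_b β (hcB z (hWU hz)) (k z 0) (k z 1) (k z 2)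
    rw [← hdec z hz] at h1
    rw [← h1]
    exact (hWsub hz).1.2
  have hroot : ∀ z ∈ W, k z 0 ^ 2 * β.q2 (c z, k z 1, k z 2) + k z 0 * β.q3 (c z, k z 1, k z 2)
      + β.q4 (c z, k z 1, k z 2) = 0 := by
    intro z hz
    have h1 := β.expand (c z) (hcB z (hWU hz)) (k z 0) (k z 1) (k z 2)
    rw [← hdec z hz, (hm (hWU hz).1).2] at h1
    exact (mul_eq_zero.1 h1.symm).resolve_left (left_ne_zero_of_mul (hder z hz))
  have hsq : ∀ z ∈ W, (2 * k z 0 * β.q2 (c z, k z 1, k z 2) + β.q3 (c z, k z 1, k z 2)) ^ 2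
      = β.h (c z, k z 1, k z 2) ^ 2 * quart (fun i => β.a i (c z)) (k z 1) (k z 2) := by
    intro z hz
    rw [← β.disc (c z) (hcB z (hWU hz))]
    linear_combination 4 * β.q2 (c z, k z 1, k z 2) * hroot z hz
  have hh : ∀ z ∈ W, β.h (c z, k z 1, k z 2) ≠ 0 := by
    intro z hz h
    have h1 := hsq z hz
    rw [h] at h1
    have h2 : (2 * k z 0 * β.q2 (c z, k z 1, k z 2) + β.q3 (c z, k z 1, k z 2)) ^ 2 = 0 := by
      rw [h1]; ring
    exact right_ne_zero_of_mul (hder z hz) (pow_eq_zero_iff (by norm_num) |>.1 h2)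
  refine ⟨W, fun z hz => (hWU hz).1, ⟨?_⟩⟩
  refine
    { isOpen := hWo
      mem := hWz
      c := c
      α := fun z => k z 0
      s₁ := fun z => k z 1
      s₂ := fun z => k z 2
      y := fun z => (2 * k z 0 * β.q2 (c z, k z 1, k z 2) + β.q3 (c z, k z 1, k z 2))
        / β.h (c z, k z 1, k z 2)
      diff_c := hcW
      diff_α := hd 0
      diff_s₁ := hd 1
      diff_s₂ := hd 2
      diff_y := ?_
      c_mem := fun z hz => hcB z (hWU hz)
      c_eq := hc0
      dec := hdec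
      ne := ?_
      y_ne := ?_
      y_sq := ?_
      y_eq := ?_
      root := hroot }
  · have hhd : DifferentiableOn ℂ (fun z => β.h (c z, k z 1, k z 2)) W :=
      β.diff_h.comp hargs hmaps
    have hq2d : DifferentiableOn ℂ (fun z => β.q2 (c z, k z 1, k z 2)) W :=
      β.diff_q2.comp hargs hmaps
    have hq3d : DifferentiableOn ℂ (fun z => β.q3 (c z, k z 1, k z 2)) W :=
      β.diff_q3.comp hargs hmaps
    have h2 : DifferentiableOn ℂ (fun z => 2 * k z 0 * β.q2 (c z, k z 1, k z 2)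
        + β.q3 (c z, k z 1, k z 2)) W := (((hd 0).const_mul 2).mul hq2d).add hq3d
    have h3 := h2.mul (hhd.inv hh)
    refine h3.congr fun z _ => ?_
    simp [div_eq_mul_inv]
  · intro z hz
    by_contra hcon
    push Not at hcon
    obtain ⟨h1, h2⟩ := hcon
    have h3 := hder z hz
    obtain ⟨g2, g3, -⟩ := q_zero β (hcB z (hWU hz))
    rw [h1, h2, g2, g3] at h3
    simp at h3
  · intro z hz
    exact div_ne_zero (right_ne_zero_of_mul (hder z hz)) (hh z hz)
  · intro z hz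
    rw [div_pow, hsq z hz, mul_div_cancel_left₀ _ (pow_ne_zero 2 (hh z hz))]
  · intro z hz
    rw [mul_div_cancel₀ _ (hh z hz)]

end Start

end Crest.Agent.R279.EllAlg
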