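import Crest.Agent.R279.FamPlanar520

/-!
R279 (helper520), Part 6: the transport lemma.
If `A : (ℂ² × E) × ℂ → S` is a homotopy along entire curves from `A(·,0)` to `A(·,1)`, if
`A(·,1)` is approximable in `x` and has transitions, then `A(·,0)` is approximable in `x`.
-/

set_option autoImplicit false

namespace Crest.Agent.R279.Fam

open Metric Set

variable {E : Type} [NormedAddCommGroup E] [NormedSpace ℂ E] [ProperSpace E] [CompleteSpace E]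

/-- separated cutting sets from a Lipschitz level function -/
theorem cut_sep {L : ℂ → ℝ} (hL : ∀ z w, L z - L w ≤ dist z w) {δ R : ℝ} (hδ : 0 < δ) :
    ∃ η : ℝ, 0 < η ∧ ∀ z ∈ {z : ℂ | L z < δ ∧ ‖z‖ < R} \ {z : ℂ | δ / 2 < L z ∧ ‖z‖ < R},
      ∀ w ∈ {z : ℂ | δ / 2 < L z ∧ ‖z‖ < R} \ {z : ℂ | L z < δ ∧ ‖z‖ < R}, η ≤ dist z w := by
  refine ⟨δ / 2, by positivity, fun z hz w hw => ?_⟩
  have h1 : L z ≤ δ / 2 := by
    by_contra h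
    exact hz.2 ⟨not_le.1 h, hz.1.2⟩
  have h2 : δ ≤ L w := by
    by_contra h
    exact hw.2 ⟨not_le.1 h, hw.1.2⟩
  have h3 := hL w z
  rw [dist_comm] at h3
  linarith

theorem cut_bdd {L : ℂ → ℝ} {δ R : ℝ} : Bornology.IsBounded
    ({z : ℂ | L z < δ ∧ ‖z‖ < R} ∪ {z : ℂ | δ / 2 < L z ∧ ‖z‖ < R}) := by
  refine (isBounded_ball (x := (0 : ℂ)) (r := R)).subset ?_
  rintro z (hz | hz)
  · simpa using hz.2
  · simpa using hz.2

theorem norm_le_on_closedBall {p : ℂ → ℂ} (hp : Differentiable ℂ p) (R : ℝ) :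
    ∃ M : ℝ, 0 ≤ M ∧ ∀ z : ℂ, ‖z‖ ≤ R → ‖p z‖ ≤ M := by
  obtain ⟨M, hM⟩ := (isCompact_closedBall (0 : ℂ) R).exists_bound_of_continuousOn
    hp.continuous.continuousOn
  exact ⟨max M 0, le_max_right _ _, fun z hz => (hM z (by simpa using hz)).trans (le_max_left _ _)⟩

theorem norm_vec2 {a b : ℂ} {M : ℝ} (hM : 0 ≤ M) (ha : ‖a‖ ≤ M) (hb : ‖b‖ ≤ M) :
    ‖(![a, b] : C2)‖ ≤ M := by
  rw [pi_norm_le_iff_of_nonneg hM]
  intro i
  fin_cases i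
  · simpa using ha
  · simpa using hb

theorem norm_vec2_lt {a b : ℂ} {M : ℝ} (hM : 0 < M) (ha : ‖a‖ < M) (hb : ‖b‖ < M) :
    ‖(![a, b] : C2)‖ < M := by
  rw [pi_norm_lt_iff hM]
  intro i
  fin_cases i
  · simpa using ha
  · simpa using hb

/-- **Transport lemma.** -/
theorem transport (hE : LemmaE) (hK : LemmaK) (hSp : SplitTarget (C2 × E)) {S : Set C4}
    {A : (C2 × E) × ℂ → C4} {r₀ : ℝ} (hr₀ : 0 < r₀)
    (hA : DifferentiableOn ℂ A (ball 0 r₀ ×ˢ univ)) (hAS : MapsTo A (ball 0 r₀ ×ˢ univ) S)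
    (h₁ : XApprox S (fun p : C2 × E => A (p, 1)))
    (htr : HasTrans S (fun p : C2 × E => A (p, 1))) :
    XApprox S (fun p : C2 × E => A (p, 0)) := by
  obtain ⟨ρ₁, hρ₁, hG⟩ := h₁
  obtain ⟨r, C, hr, hC, Γ, hΓd, hΓ⟩ := htr
  set σ : ℝ := min r₀ (min ρ₁ r) with hσ
  have hσ0 : 0 < σ := lt_min hr₀ (lt_min hρ₁ hr)
  have hσr₀ : σ ≤ r₀ := min_le_left _ _
  have hσρ₁ : σ ≤ ρ₁ := (min_le_right _ _).trans (min_le_left _ _)
  have hσr : σ ≤ r := (min_le_right _ _).trans (min_le_right _ _)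
  refine ⟨σ / 16, by positivity, fun R ε hε => ?_⟩
  set R₁ : ℝ := max R σ with hR₁
  have hR₁σ : σ ≤ R₁ := le_max_right _ _
  have hR₁0 : 0 < R₁ := hσ0.trans_le hR₁σ
  -- uniform continuity at s = 0
  obtain ⟨ω₀, hω₀, hA0⟩ := unif_near hA (σ := σ / 2) (by linarith) 0 hε
  -- planar data for z
  obtain ⟨Lz, δz, ez, hLz, hLzc, hδz, hδz1, hezd, hez, heznear, hzfar, hpz⟩ :=
    planar hE hK (ρ := σ / 8) (R := R₁) (η := ω₀ / 8) (by positivity) (by positivity)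
  set Λ : ℂ := ((-(R₁ + 1 + (σ / 8 + 1)) : ℝ) : ℂ) with hΛ
  obtain ⟨p, hpd, hpnear, hpfar⟩ := hpz Λ (min (min (ω₀ / 8) (σ / 32)) 1)
    (lt_min (lt_min (by positivity) (by positivity)) one_pos)
  obtain ⟨M, hM0, hM⟩ := norm_le_on_closedBall hpd R₁
  set R' : ℝ := R₁ + M + 1 with hR'
  have hR'R₁ : R₁ ≤ R' := by linarith
  -- planar data for w
  obtain ⟨Lw, δw, ew, hLw, hLwc, hδw, hδw1, hewd, hew, hewnear, hwfar, hpw⟩ :=
    planar hE hK (ρ := σ / 8) (R := R') (η := ω₀ / 8) (by positivity) (by positivity)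
  set Az : Set ℂ := {z | Lz z < δz ∧ ‖z‖ < R₁} with hAz
  set Bz : Set ℂ := {z | δz / 2 < Lz z ∧ ‖z‖ < R₁} with hBz
  set Aw : Set ℂ := {z | Lw z < δw ∧ ‖z‖ < R'} with hAw
  set Bw : Set ℂ := {z | δw / 2 < Lw z ∧ ‖z‖ < R'} with hBw
  have hAzo : IsOpen Az := (isOpen_lt hLzc continuous_const).inter
    (isOpen_lt continuous_norm continuous_const)
  have hBzo : IsOpen Bz := (isOpen_lt continuous_const hLzc).inter
    (isOpen_lt continuous_norm continuous_const)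
  have hAwo : IsOpen Aw := (isOpen_lt hLwc continuous_const).inter
    (isOpen_lt continuous_norm continuous_const)
  have hBwo : IsOpen Bw := (isOpen_lt continuous_const hLwc).inter
    (isOpen_lt continuous_norm continuous_const)
  obtain ⟨Kz, hKz0, hKz⟩ := hSp Az Bz hAzo hBzo cut_bdd (cut_sep hLz hδz)
  obtain ⟨Kw, hKw0, hKw⟩ := hSp Aw Bw hAwo hBwo cut_bdd (cut_sep hLw hδw)
  -- small constants
  set ε₄ : ℝ := min (σ / (256 * (Kz + 1))) (ω₀ / (16 * (4 * Kz + 1))) with hε₄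
  have hε₄0 : 0 < ε₄ := lt_min (by positivity) (by positivity)
  have hε₄a : 32 * Kz * ε₄ ≤ σ / 8 := by
    have h1 : ε₄ ≤ σ / (256 * (Kz + 1)) := min_le_left _ _
    rw [le_div_iff₀ (by positivity)] at h1
    nlinarith
  have hε₄b : 4 * Kz * ε₄ + ε₄ ≤ ω₀ / 16 := by
    have h1 : ε₄ ≤ ω₀ / (16 * (4 * Kz + 1)) := min_le_right _ _
    rw [le_div_iff₀ (by positivity)] at h1
    nlinarith
  have hε₄c : 4 * Kz * ε₄ + ε₄ ≤ σ / 32 := by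
    have h1 : ε₄ ≤ σ / (256 * (Kz + 1)) := min_le_left _ _
    rw [le_div_iff₀ (by positivity)] at h1
    nlinarith
  set ε₃ : ℝ := min (σ / (128 * (Kw + 1))) (ε₄ / (4 * (Kw + 1))) with hε₃
  have hε₃0 : 0 < ε₃ := lt_min (by positivity) (by positivity)
  have hε₃a : 32 * Kw * ε₃ ≤ σ / 4 := by
    have h1 : ε₃ ≤ σ / (128 * (Kw + 1)) := min_le_left _ _
    rw [le_div_iff₀ (by positivity)] at h1
    nlinarith
  have hε₃b : 4 * Kw * ε₃ ≤ ε₄ := by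
    have h1 : ε₃ ≤ ε₄ / (4 * (Kw + 1)) := min_le_right _ _
    rw [le_div_iff₀ (by positivity)] at h1
    nlinarith
  set ε₂ : ℝ := min (ε₃ / C) (r / 2) with hε₂
  have hε₂0 : 0 < ε₂ := lt_min (by positivity) (by positivity)
  have hε₂C : C * ε₂ ≤ ε₃ := by
    have h1 : ε₂ ≤ ε₃ / C := min_le_left _ _
    rw [le_div_iff₀ hC] at h1
    linarith
  have hε₂r : ε₂ < r := (min_le_right _ _).trans_lt (by linarith)
  obtain ⟨ω₁, hω₁, hA1⟩ := unif_near hA (σ := σ / 2) (by linarith) 1 hε₂0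
  obtain ⟨g, hgd, hgnear, hgfar⟩ := hpw 1 (min ω₁ ω₀) (lt_min hω₁ hω₀)
  obtain ⟨M₁, hM₁0, hM₁⟩ := norm_le_on_closedBall hezd R₁
  obtain ⟨M₂, hM₂0, hM₂⟩ := norm_le_on_closedBall hewd R'
  set RG : ℝ := max M₁ M₂ + σ / 4 + 1 with hRG
  obtain ⟨G₁, hG₁d, hG₁S, hG₁⟩ := hG RG ε₂ hε₂0
  -- the maps
  let u : ℂ × ℂ → C2 := fun x => ![ez x.2, ew x.1]
  have hu : Differentiable ℂ u := by
    rw [differentiable_pi]
    intro i
    fin_cases i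
    · exact hezd.comp differentiable_snd
    · exact hewd.comp differentiable_fst
  let sh : (ℂ × ℂ) × (C2 × E) → C2 × E := fun q => (u q.1 + q.2.1, q.2.2)
  have hsh : Differentiable ℂ sh :=
    ((hu.comp differentiable_fst).add (differentiable_fst.comp differentiable_snd)).prodMk
      (differentiable_snd.comp differentiable_snd)
  let MA : (ℂ × ℂ) × (C2 × E) → C4 := fun q => A (sh q, g q.1.1)
  let MB : (ℂ × ℂ) × (C2 × E) → C4 := fun q => G₁ (sh q)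
  have husmall : ∀ x : ℂ × ℂ, x.1 ∈ Aw → x.2 ∈ Az → ‖u x‖ < σ / 4 := by
    intro x h1 h2
    refine norm_vec2_lt (by positivity) ?_ ?_
    · have := hez x.2 h2.1 h2.2.le
      linarith
    · have := hew x.1 h1.1 h1.2.le
      linarith
  have hubig : ∀ x : ℂ × ℂ, ‖x.1‖ < R' → ‖x.2‖ < R₁ → ‖u x‖ ≤ max M₁ M₂ := by
    intro x h1 h2
    refine norm_vec2 (hM₁0.trans (le_max_left _ _)) ?_ ?_
    · exact (hM₁ _ h2.le).trans (le_max_left _ _)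
    · exact (hM₂ _ h1.le).trans (le_max_right _ _)
  have hshsmall : ∀ q : (ℂ × ℂ) × (C2 × E), q.1.1 ∈ Aw → q.1.2 ∈ Az → ‖q.2‖ < σ / 4 →
      ‖sh q‖ < σ / 2 := by
    intro q h1 h2 h3
    have h4 := husmall q.1 h1 h2
    rw [Prod.norm_def, max_lt_iff] at h3
    rw [Prod.norm_def, max_lt_iff]
    refine ⟨(norm_add_le _ _).trans_lt ?_, ?_⟩
    · linarith [h3.1]
    · show ‖q.2.2‖ < σ / 2
      linarith [h3.2]
  have hshbig : ∀ q : (ℂ × ℂ) × (C2 × E), ‖q.1.1‖ < R' → ‖q.1.2‖ < R₁ → ‖q.2‖ < σ / 4 →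
      sh q ∈ ball (0 : C2) RG ×ˢ ball (0 : E) ρ₁ := by
    intro q h1 h2 h3
    have h4 := hubig q.1 h1 h2
    rw [Prod.norm_def, max_lt_iff] at h3
    refine ⟨mem_ball_zero_iff.2 ((norm_add_le _ _).trans_lt ?_), mem_ball_zero_iff.2 ?_⟩
    · linarith [h3.1]
    · show ‖q.2.2‖ < ρ₁
      linarith [h3.2]
  -- domains
  have hMAd : DifferentiableOn ℂ MA ((Aw ×ˢ Az) ×ˢ ball 0 (σ / 4)) := by
    refine hA.comp (hsh.differentiableOn.prodMk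
      ((hgd.comp (differentiable_fst.comp differentiable_fst)).differentiableOn)) ?_
    rintro q ⟨⟨h1, h2⟩, h3⟩
    refine ⟨mem_ball_zero_iff.2 ?_, mem_univ _⟩
    have := hshsmall q h1 h2 (mem_ball_zero_iff.1 h3)
    show ‖sh q‖ < r₀
    linarith
  have hMAS : ∀ q ∈ (Aw ×ˢ Az) ×ˢ ball (0 : C2 × E) (σ / 4), MA q ∈ S := by
    rintro q ⟨⟨h1, h2⟩, h3⟩
    refine hAS ⟨mem_ball_zero_iff.2 ?_, mem_univ _⟩
    have := hshsmall q h1 h2 (mem_ball_zero_iff.1 h3)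
    show ‖sh q‖ < r₀
    linarith
  have hBz' : ∀ z ∈ Bz, ‖z‖ < R₁ := fun z hz => hz.2
  have hMBd : DifferentiableOn ℂ MB ((ball 0 R' ×ˢ ball 0 R₁) ×ˢ ball 0 (σ / 4)) := by
    refine hG₁d.comp hsh.differentiableOn ?_
    rintro q ⟨⟨h1, h2⟩, h3⟩
    exact hshbig q (mem_ball_zero_iff.1 h1) (mem_ball_zero_iff.1 h2) (mem_ball_zero_iff.1 h3)
  have hMBS : ∀ q ∈ (ball (0 : ℂ) R' ×ˢ ball (0 : ℂ) R₁) ×ˢ ball (0 : C2 × E) (σ / 4),
      MB q ∈ S := by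
    rintro q ⟨⟨h1, h2⟩, h3⟩
    exact hG₁S (hshbig q (mem_ball_zero_iff.1 h1) (mem_ball_zero_iff.1 h2)
      (mem_ball_zero_iff.1 h3))
  -- stage 1: closeness to `A(·,1)` on the overlap
  have hMA1 : ∀ q : (ℂ × ℂ) × (C2 × E), q.1.1 ∈ Aw → q.1.1 ∈ Bw → q.1.2 ∈ Az → ‖q.2‖ < σ / 4 →
      ‖MA q - A (sh q, 1)‖ < ε₂ := by
    intro q h1 h2 h3 h4
    have h5 := hshsmall q h1 h3 h4
    refine hA1 (sh q) (sh q) h5.le h5.le (by rw [sub_self, norm_zero]; exact hω₁) _ ?_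
    exact (hgfar q.1.1 h2.2.le h2.1.le).trans_le (min_le_left _ _)
  have hMB1 : ∀ q : (ℂ × ℂ) × (C2 × E), q.1.1 ∈ Aw → q.1.2 ∈ Az → ‖q.2‖ < σ / 4 →
      ‖MB q - A (sh q, 1)‖ < ε₂ := by
    intro q h1 h3 h4
    have h5 := hshsmall q h1 h3 h4
    rw [Prod.norm_def, max_lt_iff] at h5
    exact hG₁ (sh q) ⟨mem_ball_zero_iff.2 (by linarith [h5.1]),
      mem_ball_zero_iff.2 (by linarith [h5.2])⟩
  let gA : (ℂ × ℂ) × (C2 × E) → C2 × E := fun q => Γ (sh q, MA q) - (u q.1, 0)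
  let gB : (ℂ × ℂ) × (C2 × E) → C2 × E := fun q => Γ (sh q, MB q) - (u q.1, 0)
  have hud : Differentiable ℂ (fun q : (ℂ × ℂ) × (C2 × E) => ((u q.1, 0) : C2 × E)) :=
    (hu.comp differentiable_fst).prodMk (differentiable_const _)
  have hshu : ∀ q : (ℂ × ℂ) × (C2 × E), sh q - (u q.1, 0) = q.2 := by
    intro q
    ext <;> simp [sh]
  have hgAd : DifferentiableOn ℂ gA (((Aw ×ˢ Az) ∩ (Bw ×ˢ Az)) ×ˢ ball 0 (σ / 4)) := by
    refine DifferentiableOn.sub (hΓd.comp (hsh.differentiableOn.prodMk (hMAd.mono ?_)) ?_)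
      hud.differentiableOn
    · rintro q ⟨⟨h1, -⟩, h3⟩
      exact ⟨h1, h3⟩
    · rintro q ⟨⟨h1, h2⟩, h3⟩
      have h4 := hshsmall q h1.1 h1.2 (mem_ball_zero_iff.1 h3)
      have h5 := hMA1 q h1.1 h2.1 h1.2 (mem_ball_zero_iff.1 h3)
      exact ⟨by show ‖sh q‖ < r; linarith, by show ‖MA q - A (sh q, 1)‖ < r; linarith⟩
  have hgBd : DifferentiableOn ℂ gB (((Aw ×ˢ Az) ∩ (Bw ×ˢ Az)) ×ˢ ball 0 (σ / 4)) := by
    refine DifferentiableOn.sub (hΓd.comp (hsh.differentiableOn.prodMk (hMBd.mono ?_)) ?_)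
      hud.differentiableOn
    · rintro q ⟨⟨h1, -⟩, h3⟩
      exact ⟨⟨mem_ball_zero_iff.2 h1.1.2, mem_ball_zero_iff.2 h1.2.2⟩, h3⟩
    · rintro q ⟨⟨h1, h2⟩, h3⟩
      have h4 := hshsmall q h1.1 h1.2 (mem_ball_zero_iff.1 h3)
      have h5 := hMB1 q h1.1 h1.2 (mem_ball_zero_iff.1 h3)
      exact ⟨by show ‖sh q‖ < r; linarith, by show ‖MB q - A (sh q, 1)‖ < r; linarith⟩
  have hgAh : ∀ q ∈ ((Aw ×ˢ Az) ∩ (Bw ×ˢ Az)) ×ˢ ball (0 : C2 × E) (σ / 4),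
      A ((u q.1, 0) + gA q, 1) = MA q ∧ ‖gA q - q.2‖ ≤ ε₃ := by
    rintro q ⟨⟨h1, h2⟩, h3⟩
    have h4 := hshsmall q h1.1 h1.2 (mem_ball_zero_iff.1 h3)
    have h5 := hMA1 q h1.1 h2.1 h1.2 (mem_ball_zero_iff.1 h3)
    obtain ⟨h6, h7⟩ := hΓ (sh q) (MA q) (by linarith) (by linarith) (hMAS q ⟨h1, h3⟩)
    refine ⟨?_, ?_⟩
    · have : (u q.1, 0) + gA q = Γ (sh q, MA q) := by simp [gA]
      rw [this]; exact h6
    · have : gA q - q.2 = Γ (sh q, MA q) - sh q := by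
        have := hshu q
        simp only [gA]
        rw [← this]; abel
      rw [this]
      refine h7.trans (le_trans ?_ hε₂C)
      gcongr
  have hgBh : ∀ q ∈ ((Aw ×ˢ Az) ∩ (Bw ×ˢ Az)) ×ˢ ball (0 : C2 × E) (σ / 4),
      A ((u q.1, 0) + gB q, 1) = MB q ∧ ‖gB q - q.2‖ ≤ ε₃ := by
    rintro q ⟨⟨h1, h2⟩, h3⟩
    have h4 := hshsmall q h1.1 h1.2 (mem_ball_zero_iff.1 h3)
    have h5 := hMB1 q h1.1 h1.2 (mem_ball_zero_iff.1 h3)
    obtain ⟨h6, h7⟩ := hΓ (sh q) (MB q) (by linarith) (by linarith)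
      (hMBS q ⟨⟨mem_ball_zero_iff.2 h1.1.2, mem_ball_zero_iff.2 h1.2.2⟩, h3⟩)
    refine ⟨?_, ?_⟩
    · have : (u q.1, 0) + gB q = Γ (sh q, MB q) := by simp [gB]
      rw [this]; exact h6
    · have : gB q - q.2 = Γ (sh q, MB q) - sh q := by
        have := hshu q
        simp only [gB]
        rw [← this]; abel
      rw [this]
      refine h7.trans (le_trans ?_ hε₂C)
      gcongr
  obtain ⟨α, β, hαd, hβd, hαn, hβn, hαβ⟩ := PG.PGL (hAwo.prod hAzo) (hBwo.prod hAzo) hKw0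
    (hKw Az hAzo) (ρ := σ / 4) (by positivity) hε₃a hgAd hgBd (fun q hq => (hgAh q hq).2)
    (fun q hq => (hgBh q hq).2) hε₃0.le
  have hαb : ∀ q ∈ (Aw ×ˢ Az) ×ˢ ball (0 : C2 × E) (σ / 4 / 2), ‖α q‖ < σ / 4 := by
    intro q hq
    have h1 := hαn q hq
    have h2 := mem_ball_zero_iff.1 hq.2
    have h3 := norm_add_le (α q - q.2) q.2
    rw [sub_add_cancel] at h3
    have h4 : 0 ≤ 4 * Kz * ε₄ := by positivity
    linarith
  have hβb : ∀ q ∈ (Bw ×ˢ Az) ×ˢ ball (0 : C2 × E) (σ / 4 / 2), ‖β q‖ < σ / 4 := by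
    intro q hq
    have h1 := hβn q hq
    have h2 := mem_ball_zero_iff.1 hq.2
    have h3 := norm_add_le (β q - q.2) q.2
    rw [sub_add_cancel] at h3
    have h4 : 0 ≤ 4 * Kz * ε₄ := by positivity
    linarith
  have hball2 : ∀ t ∈ ball (0 : C2 × E) (σ / 4 / 2), t ∈ ball (0 : C2 × E) (σ / 4) :=
    fun t ht => ball_subset_ball (by linarith) ht
  obtain ⟨G₂, hG₂d, hG₂A, hG₂B⟩ := exists_glue (f := fun q => MA (q.1, α q))
    (g := fun q => MB (q.1, β q)) (s := (Aw ×ˢ Az) ×ˢ ball (0 : C2 × E) (σ / 4 / 2))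
    (t := (Bw ×ˢ Az) ×ˢ ball (0 : C2 × E) (σ / 4 / 2))
    ((hAwo.prod hAzo).prod isOpen_ball) ((hBwo.prod hAzo).prod isOpen_ball)
    (by
      refine hMAd.comp (differentiableOn_fst.prodMk hαd) ?_
      intro q hq
      exact ⟨hq.1, mem_ball_zero_iff.2 (hαb q hq)⟩)
    (by
      refine hMBd.comp (differentiableOn_fst.prodMk hβd) ?_
      intro q hq
      exact ⟨⟨mem_ball_zero_iff.2 hq.1.1.2, mem_ball_zero_iff.2 hq.1.2.2⟩,
        mem_ball_zero_iff.2 (hβb q hq)⟩)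
    (by
      intro q hqA hqB
      have h1 := hαβ q ⟨⟨hqA.1, hqB.1⟩, hqA.2⟩
      have h2 := (hgAh (q.1, α q) ⟨⟨hqA.1, hqB.1⟩, mem_ball_zero_iff.2 (hαb q hqA)⟩).1
      have h3 := (hgBh (q.1, β q) ⟨⟨hqA.1, hqB.1⟩, mem_ball_zero_iff.2 (hβb q hqB)⟩).1
      simp only at h2 h3 ⊢
      rw [← h2, ← h3, h1])
  have hG₂S : ∀ q ∈ (ball (0 : ℂ) R' ×ˢ Az) ×ˢ ball (0 : C2 × E) (σ / 4 / 2), G₂ q ∈ S := by
    rintro q ⟨⟨h1, h2⟩, h3⟩
    by_cases hq : Lw q.1.1 < δw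
    · have h4 : q ∈ (Aw ×ˢ Az) ×ˢ ball (0 : C2 × E) (σ / 4 / 2) :=
        ⟨⟨⟨hq, mem_ball_zero_iff.1 h1⟩, h2⟩, h3⟩
      rw [hG₂A q h4]
      exact hMAS _ ⟨h4.1, mem_ball_zero_iff.2 (hαb q h4)⟩
    · have h4 : q ∈ (Bw ×ˢ Az) ×ˢ ball (0 : C2 × E) (σ / 4 / 2) :=
        ⟨⟨⟨by linarith [not_lt.1 hq], mem_ball_zero_iff.1 h1⟩, h2⟩, h3⟩
      rw [hG₂B q h4]
      exact hMBS _ ⟨⟨h1, mem_ball_zero_iff.2 h2.2⟩, mem_ball_zero_iff.2 (hβb q h4)⟩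
  have hG₂d' : DifferentiableOn ℂ G₂ ((ball (0 : ℂ) R' ×ˢ Az) ×ˢ ball 0 (σ / 4 / 2)) := by
    refine hG₂d.mono ?_
    rintro q ⟨⟨h1, h2⟩, h3⟩
    by_cases hq : Lw q.1.1 < δw
    · exact Or.inl ⟨⟨⟨hq, mem_ball_zero_iff.1 h1⟩, h2⟩, h3⟩
    · exact Or.inr ⟨⟨⟨by linarith [not_lt.1 hq], mem_ball_zero_iff.1 h1⟩, h2⟩, h3⟩
  -- stage 2
  let sw : ℂ × ℂ → ℂ × ℂ := fun x => (x.2 + p x.1, x.1)
  have hsw : Differentiable ℂ sw :=
    (differentiable_snd.add (hpd.comp differentiable_fst)).prodMk differentiable_fst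
  have hsw1 : ∀ x : ℂ × ℂ, ‖x.1‖ < R₁ → ‖x.2‖ < R₁ → ‖(sw x).1‖ < R' := by
    intro x h1 h2
    have h3 := hM x.1 h1.le
    have h4 : ‖x.2 + p x.1‖ ≤ ‖x.2‖ + ‖p x.1‖ := norm_add_le _ _
    show ‖x.2 + p x.1‖ < R'
    linarith
  have hswB : ∀ x : ℂ × ℂ, x.1 ∈ Bz → ‖x.2‖ < R₁ → (sw x).1 ∈ Bw := by
    intro x h1 h2
    refine ⟨?_, hsw1 x h1.2 h2⟩
    have h3 := (hpfar x.1 h1.2.le h1.1.le).trans_le (min_le_right _ _)
    have h4 : (sw x).1.re < -(σ / 8 + 1) := by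
      have h5 := (Complex.abs_re_le_norm (p x.1 - Λ)).trans_lt h3
      have h6 := (Complex.abs_re_le_norm x.2).trans_lt h2
      rw [Complex.sub_re] at h5
      have h7 := (le_abs_self _).trans_lt h5
      have h8 := (le_abs_self _).trans_lt h6
      have h9 : Λ.re = -(R₁ + 1 + (σ / 8 + 1)) := by simp [hΛ]
      show (x.2 + p x.1).re < _
      rw [Complex.add_re]
      linarith
    have h5 := hwfar _ h4
    linarith
  obtain ⟨α', β', hα'd, hβ'd, hα'n, hβ'n, hα'β'⟩ := PG.PGL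
    (hAzo.prod (isOpen_ball (x := (0 : ℂ)) (ε := R₁)))
    (hBzo.prod (isOpen_ball (x := (0 : ℂ)) (ε := R₁))) hKz0
    (hKz (ball 0 R₁) isOpen_ball) (ρ := σ / 4 / 2) (ε := ε₄) (by positivity)
    (by linarith) (gA := fun q => β (sw q.1, q.2)) (gB := fun q => q.2)
    (by
      refine hβd.comp ((hsw.comp differentiable_fst).prodMk differentiable_snd).differentiableOn ?_
      rintro q ⟨⟨h1, h2⟩, h3⟩
      exact ⟨⟨hswB q.1 h2.1 (mem_ball_zero_iff.1 h1.2), h1.1⟩, h3⟩)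
    differentiableOn_snd
    (by
      rintro q ⟨⟨h1, h2⟩, h3⟩
      exact (hβn (sw q.1, q.2) ⟨⟨hswB q.1 h2.1 (mem_ball_zero_iff.1 h1.2), h1.1⟩, h3⟩).trans hε₃b)
    (by
      intro q hq
      simp only [sub_self, norm_zero]
      exact hε₄0.le) hε₄0.le
  have hα'b : ∀ q ∈ (Az ×ˢ ball (0 : ℂ) R₁) ×ˢ ball (0 : C2 × E) (σ / 4 / 2 / 2),
      ‖α' q‖ < σ / 4 / 2 := by
    intro q hq
    have h1 := hα'n q hq
    have h2 := mem_ball_zero_iff.1 hq.2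
    have h3 := norm_add_le (α' q - q.2) q.2
    rw [sub_add_cancel] at h3
    linarith
  have hβ'b : ∀ q ∈ (Bz ×ˢ ball (0 : ℂ) R₁) ×ˢ ball (0 : C2 × E) (σ / 4 / 2 / 2),
      ‖β' q‖ < σ / 4 := by
    intro q hq
    have h1 := hβ'n q hq
    have h2 := mem_ball_zero_iff.1 hq.2
    have h3 := norm_add_le (β' q - q.2) q.2
    rw [sub_add_cancel] at h3
    linarith
  obtain ⟨G₃, hG₃d, hG₃A, hG₃B⟩ := exists_glue (f := fun q => G₂ (sw q.1, α' q))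
    (g := fun q => MB (sw q.1, β' q))
    (s := (Az ×ˢ ball (0 : ℂ) R₁) ×ˢ ball (0 : C2 × E) (σ / 4 / 2 / 2))
    (t := (Bz ×ˢ ball (0 : ℂ) R₁) ×ˢ ball (0 : C2 × E) (σ / 4 / 2 / 2))
    ((hAzo.prod isOpen_ball).prod isOpen_ball) ((hBzo.prod isOpen_ball).prod isOpen_ball)
    (by
      refine hG₂d'.comp (((hsw.comp differentiable_fst).differentiableOn).prodMk hα'd) ?_
      intro q hq
      exact ⟨⟨mem_ball_zero_iff.2 (hsw1 q.1 hq.1.1.2 (mem_ball_zero_iff.1 hq.1.2)), hq.1.1⟩,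
        mem_ball_zero_iff.2 (hα'b q hq)⟩)
    (by
      refine hMBd.comp (((hsw.comp differentiable_fst).differentiableOn).prodMk hβ'd) ?_
      intro q hq
      exact ⟨⟨mem_ball_zero_iff.2 (hsw1 q.1 hq.1.1.2 (mem_ball_zero_iff.1 hq.1.2)),
        mem_ball_zero_iff.2 hq.1.1.2⟩, mem_ball_zero_iff.2 (hβ'b q hq)⟩)
    (by
      intro q hqA hqB
      have h1 := hα'β' q ⟨⟨hqA.1, hqB.1⟩, hqA.2⟩
      simp only at h1 ⊢
      have h2 := hG₂B (sw q.1, α' q) ⟨⟨hswB q.1 hqB.1.1 (mem_ball_zero_iff.1 hqB.1.2), hqA.1.1⟩,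
        mem_ball_zero_iff.2 (hα'b q hqA)⟩
      rw [h2, h1])
  have hG₃S : ∀ q ∈ (ball (0 : ℂ) R₁ ×ˢ ball (0 : ℂ) R₁) ×ˢ ball (0 : C2 × E) (σ / 4 / 2 / 2),
      G₃ q ∈ S ∧ q ∈ (Az ×ˢ ball (0 : ℂ) R₁) ×ˢ ball (0 : C2 × E) (σ / 4 / 2 / 2) ∪
        (Bz ×ˢ ball (0 : ℂ) R₁) ×ˢ ball (0 : C2 × E) (σ / 4 / 2 / 2) := by
    rintro q ⟨⟨h1, h2⟩, h3⟩
    by_cases hq : Lz q.1.1 < δz
    · have h4 : q ∈ (Az ×ˢ ball (0 : ℂ) R₁) ×ˢ ball (0 : C2 × E) (σ / 4 / 2 / 2) :=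
        ⟨⟨⟨hq, mem_ball_zero_iff.1 h1⟩, h2⟩, h3⟩
      refine ⟨?_, Or.inl h4⟩
      rw [hG₃A q h4]
      exact hG₂S _ ⟨⟨mem_ball_zero_iff.2 (hsw1 q.1 (mem_ball_zero_iff.1 h1)
        (mem_ball_zero_iff.1 h2)), h4.1.1⟩, mem_ball_zero_iff.2 (hα'b q h4)⟩
    · have h4 : q ∈ (Bz ×ˢ ball (0 : ℂ) R₁) ×ˢ ball (0 : C2 × E) (σ / 4 / 2 / 2) :=
        ⟨⟨⟨by linarith [not_lt.1 hq], mem_ball_zero_iff.1 h1⟩, h2⟩, h3⟩
      refine ⟨?_, Or.inr h4⟩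
      rw [hG₃B q h4]
      exact hMBS _ ⟨⟨mem_ball_zero_iff.2 (hsw1 q.1 (mem_ball_zero_iff.1 h1)
        (mem_ball_zero_iff.1 h2)), h1⟩, mem_ball_zero_iff.2 (hβ'b q h4)⟩
  -- the final map
  let κ : C2 × E → (ℂ × ℂ) × (C2 × E) := fun q => ((q.1 0, q.1 1), (0, q.2))
  have hκ : Differentiable ℂ κ := by
    have h1 : Differentiable ℂ (fun q : C2 × E => q.1 0) := by fun_prop
    have h2 : Differentiable ℂ (fun q : C2 × E => q.1 1) := by fun_prop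
    have h3 : Differentiable ℂ (fun q : C2 × E => ((0 : C2), q.2)) := by fun_prop
    exact (h1.prodMk h2).prodMk h3
  have hκm : ∀ q ∈ ball (0 : C2) R₁ ×ˢ ball (0 : E) (σ / 16),
      κ q ∈ (ball (0 : ℂ) R₁ ×ˢ ball (0 : ℂ) R₁) ×ˢ ball (0 : C2 × E) (σ / 4 / 2 / 2) := by
    rintro q ⟨h1, h2⟩
    have h1' := mem_ball_zero_iff.1 h1
    refine ⟨⟨mem_ball_zero_iff.2 ((norm_le_pi_norm q.1 0).trans_lt h1'),
      mem_ball_zero_iff.2 ((norm_le_pi_norm q.1 1).trans_lt h1')⟩, mem_ball_zero_iff.2 ?_⟩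
    show ‖((0 : C2), q.2)‖ < _
    rw [Prod.norm_def, max_lt_iff]
    have h3 := mem_ball_zero_iff.1 h2
    exact ⟨by simp only [norm_zero]; positivity, by simp only; linarith⟩
  refine ⟨fun q => G₃ (κ q), ?_, ?_, ?_⟩
  · refine hG₃d.comp hκ.differentiableOn ?_
    rintro q ⟨h1, h2⟩
    exact (hG₃S (κ q) (hκm q ⟨ball_subset_ball (le_max_left _ _) h1, h2⟩)).2
  · rintro q ⟨h1, h2⟩
    exact (hG₃S (κ q) (hκm q ⟨ball_subset_ball (le_max_left _ _) h1, h2⟩)).1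
  · rintro ⟨x, t⟩ ⟨h1, h2⟩
    have hx : ‖x‖ < σ / 16 := mem_ball_zero_iff.1 h1
    have ht : ‖t‖ < σ / 16 := mem_ball_zero_iff.1 h2
    have hx0 : ‖x 0‖ < σ / 16 := (norm_le_pi_norm x 0).trans_lt hx
    have hx1 : ‖x 1‖ < σ / 16 := (norm_le_pi_norm x 1).trans_lt hx
    have hz0 := heznear (x 0) (by linarith)
    have hzA : x 0 ∈ Az := ⟨by rw [hz0.2]; exact hδz, by linarith⟩
    have hκA : κ (x, t) ∈ (Az ×ˢ ball (0 : ℂ) R₁) ×ˢ ball (0 : C2 × E) (σ / 4 / 2 / 2) := by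
      have h3 := hκm (x, t) ⟨mem_ball_zero_iff.2 (by linarith), h2⟩
      exact ⟨⟨hzA, h3.1.2⟩, h3.2⟩
    have hpz0 : ‖p (x 0)‖ < min (min (ω₀ / 8) (σ / 32)) 1 := hpnear (x 0) (by linarith)
    have hpz1 : ‖p (x 0)‖ < ω₀ / 8 := hpz0.trans_le ((min_le_left _ _).trans (min_le_left _ _))
    have hpz2 : ‖p (x 0)‖ < σ / 32 := hpz0.trans_le ((min_le_left _ _).trans (min_le_right _ _))
    have hW : ‖x 1 + p (x 0)‖ < σ / 8 := (norm_add_le _ _).trans_lt (by linarith)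
    have hw0 := hewnear (x 1 + p (x 0)) hW
    have hWA : x 1 + p (x 0) ∈ Aw := ⟨by rw [hw0.2]; exact hδw, by linarith⟩
    set t' : C2 × E := α' (κ (x, t)) with ht'
    have ht'b : ‖t'‖ < σ / 4 / 2 := hα'b _ hκA
    have ht'n : ‖t' - (0, t)‖ ≤ 4 * Kz * ε₄ := hα'n _ hκA
    have hmem : (((x 1 + p (x 0), x 0), t') : (ℂ × ℂ) × (C2 × E)) ∈
        (Aw ×ˢ Az) ×ˢ ball (0 : C2 × E) (σ / 4 / 2) := ⟨⟨hWA, hzA⟩, mem_ball_zero_iff.2 ht'b⟩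
    set t'' : C2 × E := α ((x 1 + p (x 0), x 0), t') with ht''
    have ht''b : ‖t''‖ < σ / 4 := hαb _ hmem
    have ht''n : ‖t'' - t'‖ ≤ 4 * Kw * ε₃ := hαn _ hmem
    have hval : G₃ (κ (x, t)) = A (sh ((x 1 + p (x 0), x 0), t''), g (x 1 + p (x 0))) := by
      rw [hG₃A _ hκA]
      exact hG₂A _ hmem
    show ‖G₃ (κ (x, t)) - A ((x, t), 0)‖ < ε
    rw [hval]
    have hgW : ‖g (x 1 + p (x 0)) - 0‖ < ω₀ := by
      rw [sub_zero]
      exact (hgnear _ hW).trans_le (min_le_right _ _)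
    have hs1 : ‖sh ((x 1 + p (x 0), x 0), t'')‖ < σ / 2 := hshsmall _ hWA hzA ht''b
    have hs2 : ‖((x, t) : C2 × E)‖ ≤ σ / 2 := by
      rw [Prod.norm_def, max_le_iff]
      exact ⟨by show ‖x‖ ≤ _; linarith, by show ‖t‖ ≤ _; linarith⟩
    refine hA0 _ _ hs1.le hs2 ?_ _ hgW
    have hd : sh ((x 1 + p (x 0), x 0), t'') - (x, t) =
        (![ez (x 0) - x 0, ew (x 1 + p (x 0)) - x 1], 0) + ((t'' - t') + (t' - (0, t))) := by
      have h3 : (![ez (x 0) - x 0, ew (x 1 + p (x 0)) - x 1] : C2)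
          = ![ez (x 0), ew (x 1 + p (x 0))] - x := by
        ext i
        fin_cases i <;> simp
      rw [h3]
      refine Prod.ext ?_ ?_
      · show (![ez (x 0), ew (x 1 + p (x 0))] + t''.1) - x =
          (![ez (x 0), ew (x 1 + p (x 0))] - x) + ((t''.1 - t'.1) + (t'.1 - 0))
        abel
      · show t''.2 - t = 0 + ((t''.2 - t'.2) + (t'.2 - t))
        abel
    rw [hd]
    have h3 : ‖((![ez (x 0) - x 0, ew (x 1 + p (x 0)) - x 1], 0) : C2 × E)‖ ≤ ω₀ / 4 := by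
      rw [Prod.norm_def, max_le_iff]
      refine ⟨norm_vec2 (by positivity) ?_ ?_, by simp only [norm_zero]; positivity⟩
      · linarith [hz0.1]
      · have h4 : ew (x 1 + p (x 0)) - x 1 = (ew (x 1 + p (x 0)) - (x 1 + p (x 0))) + p (x 0) := by
          ring
        rw [h4]
        refine (norm_add_le _ _).trans ?_
        linarith [hw0.1]
    have h4 := norm_add_le ((![ez (x 0) - x 0, ew (x 1 + p (x 0)) - x 1], 0) : C2 × E)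
      ((t'' - t') + (t' - (0, t)))
    have h5 := norm_add_le (t'' - t') (t' - (0, t))
    linarith

end Crest.Agent.R279.Fam
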