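import Crest.Agent.R279.FamPlanar520
import Crest.Agent.R279.Runge250
import Crest.Agent.R279.Thin556

/-!
R279 (helper520), (4.3) and the last step of Part 6: if a local section `ψ` of the cone through `v`
can be approximated by maps defined on arbitrarily large polydiscs, then `v` is a good point.
-/

set_option autoImplicit false

namespace Crest.Agent.R279.Fam

open Metric Set

/-- closeness on a ball of a continuous function to itself (uniform continuity) -/
theorem unif_cont_ball {X Y : Type*} [NormedAddCommGroup X] [NormedSpace ℂ X] [ProperSpace X]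
    [NormedAddCommGroup Y] [NormedSpace ℂ Y] {A : X → Y} {s : Set X} {σ : ℝ}
    (hA : ContinuousOn A s) (hσ : closedBall (0 : X) σ ⊆ s) {ε : ℝ} (hε : 0 < ε) :
    ∃ ω : ℝ, 0 < ω ∧ ∀ p q : X, ‖p‖ ≤ σ → ‖q‖ ≤ σ → ‖p - q‖ < ω → ‖A p - A q‖ < ε := by
  have hu := (isCompact_closedBall (0 : X) σ).uniformContinuousOn_of_continuous (hA.mono hσ)
  rw [Metric.uniformContinuousOn_iff] at hu
  obtain ⟨δ, hδ, h⟩ := hu ε hε
  refine ⟨δ, hδ, fun p q hp hq hpq => ?_⟩
  have h1 := h p (by simpa using hp) q (by simpa using hq) (by rwa [dist_eq_norm])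
  rwa [dist_eq_norm] at h1

/-- **Germ lemma.** -/
theorem goodPt_of_section {S : Set C4} (hcone : ∀ v ∈ S, ∀ c : ℂ, c ≠ 0 → c • v ∈ S)
    {ψ : C2 → C4} {r : ℝ} (hr : 0 < r) (hψ : ContinuousOn ψ (ball 0 r))
    (happ : ∃ ρ : ℝ, 0 < ρ ∧ ∀ R : ℝ, ∀ ε : ℝ, 0 < ε → ∃ G : C2 → C4,
      DifferentiableOn ℂ G (ball 0 R) ∧ MapsTo G (ball 0 R) S ∧
      ∀ x ∈ ball (0 : C2) ρ, ‖G x - ψ x‖ < ε)
    {v : C4} (hv : v ∈ S) {O : Set C4} (hO : IsOpen O) (hvO : v ∈ O) {lam : C4 → ℂ}
    {ζ : C4 → C2} (hlam : DifferentiableOn ℂ lam O) (hζ : DifferentiableOn ℂ ζ O)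
    (hlam0 : ∀ y ∈ O, lam y ≠ 0) (hζv : ζ v = 0) (heq : ∀ y ∈ O, y ∈ S → y = lam y • ψ (ζ y)) :
    GoodPt S v := by
  obtain ⟨ρ₀, hρ₀, hG⟩ := happ
  set ρ : ℝ := min ρ₀ r with hρ
  have hρ0 : 0 < ρ := lt_min hρ₀ hr
  refine ⟨hv, fun N F hF hF0 => ?_⟩
  obtain ⟨W, hW, hW0, hFd, hFS⟩ := hF
  have h0W : (0 : Fin N → ℂ) ∈ W := hW0 rfl
  set l₀ : ℂ := lam v with hl₀
  have hl₀0 : l₀ ≠ 0 := hlam0 v hvO
  -- a neighbourhood on which everything is defined
  have hFc : ContinuousAt F 0 := (hFd.differentiableAt (hW.mem_nhds h0W)).continuousAt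
  have hOn : O ∈ nhds (F 0) := by rw [hF0]; exact hO.mem_nhds hvO
  have hlc : ContinuousAt (fun w => lam (F w) / l₀) 0 := by
    have h1 : ContinuousAt lam (F 0) := (hlam.differentiableAt hOn).continuousAt
    exact (ContinuousAt.comp (f := F) h1 hFc).div_const _
  have hzc : ContinuousAt (fun w => ζ (F w)) 0 := by
    have h1 : ContinuousAt ζ (F 0) := (hζ.differentiableAt hOn).continuousAt
    exact ContinuousAt.comp (f := F) h1 hFc
  have hev : ∀ᶠ w in nhds (0 : Fin N → ℂ), w ∈ W ∧ F w ∈ O ∧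
      lam (F w) / l₀ ∈ Complex.slitPlane ∧ ‖ζ (F w)‖ < ρ / 2 := by
    have h1 : ∀ᶠ w in nhds (0 : Fin N → ℂ), lam (F w) / l₀ ∈ Complex.slitPlane := by
      refine hlc.eventually (Complex.isOpen_slitPlane.mem_nhds ?_)
      simp only [hF0]
      rw [div_self hl₀0]
      exact Complex.one_mem_slitPlane
    have h2 : ∀ᶠ w in nhds (0 : Fin N → ℂ), ‖ζ (F w)‖ < ρ / 2 := by
      have h3 := hzc.norm
      refine h3.eventually (gt_mem_nhds ?_)
      simp only [hF0, hζv, norm_zero]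
      positivity
    filter_upwards [hW.mem_nhds h0W, hFc.eventually hOn, h1, h2] with w a b c d
    exact ⟨a, b, c, d⟩
  obtain ⟨ρ₁, hρ₁, hball⟩ := Metric.eventually_nhds_iff_ball.1 hev
  set K : Set (Fin N → ℂ) := closedBall 0 (ρ₁ / 2) with hK
  set U : Set (Fin N → ℂ) := ball 0 ρ₁ with hU
  have hKU : K ⊆ U := closedBall_subset_ball (by linarith)
  have hUW : U ⊆ W := fun w hw => (hball w hw).1
  have hμd : DifferentiableOn ℂ (fun w => Complex.log (lam (F w) / l₀)) U := by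
    have h1 : DifferentiableOn ℂ (fun w => lam (F w)) U :=
      hlam.comp (hFd.mono hUW) (fun w hw => (hball w hw).2.1)
    have h2 : DifferentiableOn ℂ (fun w => lam (F w) / l₀) U := by
      simp only [div_eq_mul_inv]
      exact h1.mul_const _
    exact h2.clog (fun w hw => (hball w hw).2.2.1)
  have hzd : DifferentiableOn ℂ (fun w => ζ (F w)) U :=
    hζ.comp (hFd.mono hUW) (fun w hw => (hball w hw).2.1)
  have hKc : IsCompact K := isCompact_closedBall _ _
  have hKcv : Convex ℝ K := convex_closedBall _ _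
  obtain ⟨Mμ, hMμ⟩ := hKc.exists_bound_of_continuousOn (hμd.continuousOn.mono hKU)
  set M : ℝ := max Mμ 0 with hM
  have hM0 : 0 ≤ M := le_max_right _ _
  refine ⟨ρ₁ / 2, by positivity, fun R ε hε => ?_⟩
  -- uniform continuity of the target expression
  let Φ : ℂ × C2 → C4 := fun q => (l₀ * Complex.exp q.1) • ψ q.2
  have hψc : ContinuousOn ψ (closedBall 0 (3 / 4 * ρ)) :=
    hψ.mono (closedBall_subset_ball (by
      have : ρ ≤ r := min_le_right _ _
      linarith))
  have hΦc : ContinuousOn Φ (closedBall (0 : ℂ) (M + 1) ×ˢ closedBall (0 : C2) (3 / 4 * ρ)) := by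
    have h1 : ContinuousOn (fun q : ℂ × C2 => l₀ * Complex.exp q.1)
        (closedBall (0 : ℂ) (M + 1) ×ˢ closedBall (0 : C2) (3 / 4 * ρ)) :=
      (continuous_const.mul (Complex.continuous_exp.comp continuous_fst)).continuousOn
    have h2 : ContinuousOn (fun q : ℂ × C2 => ψ q.2)
        (closedBall (0 : ℂ) (M + 1) ×ˢ closedBall (0 : C2) (3 / 4 * ρ)) :=
      hψc.comp continuousOn_snd (fun q hq => hq.2)
    exact h1.smul h2
  have hΦu := ((isCompact_closedBall (0 : ℂ) (M + 1)).prod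
    (isCompact_closedBall (0 : C2) (3 / 4 * ρ))).uniformContinuousOn_of_continuous hΦc
  rw [Metric.uniformContinuousOn_iff] at hΦu
  obtain ⟨ω, hω, hΦω⟩ := hΦu (ε / 2) (by positivity)
  set η : ℝ := min (min ω (ρ / 4)) 1 with hη
  have hη0 : 0 < η := lt_min (lt_min hω (by positivity)) one_pos
  obtain ⟨P, hP⟩ := CRunge.convex_runge_pi (J := Fin 1) hKc hKcv isOpen_ball hKU
    (g := fun w _ => Complex.log (lam (F w) / l₀)) (differentiableOn_pi.2 fun _ => hμd) hη0
  obtain ⟨Z, hZ⟩ := CRunge.convex_runge_pi (J := Fin 2) hKc hKcv isOpen_ball hKU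
    (g := fun w => ζ (F w)) hzd hη0
  set μP : (Fin N → ℂ) → ℂ := fun w => MvPolynomial.eval w (P 0) with hμP
  set zP : (Fin N → ℂ) → C2 := fun w j => MvPolynomial.eval w (Z j) with hzP
  have hμPd : Differentiable ℂ μP := CRunge.differentiable_eval _
  have hzPd : Differentiable ℂ zP := differentiable_pi.2 fun j => CRunge.differentiable_eval _
  have hPn : ∀ w ∈ K, ‖μP w - Complex.log (lam (F w) / l₀)‖ < η := by
    intro w hw
    exact (norm_le_pi_norm _ (0 : Fin 1)).trans_lt (hP w hw)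
  have hZn : ∀ w ∈ K, ‖zP w - ζ (F w)‖ < η := fun w hw => hZ w hw
  obtain ⟨R', hR'⟩ := (isCompact_closedBall (0 : Fin N → ℂ) R).exists_bound_of_continuousOn
    hzPd.continuous.continuousOn
  have hexp : 0 < ‖l₀‖ * Real.exp (M + 1) := by positivity
  obtain ⟨G, hGd, hGS, hGn⟩ := hG (R' + 1) (ε / 2 / (‖l₀‖ * Real.exp (M + 1))) (by positivity)
  refine ⟨fun w => (l₀ * Complex.exp (μP w)) • G (zP w), ?_, ?_, ?_⟩
  · have h1 : DifferentiableOn ℂ (fun w => l₀ * Complex.exp (μP w)) (ball 0 R) :=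
      ((differentiable_const _).mul hμPd.cexp).differentiableOn
    have h2 : DifferentiableOn ℂ (fun w => G (zP w)) (ball 0 R) := by
      refine hGd.comp hzPd.differentiableOn ?_
      intro w hw
      have h1 := hR' w (ball_subset_closedBall hw)
      exact mem_ball_zero_iff.2 (by linarith)
    exact h1.smul h2
  · intro w hw
    refine hcone _ (hGS ?_) _ (mul_ne_zero hl₀0 (Complex.exp_ne_zero _))
    have h1 := hR' w (ball_subset_closedBall hw)
    exact mem_ball_zero_iff.2 (by linarith)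
  · intro w hw
    have hw' : w ∈ K := hw
    obtain ⟨-, hwO, hwsl, hwρ⟩ := hball w (hKU hw')
    have h1 := hPn w hw'
    have h2 := hZn w hw'
    have hη1 : η ≤ ω := (min_le_left _ _).trans (min_le_left _ _)
    have hη2 : η ≤ ρ / 4 := (min_le_left _ _).trans (min_le_right _ _)
    have hη3 : η ≤ 1 := min_le_right _ _
    have h3 : ‖Complex.log (lam (F w) / l₀)‖ ≤ M := (hMμ w hw').trans (le_max_left _ _)
    have h4 : ‖μP w‖ ≤ M + 1 := by
      have := norm_add_le (μP w - Complex.log (lam (F w) / l₀)) (Complex.log (lam (F w) / l₀))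
      rw [sub_add_cancel] at this
      linarith
    have h5 : ‖zP w‖ ≤ 3 / 4 * ρ := by
      have := norm_add_le (zP w - ζ (F w)) (ζ (F w))
      rw [sub_add_cancel] at this
      linarith
    have h6 := hΦω (μP w, zP w) ⟨by simpa using h4, by simpa using h5⟩
      (Complex.log (lam (F w) / l₀), ζ (F w)) ⟨by
        rw [mem_closedBall_zero_iff]; simp only; linarith, by
        rw [mem_closedBall_zero_iff]; simp only; linarith⟩ (by
        rw [Prod.dist_eq, max_lt_iff, dist_eq_norm, dist_eq_norm]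
        exact ⟨h1.trans_le hη1, h2.trans_le hη1⟩)
    have h7 : Φ (Complex.log (lam (F w) / l₀), ζ (F w)) = F w := by
      have hne : lam (F w) / l₀ ≠ 0 := Complex.slitPlane_ne_zero hwsl
      simp only [Φ]
      rw [Complex.exp_log hne, mul_div_cancel₀ _ hl₀0]
      exact (heq (F w) hwO (hFS (hball w (hKU hw')).1)).symm
    rw [h7, dist_eq_norm] at h6
    have h8 : ‖G (zP w) - ψ (zP w)‖ < ε / 2 / (‖l₀‖ * Real.exp (M + 1)) := by
      refine hGn _ (mem_ball_zero_iff.2 ?_)
      have : ρ ≤ ρ₀ := min_le_left _ _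
      linarith
    have h9 : ‖(l₀ * Complex.exp (μP w)) • G (zP w) - Φ (μP w, zP w)‖ < ε / 2 := by
      simp only [Φ]
      rw [← smul_sub, norm_smul, norm_mul, Complex.norm_exp]
      have h10 : Real.exp (μP w).re ≤ Real.exp (M + 1) :=
        Real.exp_le_exp.2 ((Complex.re_le_norm _).trans h4)
      calc ‖l₀‖ * Real.exp (μP w).re * ‖G (zP w) - ψ (zP w)‖
          ≤ ‖l₀‖ * Real.exp (M + 1) * ‖G (zP w) - ψ (zP w)‖ := by gcongr
        _ < ‖l₀‖ * Real.exp (M + 1) * (ε / 2 / (‖l₀‖ * Real.exp (M + 1))) := by gcongr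
        _ = ε / 2 := by field_simp
    have h11 : (l₀ * Complex.exp (μP w)) • G (zP w) - F w =
        ((l₀ * Complex.exp (μP w)) • G (zP w) - Φ (μP w, zP w)) + (Φ (μP w, zP w) - F w) := by
      abel
    show ‖(l₀ * Complex.exp (μP w)) • G (zP w) - F w‖ < ε
    rw [h11]
    refine (norm_add_le _ _).trans_lt ?_
    linarith

end Crest.Agent.R279.Fam
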