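import Crest.Agent.R279.FamPlanar520
import Crest.Agent.R279.PSL806

/-!
R279 (helper520): `SplitTarget` from helper806's bounded splitting.
-/

set_option autoImplicit false

namespace Crest.Agent.R279.Fam

open Metric Set

theorem splitTarget (V : Type) [NormedAddCommGroup V] [NormedSpace ℂ V] [CompleteSpace V] :
    SplitTarget V := by
  intro A B hA hB hbd hsep
  obtain ⟨η, hη, hs⟩ := hsep
  obtain ⟨χ, K, hK⟩ := PSL.exists_isSplit.{0, 0} hA hB hbd ⟨η, hη, hs⟩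
  have hK0 : 0 < K := (hK ℂ V).pos
  refine ⟨K, hK0.le, fun T hT => ?_⟩
  intro E _ _ T' hT' h C hC hh hb
  have hI := hK (ℂ × E) V
  let σ : (ℂ × E) × ℂ → (ℂ × ℂ) × E := fun y => ((y.2, y.1.1), y.1.2)
  let σ' : (ℂ × ℂ) × E → (ℂ × E) × ℂ := fun y => ((y.1.2, y.2), y.1.1)
  have hσ : Differentiable ℂ σ := by
    have h1 : Differentiable ℂ (fun y : (ℂ × E) × ℂ => (y.2, y.1.1)) := by fun_prop
    have h2 : Differentiable ℂ (fun y : (ℂ × E) × ℂ => y.1.2) := by fun_prop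
    exact h1.prodMk h2
  have hσ' : Differentiable ℂ σ' := by
    have h1 : Differentiable ℂ (fun y : (ℂ × ℂ) × E => (y.1.2, y.2)) := by fun_prop
    have h2 : Differentiable ℂ (fun y : (ℂ × ℂ) × E => y.1.1) := by fun_prop
    exact h1.prodMk h2
  have hTT : IsOpen (T ×ˢ T') := hT.prod hT'
  have hd : DifferentiableOn ℂ (fun y => h (σ y)) ((T ×ˢ T') ×ˢ (A ∩ B)) := by
    refine hh.comp hσ.differentiableOn ?_
    rintro y ⟨⟨h1, h2⟩, h3, h4⟩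
    exact ⟨⟨⟨h3, h1⟩, ⟨h4, h1⟩⟩, h2⟩
  have hbb : ∀ y ∈ (T ×ˢ T') ×ˢ (A ∩ B), ‖h (σ y)‖ ≤ C := by
    rintro y ⟨⟨h1, h2⟩, h3, h4⟩
    exact hb _ ⟨⟨⟨h3, h1⟩, ⟨h4, h1⟩⟩, h2⟩
  refine ⟨fun y => PSL.SA χ (A ∩ B) (fun y => h (σ y)) (σ' y),
    fun y => PSL.SB χ (A ∩ B) (fun y => h (σ y)) (σ' y), ?_, ?_, ?_, ?_, ?_⟩
  · refine (hI.diffA (T ×ˢ T') _ C hTT hd hbb).comp hσ'.differentiableOn ?_
    rintro y ⟨⟨h1, h2⟩, h3⟩
    exact ⟨⟨h2, h3⟩, h1⟩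
  · refine (hI.diffB (T ×ˢ T') _ C hTT hd hbb).comp hσ'.differentiableOn ?_
    rintro y ⟨⟨h1, h2⟩, h3⟩
    exact ⟨⟨h2, h3⟩, h1⟩
  · rintro y ⟨⟨h1, h2⟩, h3⟩
    exact hI.boundA (T ×ˢ T') _ C hTT hd hbb hC _ ⟨⟨h2, h3⟩, h1⟩
  · rintro y ⟨⟨h1, h2⟩, h3⟩
    exact hI.boundB (T ×ˢ T') _ C hTT hd hbb hC _ ⟨⟨h2, h3⟩, h1⟩
  · rintro y -
    exact (hI.split (fun y => h (σ y)) (σ' y)).symm

end Crest.Agent.R279.Fam
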