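import Mathlib
import Crest.Agent.R279.Root477
import Crest.Agent.R279.Hol806

/-!
# R279 (helper544): transitions for submersions onto a hypersurface (Part 6)

`hasTrans_of_rightInv` : if `h : P → V` is holomorphic near `0` with values in a set `S` whose
points near `h 0` are determined by a linear projection `π`, and `π ∘ h' (0)` has a right inverse,
then every `F ∈ S` close to `h p` is of the form `h (Gam (p, F))` with `Gam` holomorphic and
`‖Gam (p, F) - p‖ ≤ C ‖F - h p‖`.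
-/

set_option autoImplicit false

namespace Crest.Agent.R279.Two

open Metric Set Filter Topology

section trans

variable {P V W : Type*} [NormedAddCommGroup P] [NormedSpace ℂ P]
  [NormedAddCommGroup V] [NormedSpace ℂ V] [NormedAddCommGroup W] [NormedSpace ℂ W]

/-- Transitions for a map `h` into a set `S` determined by a linear projection `π`, in the
directions of a right inverse `σ` of `π ∘ h'(0)`. -/
theorem exists_trans [CompleteSpace W] {S : Set V} {v1 : V} {π : V →L[ℂ] W} {δ : ℝ}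
    (hδ : 0 < δ)
    (hdet : ∀ F ∈ S, ∀ F' ∈ S, ‖F - v1‖ < δ → ‖F' - v1‖ < δ → π F = π F' → F = F')
    {h : P → V} {h' : P →L[ℂ] V} {r0 : ℝ} (hr0 : 0 < r0)
    (hd : DifferentiableOn ℂ h (ball 0 r0)) (hS : ∀ p ∈ ball (0 : P) r0, h p ∈ S)
    (h0 : h 0 = v1) (hst : HasStrictFDerivAt h h' 0) (σ : W →L[ℂ] P)
    (hσ : ∀ w, π (h' (σ w)) = w) :
    ∃ r C rk : ℝ, 0 < r ∧ 0 ≤ C ∧ 0 < rk ∧ r ≤ r0 ∧ ∃ κ : P × V → W,
      (∀ z : P × V, ‖z.1‖ < r → ‖z.2 - h z.1‖ < r → DifferentiableAt ℂ κ z) ∧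
      ∀ z : P × V, ‖z.1‖ < r → ‖z.2 - h z.1‖ < r →
        ‖κ z‖ ≤ C * ‖z.2 - h z.1‖ ∧ ‖z.1 + σ (κ z)‖ < r0 ∧
        (z.2 ∈ S → h (z.1 + σ (κ z)) = z.2) ∧
        ∀ k, ‖k‖ ≤ rk → h (z.1 + σ k) = z.2 → k = κ z := by
  have hπ : 0 ≤ ‖π‖ := norm_nonneg _
  have hσn : 0 ≤ ‖σ‖ := norm_nonneg _
  set c : ℝ := 1 / (2 * ((‖π‖ + 1) * (‖σ‖ + 1))) with hc
  have hcpos : 0 < c := by positivity
  have e1 : ∀ᶠ p : P × P in 𝓝 ((0 : P), (0 : P)),
      ‖h p.1 - h p.2 - h' (p.1 - p.2)‖ ≤ c * ‖p.1 - p.2‖ := hst.isLittleO.def hcpos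
  have hcont : ContinuousAt h 0 := hst.continuousAt
  have e2 : ∀ᶠ p : P in 𝓝 (0 : P), ‖h p - v1‖ < δ / 2 := by
    have : Tendsto (fun p => ‖h p - v1‖) (𝓝 0) (𝓝 ‖h 0 - v1‖) :=
      (hcont.sub continuousAt_const).norm
    rw [h0, sub_self, norm_zero] at this
    exact this.eventually (gt_mem_nhds (by positivity))
  rw [Metric.eventually_nhds_iff] at e1 e2
  obtain ⟨ρ1, hρ1, e1⟩ := e1
  obtain ⟨ρ2, hρ2, e2⟩ := e2
  set ρ : ℝ := min r0 (min ρ1 ρ2) with hρdef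
  have hρ : 0 < ρ := lt_min hr0 (lt_min hρ1 hρ2)
  have hρr0 : ρ ≤ r0 := min_le_left _ _
  have hρρ1 : ρ ≤ ρ1 := (min_le_right _ _).trans (min_le_left _ _)
  have hρρ2 : ρ ≤ ρ2 := (min_le_right _ _).trans (min_le_right _ _)
  have E1 : ∀ x y : P, ‖x‖ < ρ → ‖y‖ < ρ → ‖h x - h y - h' (x - y)‖ ≤ c * ‖x - y‖ := by
    intro x y hx hy
    refine @e1 (x, y) ?_
    rw [Prod.dist_eq, dist_zero_right, dist_zero_right]
    exact max_lt (hx.trans_le hρρ1) (hy.trans_le hρρ1)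
  have E2 : ∀ x : P, ‖x‖ < ρ → ‖h x - v1‖ < δ / 2 := by
    intro x hx
    refine @e2 x ?_
    rw [dist_zero_right]
    exact hx.trans_le hρρ2
  set rk : ℝ := ρ / (2 * (‖σ‖ + 1)) with hrk
  have hrkpos : 0 < rk := by positivity
  set r : ℝ := min (ρ / 2) (min (δ / 2) (rk / (4 * (‖π‖ + 1)))) with hr
  have hrpos : 0 < r := lt_min (by positivity) (lt_min (by positivity) (by positivity))
  have hr1 : r ≤ ρ / 2 := min_le_left _ _
  have hr2 : r ≤ δ / 2 := (min_le_right _ _).trans (min_le_left _ _)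
  have hr3 : r ≤ rk / (4 * (‖π‖ + 1)) := (min_le_right _ _).trans (min_le_right _ _)
  have hσk : ∀ k : W, ‖k‖ ≤ rk → ‖σ k‖ ≤ ρ / 2 := by
    intro k hk
    calc ‖σ k‖ ≤ ‖σ‖ * ‖k‖ := σ.le_opNorm k
      _ ≤ (‖σ‖ + 1) * rk := by
          apply mul_le_mul (by linarith) hk (norm_nonneg _) (by positivity)
      _ = ρ / 2 := by rw [hrk]; field_simp
  have hin : ∀ (p : P) (k : W), ‖p‖ < r → ‖k‖ ≤ rk → ‖p + σ k‖ < ρ := by
    intro p k hp hk
    calc ‖p + σ k‖ ≤ ‖p‖ + ‖σ k‖ := norm_add_le _ _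
      _ < ρ / 2 + ρ / 2 := by
          have := hσk k hk
          have := hp.trans_le hr1
          linarith
      _ = ρ := by ring
  set G : P × V → W → W := fun z k => π (h (z.1 + σ k)) - π z.2 with hG
  set D : Set (P × V) := {z | ‖z.1‖ < r ∧ ‖z.2 - h z.1‖ < r} with hD
  have hc1 : ∀ z ∈ D, ∀ k₁ ∈ closedBall (0 : W) rk, ∀ k₂ ∈ closedBall (0 : W) rk,
      ‖(G z k₁ - G z k₂) - (k₁ - k₂)‖ ≤ 1 / 2 * ‖k₁ - k₂‖ := by
    intro z hz k₁ hk₁ k₂ hk₂
    rw [mem_closedBall_zero_iff] at hk₁ hk₂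
    have h1 := E1 (z.1 + σ k₁) (z.1 + σ k₂) (hin _ _ hz.1 hk₁) (hin _ _ hz.1 hk₂)
    have h2 : z.1 + σ k₁ - (z.1 + σ k₂) = σ (k₁ - k₂) := by rw [map_sub]; abel
    rw [h2] at h1
    have h3 : (G z k₁ - G z k₂) - (k₁ - k₂) =
        π (h (z.1 + σ k₁) - h (z.1 + σ k₂) - h' (σ (k₁ - k₂))) := by
      rw [map_sub, map_sub, hσ]
      simp only [hG]
      abel
    rw [h3]
    calc ‖π (h (z.1 + σ k₁) - h (z.1 + σ k₂) - h' (σ (k₁ - k₂)))‖
        ≤ ‖π‖ * ‖h (z.1 + σ k₁) - h (z.1 + σ k₂) - h' (σ (k₁ - k₂))‖ := π.le_opNorm _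
      _ ≤ ‖π‖ * (c * ‖σ (k₁ - k₂)‖) := by gcongr
      _ ≤ (‖π‖ + 1) * (c * ((‖σ‖ + 1) * ‖k₁ - k₂‖)) := by
          have h4 : ‖σ (k₁ - k₂)‖ ≤ (‖σ‖ + 1) * ‖k₁ - k₂‖ := by
            calc ‖σ (k₁ - k₂)‖ ≤ ‖σ‖ * ‖k₁ - k₂‖ := σ.le_opNorm _
              _ ≤ (‖σ‖ + 1) * ‖k₁ - k₂‖ := by gcongr; linarith
          have : ‖π‖ ≤ ‖π‖ + 1 := by linarith
          gcongr
      _ = 1 / 2 * ‖k₁ - k₂‖ := by
          rw [hc]; field_simp
  have hc0 : ∀ z ∈ D, ‖G z 0‖ < rk / 2 := by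
    intro z hz
    have h1 : G z 0 = -(π (z.2 - h z.1)) := by
      simp only [hG, map_zero, add_zero, map_sub]
      abel
    rw [h1, norm_neg]
    calc ‖π (z.2 - h z.1)‖ ≤ ‖π‖ * ‖z.2 - h z.1‖ := π.le_opNorm _
      _ ≤ (‖π‖ + 1) * (rk / (4 * (‖π‖ + 1))) := by
          have := hz.2.le.trans hr3
          apply mul_le_mul (by linarith) this (norm_nonneg _) (by positivity)
      _ = rk / 4 := by field_simp
      _ < rk / 2 := by linarith
  obtain ⟨κ, hκ, hκd⟩ := Spray.exists_unif_root G D hrkpos hc1 hc0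
  have hhd : ∀ x : P, ‖x‖ < ρ → DifferentiableAt ℂ h x := by
    intro x hx
    refine hd.differentiableAt (isOpen_ball.mem_nhds ?_)
    rw [mem_ball_zero_iff]
    exact hx.trans_le hρr0
  have hDopen : ∀ z ∈ D, D ∈ 𝓝 z := by
    intro z hz
    have h1 : ∀ᶠ y : P × V in 𝓝 z, ‖y.1‖ < r := by
      have : ContinuousAt (fun y : P × V => ‖y.1‖) z := by fun_prop
      exact this.eventually (gt_mem_nhds hz.1)
    have h2 : ∀ᶠ y : P × V in 𝓝 z, ‖y.2 - h y.1‖ < r := by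
      have h3 : ContinuousAt h z.1 :=
        (hhd z.1 (hz.1.trans_le (hr1.trans (by linarith)))).continuousAt
      have h4 : ContinuousAt (fun y : P × V => h y.1) z := by
        exact ContinuousAt.comp (f := fun y : P × V => y.1) h3 continuousAt_fst
      have : ContinuousAt (fun y : P × V => ‖y.2 - h y.1‖) z := by
        exact (continuousAt_snd.sub h4).norm
      exact this.eventually (gt_mem_nhds hz.2)
    filter_upwards [h1, h2] with y hy1 hy2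
    exact ⟨hy1, hy2⟩
  refine ⟨r, 2 * ‖π‖, rk, hrpos, by positivity, hrkpos,
    hr1.trans (by linarith), κ, ?_, ?_⟩
  · intro z hz1 hz2
    have hz' : z ∈ D := ⟨hz1, hz2⟩
    have hκz := hκ z hz'
    refine hκd z hz' (hDopen z hz') ?_
    have h2 : DifferentiableAt ℂ h (z.1 + σ (κ z)) :=
      hhd _ (hin _ _ hz'.1 hκz.2.2.1.le)
    have h3 : DifferentiableAt ℂ (fun y : (P × V) × W => y.1.1 + σ y.2) (z, κ z) := by
      fun_prop
    have h4 : DifferentiableAt ℂ (fun y : (P × V) × W => h (y.1.1 + σ y.2)) (z, κ z) :=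
      DifferentiableAt.comp (f := fun y : (P × V) × W => y.1.1 + σ y.2) (z, κ z) h2 h3
    have h6 : DifferentiableAt ℂ (fun y : (P × V) × W => π (h (y.1.1 + σ y.2))) (z, κ z) :=
      π.differentiableAt.comp (z, κ z) h4
    exact h6.sub (by fun_prop)
  · intro z hz1 hz2
    have hz : z ∈ D := ⟨hz1, hz2⟩
    obtain ⟨hr', hb, hlt, huniq⟩ := hκ z hz
    have hx : ‖z.1 + σ (κ z)‖ < ρ := hin _ _ hz1 hlt.le
    have hπeq : π (h (z.1 + σ (κ z))) = π z.2 := by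
      have : π (h (z.1 + σ (κ z))) - π z.2 = 0 := hr'
      exact sub_eq_zero.1 this
    have h1 : ‖G z 0‖ ≤ ‖π‖ * ‖z.2 - h z.1‖ := by
      have h1 : G z 0 = -(π (z.2 - h z.1)) := by
        simp only [hG, map_zero, add_zero, map_sub]
        abel
      rw [h1, norm_neg]
      exact π.le_opNorm _
    refine ⟨?_, hx.trans_le hρr0, ?_, ?_⟩
    · calc ‖κ z‖ ≤ 2 * ‖G z 0‖ := hb
        _ ≤ 2 * (‖π‖ * ‖z.2 - h z.1‖) := by gcongr
        _ = 2 * ‖π‖ * ‖z.2 - h z.1‖ := by ring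
    · intro hFS
      refine hdet _ (hS _ ?_) z.2 hFS ?_ ?_ hπeq
      · rw [mem_ball_zero_iff]; exact hx.trans_le hρr0
      · exact (E2 _ hx).trans (by linarith)
      · calc ‖z.2 - v1‖ = ‖(z.2 - h z.1) + (h z.1 - v1)‖ := by congr 1; abel
          _ ≤ ‖z.2 - h z.1‖ + ‖h z.1 - v1‖ := norm_add_le _ _
          _ < r + δ / 2 := by
              have := E2 z.1 (hz1.trans_le (hr1.trans (by linarith)))
              linarith
          _ ≤ δ := by linarith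
    · intro k hk hhk
      refine huniq k (by rwa [mem_closedBall_zero_iff]) ?_
      show π (h (z.1 + σ k)) - π z.2 = 0
      rw [hhk, sub_self]

end trans

end Crest.Agent.R279.Two
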