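import Mathlib
import Crest.Agent.R279.Trans544
import Crest.Agent.R279.FamDefs520
import Crest.Agent.R279.Deriv556

/-!
# R279 (helper544), Part 6, finite dimensional part, preliminaries
-/

set_option autoImplicit false

namespace Crest.Agent.R279.Two

open Metric Set Filter Topology Fam

abbrev K3 : Type := Fin 3 → ℂ

/-- `S` is a cone contained in the zero set of a function which is a submersion at `v₁`. -/
structure HypCone (S : Set C4) (v₁ : C4) (q : C4 → ℂ) (q' : C4 →L[ℂ] ℂ) : Prop where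
  cone : ∀ v ∈ S, ∀ c : ℂ, c ≠ 0 → c • v ∈ S
  strict : HasStrictFDerivAt q q' v₁
  zero : ∀ v ∈ S, q v = 0
  ne : ∃ e, q' e ≠ 0

/-- velocities of curves in `S` are tangent -/
theorem tangent {S : Set C4} {v₁ : C4} {q : C4 → ℂ} {q' : C4 →L[ℂ] ℂ} (H : HypCone S v₁ q q')
    {γ : ℂ → C4} {γ' : C4} (hγ : HasDerivAt γ γ' 0) (h0 : γ 0 = v₁)
    (hm : ∀ᶠ τ in 𝓝 (0 : ℂ), γ τ ∈ S) : q' γ' = 0 := by
  have hq : HasFDerivAt q q' (γ 0) := by rw [h0]; exact H.strict.hasFDerivAt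
  have h1 : HasDerivAt (q ∘ γ) (q' γ') 0 := hq.comp_hasDerivAt 0 hγ
  have h2 : (q ∘ γ) =ᶠ[𝓝 (0 : ℂ)] fun _ => (0 : ℂ) := by
    filter_upwards [hm] with τ hτ
    exact H.zero _ hτ
  have h3 : HasDerivAt (fun _ : ℂ => (0 : ℂ)) (q' γ') 0 := h1.congr_of_eventuallyEq h2.symm
  exact h3.unique (hasDerivAt_const (0 : ℂ) (0 : ℂ))

/-- points of `S` near `v₁` are determined by a projection along a transversal vector -/
theorem exists_det {W : Type*} [NormedAddCommGroup W] [NormedSpace ℂ W]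
    {S : Set C4} {v₁ : C4} {q : C4 → ℂ} {q' : C4 →L[ℂ] ℂ} (H : HypCone S v₁ q q')
    {e : C4} (he : q' e ≠ 0) {π : C4 →L[ℂ] W} (hπ : ∀ w, π w = 0 → ∃ s : ℂ, w = s • e) :
    ∃ δ > 0, ∀ F ∈ S, ∀ F' ∈ S, ‖F - v₁‖ < δ → ‖F' - v₁‖ < δ → π F = π F' → F = F' := by
  have he0 : 0 < ‖q' e‖ := norm_pos_iff.2 he
  set c : ℝ := ‖q' e‖ / (2 * (‖e‖ + 1)) with hc
  have hcpos : 0 < c := by positivity
  have e1 : ∀ᶠ p : C4 × C4 in 𝓝 (v₁, v₁),
      ‖q p.1 - q p.2 - q' (p.1 - p.2)‖ ≤ c * ‖p.1 - p.2‖ := H.strict.isLittleO.def hcpos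
  rw [Metric.eventually_nhds_iff] at e1
  obtain ⟨δ, hδ, e1⟩ := e1
  refine ⟨δ, hδ, fun F hF F' hF' h1 h2 hπF => ?_⟩
  obtain ⟨s, hs⟩ := hπ (F - F') (by rw [map_sub, hπF, sub_self])
  have h3 : ‖q F - q F' - q' (F - F')‖ ≤ c * ‖F - F'‖ := by
    refine @e1 (F, F') ?_
    rw [Prod.dist_eq, dist_eq_norm, dist_eq_norm]
    exact max_lt h1 h2
  rw [H.zero F hF, H.zero F' hF', sub_self, zero_sub, norm_neg, hs, map_smul, norm_smul,
    norm_smul] at h3
  have h4 : ‖s‖ * (‖q' e‖ - c * ‖e‖) ≤ 0 := by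
    have : ‖q' e‖ ≤ ‖q' e‖ := le_rfl
    nlinarith [h3]
  have h5 : 0 < ‖q' e‖ - c * ‖e‖ := by
    have h6 : c * ‖e‖ < ‖q' e‖ := by
      rw [hc, div_mul_eq_mul_div, div_lt_iff₀ (by positivity)]
      nlinarith [norm_nonneg e]
    linarith
  have h6 : ‖s‖ ≤ 0 := by
    by_contra hcon
    push Not at hcon
    have := mul_pos hcon h5
    linarith
  have h7 : s = 0 := norm_le_zero_iff.1 h6
  rw [h7, zero_smul] at hs
  exact sub_eq_zero.1 hs

/-- the linear map `k ↦ ∑ kᵢ wᵢ` -/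
noncomputable def comb (w : Fin 3 → C4) : K3 →L[ℂ] C4 :=
  LinearMap.toContinuousLinearMap (Fintype.linearCombination ℂ w)

theorem comb_apply (w : Fin 3 → C4) (k : K3) : comb w k = k 0 • w 0 + k 1 • w 1 + k 2 • w 2 := by
  simp [comb, Fintype.linearCombination_apply, Fin.sum_univ_three]

theorem comb_injective {w : Fin 3 → C4} (hw : LinearIndependent ℂ w) :
    Function.Injective (comb w) := by
  have := linearIndependent_iff_injective_fintypeLinearCombination.1 hw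
  exact this

theorem exists_proj {w : Fin 3 → C4} (hw : LinearIndependent ℂ w) {q' : C4 →L[ℂ] ℂ}
    (hq : ∀ i, q' (w i) = 0) {e : C4} (he : q' e ≠ 0) :
    ∃ π : C4 →L[ℂ] K3, (∀ k, π (comb w k) = k) ∧ ∀ v, π v = 0 → ∃ s : ℂ, v = s • e := by
  set M : K3 × ℂ →ₗ[ℂ] C4 :=
    (Fintype.linearCombination ℂ w).coprod (LinearMap.toSpanSingleton ℂ C4 e) with hM
  have hMa : ∀ k s, M (k, s) = comb w k + s • e := by
    intro k s
    simp [hM, comb]
  have hq0 : ∀ k, q' (comb w k) = 0 := by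
    intro k
    rw [comb_apply]
    simp [hq]
  have hinj : Function.Injective M := by
    rw [← LinearMap.ker_eq_bot, LinearMap.ker_eq_bot']
    rintro ⟨k, s⟩ h
    rw [hMa] at h
    have h1 : q' (comb w k + s • e) = 0 := by rw [h, map_zero]
    rw [map_add, hq0, zero_add, map_smul, smul_eq_mul, mul_eq_zero] at h1
    have hs : s = 0 := h1.resolve_right he
    rw [hs, zero_smul, add_zero] at h
    have hk : k = 0 := comb_injective hw (by rw [h, map_zero])
    rw [hk, hs]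
    rfl
  have hdim : Module.finrank ℂ (K3 × ℂ) = Module.finrank ℂ C4 := by simp
  set E := LinearEquiv.ofInjectiveOfFinrankEq M hinj hdim with hE
  refine ⟨LinearMap.toContinuousLinearMap ((LinearMap.fst ℂ K3 ℂ).comp E.symm.toLinearMap),
    ?_, ?_⟩
  · intro k
    have h1 : E (k, 0) = comb w k := by
      have : E (k, 0) = M (k, 0) := rfl
      rw [this, hMa, zero_smul, add_zero]
    have h2 : E.symm (comb w k) = (k, 0) := by rw [← h1, LinearEquiv.symm_apply_apply]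
    show (E.symm (comb w k)).1 = k
    rw [h2]
  · intro v hv
    have hv' : (E.symm v).1 = 0 := hv
    refine ⟨(E.symm v).2, ?_⟩
    have h1 : E (E.symm v) = v := LinearEquiv.apply_symm_apply _ _
    have h2 : E (E.symm v) = M (E.symm v) := rfl
    have h3 : E.symm v = ((0 : K3), (E.symm v).2) := Prod.ext hv' rfl
    rw [h2, h3, hMa, map_zero, zero_add] at h1
    exact h1.symm

end Crest.Agent.R279.Two
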