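import Mathlib
import Crest.Agent.R279.Two544a

/-!
# R279 (helper544), Part 6, finite dimensional part: the section `χ`, tangent vectors
-/

set_option autoImplicit false

namespace Crest.Agent.R279.Two

open Metric Set Filter Topology Fam

/-- `k ↦ (k 1, k 2)` -/
noncomputable def tail : K3 →L[ℂ] C2 :=
  ContinuousLinearMap.pi ![ContinuousLinearMap.proj 1, ContinuousLinearMap.proj 2]

theorem tail_apply (k : K3) : tail k = ![k 1, k 2] := by
  funext i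
  fin_cases i <;> simp [tail]

theorem norm_tail_le (k : K3) : ‖tail k‖ ≤ ‖k‖ := by
  rw [tail_apply, pi_norm_le_iff_of_nonneg (norm_nonneg _)]
  intro i
  fin_cases i
  · exact norm_le_pi_norm k 1
  · exact norm_le_pi_norm k 2

/-- `χ(t) = exp(t₀) ψ(t₁, t₂)` -/
noncomputable def chi (ψ : C2 → C4) (t : K3) : C4 := Complex.exp (t 0) • ψ (tail t)

theorem chi_zero (ψ : C2 → C4) : chi ψ 0 = ψ 0 := by
  simp [chi]

theorem chi_diff {ψ : C2 → C4} {r : ℝ} (hψ : DifferentiableOn ℂ ψ (ball 0 r)) :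
    DifferentiableOn ℂ (chi ψ) (ball 0 r) := by
  intro t ht
  rw [mem_ball_zero_iff] at ht
  have h1 : DifferentiableAt ℂ ψ (tail t) :=
    hψ.differentiableAt (isOpen_ball.mem_nhds (by
      rw [mem_ball_zero_iff]; exact (norm_tail_le t).trans_lt ht))
  have h2 : DifferentiableAt ℂ (fun t : K3 => ψ (tail t)) t :=
    DifferentiableAt.comp t h1 tail.differentiableAt
  have h3 : DifferentiableAt ℂ (fun t : K3 => Complex.exp (t 0)) t := by fun_prop
  exact (h3.smul h2).differentiableWithinAt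

theorem chi_mem {S : Set C4} {ψ : C2 → C4} {r : ℝ}
    (hc : ∀ v ∈ S, ∀ c : ℂ, c ≠ 0 → c • v ∈ S) (hψ : MapsTo ψ (ball 0 r) S) :
    MapsTo (chi ψ) (ball 0 r) S := by
  intro t ht
  rw [mem_ball_zero_iff] at ht
  refine hc _ (hψ ?_) _ (Complex.exp_ne_zero _)
  rw [mem_ball_zero_iff]
  exact (norm_tail_le t).trans_lt ht

/-- the frame `v₁, ∂₁ψ, ∂₂ψ` -/
noncomputable def frame1 (v₁ : C4) (ψ : C2 → C4) : Fin 3 → C4 :=
  ![v₁, fderiv ℂ ψ 0 ![1, 0], fderiv ℂ ψ 0 ![0, 1]]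

theorem hasFDerivAt_chi {ψ : C2 → C4} {r : ℝ} (hr : 0 < r)
    (hψ : DifferentiableOn ℂ ψ (ball 0 r)) {v₁ : C4} (h0 : ψ 0 = v₁) :
    HasFDerivAt (chi ψ) (comb (frame1 v₁ ψ)) 0 := by
  have h1 : HasFDerivAt ψ (fderiv ℂ ψ 0) (tail (0 : K3)) := by
    rw [map_zero]
    exact (hψ.differentiableAt (ball_mem_nhds 0 hr)).hasFDerivAt
  have h2 : HasFDerivAt (fun t : K3 => ψ (tail t)) ((fderiv ℂ ψ 0).comp tail) 0 :=
    HasFDerivAt.comp (0 : K3) h1 tail.hasFDerivAt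
  have h3 : HasFDerivAt (fun t : K3 => Complex.exp (t 0))
      (Complex.exp ((0 : K3) 0) • (ContinuousLinearMap.proj (R := ℂ) (φ := fun _ : Fin 3 => ℂ) 0))
      0 := by
    have h4 : HasFDerivAt (fun t : K3 => t 0)
        (ContinuousLinearMap.proj (R := ℂ) (φ := fun _ : Fin 3 => ℂ) 0) (0 : K3) :=
      (ContinuousLinearMap.proj (R := ℂ) (φ := fun _ : Fin 3 => ℂ) 0).hasFDerivAt
    exact h4.cexp
  have h5 := h3.smul h2
  refine h5.congr_fderiv ?_
  ext1 k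
  have h6 : (![k 1, k 2] : C2) = k 1 • ![1, 0] + k 2 • ![0, 1] := by
    funext i
    fin_cases i <;> simp
  simp only [Pi.zero_apply, Complex.exp_zero, one_smul, add_apply, ContinuousLinearMap.comp_apply,
    ContinuousLinearMap.smulRight_apply, ContinuousLinearMap.proj_apply, map_zero, h0, comb_apply,
    frame1, Matrix.cons_val_zero, Matrix.cons_val_one, Matrix.cons_val_two, tail_apply, h6,
    map_add, map_smul]
  simp
  abel

section data

variable {S : Set C4} {v₁ : C4} {q : C4 → ℂ} {q' : C4 →L[ℂ] ℂ}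

theorem tangent_v₁ (H : HypCone S v₁ q q') (hv : v₁ ∈ S) : q' v₁ = 0 := by
  have h1 : HasDerivAt (fun τ : ℂ => Complex.exp τ • v₁) (Complex.exp 0 • v₁) 0 :=
    (Complex.hasDerivAt_exp 0).smul_const v₁
  rw [Complex.exp_zero, one_smul] at h1
  refine tangent H h1 (by simp) (Eventually.of_forall fun τ => ?_)
  exact H.cone v₁ hv _ (Complex.exp_ne_zero _)

theorem tangent_psi (H : HypCone S v₁ q q') {ψ : C2 → C4} {r : ℝ} (hr : 0 < r)
    (hψ : DifferentiableOn ℂ ψ (ball 0 r)) (hψS : MapsTo ψ (ball 0 r) S) (h0 : ψ 0 = v₁)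
    (z : C2) : q' (fderiv ℂ ψ 0 z) = 0 := by
  have hd : HasFDerivAt ψ (fderiv ℂ ψ 0) ((0 : ℂ) • z) := by
    rw [zero_smul]
    exact (hψ.differentiableAt (ball_mem_nhds 0 hr)).hasFDerivAt
  have h1 : HasDerivAt (fun τ : ℂ => τ • z) z 0 := by
    simpa using (hasDerivAt_id (0 : ℂ)).smul_const z
  have h2 : HasDerivAt (fun τ : ℂ => ψ (τ • z)) (fderiv ℂ ψ 0 z) 0 := hd.comp_hasDerivAt 0 h1
  refine tangent H h2 (by simpa using h0) ?_
  have h3 : Tendsto (fun τ : ℂ => τ • z) (𝓝 0) (𝓝 0) := by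
    have := h1.continuousAt.tendsto
    simpa using this
  filter_upwards [h3 (ball_mem_nhds 0 hr)] with τ hτ
  exact hψS hτ

theorem tangent_curve (H : HypCone S v₁ q q') {L : C2 × ℂ → C4} {r : ℝ} (hr : 0 < r)
    (hL : DifferentiableOn ℂ L (ball 0 r ×ˢ univ)) (hLS : MapsTo L (ball 0 r ×ˢ univ) S)
    (h0 : L (0, 0) = v₁) : q' (deriv (fun τ => L (0, τ)) 0) = 0 := by
  have hd : DifferentiableAt ℂ L ((0 : C2), (0 : ℂ)) := by
    refine hL.differentiableAt ((isOpen_ball.prod isOpen_univ).mem_nhds ?_)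
    exact ⟨mem_ball_self hr, mem_univ _⟩
  have h1 : DifferentiableAt ℂ (fun τ : ℂ => L (0, τ)) 0 := by
    have h2 : DifferentiableAt ℂ (fun τ : ℂ => ((0 : C2), τ)) 0 := by fun_prop
    exact DifferentiableAt.comp (f := fun τ : ℂ => ((0 : C2), τ)) (0 : ℂ) hd h2
  refine tangent H h1.hasDerivAt h0 (Eventually.of_forall fun τ => ?_)
  exact hLS ⟨mem_ball_self hr, mem_univ _⟩

end data

/-- strict differentiability of holomorphic maps -/
theorem strict_of_diffOn {E F : Type*} [NormedAddCommGroup E] [NormedSpace ℂ E]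
    [NormedAddCommGroup F] [NormedSpace ℂ F] {f : E → F} {r : ℝ} (hr : 0 < r)
    (hf : DifferentiableOn ℂ f (ball 0 r)) : HasStrictFDerivAt f (fderiv ℂ f 0) 0 := by
  have h1 := (Hol.contDiffOn_one isOpen_ball hf).contDiffAt (ball_mem_nhds (0 : E) hr)
  exact h1.hasStrictFDerivAt (by norm_num)

/-- transitions for a map on `ℂ² × ℂ³` which restricts to `χ` along a linear map `ι` -/
theorem hasTrans_of_restrict {S : Set C4} {v₁ : C4} {q : C4 → ℂ} {q' : C4 →L[ℂ] ℂ}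
    (H : HypCone S v₁ q q') {ψ : C2 → C4} {r : ℝ} (hr : 0 < r)
    (hψ : DifferentiableOn ℂ ψ (ball 0 r)) (hψS : MapsTo ψ (ball 0 r) S) (h0 : ψ 0 = v₁)
    (hw : LinearIndependent ℂ (frame1 v₁ ψ)) {h : C2 × K3 → C4} {r0 : ℝ} (hr0 : 0 < r0)
    (hd : DifferentiableOn ℂ h (ball 0 r0)) (hS : MapsTo h (ball 0 r0) S) (hh0 : h 0 = v₁)
    (ι : K3 →L[ℂ] C2 × K3) (hι : (fun k => h (ι k)) =ᶠ[𝓝 0] chi ψ) : HasTrans S h := by
  obtain ⟨e, he⟩ := H.ne
  have hv : v₁ ∈ S := by rw [← h0]; exact hψS (mem_ball_self hr)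
  have hqw : ∀ i, q' (frame1 v₁ ψ i) = 0 := by
    intro i
    fin_cases i
    · exact tangent_v₁ H hv
    · exact tangent_psi H hr hψ hψS h0 _
    · exact tangent_psi H hr hψ hψS h0 _
  obtain ⟨π, hπ1, hπ2⟩ := exists_proj hw hqw he
  obtain ⟨δ, hδ, hdet⟩ := exists_det H he hπ2
  have hst := strict_of_diffOn hr0 hd
  have hder : ∀ k, fderiv ℂ h 0 (ι k) = comb (frame1 v₁ ψ) k := by
    have h1 : HasFDerivAt h (fderiv ℂ h 0) (ι 0) := by
      rw [map_zero]; exact hst.hasFDerivAt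
    have h2 : HasFDerivAt (fun k => h (ι k)) ((fderiv ℂ h 0).comp ι) 0 :=
      HasFDerivAt.comp (0 : K3) h1 ι.hasFDerivAt
    have h3 : HasFDerivAt (chi ψ) ((fderiv ℂ h 0).comp ι) 0 := h2.congr_of_eventuallyEq hι.symm
    have h4 := h3.unique (hasFDerivAt_chi hr hψ h0)
    intro k
    rw [← h4]
    rfl
  obtain ⟨r1, C, rk, hr1, hC, hrk, hr10, κ, hκd, hκ⟩ := exists_trans hδ hdet hr0 hd
    (fun p hp => hS hp) hh0 hst ι (fun w => by rw [hder, hπ1])
  refine ⟨r1, ‖ι‖ * C + 1, hr1, by positivity, fun z => z.1 + ι (κ z), ?_, ?_⟩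
  · rintro z ⟨hz1, hz2⟩
    have h1 : DifferentiableAt ℂ (fun z => ι (κ z)) z :=
      DifferentiableAt.comp z ι.differentiableAt (hκd z hz1 hz2)
    exact (differentiableAt_fst.add h1).differentiableWithinAt
  · intro p F hp hF hFS
    obtain ⟨h1, h2, h3, -⟩ := hκ (p, F) hp hF
    refine ⟨h3 hFS, ?_⟩
    have e1 : (p, F).1 + ι (κ (p, F)) - p = ι (κ (p, F)) := by
      show p + ι (κ (p, F)) - p = _
      abel
    show ‖(p, F).1 + ι (κ (p, F)) - p‖ ≤ _
    rw [e1]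
    calc ‖ι (κ (p, F))‖ ≤ ‖ι‖ * ‖κ (p, F)‖ := ι.le_opNorm _
      _ ≤ ‖ι‖ * (C * ‖F - h p‖) := by gcongr
      _ ≤ (‖ι‖ * C + 1) * ‖F - h p‖ := by nlinarith [norm_nonneg (F - h p)]

end Crest.Agent.R279.Two
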