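import Mathlib
import Crest.Agent.R279.Two544b

/-!
# R279 (helper544), Part 6, finite dimensional part: `TwoFam ⇒ HasChain`
-/

set_option autoImplicit false

namespace Crest.Agent.R279.Two

open Metric Set Filter Topology Fam

section main

variable {S : Set C4} {v₁ : C4} {q : C4 → ℂ} {q' : C4 →L[ℂ] ℂ}

/-- local inverse of `χ` on `S` -/
theorem exists_lam (H : HypCone S v₁ q q') {ψ : C2 → C4} {r : ℝ} (hr : 0 < r)
    (hψ : DifferentiableOn ℂ ψ (ball 0 r)) (hψS : MapsTo ψ (ball 0 r) S) (h0 : ψ 0 = v₁)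
    (hw : LinearIndependent ℂ (frame1 v₁ ψ)) :
    ∃ (rL : ℝ) (Λ : C4 → K3), 0 < rL ∧ Λ v₁ = 0 ∧
      (∀ F, ‖F - v₁‖ < rL → DifferentiableAt ℂ Λ F) ∧
      (∀ F, ‖F - v₁‖ < rL → ‖Λ F‖ < r) ∧
      (∀ F, ‖F - v₁‖ < rL → F ∈ S → chi ψ (Λ F) = F) := by
  obtain ⟨e, he⟩ := H.ne
  have hv : v₁ ∈ S := by rw [← h0]; exact hψS (mem_ball_self hr)
  have hqw : ∀ i, q' (frame1 v₁ ψ i) = 0 := by
    intro i
    fin_cases i
    · exact tangent_v₁ H hv
    · exact tangent_psi H hr hψ hψS h0 _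
    · exact tangent_psi H hr hψ hψS h0 _
  obtain ⟨π, hπ1, hπ2⟩ := exists_proj hw hqw he
  obtain ⟨δ, hδ, hdet⟩ := exists_det H he hπ2
  have hd := chi_diff hψ
  have hst := strict_of_diffOn hr hd
  have hfd : fderiv ℂ (chi ψ) 0 = comb (frame1 v₁ ψ) := (hasFDerivAt_chi hr hψ h0).fderiv
  obtain ⟨r1, C, rk, hr1, hC, hrk, hr10, κ, hκd, hκ⟩ := exists_trans hδ hdet hr hd
    (fun p hp => chi_mem H.cone hψS hp) ((chi_zero ψ).trans h0) hst
    (ContinuousLinearMap.id ℂ K3) (fun w => by rw [hfd]; exact hπ1 w)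
  have hc0 : chi ψ 0 = v₁ := (chi_zero ψ).trans h0
  refine ⟨r1, fun F => κ (0, F), hr1, ?_, ?_, ?_, ?_⟩
  · have h1 := (hκ (0, v₁) (by simpa using hr1) (by simpa [hc0] using hr1)).1
    simp only [hc0, sub_self, norm_zero, mul_zero] at h1
    exact norm_le_zero_iff.1 h1
  · intro F hF
    have h1 := hκd (0, F) (by simpa using hr1) (by simpa [hc0] using hF)
    have h2 : DifferentiableAt ℂ (fun F : C4 => ((0 : K3), F)) F := by fun_prop
    exact DifferentiableAt.comp (f := fun F : C4 => ((0 : K3), F)) F h1 h2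
  · intro F hF
    have h1 := (hκ (0, F) (by simpa using hr1) (by simpa [hc0] using hF)).2.1
    simpa using h1
  · intro F hF hFS
    have h1 := (hκ (0, F) (by simpa using hr1) (by simpa [hc0] using hF)).2.2.1 hFS
    simpa using h1

/-- the two-fold flow map -/
noncomputable def HH (L₁ L₂ : C2 × ℂ → C4) (Λ : C4 → K3) (p : C2 × K3) : C4 :=
  Complex.exp (p.2 0 + Λ (L₁ (p.1, p.2 1)) 0) • L₂ (tail (Λ (L₁ (p.1, p.2 1))), p.2 2)

/-- **TwoFam ⇒ HasChain** (general cone). -/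
theorem hasChain_aux (H : HypCone S v₁ q q') {r : ℝ} {ψ : C2 → C4} {L₁ L₂ : C2 × ℂ → C4}
    (hr : 0 < r) (hψ : DifferentiableOn ℂ ψ (ball 0 r)) (hψS : MapsTo ψ (ball 0 r) S)
    (h0 : ψ 0 = v₁)
    (hL₁ : DifferentiableOn ℂ L₁ (ball 0 r ×ˢ univ)) (hL₁S : MapsTo L₁ (ball 0 r ×ˢ univ) S)
    (hL₂ : DifferentiableOn ℂ L₂ (ball 0 r ×ˢ univ)) (hL₂S : MapsTo L₂ (ball 0 r ×ˢ univ) S)
    (hL₁0 : ∀ z ∈ ball (0 : C2) r, L₁ (z, 0) = ψ z) (hL₂0 : ∀ z ∈ ball (0 : C2) r, L₂ (z, 0) = ψ z)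
    (hw₁ : LinearIndependent ℂ ![v₁, fderiv ℂ ψ 0 ![1, 0], fderiv ℂ ψ 0 ![0, 1]])
    (hw₂ : LinearIndependent ℂ ![v₁, deriv (fun τ => L₁ (0, τ)) 0, deriv (fun τ => L₂ (0, τ)) 0]) :
    HasChain S ψ := by
  have hv : v₁ ∈ S := by rw [← h0]; exact hψS (mem_ball_self hr)
  obtain ⟨e, he⟩ := H.ne
  obtain ⟨rL, Λ, hrL, hΛ0, hΛd, hΛr, hΛχ⟩ := exists_lam H hr hψ hψS h0 hw₁
  have hL₁at : ∀ (v : C2) (g : ℂ), ‖v‖ < r → DifferentiableAt ℂ L₁ (v, g) := by
    intro v g hv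
    refine hL₁.differentiableAt ((isOpen_ball.prod isOpen_univ).mem_nhds ?_)
    exact ⟨by rwa [mem_ball_zero_iff], mem_univ _⟩
  have hL₂at : ∀ (v : C2) (g : ℂ), ‖v‖ < r → DifferentiableAt ℂ L₂ (v, g) := by
    intro v g hv
    refine hL₂.differentiableAt ((isOpen_ball.prod isOpen_univ).mem_nhds ?_)
    exact ⟨by rwa [mem_ball_zero_iff], mem_univ _⟩
  have hL₁mem : ∀ (v : C2) (g : ℂ), ‖v‖ < r → L₁ (v, g) ∈ S := fun v g hv =>
    hL₁S ⟨by rwa [mem_ball_zero_iff], mem_univ _⟩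
  have hL₂mem : ∀ (v : C2) (g : ℂ), ‖v‖ < r → L₂ (v, g) ∈ S := fun v g hv =>
    hL₂S ⟨by rwa [mem_ball_zero_iff], mem_univ _⟩
  have hL₁00 : L₁ (0, 0) = v₁ := (hL₁0 0 (mem_ball_self hr)).trans h0
  have hL₂00 : L₂ (0, 0) = v₁ := (hL₂0 0 (mem_ball_self hr)).trans h0
  have htail : ∀ F, ‖F - v₁‖ < rL → ‖tail (Λ F)‖ < r := fun F hF =>
    (norm_tail_le _).trans_lt (hΛr F hF)
  -- the map `HH`
  set h : C2 × K3 → C4 := HH L₁ L₂ Λ with hh
  have hhdef : ∀ p : C2 × K3, h p =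
      Complex.exp (p.2 0 + Λ (L₁ (p.1, p.2 1)) 0) • L₂ (tail (Λ (L₁ (p.1, p.2 1))), p.2 2) :=
    fun p => rfl
  -- differentiability of the inner map
  have hin : ∀ p : C2 × K3, ‖p.1‖ < r →
      DifferentiableAt ℂ (fun p : C2 × K3 => L₁ (p.1, p.2 1)) p := by
    intro p hp
    have h2 : DifferentiableAt ℂ (fun p : C2 × K3 => (p.1, p.2 1)) p := by fun_prop
    exact DifferentiableAt.comp (f := fun p : C2 × K3 => (p.1, p.2 1)) p (hL₁at _ _ hp) h2
  have hH_at : ∀ p : C2 × K3, ‖p.1‖ < r → ‖L₁ (p.1, p.2 1) - v₁‖ < rL →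
      DifferentiableAt ℂ h p ∧ h p ∈ S := by
    intro p hp1 hp2
    have h1 : DifferentiableAt ℂ (fun p : C2 × K3 => Λ (L₁ (p.1, p.2 1))) p :=
      DifferentiableAt.comp (f := fun p : C2 × K3 => L₁ (p.1, p.2 1)) p (hΛd _ hp2) (hin p hp1)
    have h2 : DifferentiableAt ℂ (fun p : C2 × K3 => Λ (L₁ (p.1, p.2 1)) 0) p :=
      (differentiableAt_pi.1 h1) 0
    have h3 : DifferentiableAt ℂ (fun p : C2 × K3 => (p.2 0 : ℂ)) p := by fun_prop
    have h4 : DifferentiableAt ℂ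
        (fun p : C2 × K3 => Complex.exp (p.2 0 + Λ (L₁ (p.1, p.2 1)) 0)) p := (h3.add h2).cexp
    have h5 : DifferentiableAt ℂ
        (fun p : C2 × K3 => (tail (Λ (L₁ (p.1, p.2 1))), (p.2 2 : ℂ))) p := by
      have h6 : DifferentiableAt ℂ (fun p : C2 × K3 => tail (Λ (L₁ (p.1, p.2 1)))) p :=
        DifferentiableAt.comp p tail.differentiableAt h1
      have h7 : DifferentiableAt ℂ (fun p : C2 × K3 => (p.2 2 : ℂ)) p := by fun_prop
      exact h6.prodMk h7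
    have h8 : DifferentiableAt ℂ
        (fun p : C2 × K3 => L₂ (tail (Λ (L₁ (p.1, p.2 1))), p.2 2)) p :=
      DifferentiableAt.comp (f := fun p : C2 × K3 => (tail (Λ (L₁ (p.1, p.2 1))), (p.2 2 : ℂ)))
        p (hL₂at _ _ (htail _ hp2)) h5
    refine ⟨h4.smul h8, ?_⟩
    exact H.cone _ (hL₂mem _ _ (htail _ hp2)) _ (Complex.exp_ne_zero _)
  have hin0 : ∀ᶠ p : C2 × K3 in 𝓝 0, ‖p.1‖ < r ∧ ‖L₁ (p.1, p.2 1) - v₁‖ < rL := by
    have h1 : ContinuousAt (fun p : C2 × K3 => ‖p.1‖) 0 := by fun_prop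
    have h2 : ContinuousAt (fun p : C2 × K3 => ‖L₁ (p.1, p.2 1) - v₁‖) 0 := by
      have := (hin 0 (by simpa using hr)).continuousAt
      exact (this.sub continuousAt_const).norm
    refine (h1.eventually (gt_mem_nhds ?_)).and (h2.eventually (gt_mem_nhds ?_))
    · simpa using hr
    · simpa [hL₁00] using hrL
  obtain ⟨rH, hrH, hrHin⟩ := Metric.eventually_nhds_iff_ball.1 hin0
  have hHd : DifferentiableOn ℂ h (ball 0 rH) := fun p hp =>
    (hH_at p (hrHin p hp).1 (hrHin p hp).2).1.differentiableWithinAt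
  have hHS : MapsTo h (ball 0 rH) S := fun p hp => (hH_at p (hrHin p hp).1 (hrHin p hp).2).2
  have hH0 : h 0 = v₁ := by
    rw [hhdef]
    simp only [Prod.fst_zero, Prod.snd_zero, Pi.zero_apply, hL₁00, hΛ0, add_zero,
      Complex.exp_zero, one_smul, map_zero, hL₂00]
  have hHst := strict_of_diffOn hrH hHd
  -- the second frame
  set w₂ : Fin 3 → C4 := ![v₁, deriv (fun τ => L₁ (0, τ)) 0, deriv (fun τ => L₂ (0, τ)) 0] with hw2
  have hdH : ∀ k : K3, fderiv ℂ h 0 (0, k) = comb w₂ k := by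
    have hline : ∀ k : K3, HasDerivAt (fun τ : ℂ => h (0, τ • k)) (fderiv ℂ h 0 (0, k)) 0 := by
      intro k
      have h1 : HasFDerivAt h (fderiv ℂ h 0) ((0 : C2), (0 : ℂ) • k) := by
        rw [zero_smul]; exact hHst.hasFDerivAt
      have h2 : HasDerivAt (fun τ : ℂ => ((0 : C2), τ • k)) ((0 : C2), k) 0 := by
        refine HasDerivAt.prodMk (hasDerivAt_const _ _) ?_
        simpa using (hasDerivAt_id (0 : ℂ)).smul_const k
      exact h1.comp_hasDerivAt 0 h2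
    have hb0 : fderiv ℂ h 0 (0, Pi.single 0 1) = w₂ 0 := by
      refine (hline _).unique ?_
      have h1 : HasDerivAt (fun τ : ℂ => Complex.exp τ • v₁) (Complex.exp 0 • v₁) 0 :=
        (Complex.hasDerivAt_exp 0).smul_const v₁
      rw [Complex.exp_zero, one_smul] at h1
      refine h1.congr_of_eventuallyEq (Eventually.of_forall fun τ => ?_)
      simp [hhdef, hL₁00, hΛ0, hL₂00]
    have hb1 : fderiv ℂ h 0 (0, Pi.single 1 1) = w₂ 1 := by
      refine (hline _).unique ?_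
      have h1 : HasDerivAt (fun τ : ℂ => L₁ (0, τ)) (w₂ 1) 0 := by
        have h2 : DifferentiableAt ℂ (fun τ : ℂ => ((0 : C2), τ)) 0 := by fun_prop
        have h3 : DifferentiableAt ℂ (fun τ : ℂ => L₁ (0, τ)) 0 :=
          DifferentiableAt.comp (f := fun τ : ℂ => ((0 : C2), τ)) (0 : ℂ)
            (hL₁at 0 0 (by simpa using hr)) h2
        exact h3.hasDerivAt
      refine h1.congr_of_eventuallyEq ?_
      have h3 : ContinuousAt (fun τ : ℂ => ‖L₁ (0, τ) - v₁‖) 0 :=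
        (h1.continuousAt.sub continuousAt_const).norm
      have h4 : ∀ᶠ τ : ℂ in 𝓝 0, ‖L₁ (0, τ) - v₁‖ < rL := by
        refine h3.eventually (gt_mem_nhds ?_)
        simpa [hL₁00] using hrL
      filter_upwards [h4] with τ hτ
      have h5 := hΛχ _ hτ (hL₁mem 0 τ (by simpa using hr))
      simp only [hhdef, Pi.smul_apply, Pi.single_eq_same, smul_eq_mul, mul_one, mul_zero, zero_add,
        Pi.single_apply, Fin.reduceEq, if_false, zero_ne_one]
      rw [hL₂0 _ (by rw [mem_ball_zero_iff]; exact htail _ hτ)]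
      exact h5
    have hb2 : fderiv ℂ h 0 (0, Pi.single 2 1) = w₂ 2 := by
      refine (hline _).unique ?_
      have h1 : HasDerivAt (fun τ : ℂ => L₂ (0, τ)) (w₂ 2) 0 := by
        have h2 : DifferentiableAt ℂ (fun τ : ℂ => ((0 : C2), τ)) 0 := by fun_prop
        have h3 : DifferentiableAt ℂ (fun τ : ℂ => L₂ (0, τ)) 0 :=
          DifferentiableAt.comp (f := fun τ : ℂ => ((0 : C2), τ)) (0 : ℂ)
            (hL₂at 0 0 (by simpa using hr)) h2
        exact h3.hasDerivAt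
      refine h1.congr_of_eventuallyEq (Eventually.of_forall fun τ => ?_)
      simp [hhdef, hL₁00, hΛ0]
    intro k
    have h6 : ((0 : C2), k) = k 0 • ((0 : C2), (Pi.single 0 1 : K3)) +
        k 1 • ((0 : C2), (Pi.single 1 1 : K3)) + k 2 • ((0 : C2), (Pi.single 2 1 : K3)) := by
      refine Prod.ext (by simp) ?_
      funext i
      fin_cases i <;> simp
    rw [h6, map_add, map_add, map_smul, map_smul, map_smul, hb0, hb1, hb2, comb_apply]
  -- projections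
  have hqw₁ : ∀ i, q' (frame1 v₁ ψ i) = 0 := by
    intro i
    fin_cases i
    · exact tangent_v₁ H hv
    · exact tangent_psi H hr hψ hψS h0 _
    · exact tangent_psi H hr hψ hψS h0 _
  have hqw₂ : ∀ i, q' (w₂ i) = 0 := by
    intro i
    fin_cases i
    · exact tangent_v₁ H hv
    · exact tangent_curve H hr hL₁ hL₁S hL₁00
    · exact tangent_curve H hr hL₂ hL₂S hL₂00
  obtain ⟨π, hπ1, hπ2⟩ := exists_proj hw₂ hqw₂ he
  obtain ⟨δ, hδ, hdet⟩ := exists_det H he hπ2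
  obtain ⟨rT, C, rk, hrT, hC, hrk, hrTH, κ₀, hκ₀d, hκ₀⟩ := exists_trans hδ hdet hrH hHd
    (fun p hp => hHS hp) hH0 hHst (ContinuousLinearMap.inr ℂ C2 K3)
    (fun w => by
      rw [ContinuousLinearMap.inr_apply, hdH, hπ1])
  -- the solution `κ p` of `h (p.1, κ p) = χ p.2`
  set κ : C2 × K3 → K3 := fun p => κ₀ ((p.1, 0), chi ψ p.2) with hκ
  have hev1 : ∀ᶠ p : C2 × K3 in 𝓝 0, ‖p.1‖ < rT ∧ ‖p.2‖ < r ∧
      ‖chi ψ p.2 - h (p.1, 0)‖ < rT := by
    have h1 : ContinuousAt (fun p : C2 × K3 => ‖p.1‖) 0 := by fun_prop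
    have h2 : ContinuousAt (fun p : C2 × K3 => ‖p.2‖) 0 := by fun_prop
    have h3 : ContinuousAt (fun p : C2 × K3 => chi ψ p.2) 0 := by
      have h4 : ContinuousAt (chi ψ) 0 :=
        ((chi_diff hψ).differentiableAt (ball_mem_nhds 0 hr)).continuousAt
      exact ContinuousAt.comp (f := fun p : C2 × K3 => p.2) (x := (0 : C2 × K3)) h4
        continuousAt_snd
    have h5 : ContinuousAt (fun p : C2 × K3 => h (p.1, 0)) 0 := by
      have h6 : ContinuousAt h ((fun p : C2 × K3 => (p.1, (0 : K3))) 0) := hHst.continuousAt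
      exact ContinuousAt.comp (f := fun p : C2 × K3 => (p.1, (0 : K3))) (x := (0 : C2 × K3)) h6
        (by fun_prop)
    have h7 : ContinuousAt (fun p : C2 × K3 => ‖chi ψ p.2 - h (p.1, 0)‖) 0 := (h3.sub h5).norm
    refine (h1.eventually (gt_mem_nhds ?_)).and
      ((h2.eventually (gt_mem_nhds ?_)).and (h7.eventually (gt_mem_nhds ?_)))
    · simpa using hrT
    · simpa using hr
    · have : h ((0 : C2), (0 : K3)) = v₁ := hH0
      simpa [chi_zero, h0, this] using hrT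
  have hκprop : ∀ p : C2 × K3, ‖p.1‖ < rT → ‖p.2‖ < r → ‖chi ψ p.2 - h (p.1, 0)‖ < rT →
      DifferentiableAt ℂ κ p ∧ h (p.1, κ p) = chi ψ p.2 ∧
      ∀ k, ‖k‖ ≤ rk → h (p.1, k) = chi ψ p.2 → k = κ p := by
    intro p hp1 hp2 hp3
    have hz1 : ‖(((p.1, (0 : K3)), chi ψ p.2) : (C2 × K3) × C4).1‖ < rT := by
      simpa [Prod.norm_def, hrT] using hp1
    have hd0 := hκ₀d ((p.1, 0), chi ψ p.2) hz1 hp3
    obtain ⟨-, -, h3, h4⟩ := hκ₀ ((p.1, 0), chi ψ p.2) hz1 hp3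
    have hm : chi ψ p.2 ∈ S := chi_mem H.cone hψS (by rwa [mem_ball_zero_iff])
    refine ⟨?_, ?_, ?_⟩
    · have h5 : DifferentiableAt ℂ (fun p : C2 × K3 => chi ψ p.2) p := by
        have h6 : DifferentiableAt ℂ (chi ψ) p.2 :=
          (chi_diff hψ).differentiableAt (isOpen_ball.mem_nhds (by rwa [mem_ball_zero_iff]))
        exact DifferentiableAt.comp (f := fun p : C2 × K3 => p.2) p h6 differentiableAt_snd
      have h7 : DifferentiableAt ℂ (fun p : C2 × K3 => (p.1, (0 : K3))) p := by fun_prop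
      exact DifferentiableAt.comp
        (f := fun p : C2 × K3 => ((p.1, (0 : K3)), chi ψ p.2)) p hd0 (h7.prodMk h5)
    · have h5 := h3 hm
      have h6 : (((p.1, (0 : K3)), chi ψ p.2) : (C2 × K3) × C4).1 +
          (ContinuousLinearMap.inr ℂ C2 K3) (κ₀ ((p.1, 0), chi ψ p.2)) = (p.1, κ p) := by
        refine Prod.ext (by simp) (by simp [hκ])
      rw [h6] at h5
      exact h5
    · intro k hk hk'
      refine h4 k hk ?_
      have h6 : (((p.1, (0 : K3)), chi ψ p.2) : (C2 × K3) × C4).1 +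
          (ContinuousLinearMap.inr ℂ C2 K3) k = (p.1, k) := by
        refine Prod.ext (by simp) (by simp)
      rw [h6]
      exact hk'
  have hκ00 : κ 0 = 0 := by
    have hz := (hκ₀ ((0, 0), v₁) (by simpa [Prod.norm_def] using hrT)
      (by simpa [hH0, show ((0 : C2), (0 : K3)) = 0 from rfl] using hrT)).1
    have h1 : κ 0 = κ₀ ((0, 0), v₁) := by
      simp [hκ, chi_zero, h0]
    rw [h1]
    have h2 : h ((0 : C2), (0 : K3)) = v₁ := hH0
    simp only [h2, sub_self, norm_zero, mul_zero] at hz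
    exact norm_le_zero_iff.1 hz
  have hev1' : ∀ᶠ p : C2 × K3 in 𝓝 0, DifferentiableAt ℂ κ p ∧ h (p.1, κ p) = chi ψ p.2 ∧
      ∀ k, ‖k‖ ≤ rk → h (p.1, k) = chi ψ p.2 → k = κ p := by
    filter_upwards [hev1] with p hp
    exact hκprop p hp.1 hp.2.1 hp.2.2
  have hκc : ContinuousAt κ 0 := hev1'.self_of_nhds.1.continuousAt
  have hev2 : ∀ᶠ p : C2 × K3 in 𝓝 0, ‖L₁ (p.1, κ p 1) - v₁‖ < rL := by
    have h1 : ContinuousAt L₁ ((fun p : C2 × K3 => (p.1, κ p 1)) 0) := by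
      have : (fun p : C2 × K3 => (p.1, κ p 1)) 0 = ((0 : C2), (0 : ℂ)) := by simp [hκ00]
      rw [this]
      exact (hL₁at 0 0 (by simpa using hr)).continuousAt
    have h2 : ContinuousAt (fun p : C2 × K3 => (p.1, κ p 1)) 0 :=
      continuousAt_fst.prodMk ((continuous_apply 1).continuousAt.comp hκc)
    have h3 : ContinuousAt (fun p : C2 × K3 => ‖L₁ (p.1, κ p 1) - v₁‖) 0 :=
      ((ContinuousAt.comp (f := fun p : C2 × K3 => (p.1, κ p 1)) (x := (0 : C2 × K3)) h1 h2).sub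
        continuousAt_const).norm
    refine h3.eventually (gt_mem_nhds ?_)
    simpa [hκ00, hL₁00] using hrL
  obtain ⟨R, hR, hRin⟩ := Metric.eventually_nhds_iff_ball.1 (hev1.and hev2)
  set r' : ℝ := min R r with hr'
  have hr'pos : 0 < r' := lt_min hR hr
  have hball : ∀ p ∈ ball (0 : C2 × K3) r', ‖p.1‖ < r ∧ ‖p.2‖ < r ∧ DifferentiableAt ℂ κ p ∧
      h (p.1, κ p) = chi ψ p.2 ∧ ‖L₁ (p.1, κ p 1) - v₁‖ < rL := by
    intro p hp
    have hp' := mem_ball_zero_iff.1 hp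
    have hp1 : p ∈ ball (0 : C2 × K3) R :=
      mem_ball_zero_iff.2 (hp'.trans_le (min_le_left _ _))
    obtain ⟨⟨ha, hb, hc⟩, hd⟩ := hRin p hp1
    obtain ⟨h1, h2, -⟩ := hκprop p ha hb hc
    refine ⟨(norm_fst_le p).trans_lt (hp'.trans_le (min_le_right _ _)), hb, h1, h2, hd⟩
  set A₁ : (C2 × K3) × ℂ → C4 := fun z =>
    Complex.exp (z.2 * κ z.1 0) • L₁ (z.1.1, z.2 * κ z.1 1) with hA₁
  set A₂ : (C2 × K3) × ℂ → C4 := fun z =>
    Complex.exp (κ z.1 0 + Λ (L₁ (z.1.1, κ z.1 1)) 0) •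
      L₂ (tail (Λ (L₁ (z.1.1, κ z.1 1))), z.2 * κ z.1 2) with hA₂
  have hκi : ∀ (z : (C2 × K3) × ℂ), z.1 ∈ ball (0 : C2 × K3) r' → ∀ i,
      DifferentiableAt ℂ (fun z : (C2 × K3) × ℂ => κ z.1 i) z := by
    intro z hz i
    have h1 := (hball _ hz).2.2.1
    have h2 : DifferentiableAt ℂ (fun z : (C2 × K3) × ℂ => κ z.1) z :=
      DifferentiableAt.comp (f := fun z : (C2 × K3) × ℂ => z.1) z h1 differentiableAt_fst
    exact (differentiableAt_pi.1 h2) i
  have hA₁d : DifferentiableOn ℂ A₁ (ball 0 r' ×ˢ univ) := by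
    rintro z ⟨hz, -⟩
    have h1 := hκi z hz
    have h3 : DifferentiableAt ℂ (fun z : (C2 × K3) × ℂ => Complex.exp (z.2 * κ z.1 0)) z :=
      (differentiableAt_snd.mul (h1 0)).cexp
    have h4 : DifferentiableAt ℂ (fun z : (C2 × K3) × ℂ => (z.1.1, z.2 * κ z.1 1)) z := by
      have h5 : DifferentiableAt ℂ (fun z : (C2 × K3) × ℂ => z.1.1) z := by fun_prop
      exact h5.prodMk (differentiableAt_snd.mul (h1 1))
    have h6 : DifferentiableAt ℂ
        (fun z : (C2 × K3) × ℂ => L₁ (z.1.1, z.2 * κ z.1 1)) z :=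
      DifferentiableAt.comp (f := fun z : (C2 × K3) × ℂ => (z.1.1, z.2 * κ z.1 1)) z
        (hL₁at _ _ (hball _ hz).1) h4
    exact (h3.smul h6).differentiableWithinAt
  have hA₁S : MapsTo A₁ (ball 0 r' ×ˢ univ) S := by
    rintro z ⟨hz, -⟩
    exact H.cone _ (hL₁mem _ _ (hball _ hz).1) _ (Complex.exp_ne_zero _)
  have hA₂d : DifferentiableOn ℂ A₂ (ball 0 r' ×ˢ univ) := by
    rintro z ⟨hz, -⟩
    have h1 := hκi z hz
    obtain ⟨hb1, hb2, hb3, hb4, hb5⟩ := hball _ hz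
    have h4 : DifferentiableAt ℂ (fun z : (C2 × K3) × ℂ => (z.1.1, κ z.1 1)) z := by
      have h5 : DifferentiableAt ℂ (fun z : (C2 × K3) × ℂ => z.1.1) z := by fun_prop
      exact h5.prodMk (h1 1)
    have h6 : DifferentiableAt ℂ (fun z : (C2 × K3) × ℂ => L₁ (z.1.1, κ z.1 1)) z :=
      DifferentiableAt.comp (f := fun z : (C2 × K3) × ℂ => (z.1.1, κ z.1 1)) z
        (hL₁at _ _ hb1) h4
    have h7 : DifferentiableAt ℂ (fun z : (C2 × K3) × ℂ => Λ (L₁ (z.1.1, κ z.1 1))) z :=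
      DifferentiableAt.comp (f := fun z : (C2 × K3) × ℂ => L₁ (z.1.1, κ z.1 1)) z
        (hΛd _ hb5) h6
    have h8 : DifferentiableAt ℂ
        (fun z : (C2 × K3) × ℂ => Complex.exp (κ z.1 0 + Λ (L₁ (z.1.1, κ z.1 1)) 0)) z :=
      ((h1 0).add ((differentiableAt_pi.1 h7) 0)).cexp
    have h9 : DifferentiableAt ℂ
        (fun z : (C2 × K3) × ℂ => (tail (Λ (L₁ (z.1.1, κ z.1 1))), z.2 * κ z.1 2)) z := by
      have h10 : DifferentiableAt ℂ
          (fun z : (C2 × K3) × ℂ => tail (Λ (L₁ (z.1.1, κ z.1 1)))) z :=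
        DifferentiableAt.comp z tail.differentiableAt h7
      exact h10.prodMk (differentiableAt_snd.mul (h1 2))
    have h11 : DifferentiableAt ℂ
        (fun z : (C2 × K3) × ℂ => L₂ (tail (Λ (L₁ (z.1.1, κ z.1 1))), z.2 * κ z.1 2)) z :=
      DifferentiableAt.comp
        (f := fun z : (C2 × K3) × ℂ => (tail (Λ (L₁ (z.1.1, κ z.1 1))), z.2 * κ z.1 2)) z
        (hL₂at _ _ (htail _ hb5)) h9
    exact (h8.smul h11).differentiableWithinAt
  have hA₂S : MapsTo A₂ (ball 0 r' ×ˢ univ) S := by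
    rintro z ⟨hz, -⟩
    exact H.cone _ (hL₂mem _ _ (htail _ (hball _ hz).2.2.2.2)) _ (Complex.exp_ne_zero _)
  have hA₁0 : ∀ p ∈ ball (0 : C2 × K3) r', A₁ (p, 0) = ψ p.1 := by
    intro p hp
    simp only [hA₁, zero_mul, Complex.exp_zero, one_smul]
    exact hL₁0 _ (mem_ball_zero_iff.2 (hball _ hp).1)
  have hA₁1 : ∀ p ∈ ball (0 : C2 × K3) r', A₁ (p, 1) = A₂ (p, 0) := by
    intro p hp
    obtain ⟨hb1, hb2, hb3, hb4, hb5⟩ := hball _ hp
    have h1 := hΛχ _ hb5 (hL₁mem _ _ hb1)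
    simp only [hA₁, hA₂, one_mul, zero_mul]
    rw [hL₂0 _ (mem_ball_zero_iff.2 (htail _ hb5)), Complex.exp_add, mul_smul]
    congr 1
    exact h1.symm
  have hA₂1 : ∀ p ∈ ball (0 : C2 × K3) r', A₂ (p, 1) = chi ψ p.2 := by
    intro p hp
    obtain ⟨hb1, hb2, hb3, hb4, hb5⟩ := hball _ hp
    rw [← hb4, hhdef]
    simp only [hA₂, one_mul]
  have hcut : ∀ (A : (C2 × K3) × ℂ → C4), DifferentiableOn ℂ A (ball 0 r' ×ˢ univ) →
      DifferentiableOn ℂ (fun p => A (p, 1)) (ball 0 r') := by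
    intro A hA p hp
    have h1 : DifferentiableAt ℂ A (p, 1) :=
      hA.differentiableAt ((isOpen_ball.prod isOpen_univ).mem_nhds ⟨hp, mem_univ _⟩)
    have h2 : DifferentiableAt ℂ (fun p : C2 × K3 => (p, (1 : ℂ))) p := by fun_prop
    exact (DifferentiableAt.comp (f := fun p : C2 × K3 => (p, (1 : ℂ))) p h1
      h2).differentiableWithinAt
  have h0mem : (0 : C2 × K3) ∈ ball (0 : C2 × K3) r' := mem_ball_self hr'pos
  refine ⟨r', A₁, A₂, chi ψ, hr'pos, hA₁d, hA₁S, hA₂d, hA₂S,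
    (chi_diff hψ).mono (ball_subset_ball (min_le_right _ _)),
    fun t ht => chi_mem H.cone hψS (ball_subset_ball (min_le_right _ _) ht),
    hA₁0, hA₁1, hA₂1, ?_, ?_⟩
  · -- transitions for `y`
    refine hasTrans_of_restrict H hr hψ hψS h0 hw₁ hr'pos (hcut _ hA₁d)
      (fun p hp => hA₁S ⟨hp, mem_univ _⟩) ?_ (tail.prod (ContinuousLinearMap.id ℂ K3)) ?_
    · have : A₁ (0, 1) = v₁ := by
        simp [hA₁, hκ00, hL₁00]
      exact this
    · have hι : Tendsto (fun k : K3 => (tail.prod (ContinuousLinearMap.id ℂ K3)) k) (𝓝 0) (𝓝 0) := by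
        have := (tail.prod (ContinuousLinearMap.id ℂ K3)).continuous.tendsto 0
        rwa [map_zero] at this
      have hk0 : ∀ᶠ k : K3 in 𝓝 0, ‖k‖ < r ∧ ‖k‖ ≤ rk ∧ ‖ψ (tail k) - v₁‖ < rL := by
        have h1 : ContinuousAt (fun k : K3 => ‖k‖) 0 := continuous_norm.continuousAt
        have h2 : ContinuousAt (fun k : K3 => ‖ψ (tail k) - v₁‖) 0 := by
          have h3 : ContinuousAt ψ (tail (0 : K3)) := by
            rw [map_zero]
            exact (hψ.differentiableAt (ball_mem_nhds 0 hr)).continuousAt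
          exact ((ContinuousAt.comp h3 tail.continuous.continuousAt).sub
            continuousAt_const).norm
        have h4 : ∀ᶠ k : K3 in 𝓝 0, ‖k‖ < rk := h1.eventually (gt_mem_nhds (by simpa using hrk))
        have h5 : ∀ᶠ k : K3 in 𝓝 0, ‖ψ (tail k) - v₁‖ < rL :=
          h2.eventually (gt_mem_nhds (by simpa [h0] using hrL))
        have h6 : ∀ᶠ k : K3 in 𝓝 0, ‖k‖ < r := h1.eventually (gt_mem_nhds (by simpa using hr))
        filter_upwards [h4, h5, h6] with k ha hb hc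
        exact ⟨hc, ha.le, hb⟩
      filter_upwards [hk0, hι.eventually hev1'] with k ⟨hk1, hk2, hk3⟩ hk4
      obtain ⟨-, -, huniq⟩ := hk4
      have ht : ‖tail k‖ < r := (norm_tail_le k).trans_lt hk1
      set k' : K3 := ![k 0, 0, 0] with hk'
      have hk'n : ‖k'‖ ≤ rk := by
        refine le_trans ?_ hk2
        rw [pi_norm_le_iff_of_nonneg (norm_nonneg _)]
        intro i
        fin_cases i
        · exact norm_le_pi_norm k 0
        · simp [hk']
        · simp [hk']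
      have hL1t : L₁ (tail k, 0) = ψ (tail k) := hL₁0 _ (mem_ball_zero_iff.2 ht)
      have hsol : h (tail k, k') = chi ψ k := by
        rw [hhdef]
        simp only [hk', Matrix.cons_val_zero, Matrix.cons_val_one, Matrix.cons_val, hL1t]
        rw [hL₂0 _ (mem_ball_zero_iff.2 (htail _ hk3)), Complex.exp_add, mul_smul]
        have := hΛχ _ hk3 (hψS (mem_ball_zero_iff.2 ht))
        rw [chi] at this
        rw [this, chi]
      have hκk : k' = κ (tail k, k) := huniq k' hk'n hsol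
      show A₁ ((tail k, k), 1) = chi ψ k
      simp only [hA₁, one_mul, ← hκk]
      simp only [hk', Matrix.cons_val_zero, Matrix.cons_val_one, hL1t]
      rfl
  · -- transitions for `χ`
    refine hasTrans_of_restrict H hr hψ hψS h0 hw₁ hr'pos (hcut _ hA₂d)
      (fun p hp => hA₂S ⟨hp, mem_univ _⟩) ?_ (ContinuousLinearMap.inr ℂ C2 K3) ?_
    · have : A₂ (0, 1) = v₁ := by
        rw [hA₂1 0 h0mem]
        simp [chi_zero, h0]
      exact this
    · have hι : Tendsto (fun k : K3 => (ContinuousLinearMap.inr ℂ C2 K3) k) (𝓝 0) (𝓝 0) := by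
        have := (ContinuousLinearMap.inr ℂ C2 K3).continuous.tendsto 0
        rwa [map_zero] at this
      filter_upwards [hι (ball_mem_nhds 0 hr'pos)] with k hk
      have := hA₂1 _ hk
      simpa using this

end main

/-- the cone `V*` of a homogeneous polynomial which is smooth at `v₁` -/
theorem hypCone_Vstar {Q : MvPolynomial (Fin 4) ℂ} {n : ℕ} (hQ : Q.IsHomogeneous n) {v₁ : C4}
    (hs : ∃ i, MvPolynomial.eval v₁ (MvPolynomial.pderiv i Q) ≠ 0) :
    HypCone (Vstar Q) v₁ (fun y => MvPolynomial.eval y Q) (dQ Q v₁) := by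
  refine ⟨?_, hasStrictFDerivAt_eval Q v₁, fun v hv => hv.2, ?_⟩
  · rintro v ⟨hv0, hv⟩ c hc
    refine ⟨smul_ne_zero hc hv0, ?_⟩
    rw [eval_smul hQ, hv, mul_zero]
  · by_contra hcon
    push Not at hcon
    exact dQ_ne_zero hs (ContinuousLinearMap.ext hcon)

/-- **Part 6, finite dimensional part.** -/
theorem hasChain_of_twoFam {Q : MvPolynomial (Fin 4) ℂ} {n : ℕ} (hQ : Q.IsHomogeneous n)
    {v₁ : C4} (hs : ∃ i, MvPolynomial.eval v₁ (MvPolynomial.pderiv i Q) ≠ 0)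
    (h : TwoFam (Vstar Q) v₁) :
    ∃ (r : ℝ) (ψ : C2 → C4), 0 < r ∧ DifferentiableOn ℂ ψ (ball 0 r) ∧
      MapsTo ψ (ball 0 r) (Vstar Q) ∧ ψ 0 = v₁ ∧
      LinearIndependent ℂ ![v₁, fderiv ℂ ψ 0 ![1, 0], fderiv ℂ ψ 0 ![0, 1]] ∧
      HasChain (Vstar Q) ψ := by
  obtain ⟨r, ψ, L₁, L₂, hr, hψ, hψS, h0, hL₁, hL₁S, hL₂, hL₂S, hL₁0, hL₂0, hw₁, hw₂⟩ := h
  exact ⟨r, ψ, hr, hψ, hψS, h0, hw₁, hasChain_aux (hypCone_Vstar hQ hs) hr hψ hψS h0 hL₁ hL₁S
    hL₂ hL₂S hL₁0 hL₂0 hw₁ hw₂⟩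

end Crest.Agent.R279.Two
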