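import Crest.Agent.R279.Fam520
import Crest.Agent.R279.FamFinal520
import Crest.Agent.R279.FamSplit520
import Crest.Agent.R279.Two544

/-!
R279 (helper520), Part 6 complete: a point with two transversal families of entire curves is good.
-/

set_option autoImplicit false

namespace Crest.Agent.R279.Fam

open Metric Set

/-- A chain of homotopies makes the section approximable. -/
theorem xApprox_of_hasChain (hE : LemmaE) (hK : LemmaK) {S : Set C4} {ψ : C2 → C4}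
    (h : HasChain S ψ) :
    ∃ ρ : ℝ, 0 < ρ ∧ ∀ R : ℝ, ∀ ε : ℝ, 0 < ε → ∃ G : C2 → C4,
      DifferentiableOn ℂ G (ball 0 R) ∧ MapsTo G (ball 0 R) S ∧
      ∀ x ∈ ball (0 : C2) ρ, ‖G x - ψ x‖ < ε := by
  obtain ⟨r, A₁, A₂, χ, hr, hA₁, hA₁S, hA₂, hA₂S, hχ, hχS, h10, h11, h21, ht₁, ht₂⟩ := h
  have hmem : ∀ p : C2 × (Fin 3 → ℂ), p ∈ ball (0 : C2) r ×ˢ ball (0 : Fin 3 → ℂ) r →
      p ∈ ball (0 : C2 × (Fin 3 → ℂ)) r := by
    rintro p ⟨h1, h2⟩
    rw [mem_ball_zero_iff, Prod.norm_def, max_lt_iff]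
    exact ⟨mem_ball_zero_iff.1 h1, mem_ball_zero_iff.1 h2⟩
  -- `A₂ (·, 1) = χ`
  have h1 : XApprox S (fun p : C2 × (Fin 3 → ℂ) => A₂ (p, 1)) := by
    refine ⟨r, hr, fun R ε hε => ⟨fun p => χ p.2, ?_, ?_, ?_⟩⟩
    · exact hχ.comp differentiableOn_snd (fun p hp => hp.2)
    · intro p hp
      exact hχS hp.2
    · intro p hp
      show ‖χ p.2 - A₂ (p, 1)‖ < ε
      rw [h21 p (hmem p hp), sub_self, norm_zero]
      exact hε
  have h2 := transport hE hK (splitTarget (C2 × (Fin 3 → ℂ))) hr hA₂ hA₂S h1 ht₂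
  have h3 : XApprox S (fun p : C2 × (Fin 3 → ℂ) => A₁ (p, 1)) := by
    obtain ⟨ρ, hρ, hG⟩ := h2
    refine ⟨min ρ r, lt_min hρ hr, fun R ε hε => ?_⟩
    obtain ⟨G, hGd, hGS, hGn⟩ := hG R ε hε
    have hs : ball (0 : Fin 3 → ℂ) (min ρ r) ⊆ ball 0 ρ := ball_subset_ball (min_le_left _ _)
    have hs' : ball (0 : C2) (min ρ r) ⊆ ball 0 ρ := ball_subset_ball (min_le_left _ _)
    have ht : ball (0 : Fin 3 → ℂ) (min ρ r) ⊆ ball 0 r := ball_subset_ball (min_le_right _ _)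
    have ht' : ball (0 : C2) (min ρ r) ⊆ ball 0 r := ball_subset_ball (min_le_right _ _)
    refine ⟨G, hGd.mono (prod_mono_right hs), fun p hp => hGS ⟨hp.1, hs hp.2⟩, fun p hp => ?_⟩
    have h4 := hGn p ⟨hs' hp.1, hs hp.2⟩
    simp only at h4 ⊢
    rw [h11 p (hmem p ⟨ht' hp.1, ht hp.2⟩)]
    exact h4
  obtain ⟨ρ, hρ, hG⟩ := transport hE hK (splitTarget (C2 × (Fin 3 → ℂ))) hr hA₁ hA₁S h3 ht₁
  refine ⟨min ρ r, lt_min hρ hr, fun R ε hε => ?_⟩
  obtain ⟨G, hGd, hGS, hGn⟩ := hG R ε hε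
  have h0 : (0 : Fin 3 → ℂ) ∈ ball (0 : Fin 3 → ℂ) ρ := mem_ball_self hρ
  refine ⟨fun x => G (x, 0), ?_, ?_, ?_⟩
  · refine hGd.comp (f := fun x : C2 => (x, (0 : Fin 3 → ℂ))) ?_ (fun x hx => ⟨hx, h0⟩)
    exact (differentiable_id.prodMk (differentiable_const _)).differentiableOn
  · intro x hx
    exact hGS ⟨hx, h0⟩
  · intro x hx
    have h4 := hGn (x, 0) ⟨ball_subset_ball (min_le_left _ _) hx, h0⟩
    simp only at h4
    rw [h10 (x, 0) (hmem _ ⟨ball_subset_ball (min_le_right _ _) hx, mem_ball_self hr⟩)] at h4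
    exact h4

/-- **Part 6.** Two transversal families of entire curves at `v₁` make `v₁` a good point. -/
theorem goodPt_of_twoFam (hE : LemmaE) (hK : LemmaK) {Q : MvPolynomial (Fin 4) ℂ} {n : ℕ}
    (hQ : Q.IsHomogeneous n) {v₁ : C4}
    (hs : ∃ i, MvPolynomial.eval v₁ (MvPolynomial.pderiv i Q) ≠ 0)
    (h : TwoFam (Vstar Q) v₁) : GoodPt (Vstar Q) v₁ := by
  obtain ⟨r, ψ, hr, hψ, hψS, h0, hw, hch⟩ := Two.hasChain_of_twoFam hQ hs h
  have hcone := (Two.hypCone_Vstar hQ hs).cone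
  obtain ⟨rL, Λ, hrL, hΛ0, hΛd, hΛr, hΛ⟩ := Two.exists_lam (Two.hypCone_Vstar hQ hs) hr hψ hψS
    h0 hw
  have hv : v₁ ∈ Vstar Q := by rw [← h0]; exact hψS (mem_ball_self hr)
  refine goodPt_of_section hcone hr hψ.continuousOn (xApprox_of_hasChain hE hK hch) hv
    (O := ball v₁ rL) isOpen_ball (mem_ball_self hrL) (lam := fun y => Complex.exp (Λ y 0))
    (ζ := fun y => Two.tail (Λ y)) ?_ ?_ (fun y _ => Complex.exp_ne_zero _) ?_ ?_
  · intro y hy
    rw [mem_ball, dist_eq_norm] at hy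
    have h1 : DifferentiableAt ℂ (fun y => Λ y 0) y :=
      (differentiableAt_pi.1 (hΛd y hy)) 0
    exact h1.cexp.differentiableWithinAt
  · intro y hy
    rw [mem_ball, dist_eq_norm] at hy
    exact (Two.tail.differentiableAt.comp y (hΛd y hy)).differentiableWithinAt
  · simp only [hΛ0, map_zero]
  · intro y hy hyS
    rw [mem_ball, dist_eq_norm] at hy
    exact (hΛ y hy hyS).symm

end Crest.Agent.R279.Fam
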