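import Crest.Agent.R279.FamDefs520
import Crest.Agent.R279.H777b

/-!
R279 (helper520), Part 6: planar data, glueing, uniform continuity.
-/

set_option autoImplicit false

namespace Crest.Agent.R279.Fam

open Metric Set

/-- Two holomorphic maps which agree on the overlap can be glued. -/
theorem exists_glue {X Y : Type*} [NormedAddCommGroup X] [NormedSpace ℂ X]
    [NormedAddCommGroup Y] [NormedSpace ℂ Y] {f g : X → Y} {s t : Set X} (hs : IsOpen s)
    (ht : IsOpen t) (hf : DifferentiableOn ℂ f s) (hg : DifferentiableOn ℂ g t)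
    (h : ∀ x, x ∈ s → x ∈ t → f x = g x) :
    ∃ F : X → Y, DifferentiableOn ℂ F (s ∪ t) ∧ (∀ x ∈ s, F x = f x) ∧ ∀ x ∈ t, F x = g x := by
  classical
  have h1 : ∀ x ∈ s, (fun x => if x ∈ s then f x else g x) x = f x := fun x hx => by simp [hx]
  have h2 : ∀ x ∈ t, (fun x => if x ∈ s then f x else g x) x = g x := fun x hx => by
    by_cases hxs : x ∈ s
    · simp only [hxs, if_true]; exact h x hxs hx
    · simp [hxs]
  refine ⟨fun x => if x ∈ s then f x else g x, ?_, h1, h2⟩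
  rintro x (hx | hx)
  · refine DifferentiableAt.differentiableWithinAt ?_
    have hev : (fun x => if x ∈ s then f x else g x) =ᶠ[nhds x] f :=
      Filter.eventually_of_mem (hs.mem_nhds hx) h1
    exact (hf.differentiableAt (hs.mem_nhds hx)).congr_of_eventuallyEq hev
  · refine DifferentiableAt.differentiableWithinAt ?_
    have hev : (fun x => if x ∈ s then f x else g x) =ᶠ[nhds x] g :=
      Filter.eventually_of_mem (ht.mem_nhds hx) h2
    exact (hg.differentiableAt (ht.mem_nhds hx)).congr_of_eventuallyEq hev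

/-- Uniform continuity near a compact slice. -/
theorem unif_near {X : Type*} [NormedAddCommGroup X] [NormedSpace ℂ X] [ProperSpace X]
    {Y : Type*} [NormedAddCommGroup Y] [NormedSpace ℂ Y] {A : X × ℂ → Y} {r σ : ℝ}
    (hA : DifferentiableOn ℂ A (ball (0 : X) r ×ˢ univ)) (hσ : σ < r) (s₀ : ℂ) {ε : ℝ}
    (hε : 0 < ε) :
    ∃ ω : ℝ, 0 < ω ∧ ∀ p q : X, ‖p‖ ≤ σ → ‖q‖ ≤ σ → ‖p - q‖ < ω → ∀ s : ℂ, ‖s - s₀‖ < ω →
      ‖A (p, s) - A (q, s₀)‖ < ε := by
  have hc : IsCompact (closedBall (0 : X) σ ×ˢ closedBall s₀ (1 : ℝ)) :=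
    (isCompact_closedBall _ _).prod (isCompact_closedBall _ _)
  have hsub : closedBall (0 : X) σ ×ˢ closedBall s₀ (1 : ℝ) ⊆ ball (0 : X) r ×ˢ univ := by
    rintro ⟨p, s⟩ ⟨hp, -⟩
    exact ⟨closedBall_subset_ball hσ hp, mem_univ _⟩
  have hu := hc.uniformContinuousOn_of_continuous (hA.continuousOn.mono hsub)
  rw [Metric.uniformContinuousOn_iff] at hu
  obtain ⟨δ, hδ, h⟩ := hu ε hε
  refine ⟨min δ 1, lt_min hδ one_pos, fun p q hp hq hpq s hs => ?_⟩
  have h1 := h (p, s) ⟨by simpa using hp, by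
      rw [mem_closedBall, dist_eq_norm]; exact (hs.le.trans (min_le_right _ _))⟩ (q, s₀)
      ⟨by simpa using hq, mem_closedBall_self zero_le_one⟩ (by
        rw [Prod.dist_eq, max_lt_iff, dist_eq_norm, dist_eq_norm]
        exact ⟨hpq.trans_le (min_le_left _ _), hs.trans_le (min_le_left _ _)⟩)
  rwa [dist_eq_norm] at h1

/-- The planar data used by the transport lemma. -/
theorem planar (hE : LemmaE) (hK : LemmaK) {ρ R η : ℝ} (hρ : 0 < ρ) (hη : 0 < η) :
    ∃ (L : ℂ → ℝ) (δ : ℝ) (e : ℂ → ℂ), (∀ z w, L z - L w ≤ dist z w) ∧ Continuous L ∧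
      0 < δ ∧ δ ≤ 1 ∧ Differentiable ℂ e ∧ (∀ z, L z < δ → ‖z‖ ≤ R → ‖e z‖ < 2 * ρ) ∧
      (∀ z, ‖z‖ < ρ → ‖e z - z‖ < η ∧ L z = 0) ∧
      (∀ z : ℂ, z.re < -(ρ + 1) → 1 < L z) ∧
      (∀ (Λ : ℂ) (ε : ℝ), 0 < ε → ∃ p : ℂ → ℂ, Differentiable ℂ p ∧
        (∀ z, ‖z‖ < ρ → ‖p z‖ < ε) ∧ (∀ z, ‖z‖ ≤ R → δ / 2 ≤ L z → ‖p z - Λ‖ < ε)) := by
  have hne : (cross (-ρ) ρ (-ρ) ρ {0} ∅).Nonempty :=
    ⟨0, Or.inl (by constructor <;> simp [hρ.le])⟩
  have hcr : ∀ z ∈ cross (-ρ) ρ (-ρ) ρ {0} ∅, -ρ ≤ z.re := by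
    rintro z (hz | hz | hz)
    · exact hz.1.1
    · simp only [Finset.mem_singleton] at hz
      rw [hz]; linarith
    · simp at hz
  obtain ⟨P, δ, hδ, hP⟩ := hE (-ρ) ρ (-ρ) ρ {0} ∅ (by linarith) (by linarith)
    (by intro x hx; simp only [Finset.mem_singleton] at hx; subst hx; constructor <;> linarith)
    (by simp) (min η (ρ / 2)) (max R ρ) (lt_min hη (by positivity))
  have hball : ∀ z : ℂ, ‖z‖ < ρ → z ∈ rect (-ρ) ρ (-ρ) ρ := by
    intro z hz
    have h1 := abs_lt.1 ((Complex.abs_re_le_norm z).trans_lt hz)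
    have h2 := abs_lt.1 ((Complex.abs_im_le_norm z).trans_lt hz)
    exact ⟨⟨h1.1.le, h1.2.le⟩, ⟨h2.1.le, h2.2.le⟩⟩
  have hball' : ∀ z : ℂ, ‖z‖ < ρ → infDist z (cross (-ρ) ρ (-ρ) ρ {0} ∅) = 0 := fun z hz =>
    infDist_zero_of_mem (Or.inl (hball z hz))
  have hclamp : ∀ z : ℂ, ‖clampQ (-ρ) ρ (-ρ) ρ z‖ ≤ 3 / 2 * ρ := by
    intro z
    have h1 : |max (-ρ) (min ρ z.re)| ≤ ρ := by
      rw [abs_le]
      exact ⟨le_max_left _ _, max_le (by linarith) (min_le_left _ _)⟩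
    have h2 : |max (-ρ) (min ρ z.im)| ≤ ρ := by
      rw [abs_le]
      exact ⟨le_max_left _ _, max_le (by linarith) (min_le_left _ _)⟩
    have h3 : ‖clampQ (-ρ) ρ (-ρ) ρ z‖ ^ 2 ≤ (3 / 2 * ρ) ^ 2 := by
      rw [← Complex.normSq_eq_norm_sq, Complex.normSq_apply]
      simp only [clampQ]
      have h4 := sq_le_sq' (abs_le.1 h1).1 (abs_le.1 h1).2
      have h5 := sq_le_sq' (abs_le.1 h2).1 (abs_le.1 h2).2
      nlinarith
    exact (sq_le_sq₀ (norm_nonneg _) (by positivity)).1 h3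
  refine ⟨fun z => infDist z (cross (-ρ) ρ (-ρ) ρ {0} ∅), min δ 1, fun z => P.eval z,
    fun z w => ?_, continuous_infDist_pt _, lt_min hδ one_pos, min_le_right _ _,
    P.differentiable, fun z hz hzR => ?_, fun z hz => ⟨?_, hball' z hz⟩, fun z hz => ?_,
    fun Λ ε hε => ?_⟩
  · have := infDist_le_infDist_add_dist (s := cross (-ρ) ρ (-ρ) ρ {0} ∅) (x := z) (y := w)
    linarith
  · have h1 := hP z (hzR.trans (le_max_left _ _)) (hz.trans_le (min_le_left _ _))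
    have h2 := hclamp z
    have h3 : ‖P.eval z‖ ≤ ‖P.eval z - clampQ (-ρ) ρ (-ρ) ρ z‖ + ‖clampQ (-ρ) ρ (-ρ) ρ z‖ := by
      have := norm_add_le (P.eval z - clampQ (-ρ) ρ (-ρ) ρ z) (clampQ (-ρ) ρ (-ρ) ρ z)
      rwa [sub_add_cancel] at this
    have h4 := h1.trans_le (min_le_right _ _)
    show ‖P.eval z‖ < 2 * ρ
    linarith
  · have h1 := hP z (hz.le.trans (le_max_right _ _)) (by rw [hball' z hz]; exact hδ)
    have h2 : clampQ (-ρ) ρ (-ρ) ρ z = z := by
      have h3 := (hball z hz)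
      apply Complex.ext
      · simp only [clampQ]
        rw [min_eq_right h3.1.2, max_eq_right h3.1.1]
      · simp only [clampQ]
        rw [min_eq_right h3.2.2, max_eq_right h3.2.1]
    rw [h2] at h1
    exact h1.trans_le (min_le_left _ _)
  · show 1 < infDist z (cross (-ρ) ρ (-ρ) ρ {0} ∅)
    have hz' : 1 < -ρ - z.re := by linarith
    refine hz'.trans_le ?_
    rw [le_infDist hne]
    intro y hy
    have h1 := hcr y hy
    have h2 := Complex.abs_re_le_norm (y - z)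
    rw [Complex.sub_re] at h2
    have h3 := le_abs_self (y.re - z.re)
    rw [dist_comm, dist_eq_norm]
    linarith
  · obtain ⟨p, hp1, hp2⟩ := hK (-ρ) ρ (-ρ) ρ {0} ∅ (by linarith) (by linarith)
      (by intro x hx; simp only [Finset.mem_singleton] at hx; subst hx; constructor <;> linarith)
      (by simp) ⟨0, by simp⟩ (min δ 1 / 2) ε R Λ (by positivity) hε
    exact ⟨fun z => p.eval z, p.differentiable, fun z hz => hp1 z (hball z hz),
      fun z hz hz' => hp2 z hz hz'⟩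

/-- The splitting property (1.3) in the form used here: cut variable first, parameter second. -/
def SplitTarget (V : Type) [NormedAddCommGroup V] [NormedSpace ℂ V] : Prop :=
  ∀ (A B : Set ℂ), IsOpen A → IsOpen B → Bornology.IsBounded (A ∪ B) →
    (∃ η : ℝ, 0 < η ∧ ∀ z ∈ A \ B, ∀ w ∈ B \ A, η ≤ dist z w) →
    ∃ K : ℝ, 0 ≤ K ∧ ∀ T : Set ℂ, IsOpen T → PG.Split (A ×ˢ T) (B ×ˢ T) K V

end Crest.Agent.R279.Fam
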