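import Mathlib

/-!
Row 279, (1.5): the pinch function `PP δ w = (w + sqrt((w-δ)^2+δ^2))/2`, with the square root holomorphic off the
two rays `δ ± iδ + [0,∞)`: it is `≈ 0` on the left half plane and off the strip, `≈ max x 0` on the real axis.
-/

set_option autoImplicit false

open Set

noncomputable section
namespace Crest.Agent.R279.Planar

/-- first factor -/
def pA (δ : ℝ) (w : ℂ) : ℂ := ⟨δ - w.re, δ - w.im⟩
/-- second factor -/
def pB (δ : ℝ) (w : ℂ) : ℂ := ⟨δ - w.re, -δ - w.im⟩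

theorem pA_eq (δ : ℝ) (w : ℂ) : pA δ w = (⟨δ, δ⟩ : ℂ) - w := by
  apply Complex.ext <;> simp [pA]

theorem pB_eq (δ : ℝ) (w : ℂ) : pB δ w = (⟨δ, -δ⟩ : ℂ) - w := by
  apply Complex.ext <;> simp [pB]

/-- the square root of `(w-δ)^2+δ^2` -/
def sq (δ : ℝ) (w : ℂ) : ℂ := Complex.exp ((Complex.log (pA δ w) + Complex.log (pB δ w)) / 2)

/-- the pinch function -/
def PP (δ : ℝ) (w : ℂ) : ℂ := (w + sq δ w) / 2

theorem sq_mul_self {δ : ℝ} {w : ℂ} (hA : pA δ w ≠ 0) (hB : pB δ w ≠ 0) :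
    sq δ w * sq δ w = (δ - w) * (δ - w) + δ * δ := by
  have h : sq δ w * sq δ w = Complex.exp (Complex.log (pA δ w)) * Complex.exp (Complex.log (pB δ w)) := by
    unfold sq
    rw [← Complex.exp_add, ← Complex.exp_add]
    congr 1
    ring
  rw [h, Complex.exp_log hA, Complex.exp_log hB]
  apply Complex.ext
  · simp [pA, pB, Complex.mul_re, Complex.mul_im]; ring
  · simp [pA, pB, Complex.mul_re, Complex.mul_im]; ring

theorem sq_re (δ : ℝ) (w : ℂ) : (sq δ w).re =
    Real.exp ((Complex.log (pA δ w) + Complex.log (pB δ w)) / 2).re *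
      Real.cos ((Complex.arg (pA δ w) + Complex.arg (pB δ w)) / 2) := by
  unfold sq
  rw [Complex.exp_re]
  congr 2
  simp [Complex.log_im]

theorem sq_im (δ : ℝ) (w : ℂ) : (sq δ w).im =
    Real.exp ((Complex.log (pA δ w) + Complex.log (pB δ w)) / 2).re *
      Real.sin ((Complex.arg (pA δ w) + Complex.arg (pB δ w)) / 2) := by
  unfold sq
  rw [Complex.exp_im]
  congr 2
  simp [Complex.log_im]

/-- the estimate off the strip, from a lower bound of `‖s + v‖`, `v = δ - w` -/
theorem norm_PP_le_aux {δ : ℝ} (hδ : 0 < δ) {w : ℂ} (hA : pA δ w ≠ 0) (hB : pB δ w ≠ 0)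
    (h : δ ≤ ‖sq δ w + (δ - w)‖) : ‖PP δ w‖ ≤ δ := by
  have h1 : (sq δ w - (δ - w)) * (sq δ w + (δ - w)) = δ * δ := by
    have := sq_mul_self hA hB
    linear_combination this
  have h2 : ‖sq δ w - (δ - w)‖ * ‖sq δ w + (δ - w)‖ = δ * δ := by
    rw [← norm_mul, h1, norm_mul]
    simp [abs_of_pos hδ]
  have h3 : ‖sq δ w - (δ - w)‖ ≤ δ := by
    by_contra hcon
    push Not at hcon
    have : δ * δ < ‖sq δ w - (δ - w)‖ * ‖sq δ w + (δ - w)‖ :=
      lt_of_lt_of_le (by nlinarith) (mul_le_mul_of_nonneg_left h (norm_nonneg _))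
    linarith
  have h4 : PP δ w = ((sq δ w - (δ - w)) + δ) / 2 := by
    unfold PP; ring
  rw [h4, norm_div, Complex.norm_two]
  have h5 : ‖(sq δ w - (δ - w)) + (δ : ℂ)‖ ≤ ‖sq δ w - (δ - w)‖ + ‖(δ : ℂ)‖ := norm_add_le _ _
  have h6 : ‖(δ : ℂ)‖ = δ := by simp [abs_of_pos hδ]
  rw [div_le_iff₀ (by norm_num)]
  linarith

theorem norm_PP_le_of_re {δ : ℝ} (hδ : 0 < δ) {w : ℂ} (hw : w.re ≤ 0) : ‖PP δ w‖ ≤ δ := by
  have hA : 0 < (pA δ w).re := by simp only [pA]; linarith
  have hB : 0 < (pB δ w).re := by simp only [pB]; linarith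
  have hA0 : pA δ w ≠ 0 := fun h => by rw [h] at hA; simp at hA
  have hB0 : pB δ w ≠ 0 := fun h => by rw [h] at hB; simp at hB
  refine norm_PP_le_aux hδ hA0 hB0 ?_
  have h1 := Complex.abs_arg_lt_pi_div_two_iff.2 (Or.inl hA)
  have h2 := Complex.abs_arg_lt_pi_div_two_iff.2 (Or.inl hB)
  rw [abs_lt] at h1 h2
  have h3 : 0 < (sq δ w).re := by
    rw [sq_re]
    exact mul_pos (Real.exp_pos _) (Real.cos_pos_of_mem_Ioo ⟨by linarith, by linarith⟩)
  have h4 : δ ≤ (sq δ w + (δ - w)).re := by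
    simp only [Complex.add_re, Complex.sub_re, Complex.ofReal_re]
    linarith
  exact h4.trans (Complex.re_le_norm _)

theorem norm_PP_le_of_im {δ : ℝ} (hδ : 0 < δ) {w : ℂ} (hw : δ < |w.im|) : ‖PP δ w‖ ≤ δ := by
  have hA0 : pA δ w ≠ 0 := fun h => by
    have := congrArg Complex.im h
    simp only [pA, Complex.zero_im] at this
    have : w.im = δ := by linarith
    rw [this, abs_of_pos hδ] at hw
    exact lt_irrefl _ hw
  have hB0 : pB δ w ≠ 0 := fun h => by
    have := congrArg Complex.im h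
    simp only [pB, Complex.zero_im] at this
    have : w.im = -δ := by linarith
    rw [this, abs_neg, abs_of_pos hδ] at hw
    exact lt_irrefl _ hw
  refine norm_PP_le_aux hδ hA0 hB0 ?_
  rcases lt_or_ge w.im 0 with hneg | hpos
  · -- `im w < -δ`
    rw [abs_of_neg hneg] at hw
    have h1 : 0 ≤ Complex.arg (pA δ w) := Complex.arg_nonneg_iff.2 (by simp only [pA]; linarith)
    have h2 : 0 ≤ Complex.arg (pB δ w) := Complex.arg_nonneg_iff.2 (by simp only [pB]; linarith)
    have h3 := Complex.arg_le_pi (pA δ w)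
    have h4 := Complex.arg_le_pi (pB δ w)
    have h5 : 0 ≤ (sq δ w).im := by
      rw [sq_im]
      exact mul_nonneg (Real.exp_pos _).le (Real.sin_nonneg_of_mem_Icc ⟨by linarith, by linarith⟩)
    have h6 : δ ≤ (sq δ w + (δ - w)).im := by
      simp only [Complex.add_im, Complex.sub_im, Complex.ofReal_im]
      linarith
    exact h6.trans ((le_abs_self _).trans (Complex.abs_im_le_norm _))
  · rw [abs_of_nonneg hpos] at hw
    have h1 : Complex.arg (pA δ w) < 0 := Complex.arg_neg_iff.2 (by simp only [pA]; linarith)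
    have h2 : Complex.arg (pB δ w) < 0 := Complex.arg_neg_iff.2 (by simp only [pB]; linarith)
    have h3 := Complex.neg_pi_lt_arg (pA δ w)
    have h4 := Complex.neg_pi_lt_arg (pB δ w)
    have h5 : (sq δ w).im ≤ 0 := by
      rw [sq_im]
      exact mul_nonpos_of_nonneg_of_nonpos (Real.exp_pos _).le
        (Real.sin_nonpos_of_nonpos_of_neg_pi_le (by linarith) (by linarith))
    have h6 : (sq δ w + (δ - w)).im ≤ -δ := by
      simp only [Complex.add_im, Complex.sub_im, Complex.ofReal_im]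
      linarith
    have h7 : δ ≤ |(sq δ w + (δ - w)).im| := by
      rw [abs_of_nonpos (by linarith)]; linarith
    exact h7.trans (Complex.abs_im_le_norm _)

theorem norm_PP_sub_le {δ : ℝ} (hδ : 0 < δ) {w : ℂ} (hw : w.im = 0) :
    ‖PP δ w - ((max w.re 0 : ℝ) : ℂ)‖ ≤ δ := by
  have hAB : pB δ w = (starRingEnd ℂ) (pA δ w) := by
    apply Complex.ext <;> simp [pA, pB, hw]
  have hAim : (pA δ w).im = δ := by simp [pA, hw]
  have hA0 : pA δ w ≠ 0 := fun h => by rw [h] at hAim; simp at hAim; linarith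
  have hpi : Complex.arg (pA δ w) ≠ Real.pi := by
    intro h
    rw [Complex.arg_eq_pi_iff] at h
    linarith [h.2]
  have hs : sq δ w = (‖pA δ w‖ : ℂ) := by
    unfold sq
    rw [hAB, Complex.log_conj _ hpi]
    have : (Complex.log (pA δ w) + (starRingEnd ℂ) (Complex.log (pA δ w))) / 2 =
        ((Real.log ‖pA δ w‖ : ℝ) : ℂ) := by
      rw [Complex.add_conj, Complex.log_re]
      push_cast
      ring
    rw [this, ← Complex.ofReal_exp, Real.exp_log (norm_pos_iff.2 hA0)]
  have hwre : w = (w.re : ℂ) := by apply Complex.ext <;> simp [hw]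
  have h1 : PP δ w - ((max w.re 0 : ℝ) : ℂ) = (((‖pA δ w‖ - |w.re|) / 2 : ℝ) : ℂ) := by
    unfold PP
    rw [hs]
    nth_rewrite 1 [hwre]
    rcases le_total 0 w.re with h | h
    · rw [max_eq_left h, abs_of_nonneg h]; push_cast; ring
    · rw [max_eq_right h, abs_of_nonpos h]; push_cast; ring
  rw [h1, Complex.norm_real, Real.norm_eq_abs, abs_div, abs_two, div_le_iff₀ (by norm_num)]
  have h2 : |‖pA δ w‖ - ‖-w‖| ≤ ‖pA δ w - -w‖ := abs_norm_sub_norm_le _ _
  have h3 : ‖-w‖ = |w.re| := by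
    rw [norm_neg, hwre]; simp
  have h4 : ‖pA δ w - -w‖ ≤ δ * 2 := by
    have : pA δ w - -w = (δ : ℂ) + δ * Complex.I := by
      rw [pA_eq]
      apply Complex.ext <;> simp
    rw [this]
    refine (norm_add_le _ _).trans ?_
    rw [norm_mul, Complex.norm_I, Complex.norm_real, Real.norm_eq_abs, abs_of_pos hδ]
    linarith
  rw [h3] at h2
  exact h2.trans h4

theorem differentiableAt_PP {δ : ℝ} {w : ℂ}
    (h : w.re < δ ∨ (w.im ≠ δ ∧ w.im ≠ -δ)) : DifferentiableAt ℂ (PP δ) w := by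
  have hA : pA δ w ∈ Complex.slitPlane := by
    rw [Complex.mem_slitPlane_iff]
    rcases h with h | h
    · left; simp only [pA]; linarith
    · right; simp only [pA]; intro h0; exact h.1 (by linarith)
  have hB : pB δ w ∈ Complex.slitPlane := by
    rw [Complex.mem_slitPlane_iff]
    rcases h with h | h
    · left; simp only [pB]; linarith
    · right; simp only [pB]; intro h0; exact h.2 (by linarith)
  have hdA : DifferentiableAt ℂ (pA δ) w := by
    have : pA δ = fun w => (⟨δ, δ⟩ : ℂ) - w := funext (pA_eq δ)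
    rw [this]; fun_prop
  have hdB : DifferentiableAt ℂ (pB δ) w := by
    have : pB δ = fun w => (⟨δ, -δ⟩ : ℂ) - w := funext (pB_eq δ)
    rw [this]; fun_prop
  unfold PP sq
  have h1 := hdA.clog hA
  have h2 := hdB.clog hB
  exact (differentiableAt_id.add (((h1.add h2).div_const 2).cexp)).div_const 2

end Crest.Agent.R279.Planar
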