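import Crest.Agent.R279.Defs765
import Crest.Agent.R279.H488Runge
import Crest.Agent.R279.H488Pinch

/-!
Row 279, (1.5): LemmaE and LemmaK of `Defs765` (planar crosses).
-/

set_option autoImplicit false

open Set Filter Topology Metric

noncomputable section
namespace Crest.Agent.R279.Planar

/-! ### Escape sets -/

/-- `K` is escaped from `a` -/
def Esc (K : Set ℂ) (a : ℂ) : Prop :=
  ∃ C : Set ℂ, IsPreconnected C ∧ a ∈ C ∧ Disjoint C K ∧ ¬ Bornology.IsBounded C

theorem esc_ray {K : Set ℂ} {a u : ℂ} (hu : u ≠ 0) (h : ∀ t : ℝ, 0 ≤ t → a + t * u ∉ K) : Esc K a := by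
  refine ⟨(fun t : ℝ => a + t * u) '' Ici 0, ?_, ⟨0, mem_Ici.2 le_rfl, by simp⟩, ?_, ?_⟩
  · exact isPreconnected_Ici.image _ (by fun_prop)
  · rw [Set.disjoint_left]
    rintro _ ⟨t, ht, rfl⟩
    exact h t ht
  · intro hb
    obtain ⟨M, hM⟩ := hb.exists_norm_le
    have hu0 : 0 < ‖u‖ := norm_pos_iff.2 hu
    have hM0 : 0 ≤ M := (norm_nonneg _).trans (hM _ ⟨0, mem_Ici.2 le_rfl, rfl⟩)
    set t : ℝ := (M + ‖a‖ + 1) / ‖u‖ with ht
    have ht0 : 0 ≤ t := by positivity
    have h1 := hM _ ⟨t, ht0, rfl⟩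
    have h2 : ‖(t : ℂ) * u‖ = M + ‖a‖ + 1 := by
      rw [norm_mul, Complex.norm_real, Real.norm_of_nonneg ht0, ht]
      field_simp
    have h3 : ‖(t : ℂ) * u‖ ≤ ‖a + t * u‖ + ‖a‖ := by
      have := norm_sub_le (a + t * u) a
      rwa [add_sub_cancel_left] at this
    simp only at h1
    linarith

theorem esc_out {K : Set ℂ} {R : ℝ} (hR : 0 ≤ R) (hK : ∀ z ∈ K, ‖z‖ ≤ R) {a : ℂ} (ha : R < ‖a‖) :
    Esc K a := by
  have ha0 : a ≠ 0 := norm_pos_iff.1 (lt_of_le_of_lt hR ha)
  refine esc_ray ha0 fun t ht hmem => ?_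
  have h1 := hK _ hmem
  have h2 : a + t * a = ((1 + t : ℝ) : ℂ) * a := by push_cast; ring
  rw [h2, norm_mul, Complex.norm_real, Real.norm_of_nonneg (by linarith)] at h1
  nlinarith [norm_nonneg a]

/-! ### Elementary facts on the cross -/

theorem norm_le_of_abs {u v : ℂ} (h1 : |u.re| ≤ |v.re|) (h2 : |u.im| ≤ |v.im|) : ‖u‖ ≤ ‖v‖ := by
  rw [← sq_le_sq₀ (norm_nonneg _) (norm_nonneg _), Complex.sq_norm, Complex.sq_norm,
    Complex.normSq_apply, Complex.normSq_apply]
  have := mul_self_le_mul_self (abs_nonneg _) h1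
  have := mul_self_le_mul_self (abs_nonneg _) h2
  simp only [abs_mul_abs_self] at *
  linarith

theorem isClosed_cross (a b c d : ℝ) (X Y : Finset ℝ) : IsClosed (cross a b c d X Y) := by
  have h1 : IsClosed {z : ℂ | z ∈ rect a b c d} := by
    have : {z : ℂ | z ∈ rect a b c d} = (Complex.re ⁻¹' Icc a b) ∩ (Complex.im ⁻¹' Icc c d) := by
      ext z; simp [rect]
    rw [this]
    exact (isClosed_Icc.preimage Complex.continuous_re).inter (isClosed_Icc.preimage Complex.continuous_im)
  have h2 : IsClosed {z : ℂ | z.re ∈ X} := X.finite_toSet.isClosed.preimage Complex.continuous_re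
  have h3 : IsClosed {z : ℂ | z.im ∈ Y} := Y.finite_toSet.isClosed.preimage Complex.continuous_im
  have : cross a b c d X Y = {z : ℂ | z ∈ rect a b c d} ∪ ({z : ℂ | z.re ∈ X} ∪ {z : ℂ | z.im ∈ Y}) := by
    ext z; simp [cross]
  rw [this]
  exact h1.union (h2.union h3)

theorem continuous_clampQ (a b c d : ℝ) : Continuous (clampQ a b c d) := by
  have h : clampQ a b c d = fun z : ℂ => ((max a (min b z.re) : ℝ) : ℂ) +
      ((max c (min d z.im) : ℝ) : ℂ) * Complex.I := by
    funext z
    apply Complex.ext <;> simp [clampQ]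
  rw [h]
  have h1 : Continuous fun z : ℂ => z.re := Complex.continuous_re
  have h2 : Continuous fun z : ℂ => z.im := Complex.continuous_im
  exact (Complex.continuous_ofReal.comp (continuous_const.max (continuous_const.min h1))).add
    ((Complex.continuous_ofReal.comp (continuous_const.max (continuous_const.min h2))).mul
      continuous_const)

/-! ### Local coordinates of the four kinds of hairs -/

/-- up -/
def wU (x d : ℝ) (z : ℂ) : ℂ := ⟨z.im - d, x - z.re⟩
/-- down -/
def wD (x c : ℝ) (z : ℂ) : ℂ := ⟨c - z.im, z.re - x⟩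
/-- right -/
def wR (y b : ℝ) (z : ℂ) : ℂ := ⟨z.re - b, z.im - y⟩
/-- left -/
def wL (y a : ℝ) (z : ℂ) : ℂ := ⟨a - z.re, y - z.im⟩

theorem wU_eq (x d : ℝ) : wU x d = fun z => -Complex.I * (z - (⟨x, d⟩ : ℂ)) := by
  funext z; apply Complex.ext <;> simp [wU]
theorem wD_eq (x c : ℝ) : wD x c = fun z => Complex.I * (z - (⟨x, c⟩ : ℂ)) := by
  funext z; apply Complex.ext <;> simp [wD]
theorem wR_eq (y b : ℝ) : wR y b = fun z => z - (⟨b, y⟩ : ℂ) := by
  funext z; apply Complex.ext <;> simp [wR]
theorem wL_eq (y a : ℝ) : wL y a = fun z => (⟨a, y⟩ : ℂ) - z := by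
  funext z; apply Complex.ext <;> simp [wL]

theorem diff_wU (x d : ℝ) : Differentiable ℂ (wU x d) := by rw [wU_eq]; fun_prop
theorem diff_wD (x c : ℝ) : Differentiable ℂ (wD x c) := by rw [wD_eq]; fun_prop
theorem diff_wR (y b : ℝ) : Differentiable ℂ (wR y b) := by rw [wR_eq]; fun_prop
theorem diff_wL (y a : ℝ) : Differentiable ℂ (wL y a) := by rw [wL_eq]; fun_prop

/-- domain of the pinch function -/
def Gd (δ : ℝ) : Set ℂ := {w | w.re < δ ∨ (w.im ≠ δ ∧ w.im ≠ -δ)}

theorem isOpen_Gd (δ : ℝ) : IsOpen (Gd δ) := by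
  have h1 : IsOpen {w : ℂ | w.re < δ} := isOpen_lt Complex.continuous_re continuous_const
  have h2 : IsOpen {w : ℂ | w.im ≠ δ} := isOpen_ne_fun Complex.continuous_im continuous_const
  have h3 : IsOpen {w : ℂ | w.im ≠ -δ} := isOpen_ne_fun Complex.continuous_im continuous_const
  exact h1.union (h2.inter h3)

theorem sum_bound {S : Finset ℝ} {g : ℝ → ℂ} {v : ℂ} {δ : ℝ}
    (h : (v = 0 ∧ ∀ x ∈ S, ‖g x‖ ≤ δ) ∨ ∃ x0 ∈ S, ‖g x0 - v‖ ≤ δ ∧ ∀ x ∈ S, x ≠ x0 → ‖g x‖ ≤ δ) :
    ‖∑ x ∈ S, g x - v‖ ≤ S.card * δ := by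
  rcases h with ⟨h0, h⟩ | ⟨x0, hx0, h1, h2⟩
  · rw [h0, sub_zero]
    refine (norm_sum_le _ _).trans ?_
    calc ∑ x ∈ S, ‖g x‖ ≤ ∑ _x ∈ S, δ := Finset.sum_le_sum h
      _ = S.card * δ := by rw [Finset.sum_const, nsmul_eq_mul]
  · have h3 : ∑ x ∈ S, g x - v = ∑ x ∈ S, (g x - if x = x0 then v else 0) := by
      rw [Finset.sum_sub_distrib, Finset.sum_ite_eq' S x0]
      simp [hx0]
    rw [h3]
    refine (norm_sum_le _ _).trans ?_
    calc ∑ x ∈ S, ‖g x - if x = x0 then v else 0‖ ≤ ∑ _x ∈ S, δ := by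
          refine Finset.sum_le_sum fun x hx => ?_
          by_cases hxx : x = x0
          · rw [if_pos hxx, hxx]; exact h1
          · rw [if_neg hxx, sub_zero]; exact h2 x hx hxx
      _ = S.card * δ := by rw [Finset.sum_const, nsmul_eq_mul]

/-- one family of hairs: either the value is `0` and all real parts are `≤ 0`, or we are on one line -/
theorem hair_sum {S : Finset ℝ} {w : ℝ → ℂ} {δ r s : ℝ} (hδ : 0 < δ)
    (hsep : ∀ x ∈ S, ∀ x' ∈ S, x ≠ x' → δ < |x - x'|)
    (hre : ∀ x, (w x).re = r) (him : ∀ x, |(w x).im| = |x - s|)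
    (h : r ≤ 0 ∨ s ∈ S) :
    ‖∑ x ∈ S, PP δ (w x) - ((max r 0 : ℝ) : ℂ)‖ ≤ S.card * δ := by
  apply sum_bound
  rcases h with h | h
  · left
    refine ⟨by rw [max_eq_right h]; simp, fun x _ => norm_PP_le_of_re hδ ?_⟩
    rw [hre]; exact h
  · right
    refine ⟨s, h, ?_, fun x hx hxs => ?_⟩
    · have h0 : (w s).im = 0 := by
        have := him s
        rw [sub_self, abs_zero, abs_eq_zero] at this
        exact this
      have := norm_PP_sub_le hδ h0
      rwa [hre] at this
    · apply norm_PP_le_of_im hδ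
      rw [him]
      exact hsep x hx s h hxs

theorem hair_Gd {S : Finset ℝ} {w : ℝ → ℂ} {δ r s : ℝ} (hδ : 0 < δ)
    (hsep : ∀ x ∈ S, ∀ x' ∈ S, x ≠ x' → δ < |x - x'|)
    (hre : ∀ x, (w x).re = r) (him : ∀ x, |(w x).im| = |x - s|)
    (h : r ≤ 0 ∨ s ∈ S) : ∀ x ∈ S, w x ∈ Gd δ := by
  intro x hx
  rcases h with h | h
  · left
    rw [hre]; linarith
  · right
    have key : |(w x).im| ≠ δ := by
      rw [him]
      by_cases hxs : x = s
      · rw [hxs, sub_self, abs_zero]; exact hδ.ne
      · exact (hsep x hx s h hxs).ne'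
    constructor
    · intro h0; exact key (by rw [h0, abs_of_pos hδ])
    · intro h0; exact key (by rw [h0, abs_neg, abs_of_pos hδ])

theorem exists_sep (X : Finset ℝ) :
    ∀ᶠ δ in 𝓝[>] (0 : ℝ), ∀ x ∈ X, ∀ x' ∈ X, x ≠ x' → δ < |x - x'| := by
  have h : ∀ x ∈ X, ∀ᶠ δ in 𝓝[>] (0 : ℝ), ∀ x' ∈ X, x ≠ x' → δ < |x - x'| := by
    intro x _
    have h' : ∀ x' ∈ X, ∀ᶠ δ in 𝓝[>] (0 : ℝ), x ≠ x' → δ < |x - x'| := by
      intro x' _
      by_cases hx : x = x'
      · exact Eventually.of_forall fun δ h => (h hx).elim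
      · have : 0 < |x - x'| := abs_pos.2 (sub_ne_zero.2 hx)
        filter_upwards [Ioo_mem_nhdsGT this] with δ hδ _ using hδ.2
    exact (Filter.eventually_all_finset X).2 h'
  exact (Filter.eventually_all_finset X).2 h

/-- LEMMA E -/
theorem lemmaE : LemmaE := by
  intro a b c d X Y hab hcd hX hY η R hη
  -- radius
  set R' : ℝ := max R 0 + 1 with hR'
  have hR'0 : 0 ≤ R' := by positivity
  -- the compact set
  set K : Set ℂ := cross a b c d X Y ∩ closedBall 0 R' with hKdef
  have hK : IsCompact K := (isCompact_closedBall 0 R').inter_left (isClosed_cross a b c d X Y)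
  -- escape
  have hesc : ∀ z ∉ K, ∃ C : Set ℂ, IsPreconnected C ∧ z ∈ C ∧ Disjoint C K ∧
      ¬ Bornology.IsBounded C := by
    intro z hz
    by_cases hzR : R' < ‖z‖
    · exact esc_out hR'0 (fun w hw => by simpa using hw.2) hzR
    have hzc : z ∉ cross a b c d X Y := fun h => hz ⟨h, by simpa using hzR⟩
    have h1 : z ∉ rect a b c d := fun h => hzc (Or.inl h)
    have h2 : z.re ∉ X := fun h => hzc (Or.inr (Or.inl h))
    have h3 : z.im ∉ Y := fun h => hzc (Or.inr (Or.inr h))
    have h4 : z.re < a ∨ b < z.re ∨ z.im < c ∨ d < z.im := by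
      by_contra hcon
      push Not at hcon
      exact h1 ⟨⟨hcon.1, hcon.2.1⟩, ⟨hcon.2.2.1, hcon.2.2.2⟩⟩
    rcases h4 with h4 | h4 | h4 | h4
    · refine esc_ray (u := -1) (by simp) fun t ht hm => ?_
      have hre : (z + t * (-1 : ℂ)).re = z.re - t := by simp; ring
      have him : (z + t * (-1 : ℂ)).im = z.im := by simp
      rcases hm.1 with h | h | h
      · have := h.1.1; rw [hre] at this; linarith
      · have := (hX _ h).1; rw [hre] at this; linarith
      · rw [him] at h; exact h3 h
    · refine esc_ray (u := 1) (by simp) fun t ht hm => ?_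
      have hre : (z + t * (1 : ℂ)).re = z.re + t := by simp
      have him : (z + t * (1 : ℂ)).im = z.im := by simp
      rcases hm.1 with h | h | h
      · have := h.1.2; rw [hre] at this; linarith
      · have := (hX _ h).2; rw [hre] at this; linarith
      · rw [him] at h; exact h3 h
    · refine esc_ray (u := -Complex.I) (by simp) fun t ht hm => ?_
      have hre : (z + t * (-Complex.I)).re = z.re := by simp
      have him : (z + t * (-Complex.I)).im = z.im - t := by simp; ring
      rcases hm.1 with h | h | h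
      · have := h.2.1; rw [him] at this; linarith
      · rw [hre] at h; exact h2 h
      · have := (hY _ h).1; rw [him] at this; linarith
    · refine esc_ray (u := Complex.I) (by simp) fun t ht hm => ?_
      have hre : (z + t * Complex.I).re = z.re := by simp
      have him : (z + t * Complex.I).im = z.im + t := by simp
      rcases hm.1 with h | h | h
      · have := h.2.2; rw [him] at this; linarith
      · rw [hre] at h; exact h2 h
      · have := (hY _ h).2; rw [him] at this; linarith
  -- choice of the pinch parameter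
  obtain ⟨δ₀, hδ₀, hsX, hsY, hsmall⟩ : ∃ δ₀ : ℝ, 0 < δ₀ ∧
      (∀ x ∈ X, ∀ x' ∈ X, x ≠ x' → δ₀ < |x - x'|) ∧ (∀ x ∈ Y, ∀ x' ∈ Y, x ≠ x' → δ₀ < |x - x'|) ∧
      (2 * X.card + 2 * Y.card : ℝ) * δ₀ < η / 4 := by
    have h1 : ∀ᶠ δ in 𝓝[>] (0 : ℝ), 0 < δ := eventually_mem_nhdsWithin
    have h2 : ∀ᶠ δ in 𝓝[>] (0 : ℝ), (2 * X.card + 2 * Y.card : ℝ) * δ < η / 4 := by
      have ht : Tendsto (fun δ : ℝ => (2 * X.card + 2 * Y.card : ℝ) * δ) (𝓝[>] 0) (𝓝 0) := by
        have : Tendsto (fun δ : ℝ => (2 * X.card + 2 * Y.card : ℝ) * δ) (𝓝 0)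
            (𝓝 ((2 * X.card + 2 * Y.card : ℝ) * 0)) := (continuous_const.mul continuous_id).tendsto 0
        rw [mul_zero] at this
        exact this.mono_left nhdsWithin_le_nhds
      exact ht.eventually_lt_const (by positivity)
    obtain ⟨δ, ha, hb, hc, hd⟩ := (h1.and ((exists_sep X).and ((exists_sep Y).and h2))).exists
    exact ⟨δ, ha, hb, hc, hd⟩
  -- the holomorphic function
  set e : ℂ → ℂ := fun z => z - Complex.I * ∑ x ∈ X, PP δ₀ (wU x d z) +
    Complex.I * ∑ x ∈ X, PP δ₀ (wD x c z) - ∑ y ∈ Y, PP δ₀ (wR y b z) + ∑ y ∈ Y, PP δ₀ (wL y a z)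
    with he
  set U : Set ℂ := ((⋂ x ∈ X, (wU x d) ⁻¹' Gd δ₀) ∩ (⋂ x ∈ X, (wD x c) ⁻¹' Gd δ₀)) ∩
    ((⋂ y ∈ Y, (wR y b) ⁻¹' Gd δ₀) ∩ (⋂ y ∈ Y, (wL y a) ⁻¹' Gd δ₀)) with hU
  have hUo : IsOpen U := by
    refine IsOpen.inter (IsOpen.inter ?_ ?_) (IsOpen.inter ?_ ?_)
    · exact isOpen_biInter_finset fun x _ => (isOpen_Gd δ₀).preimage (diff_wU x d).continuous
    · exact isOpen_biInter_finset fun x _ => (isOpen_Gd δ₀).preimage (diff_wD x c).continuous
    · exact isOpen_biInter_finset fun y _ => (isOpen_Gd δ₀).preimage (diff_wR y b).continuous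
    · exact isOpen_biInter_finset fun y _ => (isOpen_Gd δ₀).preimage (diff_wL y a).continuous
  -- the alternatives on the cross
  have altV : ∀ z ∈ cross a b c d X Y, (z.im - d ≤ 0 ∨ z.re ∈ X) ∧ (c - z.im ≤ 0 ∨ z.re ∈ X) := by
    intro z hz
    rcases hz with h | h | h
    · exact ⟨Or.inl (by linarith [h.2.2]), Or.inl (by linarith [h.2.1])⟩
    · exact ⟨Or.inr h, Or.inr h⟩
    · have := hY _ h
      exact ⟨Or.inl (by linarith), Or.inl (by linarith)⟩
  have altH : ∀ z ∈ cross a b c d X Y, (z.re - b ≤ 0 ∨ z.im ∈ Y) ∧ (a - z.re ≤ 0 ∨ z.im ∈ Y) := by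
    intro z hz
    rcases hz with h | h | h
    · exact ⟨Or.inl (by linarith [h.1.2]), Or.inl (by linarith [h.1.1])⟩
    · have := hX _ h
      exact ⟨Or.inl (by linarith), Or.inl (by linarith)⟩
    · exact ⟨Or.inr h, Or.inr h⟩
  have hKU : K ⊆ U := by
    intro z hz
    have hV := altV z hz.1
    have hH := altH z hz.1
    refine ⟨⟨?_, ?_⟩, ⟨?_, ?_⟩⟩
    · simp only [mem_iInter, mem_preimage]
      exact hair_Gd (w := fun x => wU x d z) (s := z.re) hδ₀ hsX (fun x => rfl) (fun x => rfl) hV.1
    · simp only [mem_iInter, mem_preimage]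
      exact hair_Gd (w := fun x => wD x c z) (s := z.re) hδ₀ hsX (fun x => rfl)
        (fun x => abs_sub_comm _ _) hV.2
    · simp only [mem_iInter, mem_preimage]
      exact hair_Gd (w := fun y => wR y b z) (s := z.im) hδ₀ hsY (fun x => rfl)
        (fun x => abs_sub_comm _ _) hH.1
    · simp only [mem_iInter, mem_preimage]
      exact hair_Gd (w := fun y => wL y a z) (s := z.im) hδ₀ hsY (fun x => rfl) (fun x => rfl) hH.2
  have hed : DifferentiableOn ℂ e U := by
    intro z hz
    apply DifferentiableAt.differentiableWithinAt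
    simp only [hU, mem_inter_iff, mem_iInter, mem_preimage] at hz
    obtain ⟨⟨h1, h2⟩, ⟨h3, h4⟩⟩ := hz
    have d1 : DifferentiableAt ℂ (fun z => ∑ x ∈ X, PP δ₀ (wU x d z)) z :=
      DifferentiableAt.fun_sum fun x hx =>
        (differentiableAt_PP (h1 x hx)).comp z (diff_wU x d z)
    have d2 : DifferentiableAt ℂ (fun z => ∑ x ∈ X, PP δ₀ (wD x c z)) z :=
      DifferentiableAt.fun_sum fun x hx =>
        (differentiableAt_PP (h2 x hx)).comp z (diff_wD x c z)
    have d3 : DifferentiableAt ℂ (fun z => ∑ y ∈ Y, PP δ₀ (wR y b z)) z :=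
      DifferentiableAt.fun_sum fun x hx =>
        (differentiableAt_PP (h3 x hx)).comp z (diff_wR x b z)
    have d4 : DifferentiableAt ℂ (fun z => ∑ y ∈ Y, PP δ₀ (wL y a z)) z :=
      DifferentiableAt.fun_sum fun x hx =>
        (differentiableAt_PP (h4 x hx)).comp z (diff_wL x a z)
    exact (((differentiableAt_id.sub (d1.const_mul _)).add (d2.const_mul _)).sub d3).add d4
  -- the estimate on `K`
  have hest : ∀ z ∈ K, ‖e z - clampQ a b c d z‖ < η / 4 := by
    intro z hz
    have hV := altV z hz.1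
    have hH := altH z hz.1
    have e1 := hair_sum (w := fun x => wU x d z) (r := z.im - d) (s := z.re) hδ₀ hsX (fun x => rfl) (fun x => rfl) hV.1
    have e2 := hair_sum (w := fun x => wD x c z) (r := c - z.im) (s := z.re) hδ₀ hsX (fun x => rfl)
        (fun x => abs_sub_comm _ _) hV.2
    have e3 := hair_sum (w := fun y => wR y b z) (r := z.re - b) (s := z.im) hδ₀ hsY (fun x => rfl)
        (fun x => abs_sub_comm _ _) hH.1
    have e4 := hair_sum (w := fun y => wL y a z) (r := a - z.re) (s := z.im) hδ₀ hsY (fun x => rfl) (fun x => rfl) hH.2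
    have hcl : clampQ a b c d z = z - Complex.I * ((max (z.im - d) 0 : ℝ) : ℂ) +
        Complex.I * ((max (c - z.im) 0 : ℝ) : ℂ) - ((max (z.re - b) 0 : ℝ) : ℂ) +
        ((max (a - z.re) 0 : ℝ) : ℂ) := by
      apply Complex.ext
      · simp only [clampQ, Complex.add_re, Complex.sub_re, Complex.mul_re, Complex.I_re, Complex.I_im,
          Complex.ofReal_re, Complex.ofReal_im]
        rcases le_total z.re a with h1 | h1
        · rw [min_eq_right (by linarith), max_eq_left h1, max_eq_right (by linarith : z.re - b ≤ 0),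
            max_eq_left (by linarith : 0 ≤ a - z.re)]
          ring
        · rw [max_eq_right (by linarith : a - z.re ≤ 0)]
          rcases le_total z.re b with h2 | h2
          · rw [min_eq_right h2, max_eq_right h1, max_eq_right (by linarith : z.re - b ≤ 0)]
            ring
          · rw [min_eq_left h2, max_eq_right (by linarith), max_eq_left (by linarith : 0 ≤ z.re - b)]
            ring
      · simp only [clampQ, Complex.add_im, Complex.sub_im, Complex.mul_im, Complex.I_re, Complex.I_im,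
          Complex.ofReal_re, Complex.ofReal_im]
        rcases le_total z.im c with h1 | h1
        · rw [min_eq_right (by linarith), max_eq_left h1, max_eq_right (by linarith : z.im - d ≤ 0),
            max_eq_left (by linarith : 0 ≤ c - z.im)]
          ring
        · rw [max_eq_right (by linarith : c - z.im ≤ 0)]
          rcases le_total z.im d with h2 | h2
          · rw [min_eq_right h2, max_eq_right h1, max_eq_right (by linarith : z.im - d ≤ 0)]
            ring
          · rw [min_eq_left h2, max_eq_right (by linarith), max_eq_left (by linarith : 0 ≤ z.im - d)]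
            ring
    have hdecomp : e z - clampQ a b c d z =
        -(Complex.I * (∑ x ∈ X, PP δ₀ (wU x d z) - ((max (z.im - d) 0 : ℝ) : ℂ))) +
        Complex.I * (∑ x ∈ X, PP δ₀ (wD x c z) - ((max (c - z.im) 0 : ℝ) : ℂ)) -
        (∑ y ∈ Y, PP δ₀ (wR y b z) - ((max (z.re - b) 0 : ℝ) : ℂ)) +
        (∑ y ∈ Y, PP δ₀ (wL y a z) - ((max (a - z.re) 0 : ℝ) : ℂ)) := by
      rw [hcl, he]
      ring
    rw [hdecomp]
    refine lt_of_le_of_lt ?_ hsmall
    refine (norm_add_le _ _).trans ?_
    have f1 := norm_sub_le (-(Complex.I * (∑ x ∈ X, PP δ₀ (wU x d z) - ((max (z.im - d) 0 : ℝ) : ℂ))) +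
        Complex.I * (∑ x ∈ X, PP δ₀ (wD x c z) - ((max (c - z.im) 0 : ℝ) : ℂ)))
        (∑ y ∈ Y, PP δ₀ (wR y b z) - ((max (z.re - b) 0 : ℝ) : ℂ))
    have f2 := norm_add_le (-(Complex.I * (∑ x ∈ X, PP δ₀ (wU x d z) - ((max (z.im - d) 0 : ℝ) : ℂ))))
        (Complex.I * (∑ x ∈ X, PP δ₀ (wD x c z) - ((max (c - z.im) 0 : ℝ) : ℂ)))
    rw [norm_neg, norm_mul, norm_mul, Complex.norm_I, one_mul, one_mul] at f2
    linarith
  -- Runge
  obtain ⟨p, hp⟩ := runge K hK hesc U hUo hKU e hed (η / 4) (by positivity)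
  have hpK : ∀ z ∈ K, ‖p.eval z - clampQ a b c d z‖ < η / 2 := by
    intro z hz
    have h1 := hp z hz
    have h2 := hest z hz
    have h3 : p.eval z - clampQ a b c d z = (p.eval z - e z) + (e z - clampQ a b c d z) := by ring
    rw [h3]
    refine lt_of_le_of_lt (norm_add_le _ _) ?_
    linarith
  -- uniform continuity
  have huc : UniformContinuousOn (fun z => p.eval z - clampQ a b c d z) (closedBall 0 R') :=
    (isCompact_closedBall 0 R').uniformContinuousOn_of_continuous
      ((p.continuous.sub (continuous_clampQ a b c d)).continuousOn)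
  obtain ⟨δ, hδ, hδ'⟩ := Metric.uniformContinuousOn_iff.1 huc (η / 2) (by positivity)
  refine ⟨p, min δ 1, by positivity, fun z hz hzd => ?_⟩
  have hne : (cross a b c d X Y).Nonempty :=
    ⟨⟨a, c⟩, Or.inl ⟨⟨le_rfl, hab.le⟩, ⟨le_rfl, hcd.le⟩⟩⟩
  obtain ⟨y, hy, hzy⟩ := (infDist_lt_iff hne).1 hzd
  have hzy1 : dist z y < 1 := hzy.trans_le (min_le_right _ _)
  have hzyδ : dist z y < δ := hzy.trans_le (min_le_left _ _)
  have hzb : z ∈ closedBall (0 : ℂ) R' := by
    rw [mem_closedBall_zero_iff]
    have := le_max_left R 0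
    linarith
  have hyb : y ∈ closedBall (0 : ℂ) R' := by
    rw [mem_closedBall_zero_iff]
    have h1 : ‖y‖ ≤ ‖z‖ + dist z y := by
      rw [dist_eq_norm]
      have := norm_sub_le z (z - y)
      rwa [sub_sub_cancel] at this
    have := le_max_left R 0
    linarith
  have h1 := hδ' z hzb y hyb hzyδ
  have h2 := hpK y ⟨hy, hyb⟩
  rw [dist_eq_norm] at h1
  have h3 : p.eval z - clampQ a b c d z = ((p.eval z - clampQ a b c d z) -
    (p.eval y - clampQ a b c d y)) + (p.eval y - clampQ a b c d y) := by ring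
  rw [h3]
  refine lt_of_le_of_lt (norm_add_le _ _) ?_
  linarith

/-! ### Lemma K -/

/-- open rectangle -/
def orect (a b c d : ℝ) : Set ℂ := {z | (a < z.re ∧ z.re < b) ∧ (c < z.im ∧ z.im < d)}

theorem isPreconnected_orect (a b c d : ℝ) : IsPreconnected (orect a b c d) := by
  apply Convex.isPreconnected
  have : orect a b c d = (Complex.re ⁻¹' Ioo a b) ∩ (Complex.im ⁻¹' Ioo c d) := by
    ext z; simp [orect]
  rw [this]
  exact ((convex_Ioo a b).linear_preimage Complex.reLm).inter
    ((convex_Ioo c d).linear_preimage Complex.imLm)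

/-- the vertical strip -/
def vstrip (x σ d : ℝ) : Set ℂ := {z | (x - σ < z.re ∧ z.re < x + σ) ∧ d < z.im}

theorem isPreconnected_vstrip (x σ d : ℝ) : IsPreconnected (vstrip x σ d) := by
  apply Convex.isPreconnected
  have : vstrip x σ d = (Complex.re ⁻¹' Ioo (x - σ) (x + σ)) ∩ (Complex.im ⁻¹' Ioi d) := by
    ext z; simp [vstrip]
  rw [this]
  exact ((convex_Ioo _ _).linear_preimage Complex.reLm).inter
    ((convex_Ioi d).linear_preimage Complex.imLm)

theorem infDist_lt_of {a b c d : ℝ} {X Y : Finset ℝ} {z p : ℂ} {δ : ℝ} (hp : p ∈ cross a b c d X Y)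
    (h : ‖z - p‖ < δ) : infDist z (cross a b c d X Y) < δ :=
  lt_of_le_of_lt (infDist_le_dist_of_mem hp) (by rwa [dist_eq_norm])

theorem norm_lt_of_abs {u : ℂ} {σ δ : ℝ} (h1 : |u.re| ≤ σ) (h2 : |u.im| ≤ σ) (h : 2 * σ < δ) :
    ‖u‖ < δ := by
  have := Complex.norm_le_abs_re_add_abs_im u
  linarith

/-- `clampQ` lies in the rectangle -/
theorem clampQ_mem {a b c d : ℝ} (hab : a < b) (hcd : c < d) (z : ℂ) :
    clampQ a b c d z ∈ rect a b c d :=
  ⟨⟨le_max_left _ _, max_le hab.le (min_le_left _ _)⟩, ⟨le_max_left _ _, max_le hcd.le (min_le_left _ _)⟩⟩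

/-- nearest point property, one coordinate -/
theorem abs_sub_clamp_le {a b t p : ℝ} (hp : a ≤ p ∧ p ≤ b) :
    |t - max a (min b t)| ≤ |t - p| := by
  have hab : a ≤ b := hp.1.trans hp.2
  rcases le_total t a with h | h
  · rw [min_eq_right (h.trans hab), max_eq_left h, abs_of_nonpos (by linarith), abs_of_nonpos (by linarith [hp.1])]
    linarith [hp.1]
  · rcases le_total t b with h' | h'
    · rw [min_eq_right h', max_eq_right h, sub_self, abs_zero]
      exact abs_nonneg _
    · rw [min_eq_left h', max_eq_right hab, abs_of_nonneg (by linarith), abs_of_nonneg (by linarith [hp.2])]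
      linarith [hp.2]

/-- LEMMA K -/
theorem lemmaK : LemmaK := by
  intro a b c d X Y hab hcd hX hY hXne δ ε R L hδ hε
  obtain ⟨x₀, hx₀⟩ := hXne
  have hx₀' := hX x₀ hx₀
  set S : Set ℂ := cross a b c d X Y with hS
  have hne : S.Nonempty := ⟨⟨a, c⟩, Or.inl ⟨⟨le_rfl, hab.le⟩, ⟨le_rfl, hcd.le⟩⟩⟩
  have hcont : Continuous fun z : ℂ => infDist z S := continuous_infDist_pt S
  -- the rectangle is bounded
  have hrc : IsClosed (rect a b c d) := by
    have : rect a b c d = (Complex.re ⁻¹' Icc a b) ∩ (Complex.im ⁻¹' Icc c d) := by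
      ext z; simp [rect]
    rw [this]
    exact (isClosed_Icc.preimage Complex.continuous_re).inter (isClosed_Icc.preimage Complex.continuous_im)
  obtain ⟨R₁, hR₁⟩ : ∃ R₁ : ℝ, ∀ z ∈ rect a b c d, ‖z‖ ≤ R₁ := by
    refine ⟨max |a| |b| + max |c| |d|, fun z hz => ?_⟩
    have h1 := Complex.norm_le_abs_re_add_abs_im z
    have h2 : |z.re| ≤ max |a| |b| := abs_le_max_abs_abs hz.1.1 hz.1.2
    have h3 : |z.im| ≤ max |c| |d| := abs_le_max_abs_abs hz.2.1 hz.2.2
    linarith
  set R' : ℝ := max (max R R₁) 0 with hR'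
  have hR'0 : 0 ≤ R' := le_max_right _ _
  have hRR' : R ≤ R' := (le_max_left R R₁).trans (le_max_left _ _)
  have hR1R' : R₁ ≤ R' := (le_max_right R R₁).trans (le_max_left _ _)
  set K : Set ℂ := rect a b c d ∪ ({z | δ ≤ infDist z S} ∩ closedBall 0 R') with hK
  have hKc : IsCompact K := by
    refine IsCompact.union ?_ ?_
    · exact (isCompact_closedBall (0 : ℂ) R').of_isClosed_subset hrc fun z hz => by
        rw [mem_closedBall_zero_iff]
        exact (hR₁ z hz).trans hR1R'
    · exact (isCompact_closedBall (0 : ℂ) R').inter_left (isClosed_le continuous_const hcont)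
  have hKb : ∀ z ∈ K, ‖z‖ ≤ R' := by
    rintro z (hz | hz)
    · exact (hR₁ z hz).trans hR1R'
    · simpa using hz.2
  -- sufficient condition for not being in `K`
  have hnK : ∀ z, z ∉ rect a b c d → infDist z S < δ → z ∉ K := by
    rintro z h1 h2 (h | h)
    · exact h1 h
    · exact absurd h.1 (not_le.2 h2)
  -- escape
  have hesc : ∀ z ∉ K, ∃ C : Set ℂ, IsPreconnected C ∧ z ∈ C ∧ Disjoint C K ∧
      ¬ Bornology.IsBounded C := by
    intro z hz
    by_cases hzR : R' < ‖z‖
    · exact esc_out hR'0 hKb hzR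
    have hzr : z ∉ rect a b c d := fun h => hz (Or.inl h)
    have hzd : infDist z S < δ := by
      by_contra hcon
      push Not at hcon
      exact hz (Or.inr ⟨hcon, by rw [mem_closedBall_zero_iff]; exact not_lt.1 hzR⟩)
    obtain ⟨p, hp, hzp⟩ := (infDist_lt_iff hne).1 hzd
    rw [dist_eq_norm] at hzp
    have hre_le : |z.re - p.re| < δ := by
      have := Complex.abs_re_le_norm (z - p)
      rw [Complex.sub_re] at this
      linarith
    have him_le : |z.im - p.im| < δ := by
      have := Complex.abs_im_le_norm (z - p)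
      rw [Complex.sub_im] at this
      linarith
    -- reduction to `‖z - clampQ z‖ < δ`
    have hmain : ‖z - clampQ a b c d z‖ < δ ∨ Esc K z := by
      rcases hp with hp | hp | hp
      · left
        refine lt_of_le_of_lt (norm_le_of_abs ?_ ?_) hzp
        · exact abs_sub_clamp_le hp.1
        · exact abs_sub_clamp_le hp.2
      · rcases lt_or_ge d z.im with h1 | h1
        · right
          refine esc_ray (u := Complex.I) (by simp) fun t ht => hnK _ ?_ ?_
          · intro h
            have := h.2.2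
            simp at this
            linarith
          · refine infDist_lt_of (p := ⟨p.re, z.im + t⟩) (Or.inr (Or.inl hp)) ?_
            have : z + t * Complex.I - (⟨p.re, z.im + t⟩ : ℂ) = ((z.re - p.re : ℝ) : ℂ) := by
              apply Complex.ext <;> simp
            rw [this, Complex.norm_real]
            exact hre_le
        rcases lt_or_ge z.im c with h2 | h2
        · right
          refine esc_ray (u := -Complex.I) (by simp) fun t ht => hnK _ ?_ ?_
          · intro h
            have := h.2.1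
            simp at this
            linarith
          · refine infDist_lt_of (p := ⟨p.re, z.im - t⟩) (Or.inr (Or.inl hp)) ?_
            have : z + t * (-Complex.I) - (⟨p.re, z.im - t⟩ : ℂ) = ((z.re - p.re : ℝ) : ℂ) := by
              apply Complex.ext
              · simp
              · simp
            rw [this, Complex.norm_real]
            exact hre_le
        left
        have h3 := hX _ hp
        refine lt_of_le_of_lt (b := ‖((z.re - p.re : ℝ) : ℂ)‖) (norm_le_of_abs ?_ ?_) ?_
        · exact abs_sub_clamp_le ⟨h3.1.le, h3.2.le⟩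
        · have h4 : (z - clampQ a b c d z).im = 0 := by
            simp [clampQ, min_eq_right h1, max_eq_right h2]
          rw [h4]; simp
        · rw [Complex.norm_real]; exact hre_le
      · rcases lt_or_ge b z.re with h1 | h1
        · right
          refine esc_ray (u := 1) (by simp) fun t ht => hnK _ ?_ ?_
          · intro h
            have := h.1.2
            simp at this
            linarith
          · refine infDist_lt_of (p := ⟨z.re + t, p.im⟩) (Or.inr (Or.inr hp)) ?_
            have : z + t * 1 - (⟨z.re + t, p.im⟩ : ℂ) = ((z.im - p.im : ℝ) : ℂ) * Complex.I := by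
              apply Complex.ext <;> simp
            rw [this, norm_mul, Complex.norm_I, mul_one, Complex.norm_real]
            exact him_le
        rcases lt_or_ge z.re a with h2 | h2
        · right
          refine esc_ray (u := -1) (by simp) fun t ht => hnK _ ?_ ?_
          · intro h
            have := h.1.1
            simp at this
            linarith
          · refine infDist_lt_of (p := ⟨z.re - t, p.im⟩) (Or.inr (Or.inr hp)) ?_
            have : z + t * (-1) - (⟨z.re - t, p.im⟩ : ℂ) = ((z.im - p.im : ℝ) : ℂ) * Complex.I := by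
              apply Complex.ext
              · simp
              · simp
            rw [this, norm_mul, Complex.norm_I, mul_one, Complex.norm_real]
            exact him_le
        left
        have h3 := hY _ hp
        refine lt_of_le_of_lt (b := ‖((z.im - p.im : ℝ) : ℂ) * Complex.I‖) (norm_le_of_abs ?_ ?_) ?_
        · have h4 : (z - clampQ a b c d z).re = 0 := by
            simp [clampQ, min_eq_right h1, max_eq_right h2]
          rw [h4]; simp
        · have h4 : (((z.im - p.im : ℝ) : ℂ) * Complex.I).im = z.im - p.im := by simp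
          rw [h4]
          exact abs_sub_clamp_le ⟨h3.1.le, h3.2.le⟩
        · rw [norm_mul, Complex.norm_I, mul_one, Complex.norm_real]; exact him_le
    rcases hmain with hnear | hE
    swap
    · exact hE
    -- the bars
    set σ : ℝ := δ / 4 with hσ
    have hσ0 : 0 < σ := by positivity
    set BR := orect b (b + σ) (c - σ) (d + σ) with hBR
    set BT := orect (a - σ) (b + σ) d (d + σ) with hBT
    set BL := orect (a - σ) a (c - σ) (d + σ) with hBL
    set BB := orect (a - σ) (b + σ) (c - σ) c with hBB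
    set BV := vstrip x₀ σ d with hBV
    set m := clampQ a b c d z with hm
    have hmr := clampQ_mem hab hcd z
    rw [← hm] at hmr
    set SG : Set ℂ := (fun t : ℝ => m + t * (z - m)) '' Ioc 0 1 with hSG
    have hpc : IsPreconnected ((((BV ∪ BT) ∪ BR) ∪ BL) ∪ BB) := by
      have c1 : IsPreconnected (BV ∪ BT) := by
        refine IsPreconnected.union' ⟨⟨x₀, d + σ / 2⟩, ⟨⟨?_, ?_⟩, ?_⟩, ⟨?_, ?_⟩, ?_, ?_⟩
          (isPreconnected_vstrip _ _ _) (isPreconnected_orect _ _ _ _) <;> dsimp only <;>
          linarith [hx₀'.1, hx₀'.2]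
      have c2 : IsPreconnected ((BV ∪ BT) ∪ BR) := by
        refine IsPreconnected.union' ⟨⟨b + σ / 2, d + σ / 2⟩, Or.inr ⟨⟨?_, ?_⟩, ?_, ?_⟩, ⟨?_, ?_⟩, ?_, ?_⟩
          c1 (isPreconnected_orect _ _ _ _) <;> dsimp only <;> linarith
      have c3 : IsPreconnected (((BV ∪ BT) ∪ BR) ∪ BL) := by
        refine IsPreconnected.union' ⟨⟨a - σ / 2, d + σ / 2⟩, Or.inl (Or.inr ⟨⟨?_, ?_⟩, ?_, ?_⟩),
          ⟨?_, ?_⟩, ?_, ?_⟩ c2 (isPreconnected_orect _ _ _ _) <;> dsimp only <;> linarith
      refine IsPreconnected.union' ⟨⟨a - σ / 2, c - σ / 2⟩, Or.inr ⟨⟨?_, ?_⟩, ?_, ?_⟩,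
          ⟨?_, ?_⟩, ?_, ?_⟩ c3 (isPreconnected_orect _ _ _ _) <;> dsimp only <;> linarith
    have hz4 : z.re < a ∨ b < z.re ∨ z.im < c ∨ d < z.im := by
      by_contra hcon
      push Not at hcon
      exact hzr ⟨⟨hcon.1, hcon.2.1⟩, ⟨hcon.2.2.1, hcon.2.2.2⟩⟩
    have hdre : |z.re - m.re| < δ := by
      have := Complex.abs_re_le_norm (z - m)
      rw [Complex.sub_re] at this
      linarith
    have hdim : |z.im - m.im| < δ := by
      have := Complex.abs_im_le_norm (z - m)
      rw [Complex.sub_im] at this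
      linarith
    rw [abs_lt] at hdre hdim
    have hptre : ∀ t : ℝ, (m + t * (z - m)).re = m.re + t * (z.re - m.re) := by
      intro t; simp
    have hptim : ∀ t : ℝ, (m + t * (z - m)).im = m.im + t * (z.im - m.im) := by
      intro t; simp
    have hmre : m.re = max a (min b z.re) := rfl
    have hmim : m.im = max c (min d z.im) := rfl
    have hint : (((((BV ∪ BT) ∪ BR) ∪ BL) ∪ BB) ∩ SG).Nonempty := by
      refine ⟨m + ((1 / 8 : ℝ) : ℂ) * (z - m), ?_, ⟨1 / 8, ⟨by norm_num, by norm_num⟩, rfl⟩⟩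
      have e1 := hptre (1 / 8)
      have e2 := hptim (1 / 8)
      rcases hz4 with h | h | h | h
      · have h5 : m.re = a := by rw [hmre, min_eq_right (by linarith), max_eq_left h.le]
        refine Or.inl (Or.inr ⟨⟨?_, ?_⟩, ?_, ?_⟩)
        · rw [e1]; linarith
        · rw [e1]; linarith
        · rw [e2]; linarith [hmr.2.1]
        · rw [e2]; linarith [hmr.2.2]
      · have h5 : m.re = b := by rw [hmre, min_eq_left h.le, max_eq_right hab.le]
        refine Or.inl (Or.inl (Or.inr ⟨⟨?_, ?_⟩, ?_, ?_⟩))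
        · rw [e1]; linarith
        · rw [e1]; linarith
        · rw [e2]; linarith [hmr.2.1]
        · rw [e2]; linarith [hmr.2.2]
      · have h5 : m.im = c := by rw [hmim, min_eq_right (by linarith), max_eq_left h.le]
        refine Or.inr ⟨⟨?_, ?_⟩, ?_, ?_⟩
        · rw [e1]; linarith [hmr.1.1]
        · rw [e1]; linarith [hmr.1.2]
        · rw [e2]; linarith
        · rw [e2]; linarith
      · have h5 : m.im = d := by rw [hmim, min_eq_left h.le, max_eq_right hcd.le]
        refine Or.inl (Or.inl (Or.inl (Or.inr ⟨⟨?_, ?_⟩, ?_, ?_⟩)))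
        · rw [e1]; linarith [hmr.1.1]
        · rw [e1]; linarith [hmr.1.2]
        · rw [e2]; linarith
        · rw [e2]; linarith
    have hSGp : IsPreconnected SG := isPreconnected_Ioc.image _ (by fun_prop)
    -- bars avoid `K`
    have hbar : ∀ w : ℂ, (a - σ < w.re ∧ w.re < b + σ) → (c - σ < w.im ∧ w.im < d + σ) →
        w ∉ rect a b c d → w ∉ K := by
      intro w h1 h2 h3
      refine hnK w h3 (infDist_lt_of (p := clampQ a b c d w) (Or.inl (clampQ_mem hab hcd w)) ?_)
      refine norm_lt_of_abs (σ := σ) ?_ ?_ (by rw [hσ]; linarith)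
      · show |w.re - max a (min b w.re)| ≤ σ
        rcases le_total w.re a with h | h
        · rw [min_eq_right (by linarith), max_eq_left h, abs_of_nonpos (by linarith)]; linarith
        · rcases le_total w.re b with h' | h'
          · rw [min_eq_right h', max_eq_right h, sub_self, abs_zero]; exact hσ0.le
          · rw [min_eq_left h', max_eq_right hab.le, abs_of_nonneg (by linarith)]; linarith
      · show |w.im - max c (min d w.im)| ≤ σ
        rcases le_total w.im c with h | h
        · rw [min_eq_right (by linarith), max_eq_left h, abs_of_nonpos (by linarith)]; linarith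
        · rcases le_total w.im d with h' | h'
          · rw [min_eq_right h', max_eq_right h, sub_self, abs_zero]; exact hσ0.le
          · rw [min_eq_left h', max_eq_right hcd.le, abs_of_nonneg (by linarith)]; linarith
    refine ⟨((((BV ∪ BT) ∪ BR) ∪ BL) ∪ BB) ∪ SG, hpc.union' hint hSGp,
      Or.inr ⟨1, ⟨by norm_num, le_rfl⟩, by simp⟩, ?_, ?_⟩
    · rw [Set.disjoint_left]
      rintro w (((((h | h) | h) | h) | h) | h)
      · refine hnK w (fun h' => ?_) (infDist_lt_of (p := ⟨x₀, w.im⟩) (Or.inr (Or.inl hx₀)) ?_)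
        · linarith [h.2, h'.2.2]
        · refine norm_lt_of_abs (σ := σ) ?_ ?_ (by rw [hσ]; linarith)
          · rw [Complex.sub_re, abs_le]
            constructor <;> dsimp only <;> linarith [h.1.1, h.1.2]
          · simp [hσ0.le]
      · exact hbar w h.1 ⟨by linarith [h.2.1], h.2.2⟩ fun h' => by linarith [h'.2.2, h.2.1]
      · exact hbar w ⟨by linarith [h.1.1], h.1.2⟩ h.2 fun h' => by linarith [h'.1.2, h.1.1]
      · exact hbar w ⟨h.1.1, by linarith [h.1.2]⟩ h.2 fun h' => by linarith [h'.1.1, h.1.2]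
      · exact hbar w h.1 ⟨h.2.1, by linarith [h.2.2]⟩ fun h' => by linarith [h'.2.1, h.2.2]
      · obtain ⟨t, ht, rfl⟩ := h
        refine hnK _ (fun h' => ?_) (infDist_lt_of (p := m) (Or.inl hmr) ?_)
        · have e1 := hptre t
          have e2 := hptim t
          have h1 := h'.1
          have h2 := h'.2
          simp only [mem_Icc] at h1 h2
          rw [e1] at h1
          rw [e2] at h2
          have ht0 := ht.1
          rcases hz4 with h | h | h | h
          · have h5 : m.re = a := by rw [hmre, min_eq_right (by linarith), max_eq_left h.le]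
            have : t * (z.re - m.re) < 0 := mul_neg_of_pos_of_neg ht0 (by linarith)
            linarith [h1.1]
          · have h5 : m.re = b := by rw [hmre, min_eq_left h.le, max_eq_right hab.le]
            have : 0 < t * (z.re - m.re) := mul_pos ht0 (by linarith)
            linarith [h1.2]
          · have h5 : m.im = c := by rw [hmim, min_eq_right (by linarith), max_eq_left h.le]
            have : t * (z.im - m.im) < 0 := mul_neg_of_pos_of_neg ht0 (by linarith)
            linarith [h2.1]
          · have h5 : m.im = d := by rw [hmim, min_eq_left h.le, max_eq_right hcd.le]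
            have : 0 < t * (z.im - m.im) := mul_pos ht0 (by linarith)
            linarith [h2.2]
        · simp only [add_sub_cancel_left]
          rw [norm_mul, Complex.norm_real, Real.norm_of_nonneg ht.1.le]
          have := norm_nonneg (z - m)
          nlinarith [ht.2]
    · intro hb
      obtain ⟨M, hM⟩ := hb.exists_norm_le
      have hM' := hM ⟨x₀, d + 1 + |M| + |d|⟩ (Or.inl (Or.inl (Or.inl (Or.inl (Or.inl
        ⟨⟨by dsimp only; linarith, by dsimp only; linarith⟩, by
          dsimp only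
          have := abs_nonneg M
          have := abs_nonneg d
          linarith⟩)))))
      have h1 := Complex.abs_im_le_norm (⟨x₀, d + 1 + |M| + |d|⟩ : ℂ)
      dsimp only at h1
      have h2 := le_abs_self (d + 1 + |M| + |d|)
      have h3 := le_abs_self M
      have h4 := neg_abs_le d
      linarith
  -- the function
  classical
  set f : ℂ → ℂ := fun z => if infDist z S < δ / 2 then 0 else L with hf
  set U : Set ℂ := {z | infDist z S < δ / 2} ∪ {z | δ / 2 < infDist z S} with hU
  have hU1 : IsOpen {z : ℂ | infDist z S < δ / 2} := isOpen_lt hcont continuous_const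
  have hU2 : IsOpen {z : ℂ | δ / 2 < infDist z S} := isOpen_lt continuous_const hcont
  have hrect : ∀ z ∈ rect a b c d, infDist z S = 0 := fun z hz =>
    infDist_zero_of_mem (Or.inl hz)
  have hKU : K ⊆ U := by
    rintro z (hz | hz)
    · left
      show infDist z S < δ / 2
      rw [hrect z hz]; positivity
    · right
      show δ / 2 < infDist z S
      have : δ ≤ infDist z S := hz.1
      linarith
  have hfd : DifferentiableOn ℂ f U := by
    rintro z (hz | hz)
    · refine DifferentiableAt.differentiableWithinAt ?_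
      refine (differentiableAt_const (0 : ℂ)).congr_of_eventuallyEq ?_
      filter_upwards [hU1.mem_nhds hz] with y hy
      exact if_pos hy
    · refine DifferentiableAt.differentiableWithinAt ?_
      refine (differentiableAt_const L).congr_of_eventuallyEq ?_
      filter_upwards [hU2.mem_nhds hz] with y hy
      exact if_neg (not_lt.2 (le_of_lt hy))
  obtain ⟨p, hp⟩ := runge K hKc hesc U (hU1.union hU2) hKU f hfd ε hε
  refine ⟨p, fun z hz => ?_, fun z hz hzd => ?_⟩
  · have h1 := hp z (Or.inl hz)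
    have h2 : f z = 0 := if_pos (by rw [hrect z hz]; positivity)
    rwa [h2, sub_zero] at h1
  · have h1 := hp z (Or.inr ⟨hzd, by rw [mem_closedBall_zero_iff]; exact hz.trans hRR'⟩)
    have h2 : f z = L := if_neg (by
      have : δ ≤ infDist z S := hzd
      linarith)
    rwa [h2] at h1

end Crest.Agent.R279.Planar
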