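import Crest.Agent.R279.FamMain520
import Crest.Agent.R279.H488EK

/-!
Part 6, unconditional: two transversal families through `v₁` make `v₁` a good point.
-/

open MvPolynomial

namespace Crest.Agent.R279.Fam

theorem goodPt_of_twoFam' {Q : MvPolynomial (Fin 4) ℂ} {n : ℕ} (hQ : Q.IsHomogeneous n)
    {v₁ : Fin 4 → ℂ} (hs : ∃ i, eval v₁ (pderiv i Q) ≠ 0)
    (h : TwoFam (Vstar Q) v₁) : GoodPt (Vstar Q) v₁ :=
  goodPt_of_twoFam Planar.lemmaE Planar.lemmaK hQ hs h

end Crest.Agent.R279.Fam
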