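import Crest.Agent.R279.AlgDefs149
import Crest.Agent.R279.Deriv556
import Crest.Agent.R279.Thin556

/-!
Local equation of the set `D` (row 279, helper60): on `{H_i(p) p_j ≠ 0}` the cone `DD Q` is the
zero set of one polynomial function.
-/

set_option autoImplicit false
set_option linter.unusedSimpArgs false

noncomputable section

namespace Crest.Agent.R279.LocEq

open Polynomial Finset

/-- the polynomial `∑_{a ≤ 5} c_a X^a` -/
def pol (c : ℕ → ℂ) : ℂ[X] := ∑ a ∈ range 6, C (c a) * X ^ a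

lemma coeff_pol (c : ℕ → ℂ) (n : ℕ) : (pol c).coeff n = if n < 6 then c n else 0 := by
  rw [pol, finsetSum_coeff]
  simp only [coeff_C_mul, coeff_X_pow]
  simp

lemma natDegree_pol_le (c : ℕ → ℂ) : (pol c).natDegree ≤ 5 := by
  rw [natDegree_le_iff_coeff_eq_zero]
  intro n hn
  rw [coeff_pol, if_neg (by omega)]

lemma natDegree_pol_lt {c : ℕ → ℂ} (h : c 5 = 0) : (pol c).natDegree < 5 := by
  rw [Nat.lt_iff_le_pred (by norm_num), natDegree_le_iff_coeff_eq_zero]
  intro n hn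
  rw [coeff_pol]
  split_ifs with h6
  · have : n = 5 := by omega
    rw [this, h]
  · rfl

lemma natDegree_pol_eq {c : ℕ → ℂ} (h : c 5 ≠ 0) : (pol c).natDegree = 5 := by
  refine le_antisymm (natDegree_pol_le c) ?_
  refine le_natDegree_of_ne_zero ?_
  rw [coeff_pol, if_pos (by norm_num)]
  exact h

/-- the binary form `∑_{a ≤ 5} c_a s^a t^{5-a}` -/
def bf (c : ℕ → ℂ) (s t : ℂ) : ℂ := ∑ a ∈ range 6, c a * (s ^ a * t ^ (5 - a))

lemma bf_zero_right (c : ℕ → ℂ) (s : ℂ) : bf c s 0 = c 5 * s ^ 5 := by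
  rw [bf, sum_range_succ]
  rw [sum_eq_zero]
  · simp
  · intro a ha
    have : 5 - a ≠ 0 := by have := mem_range.1 ha; omega
    rw [zero_pow this]; ring

lemma bf_eq (c : ℕ → ℂ) (s : ℂ) {t : ℂ} (ht : t ≠ 0) : bf c s t = t ^ 5 * (pol c).eval (s / t) := by
  rw [bf, pol, eval_finsetSum, mul_sum]
  refine sum_congr rfl (fun a ha => ?_)
  have ha' : a ≤ 5 := by have := mem_range.1 ha; omega
  simp only [eval_mul, eval_C, eval_pow, eval_X]
  obtain ⟨b, hb⟩ := Nat.exists_eq_add_of_le ha'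
  rw [hb, Nat.add_sub_cancel_left, pow_add, div_pow]
  field_simp

/-- the resultant in degrees `(5,5)` -/
def res (c d : ℕ → ℂ) : ℂ := resultant (pol c) (pol d) 5 5

lemma res_root_of_ne {c d : ℕ → ℂ} (h : res c d = 0) (hc : c 5 ≠ 0) :
    ∃ x : ℂ, (pol c).eval x = 0 ∧ (pol d).eval x = 0 := by
  obtain ⟨k, hk⟩ := Nat.exists_eq_add_of_le (natDegree_pol_le d)
  have h1 : resultant (pol c) (pol d) 5 ((pol d).natDegree + k) = 0 := by rw [← hk]; exact h
  rw [resultant_add_right_deg _ _ _ _ _ le_rfl] at h1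
  have h2 : (pol c).coeff 5 ≠ 0 := by rw [coeff_pol, if_pos (by norm_num)]; exact hc
  have h3 : resultant (pol c) (pol d) 5 (pol d).natDegree = 0 := by
    rcases mul_eq_zero.1 h1 with h | h
    · exact absurd h (pow_ne_zero _ h2)
    · exact h
  have h4 : resultant (pol c) (pol d) = 0 := by
    have := natDegree_pol_eq hc
    rw [this]
    exact h3
  rw [resultant_eq_zero_iff] at h4
  have h5 := (Polynomial.isCoprime_iff_aeval_ne_zero_of_isAlgClosed (k := ℂ) ℂ (pol c)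
    (pol d)).not.1 h4.2
  push Not at h5
  obtain ⟨x, hx1, hx2⟩ := h5
  exact ⟨x, by simpa using hx1, by simpa using hx2⟩

theorem res_eq_zero_iff (c d : ℕ → ℂ) :
    res c d = 0 ↔ ∃ s t : ℂ, (s ≠ 0 ∨ t ≠ 0) ∧ bf c s t = 0 ∧ bf d s t = 0 := by
  constructor
  · intro h
    by_cases hc : c 5 = 0
    · by_cases hd : d 5 = 0
      · refine ⟨1, 0, Or.inl one_ne_zero, ?_, ?_⟩
        · rw [bf_zero_right, hc, zero_mul]
        · rw [bf_zero_right, hd, zero_mul]
      · have h' : res d c = 0 := by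
          rw [res, resultant_comm] at h
          rcases mul_eq_zero.1 h with h | h
          · exact absurd h (pow_ne_zero _ (by norm_num))
          · exact h
        obtain ⟨x, hx1, hx2⟩ := res_root_of_ne h' hd
        refine ⟨x, 1, Or.inr one_ne_zero, ?_, ?_⟩
        · rw [bf_eq _ _ one_ne_zero, div_one, hx2, mul_zero]
        · rw [bf_eq _ _ one_ne_zero, div_one, hx1, mul_zero]
    · obtain ⟨x, hx1, hx2⟩ := res_root_of_ne h hc
      refine ⟨x, 1, Or.inr one_ne_zero, ?_, ?_⟩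
      · rw [bf_eq _ _ one_ne_zero, div_one, hx1, mul_zero]
      · rw [bf_eq _ _ one_ne_zero, div_one, hx2, mul_zero]
  · rintro ⟨s, t, hst, h1, h2⟩
    by_cases ht : t = 0
    · subst ht
      have hs : s ≠ 0 := by simpa using hst
      rw [bf_zero_right] at h1 h2
      have hc : c 5 = 0 := by
        rcases mul_eq_zero.1 h1 with h | h
        · exact h
        · exact absurd h (pow_ne_zero _ hs)
      have hd : d 5 = 0 := by
        rcases mul_eq_zero.1 h2 with h | h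
        · exact h
        · exact absurd h (pow_ne_zero _ hs)
      exact resultant_eq_zero_of_lt_lt _ _ _ _ (natDegree_pol_lt hc) (natDegree_pol_lt hd)
    · rw [bf_eq _ _ ht] at h1 h2
      have h1' : (pol c).eval (s / t) = 0 := by
        rcases mul_eq_zero.1 h1 with h | h
        · exact absurd h (pow_ne_zero _ ht)
        · exact h
      have h2' : (pol d).eval (s / t) = 0 := by
        rcases mul_eq_zero.1 h2 with h | h
        · exact absurd h (pow_ne_zero _ ht)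
        · exact h
      obtain ⟨p, q, _, _, hpq⟩ := exists_mul_add_mul_eq_C_resultant (pol c) (pol d)
        (natDegree_pol_le c) (natDegree_pol_le d) (by norm_num)
      have := congrArg (eval (s / t)) hpq
      rw [eval_add, eval_mul, eval_mul, h1', h2', zero_mul, zero_mul, add_zero, eval_C] at this
      exact this.symm

/-- the resultant depends holomorphically on parameters -/
theorem differentiable_res {E : Type*} [NormedAddCommGroup E] [NormedSpace ℂ E]
    {c d : E → ℕ → ℂ} (hc : ∀ n, Differentiable ℂ (fun p => c p n))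
    (hd : ∀ n, Differentiable ℂ (fun p => d p n)) :
    Differentiable ℂ (fun p => res (c p) (d p)) := by
  have hM : ∀ i j, Differentiable ℂ (fun p => sylvester (pol (c p)) (pol (d p)) 5 5 i j) := by
    intro i j
    induction j using Fin.addCases with
    | left j =>
      simp only [sylvester, Matrix.of_apply, Fin.addCases_left, coeff_pol]
      split_ifs
      · exact hd _
      · exact differentiable_const _
      · exact differentiable_const _
    | right j =>
      simp only [sylvester, Matrix.of_apply, Fin.addCases_right, coeff_pol]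
      split_ifs
      · exact hc _
      · exact differentiable_const _
      · exact differentiable_const _
  have h1 : (fun p => res (c p) (d p)) = fun p => ∑ σ : Equiv.Perm (Fin (5 + 5)),
      Equiv.Perm.sign σ • ∏ i, sylvester (pol (c p)) (pol (d p)) 5 5 (σ i) i := by
    funext p
    rw [res, resultant, Matrix.det_apply]
  rw [h1]
  refine Differentiable.fun_sum (fun σ _ => ?_)
  have h2 : Differentiable ℂ (fun p => ∏ i, sylvester (pol (c p)) (pol (d p)) 5 5 (σ i) i) :=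
    fun p => (HasFDerivAt.finsetProd (fun i _ => (hM _ _ p).hasFDerivAt)).differentiableAt
  have h3 : (fun p => Equiv.Perm.sign σ • ∏ i, sylvester (pol (c p)) (pol (d p)) 5 5 (σ i) i) =
      fun p => ((Equiv.Perm.sign σ : ℤ) : ℂ) *
        ∏ i, sylvester (pol (c p)) (pol (d p)) 5 5 (σ i) i := by
    funext p
    rw [Units.smul_def, zsmul_eq_mul]
  rw [h3]
  exact h2.const_mul _

/-! ### the binary sextic `(s,t) ↦ g6 Q p (s A + t B)` -/

section sextic

variable (Q : MvPolynomial (Fin 4) ℂ) (p A B : Fin 4 → ℂ)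

/-- coefficients of the binary sextic `g6 Q p (s A + t B) = ∑ Gc m s^m t^(6-m)` -/
def Gc : ℕ → ℂ
  | 0 => (4 * tens Q p B B B) ^ 2 - 4 * ((6 * tens Q p p B B) * tens Q B B B B)
  | 1 => 2 * (12 * tens Q p A B B) * (4 * tens Q p B B B)
      - 4 * ((6 * tens Q p p B B) * (4 * tens Q A B B B) + (12 * tens Q p p A B) * tens Q B B B B)
  | 2 => (12 * tens Q p A B B) ^ 2 + 2 * (12 * tens Q p A A B) * (4 * tens Q p B B B)
      - 4 * ((6 * tens Q p p B B) * (6 * tens Q A A B B)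
        + (12 * tens Q p p A B) * (4 * tens Q A B B B) + (6 * tens Q p p A A) * tens Q B B B B)
  | 3 => 2 * (4 * tens Q p A A A) * (4 * tens Q p B B B)
      + 2 * (12 * tens Q p A A B) * (12 * tens Q p A B B)
      - 4 * ((6 * tens Q p p B B) * (4 * tens Q A A A B)
        + (12 * tens Q p p A B) * (6 * tens Q A A B B)
        + (6 * tens Q p p A A) * (4 * tens Q A B B B))
  | 4 => (12 * tens Q p A A B) ^ 2 + 2 * (4 * tens Q p A A A) * (12 * tens Q p A B B)
      - 4 * ((6 * tens Q p p A A) * (6 * tens Q A A B B)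
        + (12 * tens Q p p A B) * (4 * tens Q A A A B) + (6 * tens Q p p B B) * tens Q A A A A)
  | 5 => 2 * (4 * tens Q p A A A) * (12 * tens Q p A A B)
      - 4 * ((6 * tens Q p p A A) * (4 * tens Q A A A B) + (12 * tens Q p p A B) * tens Q A A A A)
  | 6 => (4 * tens Q p A A A) ^ 2 - 4 * ((6 * tens Q p p A A) * tens Q A A A A)
  | _ => 0

lemma q3_comb (s t : ℂ) : q3 Q p (s • A + t • B) = s ^ 3 * (4 * tens Q p A A A)
    + s ^ 2 * t * (12 * tens Q p A A B) + s * t ^ 2 * (12 * tens Q p A B B)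
    + t ^ 3 * (4 * tens Q p B B B) := by
  simp only [q3, tens_add2, tens_add3, tens_add4, tens_smul2, tens_smul3, tens_smul4]
  have e1 : tens Q p A B A = tens Q p A A B := tens_swap34 _ _ _ _ _
  have e2 : tens Q p B A A = tens Q p A A B := tens_swap24 _ _ _ _ _
  have e3 : tens Q p B A B = tens Q p A B B := tens_swap23 _ _ _ _ _
  have e4 : tens Q p B B A = tens Q p A B B := tens_swap24 _ _ _ _ _
  rw [e1, e2, e3, e4]
  ring

lemma q2_comb (s t : ℂ) : q2 Q p (s • A + t • B) = s ^ 2 * (6 * tens Q p p A A)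
    + s * t * (12 * tens Q p p A B) + t ^ 2 * (6 * tens Q p p B B) := by
  simp only [q2, tens_add3, tens_add4, tens_smul3, tens_smul4]
  have e1 : tens Q p p B A = tens Q p p A B := tens_swap34 _ _ _ _ _
  rw [e1]
  ring

lemma q4_comb (s t : ℂ) : q4 Q (s • A + t • B) = s ^ 4 * tens Q A A A A
    + s ^ 3 * t * (4 * tens Q A A A B) + s ^ 2 * t ^ 2 * (6 * tens Q A A B B)
    + s * t ^ 3 * (4 * tens Q A B B B) + t ^ 4 * tens Q B B B B := by
  rw [q4, tens_comb]
  simp only [q1, q2, q3, q4]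

theorem g6_comb (s t : ℂ) :
    g6 Q p (s • A + t • B) = ∑ m ∈ range 7, Gc Q p A B m * (s ^ m * t ^ (6 - m)) := by
  rw [g6, q3_comb, q2_comb, q4_comb]
  simp only [sum_range_succ, range_zero, sum_empty, Gc]
  norm_num
  ring

/-- coefficients of the partial derivative in `s` -/
def Gs (a : ℕ) : ℂ := (a + 1 : ℕ) * Gc Q p A B (a + 1)
/-- coefficients of the partial derivative in `t` -/
def Gt (a : ℕ) : ℂ := (6 - a : ℕ) * Gc Q p A B a

theorem dg6_comb_s (s t : ℂ) : dg6 Q p (s • A + t • B) A = bf (Gs Q p A B) s t := by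
  have h1 := hasDerivAt_g6 (Q := Q) p (s • A + t • B) A
  have h2 : (fun τ : ℂ => g6 Q p (s • A + t • B + τ • A)) =
      fun τ : ℂ => ∑ m ∈ range 7, Gc Q p A B m * ((s + τ) ^ m * t ^ (6 - m)) := by
    funext τ
    rw [← g6_comb]
    congr 1
    rw [add_smul]
    abel
  rw [h2] at h1
  have h3 : HasDerivAt (fun τ : ℂ => ∑ m ∈ range 7, Gc Q p A B m * ((s + τ) ^ m * t ^ (6 - m)))
      (∑ m ∈ range 7, Gc Q p A B m * ((m : ℂ) * (s + 0) ^ (m - 1) * t ^ (6 - m))) 0 := by
    refine HasDerivAt.fun_sum (fun m _ => ?_)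
    refine HasDerivAt.const_mul _ (HasDerivAt.mul_const ?_ _)
    have h4 : HasDerivAt (fun τ : ℂ => s + τ) 1 0 := by
      simpa using (hasDerivAt_id (0 : ℂ)).const_add s
    simpa using h4.fun_pow m
  rw [h1.unique h3]
  simp only [sum_range_succ, range_zero, sum_empty, bf, Gs]
  norm_num
  ring

theorem dg6_comb_t (s t : ℂ) : dg6 Q p (s • A + t • B) B = bf (Gt Q p A B) s t := by
  have h1 := hasDerivAt_g6 (Q := Q) p (s • A + t • B) B
  have h2 : (fun τ : ℂ => g6 Q p (s • A + t • B + τ • B)) =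
      fun τ : ℂ => ∑ m ∈ range 7, Gc Q p A B m * (s ^ m * (t + τ) ^ (6 - m)) := by
    funext τ
    rw [← g6_comb]
    congr 1
    rw [add_smul]
    abel
  rw [h2] at h1
  have h3 : HasDerivAt (fun τ : ℂ => ∑ m ∈ range 7, Gc Q p A B m * (s ^ m * (t + τ) ^ (6 - m)))
      (∑ m ∈ range 7, Gc Q p A B m * (s ^ m * (((6 - m : ℕ) : ℂ) * (t + 0) ^ (6 - m - 1)))) 0 := by
    refine HasDerivAt.fun_sum (fun m _ => ?_)
    refine HasDerivAt.const_mul _ (HasDerivAt.const_mul _ ?_)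
    have h4 : HasDerivAt (fun τ : ℂ => t + τ) 1 0 := by
      simpa using (hasDerivAt_id (0 : ℂ)).const_add t
    simpa using h4.fun_pow (6 - m)
  rw [h1.unique h3]
  simp only [sum_range_succ, range_zero, sum_empty, bf, Gt]
  norm_num
  ring

end sextic

/-! ### frames of `T_p / p` -/

section frame

open MvPolynomial (eval pderiv)

variable {Q : MvPolynomial (Fin 4) ℂ}

/-- the discriminant-type function of the frame `A, B` -/
def disc (Q : MvPolynomial (Fin 4) ℂ) (p A B : Fin 4 → ℂ) : ℂ := res (Gs Q p A B) (Gt Q p A B)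

/-- `dg6` in the direction `p` vanishes -/
lemma dg6_dir_self (hQ : Q.IsHomogeneous 4) {p u : Fin 4 → ℂ} (hp : eval p Q = 0)
    (hu : u ∈ Tg Q p) : dg6 Q p u p = 0 := by
  have h1 := hasDerivAt_g6 (Q := Q) p u p
  have h2 : (fun t : ℂ => g6 Q p (u + t • p)) = fun _ => g6 Q p u := by
    funext t
    exact g6_add_smul hQ hp hu t
  rw [h2] at h1
  exact h1.unique (hasDerivAt_const _ _)

/-- invariance of `dg6` under `u ↦ u + c p` (directions in the tangent plane) -/
lemma dg6_add_smul (hQ : Q.IsHomogeneous 4) {p u w : Fin 4 → ℂ} (hp : eval p Q = 0)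
    (hu : u ∈ Tg Q p) (hw : w ∈ Tg Q p) (c : ℂ) : dg6 Q p (u + c • p) w = dg6 Q p u w := by
  have h1 := hasDerivAt_g6 (Q := Q) p (u + c • p) w
  have h2 : (fun t : ℂ => g6 Q p (u + c • p + t • w)) = fun t => g6 Q p (u + t • w) := by
    funext t
    rw [show u + c • p + t • w = (u + t • w) + c • p by abel]
    exact g6_add_smul hQ hp ((Tg Q p).add_mem hu ((Tg Q p).smul_mem t hw)) c
  rw [h2] at h1
  exact h1.unique (hasDerivAt_g6 (Q := Q) p u w)

/-- `InD` in a frame -/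
theorem inD_iff_disc (hQ : Q.IsHomogeneous 4) {p A B : Fin 4 → ℂ} (hp : eval p Q = 0)
    (hA : A ∈ Tg Q p) (hB : B ∈ Tg Q p) (hli : LinearIndependent ℂ ![p, A, B])
    (hspan : ∀ u ∈ Tg Q p, ∃ a s t : ℂ, u = a • p + s • A + t • B) :
    InD Q p ↔ disc Q p A B = 0 := by
  rw [disc, res_eq_zero_iff]
  have hli3 : ∀ a s t : ℂ, a • p + s • A + t • B = 0 → a = 0 ∧ s = 0 ∧ t = 0 := by
    intro a s t h
    have := (Fintype.linearIndependent_iff.1 hli) ![a, s, t] (by
      simpa [Fin.sum_univ_three] using h)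
    exact ⟨this 0, this 1, this 2⟩
  constructor
  · rintro ⟨u, hu, hl, h0, hd⟩
    obtain ⟨a, s, t, rfl⟩ := hspan u hu
    have hu' : s • A + t • B ∈ Tg Q p :=
      (Tg Q p).add_mem ((Tg Q p).smul_mem s hA) ((Tg Q p).smul_mem t hB)
    have e1 : a • p + s • A + t • B = (s • A + t • B) + a • p := by abel
    refine ⟨s, t, ?_, ?_, ?_⟩
    · by_contra hcon
      push Not at hcon
      obtain ⟨hs, ht⟩ := hcon
      subst hs ht
      rw [LinearIndependent.pair_iff] at hl
      have := hl a (-1) (by simp)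
      simp at this
    · rw [← dg6_comb_s, ← dg6_add_smul hQ hp hu' hA a, ← e1]
      exact hd A hA
    · rw [← dg6_comb_t, ← dg6_add_smul hQ hp hu' hB a, ← e1]
      exact hd B hB
  · rintro ⟨s, t, hst, h1, h2⟩
    rw [← dg6_comb_s] at h1
    rw [← dg6_comb_t] at h2
    have hu' : s • A + t • B ∈ Tg Q p :=
      (Tg Q p).add_mem ((Tg Q p).smul_mem s hA) ((Tg Q p).smul_mem t hB)
    have hall : ∀ w ∈ Tg Q p, dg6 Q p (s • A + t • B) w = 0 := by
      intro w hw
      obtain ⟨a, s', t', rfl⟩ := hspan w hw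
      rw [dg6_add_right, dg6_add_right, dg6_smul_right, dg6_smul_right, dg6_smul_right, h1, h2,
        dg6_dir_self hQ hp hu']
      ring
    refine ⟨s • A + t • B, hu', ?_, ?_, hall⟩
    · rw [LinearIndependent.pair_iff]
      intro a b hab
      have := hli3 a (b * s) (b * t) (by
        rw [← hab, smul_add, smul_smul, smul_smul]; abel)
      refine ⟨this.1, ?_⟩
      rcases hst with hs | ht
      · exact (mul_eq_zero.1 this.2.1).resolve_right hs
      · exact (mul_eq_zero.1 this.2.2).resolve_right ht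
    · have := dg6_self (Q := Q) p (s • A + t • B)
      rw [hall _ hu'] at this
      have h6 : (6 : ℂ) ≠ 0 := by norm_num
      exact (mul_eq_zero.1 this.symm).resolve_left h6

/-- `f_k = H_i e_k - H_k e_i` -/
def fr (Q : MvPolynomial (Fin 4) ℂ) (i k : Fin 4) (p : Fin 4 → ℂ) : Fin 4 → ℂ :=
  eval p (pderiv i Q) • Pi.single k 1 - eval p (pderiv k Q) • Pi.single i 1

lemma fr_mem_Tg (hQ : Q.IsHomogeneous 4) (i k : Fin 4) (p : Fin 4 → ℂ) : fr Q i k p ∈ Tg Q p := by
  rw [mem_Tg, q1_eq hQ]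
  simp only [fr, Pi.sub_apply, Pi.smul_apply, smul_eq_mul, mul_sub, Finset.sum_sub_distrib]
  simp only [Pi.single_apply, mul_ite, mul_one, mul_zero, Finset.sum_ite_eq', Finset.mem_univ,
    if_true]
  ring

lemma fr_apply_self {i k : Fin 4} (hik : i ≠ k) (p : Fin 4 → ℂ) :
    fr Q i k p k = eval p (pderiv i Q) := by
  simp [fr, Pi.single_apply, hik.symm]

lemma fr_apply_ne {i k m : Fin 4} (hmi : m ≠ i) (hmk : m ≠ k) (p : Fin 4 → ℂ) :
    fr Q i k p m = 0 := by
  simp [fr, Pi.single_apply, hmi, hmk]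

/-- four distinct indices -/
structure Idx (i j k l : Fin 4) : Prop where
  ij : i ≠ j
  ik : i ≠ k
  il : i ≠ l
  jk : j ≠ k
  jl : j ≠ l
  kl : k ≠ l
  all : ∀ m : Fin 4, m = i ∨ m = j ∨ m = k ∨ m = l

lemma exists_idx {i j : Fin 4} (hij : i ≠ j) : ∃ k l, Idx i j k l := by
  have h : ∃ k l : Fin 4, i ≠ j ∧ i ≠ k ∧ i ≠ l ∧ j ≠ k ∧ j ≠ l ∧ k ≠ l ∧
      ∀ m : Fin 4, m = i ∨ m = j ∨ m = k ∨ m = l := by
    revert i j
    decide
  obtain ⟨k, l, h1, h2, h3, h4, h5, h6, h7⟩ := h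
  exact ⟨k, l, ⟨h1, h2, h3, h4, h5, h6, h7⟩⟩

variable {i j k l : Fin 4}

lemma frame_li (hI : Idx i j k l) {p : Fin 4 → ℂ} (hi : eval p (pderiv i Q) ≠ 0)
    (hj : p j ≠ 0) : LinearIndependent ℂ ![p, fr Q i k p, fr Q i l p] := by
  rw [Fintype.linearIndependent_iff]
  intro g hg
  have hg' : g 0 • p + g 1 • fr Q i k p + g 2 • fr Q i l p = 0 := by
    simpa [Fin.sum_univ_three] using hg
  have h0 : g 0 = 0 := by
    have := congrFun hg' j
    simp only [Pi.add_apply, Pi.smul_apply, smul_eq_mul, Pi.zero_apply] at this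
    rw [fr_apply_ne hI.ij.symm hI.jk, fr_apply_ne hI.ij.symm hI.jl] at this
    simpa [hj] using this
  have h1 : g 1 = 0 := by
    have := congrFun hg' k
    simp only [Pi.add_apply, Pi.smul_apply, smul_eq_mul, Pi.zero_apply] at this
    rw [fr_apply_self hI.ik, fr_apply_ne hI.ik.symm hI.kl, h0] at this
    simpa [hi] using this
  have h2 : g 2 = 0 := by
    have := congrFun hg' l
    simp only [Pi.add_apply, Pi.smul_apply, smul_eq_mul, Pi.zero_apply] at this
    rw [fr_apply_self hI.il, fr_apply_ne hI.il.symm hI.kl.symm, h0] at this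
    simpa [hi] using this
  intro m
  fin_cases m
  · exact h0
  · exact h1
  · exact h2

lemma frame_span (hQ : Q.IsHomogeneous 4) (hI : Idx i j k l) {p : Fin 4 → ℂ}
    (hp : eval p Q = 0) (hi : eval p (pderiv i Q) ≠ 0) (hj : p j ≠ 0) :
    ∀ u ∈ Tg Q p, ∃ a s t : ℂ, u = a • p + s • fr Q i k p + t • fr Q i l p := by
  intro u hu
  set a := u j / p j with ha
  set s := (u k - a * p k) / eval p (pderiv i Q) with hs
  set t := (u l - a * p l) / eval p (pderiv i Q) with ht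
  refine ⟨a, s, t, ?_⟩
  set r : Fin 4 → ℂ := u - (a • p + s • fr Q i k p + t • fr Q i l p) with hr
  have hrT : r ∈ Tg Q p := by
    refine (Tg Q p).sub_mem hu ?_
    exact (Tg Q p).add_mem ((Tg Q p).add_mem ((Tg Q p).smul_mem _ (self_mem_Tg hQ hp))
      ((Tg Q p).smul_mem _ (fr_mem_Tg hQ i k p))) ((Tg Q p).smul_mem _ (fr_mem_Tg hQ i l p))
  have hrj : r j = 0 := by
    simp only [hr, Pi.sub_apply, Pi.add_apply, Pi.smul_apply, smul_eq_mul]
    rw [fr_apply_ne hI.ij.symm hI.jk, fr_apply_ne hI.ij.symm hI.jl, ha]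
    field_simp
    ring
  have hrk : r k = 0 := by
    simp only [hr, Pi.sub_apply, Pi.add_apply, Pi.smul_apply, smul_eq_mul]
    rw [fr_apply_self hI.ik, fr_apply_ne hI.ik.symm hI.kl, hs]
    field_simp
    ring
  have hrl : r l = 0 := by
    simp only [hr, Pi.sub_apply, Pi.add_apply, Pi.smul_apply, smul_eq_mul]
    rw [fr_apply_self hI.il, fr_apply_ne hI.il.symm hI.kl.symm, ht]
    field_simp
    ring
  have hri : r i = 0 := by
    rw [mem_Tg, q1_eq hQ] at hrT
    rw [Finset.sum_eq_single i] at hrT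
    · exact (mul_eq_zero.1 hrT).resolve_left hi
    · intro m _ hm
      rcases hI.all m with h | h | h | h
      · exact absurd h hm
      · rw [h, hrj, mul_zero]
      · rw [h, hrk, mul_zero]
      · rw [h, hrl, mul_zero]
    · intro h; exact absurd (Finset.mem_univ i) h
  have hr0 : r = 0 := by
    funext m
    rcases hI.all m with h | h | h | h <;> rw [h]
    · exact hri
    · exact hrj
    · exact hrk
    · exact hrl
  exact sub_eq_zero.1 hr0

/-- the local equation of `D` on `{H_i ≠ 0, p_j ≠ 0}` -/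
def RR (Q : MvPolynomial (Fin 4) ℂ) (i k l : Fin 4) (p : Fin 4 → ℂ) : ℂ :=
  disc Q p (fr Q i k p) (fr Q i l p)

theorem inD_iff_RR (hQ : Q.IsHomogeneous 4) (hI : Idx i j k l) {p : Fin 4 → ℂ}
    (hp : eval p Q = 0) (hi : eval p (pderiv i Q) ≠ 0) (hj : p j ≠ 0) :
    InD Q p ↔ RR Q i k l p = 0 :=
  inD_iff_disc hQ hp (fr_mem_Tg hQ i k p) (fr_mem_Tg hQ i l p) (frame_li hI hi hj)
    (frame_span hQ hI hp hi hj)

lemma differentiable_fr (i k : Fin 4) : Differentiable ℂ (fr Q i k) := by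
  unfold fr
  exact ((differentiable_eval _).smul_const _).sub ((differentiable_eval _).smul_const _)

lemma differentiable_Gc {A B : (Fin 4 → ℂ) → (Fin 4 → ℂ)} (hA : Differentiable ℂ A)
    (hB : Differentiable ℂ B) (n : ℕ) : Differentiable ℂ (fun p => Gc Q p (A p) (B p) n) := by
  have ht : ∀ {a b c d : (Fin 4 → ℂ) → (Fin 4 → ℂ)}, Differentiable ℂ a → Differentiable ℂ b →
      Differentiable ℂ c → Differentiable ℂ d →
      ∃ T : (Fin 4 → ℂ) → ℂ, Differentiable ℂ T ∧ ∀ p, tens Q (a p) (b p) (c p) (d p) = T p := by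
    intro a b c d ha hb hc hd
    exact ⟨_, (differentiable_tens Q).comp (ha.prodMk (hb.prodMk (hc.prodMk hd))), fun p => rfl⟩
  have hp : Differentiable ℂ (fun p : Fin 4 → ℂ => p) := differentiable_id
  obtain ⟨T1, t1, e1⟩ := ht hp hA hA hA
  obtain ⟨T2, t2, e2⟩ := ht hp hA hA hB
  obtain ⟨T3, t3, e3⟩ := ht hp hA hB hB
  obtain ⟨T4, t4, e4⟩ := ht hp hB hB hB
  obtain ⟨T5, t5, e5⟩ := ht hp hp hA hA
  obtain ⟨T6, t6, e6⟩ := ht hp hp hA hB
  obtain ⟨T7, t7, e7⟩ := ht hp hp hB hB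
  obtain ⟨T8, t8, e8⟩ := ht hA hA hA hA
  obtain ⟨T9, t9, e9⟩ := ht hA hA hA hB
  obtain ⟨T10, t10, e10⟩ := ht hA hA hB hB
  obtain ⟨T11, t11, e11⟩ := ht hA hB hB hB
  obtain ⟨T12, t12, e12⟩ := ht hB hB hB hB
  match n with
  | 0 => simp only [Gc, e1, e2, e3, e4, e5, e6, e7, e8, e9, e10, e11, e12]; fun_prop
  | 1 => simp only [Gc, e1, e2, e3, e4, e5, e6, e7, e8, e9, e10, e11, e12]; fun_prop
  | 2 => simp only [Gc, e1, e2, e3, e4, e5, e6, e7, e8, e9, e10, e11, e12]; fun_prop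
  | 3 => simp only [Gc, e1, e2, e3, e4, e5, e6, e7, e8, e9, e10, e11, e12]; fun_prop
  | 4 => simp only [Gc, e1, e2, e3, e4, e5, e6, e7, e8, e9, e10, e11, e12]; fun_prop
  | 5 => simp only [Gc, e1, e2, e3, e4, e5, e6, e7, e8, e9, e10, e11, e12]; fun_prop
  | 6 => simp only [Gc, e1, e2, e3, e4, e5, e6, e7, e8, e9, e10, e11, e12]; fun_prop
  | n + 7 => simp only [Gc]; fun_prop

theorem differentiable_RR (i k l : Fin 4) : Differentiable ℂ (RR Q i k l) := by
  unfold RR disc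
  refine differentiable_res (fun n => ?_) (fun n => ?_)
  · unfold Gs
    exact (differentiable_Gc (differentiable_fr i k) (differentiable_fr i l) _).const_mul _
  · unfold Gt
    exact (differentiable_Gc (differentiable_fr i k) (differentiable_fr i l) _).const_mul _

/-! ### homogeneity -/

lemma fr_smul (hQ : Q.IsHomogeneous 4) (i k : Fin 4) (c : ℂ) (p : Fin 4 → ℂ) :
    fr Q i k (c • p) = c ^ 3 • fr Q i k p := by
  have h : ∀ m, eval (c • p) (pderiv m Q) = c ^ 3 * eval p (pderiv m Q) := fun m =>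
    eval_smul (hQ.pderiv (i := m)) c p
  simp only [fr, h, mul_smul, smul_sub]

lemma Gc_smul (p A B : Fin 4 → ℂ) (c : ℂ) (n : ℕ) :
    Gc Q (c • p) (c ^ 3 • A) (c ^ 3 • B) n = c ^ 20 * Gc Q p A B n := by
  match n with
  | 0 => simp only [Gc, tens_smul1, tens_smul2, tens_smul3, tens_smul4]; ring
  | 1 => simp only [Gc, tens_smul1, tens_smul2, tens_smul3, tens_smul4]; ring
  | 2 => simp only [Gc, tens_smul1, tens_smul2, tens_smul3, tens_smul4]; ring
  | 3 => simp only [Gc, tens_smul1, tens_smul2, tens_smul3, tens_smul4]; ring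
  | 4 => simp only [Gc, tens_smul1, tens_smul2, tens_smul3, tens_smul4]; ring
  | 5 => simp only [Gc, tens_smul1, tens_smul2, tens_smul3, tens_smul4]; ring
  | 6 => simp only [Gc, tens_smul1, tens_smul2, tens_smul3, tens_smul4]; ring
  | n + 7 => simp only [Gc]; ring

lemma pol_const_mul (a : ℂ) (c : ℕ → ℂ) : pol (fun n => a * c n) = C a * pol c := by
  rw [pol, pol, Finset.mul_sum]
  refine Finset.sum_congr rfl (fun n _ => ?_)
  rw [C_mul, mul_assoc]

lemma res_const_mul (a : ℂ) (c d : ℕ → ℂ) :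
    res (fun n => a * c n) (fun n => a * d n) = a ^ 10 * res c d := by
  rw [res, res, pol_const_mul, pol_const_mul, resultant_C_mul_left, resultant_C_mul_right]
  ring

theorem RR_smul (hQ : Q.IsHomogeneous 4) (i k l : Fin 4) (c : ℂ) (p : Fin 4 → ℂ) :
    RR Q i k l (c • p) = c ^ 200 * RR Q i k l p := by
  rw [RR, RR, disc, disc, fr_smul hQ, fr_smul hQ]
  have h1 : Gs Q (c • p) (c ^ 3 • fr Q i k p) (c ^ 3 • fr Q i l p) =
      fun n => c ^ 20 * Gs Q p (fr Q i k p) (fr Q i l p) n := by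
    funext n
    rw [Gs, Gs, Gc_smul]; ring
  have h2 : Gt Q (c • p) (c ^ 3 • fr Q i k p) (c ^ 3 • fr Q i l p) =
      fun n => c ^ 20 * Gt Q p (fr Q i k p) (fr Q i l p) n := by
    funext n
    rw [Gt, Gt, Gc_smul]; ring
  rw [h1, h2, res_const_mul]
  ring

/-- indices `i ≠ j` with `H_i(v) ≠ 0`, `v_j ≠ 0` exist at every point of the punctured cone of a
smooth quartic -/
lemma exists_ij (hQ : Q.IsHomogeneous 4) {v : Fin 4 → ℂ} (hv : v ≠ 0) (hvQ : eval v Q = 0)
    (hs : ∃ i, eval v (pderiv i Q) ≠ 0) :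
    ∃ i j : Fin 4, i ≠ j ∧ eval v (pderiv i Q) ≠ 0 ∧ v j ≠ 0 := by
  obtain ⟨i, hi⟩ := hs
  by_contra hcon
  push Not at hcon
  have h1 : ∀ j, j ≠ i → v j = 0 := fun j hj => hcon i j hj.symm hi
  have h2 := eval_euler hQ v
  rw [hvQ, mul_zero, Finset.sum_eq_single i] at h2
  · have h3 : v i = 0 := (mul_eq_zero.1 h2).resolve_right hi
    exact hv (funext fun m => by
      by_cases hm : m = i
      · rw [hm, h3]; rfl
      · rw [h1 m hm]; rfl)
  · intro m _ hm
    rw [h1 m hm, zero_mul]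
  · intro h; exact absurd (Finset.mem_univ i) h

/-- **Local equation of `D`**: near every point of the punctured cone of a smooth quartic, the
cone `DD Q` is the zero set of one homogeneous entire function. -/
theorem locEq (hQ : Q.IsHomogeneous 4)
    (hsmooth : ∀ p : Fin 4 → ℂ, p ≠ 0 → eval p Q = 0 → ∃ i, eval p (pderiv i Q) ≠ 0)
    {v : Fin 4 → ℂ} (hv : v ≠ 0) (hvQ : eval v Q = 0) :
    ∃ (O : Set (Fin 4 → ℂ)) (F : (Fin 4 → ℂ) → ℂ), IsOpen O ∧ v ∈ O ∧
      (∀ y ∈ O, ∀ t : ℂ, t ≠ 0 → t • y ∈ O) ∧ Differentiable ℂ F ∧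
      (∀ (c : ℂ) (y : Fin 4 → ℂ), F (c • y) = c ^ 200 * F y) ∧
      (∀ p ∈ O, p ≠ 0) ∧
      ∀ p ∈ O, eval p Q = 0 → (InD Q p ↔ F p = 0) := by
  obtain ⟨i, j, hij, hi, hj⟩ := exists_ij hQ hv hvQ (hsmooth v hv hvQ)
  obtain ⟨k, l, hI⟩ := exists_idx hij
  refine ⟨{p | eval p (pderiv i Q) ≠ 0 ∧ p j ≠ 0}, RR Q i k l, ?_, ⟨hi, hj⟩, ?_,
    differentiable_RR i k l, RR_smul hQ i k l, ?_, ?_⟩
  · exact ((differentiable_eval (pderiv i Q)).continuous.isOpen_preimage _ isOpen_ne).inter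
      ((continuous_apply j).isOpen_preimage _ isOpen_ne)
  · rintro y ⟨h1, h2⟩ t ht
    refine ⟨?_, ?_⟩
    · rw [eval_smul (hQ.pderiv (i := i))]
      exact mul_ne_zero (pow_ne_zero _ ht) h1
    · simpa [ht] using h2
  · rintro p ⟨_, h2⟩ rfl
    exact h2 rfl
  · rintro p ⟨h1, h2⟩ hp
    exact inD_iff_RR hQ hI hp h1 h2

/-- `DD Q` is relatively closed in the punctured cone -/
theorem isClosed_DD (hQ : Q.IsHomogeneous 4)
    (hsmooth : ∀ p : Fin 4 → ℂ, p ≠ 0 → eval p Q = 0 → ∃ i, eval p (pderiv i Q) ≠ 0) :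
    ∀ v : Fin 4 → ℂ, v ≠ 0 → eval v Q = 0 → v ∈ closure (DD Q) → v ∈ DD Q := by
  intro v hv hvQ hcl
  obtain ⟨O, F, hO, hvO, -, hF, -, -, hiff⟩ := locEq hQ hsmooth hv hvQ
  refine ⟨⟨hv, hvQ⟩, (hiff v hvO hvQ).2 ?_⟩
  by_contra hne
  have hopen : IsOpen (O ∩ {y | F y ≠ 0}) :=
    hO.inter (hF.continuous.isOpen_preimage _ isOpen_ne)
  obtain ⟨y, ⟨hyO, hyF⟩, hyD⟩ := mem_closure_iff.1 hcl _ hopen ⟨hvO, hne⟩
  exact hyF ((hiff y hyO hyD.1.2).1 hyD.2)

/-- the complement of `DD Q` in the punctured cone is relatively open: every `v ∉ D` has an open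
neighbourhood in `ℂ⁴` free of points of `D` -/
theorem isOpen_compl_DD (hQ : Q.IsHomogeneous 4)
    (hsmooth : ∀ p : Fin 4 → ℂ, p ≠ 0 → eval p Q = 0 → ∃ i, eval p (pderiv i Q) ≠ 0)
    {v : Fin 4 → ℂ} (hv : v ≠ 0) (hvQ : eval v Q = 0) (hvD : ¬ InD Q v) :
    ∃ O : Set (Fin 4 → ℂ), IsOpen O ∧ v ∈ O ∧ ∀ y ∈ O, y ∉ DD Q := by
  have h1 : v ∉ closure (DD Q) := fun h => hvD (isClosed_DD hQ hsmooth v hv hvQ h).2
  exact ⟨(closure (DD Q))ᶜ, isClosed_closure.isOpen_compl, h1, fun y hy hyD =>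
    hy (subset_closure hyD)⟩

/-- in a chart: `D` is the zero set of one holomorphic function of `z ∈ ℂ × ℂ` -/
theorem locEq_chart (hQ : Q.IsHomogeneous 4)
    (hsmooth : ∀ p : Fin 4 → ℂ, p ≠ 0 → eval p Q = 0 → ∃ i, eval p (pderiv i Q) ≠ 0)
    {v : Fin 4 → ℂ} (hv : v ≠ 0) (hvQ : eval v Q = 0)
    (C : Chart {v : Fin 4 → ℂ | v ≠ 0 ∧ eval v Q = 0} v) :
    ∃ (ρ : ℝ) (G : ℂ × ℂ → ℂ), 0 < ρ ∧ ρ ≤ C.r ∧
      DifferentiableOn ℂ G (Metric.ball 0 C.r) ∧
      ∀ z ∈ Metric.ball (0 : ℂ × ℂ) ρ, (C.x z ∈ DD Q ↔ G z = 0) := by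
  obtain ⟨O, F, hO, hvO, -, hF, -, -, hiff⟩ := locEq hQ hsmooth hv hvQ
  have hcont : ContinuousAt C.x 0 :=
    (C.diff_x.differentiableAt (Metric.isOpen_ball.mem_nhds
      (Metric.mem_ball_self C.r_pos))).continuousAt
  have hnh : C.x ⁻¹' O ∈ nhds (0 : ℂ × ℂ) := by
    refine hcont.preimage_mem_nhds (hO.mem_nhds ?_)
    rw [C.x_zero]; exact hvO
  obtain ⟨ρ, hρ, hρO⟩ := Metric.mem_nhds_iff.1 hnh
  refine ⟨min ρ C.r, fun z => F (C.x z), lt_min hρ C.r_pos, min_le_right _ _,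
    hF.comp_differentiableOn C.diff_x, fun z hz => ?_⟩
  have hzO : C.x z ∈ O := hρO (Metric.ball_subset_ball (min_le_left _ _) hz)
  have hzS := (C.x_mem z (Metric.ball_subset_ball (min_le_right _ _) hz)).1
  constructor
  · intro h
    exact (hiff _ hzO hzS.2).1 h.2
  · intro h
    exact ⟨hzS, (hiff _ hzO hzS.2).2 h⟩

end frame

end Crest.Agent.R279.LocEq
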