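import Crest.Agent.R279.NoStrict471
import Crest.Agent.R279.MaxB855

/-!
# R279 (helper471): `Max2` from helper855's `exists_norm_le`; `NoStrictMax` unconditionally
-/

set_option autoImplicit false

namespace Crest.Agent.R279.HV

open Filter Topology MvPolynomial Metric Set

theorem max2 : Max2 := by
  intro g φ U hU h0U hg hφ hg0 N hN
  obtain ⟨r, hr, hrs⟩ := Metric.mem_nhds_iff.1 (inter_mem (hU.mem_nhds h0U) hN)
  obtain ⟨z, hz, hz0, hgz, hle⟩ := MaxP.exists_norm_le hr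
    (hg.mono fun z hz => (hrs hz).1) (hφ.mono fun z hz => (hrs hz).1) hg0
  exact ⟨z, (hrs hz).2, hz0, hgz, hle⟩

theorem noStrictMax_DD' {Q : MvPolynomial (Fin 4) ℂ} (hQ : Q.IsHomogeneous 4)
    (hsmooth : ∀ p : Fin 4 → ℂ, p ≠ 0 → eval p Q = 0 → ∃ i, eval p (pderiv i Q) ≠ 0) :
    NoStrictMax (DD Q) :=
  noStrictMax_DD max2 hQ hsmooth

theorem noStrictMax_zero' {Q : MvPolynomial (Fin 4) ℂ} (hQ : Q.IsHomogeneous 4)
    (hsmooth : ∀ p : Fin 4 → ℂ, p ≠ 0 → eval p Q = 0 → ∃ i, eval p (pderiv i Q) ≠ 0)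
    {G : Set (Fin 4 → ℂ)} (hG0 : ∀ v ∈ G, v ≠ 0 ∧ eval v Q = 0)
    (hF : ∀ v ∈ G, ∃ (F : (Fin 4 → ℂ) → ℂ) (O : Set (Fin 4 → ℂ)), IsOpen O ∧ v ∈ O ∧
      DifferentiableOn ℂ F O ∧ F v = 0 ∧ ∀ y ∈ O, y ≠ 0 → eval y Q = 0 → F y = 0 → y ∈ G) :
    NoStrictMax G :=
  noStrictMax_zero max2 hQ hsmooth hG0 hF

end Crest.Agent.R279.HV
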