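import Mathlib
import Crest.Agent.R279.Defs765
import Crest.Agent.R279.Runge250

/-!
# R279: (4.3) — from approximation of a local section to good points (helper556)
-/

set_option autoImplicit false

namespace Crest.Agent.R279.Boot

open Metric Set Filter Topology

/-- If a map `f : ℂ^m → V` can be approximated on `K` and every point `y ∈ V` near `v` is
`α y • f (ζ y)` with `ζ v` in the interior of `K`, then `v` is a good point. -/
theorem goodPt_of_capOn {V : Set C4} (hV : ∀ v ∈ V, ∀ t : ℂ, t ≠ 0 → t • v ∈ V)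
    {m : ℕ} {K : Set (Fin m → ℂ)} {f : (Fin m → ℂ) → C4} (hcap : CapOn V K f)
    (hfc : ContinuousOn f K) {v : C4} (hv : v ∈ V) {O : Set C4} (hO : IsOpen O) (hvO : v ∈ O)
    {α : C4 → ℂ} {ζ : C4 → Fin m → ℂ} (hα : DifferentiableOn ℂ α O)
    (hζ : DifferentiableOn ℂ ζ O) (hα0 : α v ≠ 0) (hζK : ζ v ∈ interior K)
    (hrep : ∀ y ∈ O, y ∈ V → y = α y • f (ζ y)) : GoodPt V v := by
  refine ⟨hv, ?_⟩
  rintro N F ⟨O', hO', hsub, hFd, hFV⟩ hF0
  have h0O' : (0 : Fin N → ℂ) ∈ O' := hsub rfl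
  -- the open set on which everything is defined
  set Ω₁ : Set (Fin N → ℂ) := O' ∩ F ⁻¹' O with hΩ₁
  have hΩ₁o : IsOpen Ω₁ := hFd.continuousOn.isOpen_inter_preimage hO' hO
  have h0Ω₁ : (0 : Fin N → ℂ) ∈ Ω₁ := ⟨h0O', by show F 0 ∈ O; rw [hF0]; exact hvO⟩
  have hFd₁ : DifferentiableOn ℂ F Ω₁ := hFd.mono inter_subset_left
  have hαF : DifferentiableOn ℂ (fun w => (α v)⁻¹ * α (F w)) Ω₁ :=
    (hα.comp hFd₁ (fun w hw => hw.2)).const_mul _
  have hζF : DifferentiableOn ℂ (fun w => ζ (F w)) Ω₁ := hζ.comp hFd₁ (fun w hw => hw.2)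
  have hpair : ContinuousOn (fun w => ((α v)⁻¹ * α (F w), ζ (F w))) Ω₁ :=
    hαF.continuousOn.prodMk hζF.continuousOn
  set Ω : Set (Fin N → ℂ) := Ω₁ ∩
    (fun w => ((α v)⁻¹ * α (F w), ζ (F w))) ⁻¹' (Complex.slitPlane ×ˢ interior K) with hΩ
  have hΩo : IsOpen Ω := hpair.isOpen_inter_preimage hΩ₁o
    (Complex.isOpen_slitPlane.prod isOpen_interior)
  have h0Ω : (0 : Fin N → ℂ) ∈ Ω := by
    refine ⟨h0Ω₁, ?_, ?_⟩
    · show (α v)⁻¹ * α (F 0) ∈ Complex.slitPlane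
      rw [hF0, inv_mul_cancel₀ hα0]
      exact Complex.one_mem_slitPlane
    · show ζ (F 0) ∈ interior K
      rw [hF0]
      exact hζK
  have hΩsub : Ω ⊆ Ω₁ := inter_subset_left
  -- the logarithm
  set μ : (Fin N → ℂ) → ℂ := fun w => Complex.log ((α v)⁻¹ * α (F w)) with hμ
  have hμd : DifferentiableOn ℂ μ Ω := (hαF.mono hΩsub).clog (fun w hw => hw.2.1)
  have hμexp : ∀ w ∈ Ω, α v * Complex.exp (μ w) = α (F w) := by
    intro w hw
    have h1 : (α v)⁻¹ * α (F w) ≠ 0 := Complex.slitPlane_ne_zero hw.2.1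
    rw [hμ]
    simp only
    rw [Complex.exp_log h1, ← mul_assoc, mul_inv_cancel₀ hα0, one_mul]
  have hFrep : ∀ w ∈ Ω, F w = (α v * Complex.exp (μ w)) • f (ζ (F w)) := by
    intro w hw
    rw [hμexp w hw]
    exact hrep _ (hΩsub hw).2 (hFV (hΩsub hw).1)
  -- the radius
  obtain ⟨ρ, hρ, hρΩ⟩ : ∃ ρ > 0, closedBall (0 : Fin N → ℂ) ρ ⊆ Ω :=
    Metric.nhds_basis_closedBall.mem_iff.mp (hΩo.mem_nhds h0Ω)
  refine ⟨ρ, hρ, fun R ε hε => ?_⟩
  set C := closedBall (0 : Fin N → ℂ) ρ with hC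
  have hCc : IsCompact C := isCompact_closedBall _ _
  have hCconv : Convex ℝ C := convex_closedBall _ _
  have hζC : ContinuousOn (fun w => ζ (F w)) C := (hζF.mono hΩsub).continuousOn.mono hρΩ
  have hζCc : IsCompact ((fun w => ζ (F w)) '' C) := hCc.image_of_continuousOn hζC
  have hζCK : (fun w => ζ (F w)) '' C ⊆ interior K := by
    rintro _ ⟨w, hw, rfl⟩
    exact (hρΩ hw).2.2
  obtain ⟨δ, hδ, hδK⟩ := hζCc.exists_cthickening_subset_open isOpen_interior hζCK
  set K₁ := cthickening δ ((fun w => ζ (F w)) '' C) with hK₁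
  have hK₁c : IsCompact K₁ := hζCc.cthickening
  have hK₁K : K₁ ⊆ K := hδK.trans interior_subset
  have hfK₁ : ContinuousOn f K₁ := hfc.mono hK₁K
  -- bounds
  obtain ⟨B, hB⟩ : ∃ B : ℝ, ∀ z ∈ K₁, ‖f z‖ ≤ B := hK₁c.exists_bound_of_continuousOn hfK₁
  obtain ⟨A, hA⟩ : ∃ A : ℝ, ∀ w ∈ C, ‖α v * Complex.exp (μ w)‖ ≤ A :=
    hCc.exists_bound_of_continuousOn
      (continuousOn_const.mul (Complex.continuous_exp.comp_continuousOn
        (hμd.continuousOn.mono hρΩ)))
  have hA0 : 0 ≤ A := (norm_nonneg _).trans (hA 0 (mem_closedBall_self hρ.le))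
  have hB0 : 0 ≤ B := by
    have h1 : ζ (F 0) ∈ K₁ := by
      refine self_subset_cthickening _ ⟨0, mem_closedBall_self hρ.le, rfl⟩
    exact (norm_nonneg _).trans (hB _ h1)
  -- small numbers
  set ε₁ := ε / (4 * (A + 1) * (B + 2)) with hε₁
  have hε₁0 : 0 < ε₁ := by positivity
  obtain ⟨ε₂, hε₂0, hε₂1, hε₂ε₁⟩ : ∃ ε₂ : ℝ, 0 < ε₂ ∧ ε₂ ≤ 1 ∧ ε₂ ≤ ε₁ :=
    ⟨min 1 ε₁, lt_min one_pos hε₁0, min_le_left _ _, min_le_right _ _⟩
  have huc := hK₁c.uniformContinuousOn_of_continuous hfK₁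
  rw [Metric.uniformContinuousOn_iff] at huc
  obtain ⟨δ₁, hδ₁, hδ₁'⟩ := huc ε₂ hε₂0
  obtain ⟨pζ, hpζ⟩ := CRunge.convex_runge_pi hCc hCconv hΩo hρΩ (hζF.mono hΩsub)
    (lt_min hδ hδ₁)
  obtain ⟨pμ, hpμ⟩ := CRunge.convex_runge hCc hCconv hΩo hρΩ hμd hε₂0
  set Z : (Fin N → ℂ) → (Fin m → ℂ) := fun w j => MvPolynomial.eval w (pζ j) with hZ
  have hZd : Differentiable ℂ Z := by
    rw [differentiable_pi]
    exact fun j => CRunge.differentiable_eval (pζ j)
  -- the large radius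
  obtain ⟨R', hR'⟩ : ∃ R' : ℝ, MapsTo Z (ball 0 R) (ball 0 R') := by
    obtain ⟨M, hM⟩ := (isCompact_closedBall (0 : Fin N → ℂ) R).exists_bound_of_continuousOn
      hZd.continuous.continuousOn
    refine ⟨M + 1, fun w hw => ?_⟩
    rw [mem_ball_zero_iff]
    exact lt_of_le_of_lt (hM w (ball_subset_closedBall hw)) (by linarith)
  obtain ⟨G, hGd, hGV, hGf⟩ := hcap R' ε₂ hε₂0
  refine ⟨fun w => (α v * Complex.exp (MvPolynomial.eval w pμ)) • G (Z w), ?_, ?_, ?_⟩
  · have h1 : DifferentiableOn ℂ (fun w => G (Z w)) (ball 0 R) :=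
      hGd.comp hZd.differentiableOn hR'
    have h2 : Differentiable ℂ (fun w : Fin N → ℂ => α v * Complex.exp (MvPolynomial.eval w pμ)) :=
      (CRunge.differentiable_eval pμ).cexp.const_mul _
    exact h2.differentiableOn.smul h1
  · intro w hw
    exact hV _ (hGV (hR' hw)) _ (mul_ne_zero hα0 (Complex.exp_ne_zero _))
  · intro w hw
    have hwC : w ∈ C := hw
    have hwΩ := hρΩ hwC
    have hz1 : ‖Z w - ζ (F w)‖ < min δ δ₁ := hpζ w hwC
    have hm1 : ‖MvPolynomial.eval w pμ - μ w‖ < ε₂ := hpμ w hwC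
    have hζmem : ζ (F w) ∈ K₁ := self_subset_cthickening _ ⟨w, hwC, rfl⟩
    have hZmem : Z w ∈ K₁ := by
      refine mem_cthickening_of_dist_le (Z w) (ζ (F w)) δ _ ⟨w, hwC, rfl⟩ ?_
      rw [dist_eq_norm]
      exact (hz1.trans_le (min_le_left _ _)).le
    have hfZ : ‖f (Z w) - f (ζ (F w))‖ < ε₂ := by
      rw [← dist_eq_norm]
      refine hδ₁' _ hZmem _ hζmem ?_
      rw [dist_eq_norm]
      exact hz1.trans_le (min_le_right _ _)
    have hGZ : ‖G (Z w) - f (Z w)‖ < ε₂ := hGf _ (hK₁K hZmem)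
    have hGn : ‖G (Z w)‖ ≤ B + 1 := by
      have h1 : G (Z w) = (G (Z w) - f (Z w)) + f (Z w) := by abel
      rw [h1]
      refine (norm_add_le _ _).trans ?_
      have := hB _ hZmem
      linarith
    have hGf' : ‖G (Z w) - f (ζ (F w))‖ ≤ 2 * ε₂ := by
      have h1 : G (Z w) - f (ζ (F w)) = (G (Z w) - f (Z w)) + (f (Z w) - f (ζ (F w))) := by abel
      rw [h1]
      refine (norm_add_le _ _).trans ?_
      linarith
    have hexp : ‖α v * Complex.exp (MvPolynomial.eval w pμ) - α v * Complex.exp (μ w)‖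
        ≤ A * (2 * ε₂) := by
      have h1 : α v * Complex.exp (MvPolynomial.eval w pμ) - α v * Complex.exp (μ w) =
          (α v * Complex.exp (μ w)) * (Complex.exp (MvPolynomial.eval w pμ - μ w) - 1) := by
        have h2 : Complex.exp (MvPolynomial.eval w pμ) =
            Complex.exp (μ w) * Complex.exp (MvPolynomial.eval w pμ - μ w) := by
          rw [← Complex.exp_add]
          congr 1
          ring
        rw [h2]
        ring
      rw [h1, norm_mul]
      have h3 : ‖Complex.exp (MvPolynomial.eval w pμ - μ w) - 1‖ ≤ 2 * ε₂ := by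
        refine (Complex.norm_exp_sub_one_le (by linarith)).trans ?_
        linarith
      exact mul_le_mul (hA w hwC) h3 (norm_nonneg _) hA0
    show ‖(α v * Complex.exp (MvPolynomial.eval w pμ)) • G (Z w) - F w‖ < ε
    have hsplit : (α v * Complex.exp (MvPolynomial.eval w pμ)) • G (Z w) - F w =
        (α v * Complex.exp (MvPolynomial.eval w pμ) - α v * Complex.exp (μ w)) • G (Z w) +
        (α v * Complex.exp (μ w)) • (G (Z w) - f (ζ (F w))) := by
      have h1 := hFrep w hwΩ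
      generalize hg : f (ζ (F w)) = g at h1 ⊢
      rw [sub_smul, smul_sub, h1]
      abel
    rw [hsplit]
    calc ‖(α v * Complex.exp (MvPolynomial.eval w pμ) - α v * Complex.exp (μ w)) • G (Z w) +
        (α v * Complex.exp (μ w)) • (G (Z w) - f (ζ (F w)))‖
        ≤ ‖α v * Complex.exp (MvPolynomial.eval w pμ) - α v * Complex.exp (μ w)‖ * ‖G (Z w)‖ +
          ‖α v * Complex.exp (μ w)‖ * ‖G (Z w) - f (ζ (F w))‖ := by
          refine (norm_add_le _ _).trans ?_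
          rw [norm_smul, norm_smul]
      _ ≤ A * (2 * ε₂) * (B + 1) + A * (2 * ε₂) := by
          gcongr
          exact hA w hwC
      _ = 2 * A * (B + 2) * ε₂ := by ring
      _ ≤ 2 * A * (B + 2) * ε₁ := by gcongr
      _ < 4 * (A + 1) * (B + 2) * ε₁ := by
          have h1 : 2 * A * (B + 2) < 4 * (A + 1) * (B + 2) := by nlinarith
          exact mul_lt_mul_of_pos_right h1 hε₁0
      _ = ε := by
          rw [hε₁]
          field_simp

end Crest.Agent.R279.Boot
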