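import Mathlib
import Crest.Agent.R279.Final556
import Crest.Agent.R279.Boot556
import Crest.Agent.R279.ThinCalc556

/-!
# R279, PART 7: bootstrapping.  If the set of bad points is thin then all points are good.
-/

set_option autoImplicit false

namespace Crest.Agent.R279.Boot

open Metric Set Filter Topology

theorem vstar_conic {Q : MvPolynomial (Fin 4) ℂ} {d : ℕ} (hQ : Q.IsHomogeneous d) :
    ∀ v ∈ Vstar Q, ∀ t : ℂ, t ≠ 0 → t • v ∈ Vstar Q := by
  rintro v ⟨hv, hQv⟩ t ht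
  exact ⟨smul_ne_zero ht hv, by rw [eval_smul hQ, hQv, mul_zero]⟩

theorem capOn_of_good {E : Type*} [NormedAddCommGroup E] [NormedSpace ℂ E] {V : Set C4}
    {K : Set E} {f : E → C4} (h : Good V K f) (hf : HolNear V f K) : CapOn V K f := by
  obtain ⟨O, hO, hKO, hd, hV⟩ := hf
  obtain ⟨ρ, hρ, hG⟩ := h 0 (fun p => f p.1)
    ⟨O ×ˢ univ, hO.prod isOpen_univ, prod_mono hKO (subset_univ _),
      hd.comp differentiableOn_fst (fun p hp => hp.1), fun p hp => hV hp.1⟩ (fun x _ => rfl)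
  intro R ε hε
  obtain ⟨G, hGd, hGV, hGf⟩ := hG R ε hε
  have hmaps : MapsTo (fun x : E => (x, (0 : Fin 0 → ℂ))) (ball 0 R) (ball 0 R) := by
    intro x hx
    rw [mem_ball_zero_iff] at hx ⊢
    rw [Prod.norm_def, norm_zero, max_eq_left (norm_nonneg x)]
    exact hx
  refine ⟨fun x => G (x, 0), hGd.comp ?_ hmaps, fun x hx => hGV (hmaps hx), ?_⟩
  · exact (differentiable_id.prodMk (differentiable_const _)).differentiableOn
  · intro x hx
    exact hGf x hx 0 (mem_closedBall_self hρ.le)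

theorem goodPt_of_chart {V : Set C4} (hV : ∀ v ∈ V, ∀ t : ℂ, t ≠ 0 → t • v ∈ V) {v : C4}
    (C : Chart V v) (L : (Fin 2 → ℂ) ≃L[ℂ] ℂ × ℂ) {K : Set (Fin 2 → ℂ)}
    (hK : ∀ y ∈ K, L y ∈ ball (0 : ℂ × ℂ) C.r) (hcap : CapOn V K (fun y => C.x (L y)))
    {y₀ : Fin 2 → ℂ} (hy₀ : y₀ ∈ interior K) {t : ℂ} (ht : t ≠ 0) :
    GoodPt V (t • C.x (L y₀)) := by
  have hy₀K : y₀ ∈ K := interior_subset hy₀
  have hLy₀ := hK y₀ hy₀K
  have hinv : DifferentiableOn ℂ (fun y => (C.a y)⁻¹) C.O :=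
    C.a.differentiable.differentiableOn.inv C.a_ne
  refine goodPt_of_capOn hV hcap ?_ ?_ C.isOpen_O ?_ (α := C.a)
    (ζ := fun y => L.symm ((C.a y)⁻¹ • C.b y)) ?_ ?_ ?_ ?_ ?_
  · exact C.diff_x.continuousOn.comp L.continuous.continuousOn hK
  · exact hV _ (C.x_mem _ hLy₀).1 t ht
  · exact C.smul_O _ (C.x_mem _ hLy₀).2 t ht
  · exact C.a.differentiable.differentiableOn
  · exact L.symm.differentiable.comp_differentiableOn
      (hinv.smul C.b.differentiable.differentiableOn)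
  · rw [map_smul, C.a_x _ hLy₀, smul_eq_mul, mul_one]
    exact ht
  · have h1 : (C.a (t • C.x (L y₀)))⁻¹ • C.b (t • C.x (L y₀)) = L y₀ := by
      rw [map_smul, map_smul, C.a_x _ hLy₀, C.b_x _ hLy₀, smul_eq_mul, mul_one, smul_smul,
        inv_mul_cancel₀ ht, one_smul]
    rw [h1, L.symm_apply_apply]
    exact hy₀
  · intro y hyO hyV
    rw [L.apply_symm_apply]
    exact C.eq_x y hyO hyV

/-- good points form a relatively open set -/
theorem goodPt_nhds {V : Set C4} (hV : ∀ v ∈ V, ∀ t : ℂ, t ≠ 0 → t • v ∈ V) {v : C4}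
    (C : Chart V v) (h : GoodPt V v) :
    ∃ W : Set C4, IsOpen W ∧ v ∈ W ∧ ∀ y ∈ W, y ∈ V → GoodPt V y := by
  set L : (Fin 2 → ℂ) ≃L[ℂ] ℂ × ℂ := ContinuousLinearEquiv.finTwoArrow ℂ ℂ with hL
  have hUo : IsOpen (L ⁻¹' ball (0 : ℂ × ℂ) C.r) := isOpen_ball.preimage L.continuous
  have h0U : (0 : Fin 2 → ℂ) ∈ L ⁻¹' ball (0 : ℂ × ℂ) C.r := by
    show L 0 ∈ ball (0 : ℂ × ℂ) C.r
    rw [map_zero]
    exact mem_ball_self C.r_pos
  obtain ⟨ρ, hρ, hG⟩ := h.2 2 (fun y => C.x (L y))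
    ⟨_, hUo, singleton_subset_iff.mpr h0U,
      C.diff_x.comp L.differentiable.differentiableOn (fun y hy => hy),
      fun y hy => (C.x_mem _ hy).1⟩ (by rw [map_zero, C.x_zero])
  obtain ⟨ρ₀, hρ₀, hρ₀U⟩ : ∃ ρ₀ > 0, closedBall (0 : Fin 2 → ℂ) ρ₀ ⊆ L ⁻¹' ball (0 : ℂ × ℂ) C.r :=
    Metric.nhds_basis_closedBall.mem_iff.mp (hUo.mem_nhds h0U)
  set ρ' := min ρ ρ₀ with hρ'
  have hρ'0 : 0 < ρ' := lt_min hρ hρ₀
  have hcap : CapOn V (closedBall (0 : Fin 2 → ℂ) ρ') (fun y => C.x (L y)) := by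
    intro R ε hε
    obtain ⟨G, hGd, hGV, hGf⟩ := hG R ε hε
    exact ⟨G, hGd, hGV, fun y hy => hGf y (closedBall_subset_closedBall (min_le_left _ _) hy)⟩
  have hK : ∀ y ∈ closedBall (0 : Fin 2 → ℂ) ρ', L y ∈ ball (0 : ℂ × ℂ) C.r :=
    fun y hy => hρ₀U (closedBall_subset_closedBall (min_le_right _ _) hy)
  have hinv : ContinuousOn (fun y => L.symm ((C.a y)⁻¹ • C.b y)) C.O :=
    L.symm.continuous.comp_continuousOn
      ((C.a.continuous.continuousOn.inv₀ C.a_ne).smul C.b.continuous.continuousOn)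
  refine ⟨C.O ∩ (fun y => L.symm ((C.a y)⁻¹ • C.b y)) ⁻¹' ball 0 ρ',
    hinv.isOpen_inter_preimage C.isOpen_O isOpen_ball, ⟨?_, ?_⟩, ?_⟩
  · have := (C.x_mem 0 (mem_ball_self C.r_pos)).2
    rwa [C.x_zero] at this
  · show L.symm ((C.a v)⁻¹ • C.b v) ∈ ball 0 ρ'
    have h1 := C.b_x 0 (mem_ball_self C.r_pos)
    rw [C.x_zero] at h1
    rw [h1, smul_zero, map_zero]
    exact mem_ball_self hρ'0
  · rintro y ⟨hyO, hy⟩ hyV
    have h1 := goodPt_of_chart hV C L hK hcap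
      (y₀ := L.symm ((C.a y)⁻¹ • C.b y)) (ball_subset_interior_closedBall hy) (C.a_ne y hyO)
    rw [L.apply_symm_apply, ← C.eq_x y hyO hyV] at h1
    exact h1

/-- the shear `(s, w) ↦ (s, τ s + w)` -/
noncomputable def shearEquiv (τ : ℂ) : (Fin 2 → ℂ) ≃L[ℂ] ℂ × ℂ :=
  LinearEquiv.toContinuousLinearEquiv
    { toFun := fun y => (y 0, τ * y 0 + y 1)
      invFun := fun z => ![z.1, z.2 - τ * z.1]
      map_add' := by
        intro x y
        simp only [Pi.add_apply, Prod.mk_add_mk, Prod.mk.injEq, true_and]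
        ring
      map_smul' := by
        intro c x
        simp only [Pi.smul_apply, smul_eq_mul, RingHom.id_apply, Prod.smul_mk, Prod.mk.injEq,
          true_and]
        ring
      left_inv := by
        intro y
        ext i
        fin_cases i <;> simp
      right_inv := by
        intro z
        simp }

theorem shearEquiv_apply (τ : ℂ) (y : Fin 2 → ℂ) : shearEquiv τ y = (y 0, τ * y 0 + y 1) := rfl

theorem isCompact_rectBd (a b c d : ℝ) : IsCompact (rectBd a b c d) := by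
  have hclosed : IsClosed (rectBd a b c d) := by
    have h1 : IsClosed (rect a b c d) := by
      have : rect a b c d = (Complex.re ⁻¹' Icc a b) ∩ (Complex.im ⁻¹' Icc c d) := rfl
      rw [this]
      exact (isClosed_Icc.preimage Complex.continuous_re).inter
        (isClosed_Icc.preimage Complex.continuous_im)
    have h2 : IsClosed {z : ℂ | z.re = a ∨ z.re = b ∨ z.im = c ∨ z.im = d} :=
      (isClosed_eq Complex.continuous_re continuous_const).union
        ((isClosed_eq Complex.continuous_re continuous_const).union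
          ((isClosed_eq Complex.continuous_im continuous_const).union
            (isClosed_eq Complex.continuous_im continuous_const)))
    exact h1.inter h2
  refine Metric.isCompact_of_isClosed_isBounded hclosed ?_
  refine (Metric.isBounded_closedBall (x := (0 : ℂ)) (r := |a| + |b| + (|c| + |d|))).subset ?_
  rintro z ⟨⟨hre, him⟩, -⟩
  rw [mem_closedBall_zero_iff]
  refine (Complex.norm_le_abs_re_add_abs_im z).trans ?_
  have h1 : |z.re| ≤ |a| + |b| := by
    rw [abs_le]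
    constructor
    · have := neg_abs_le a
      have := abs_nonneg b
      linarith [hre.1]
    · have := le_abs_self b
      have := abs_nonneg a
      linarith [hre.2]
  have h2 : |z.im| ≤ |c| + |d| := by
    rw [abs_le]
    constructor
    · have := neg_abs_le c
      have := abs_nonneg d
      linarith [him.1]
    · have := le_abs_self d
      have := abs_nonneg c
      linarith [him.2]
  linarith

/-- a nondegenerate interval contains points outside a countable set -/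
theorem exists_notMem_countable {T : Set ℝ} (hT : T.Countable) {a b : ℝ} (hab : a < b) :
    ∃ ρ ∈ Ioo a b, ρ ∉ T := by
  by_contra h
  push Not at h
  have h1 : (Ioo a b).Countable := hT.mono h
  have h2 := h1.measure_zero (MeasureTheory.volume : MeasureTheory.Measure ℝ)
  rw [Real.volume_Ioo, ENNReal.ofReal_eq_zero] at h2
  linarith

/-- **PART 7**, abstract form: `V` is a cone with charts. -/
theorem boot_of_charts {V : Set C4} (hV : ∀ v ∈ V, ∀ t : ℂ, t ≠ 0 → t • v ∈ V)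
    (hch : ∀ v ∈ V, Nonempty (Chart V v)) (h42 : Cor42 V)
    (hthin : Thin V {v | ¬ GoodPt V v}) : ∀ v ∈ V, GoodPt V v := by
  intro v hv
  obtain ⟨C⟩ := hch v hv
  obtain ⟨τ, hτ⟩ := hthin.exists_direction C 0
  set L := shearEquiv τ with hL
  have hLval : ∀ y : Fin 2 → ℂ, L y = (y 0, τ * y 0 + y 1) := shearEquiv_apply τ
  have hUo : IsOpen (L ⁻¹' ball (0 : ℂ × ℂ) C.r) := isOpen_ball.preimage L.continuous
  have h0U : (0 : Fin 2 → ℂ) ∈ L ⁻¹' ball (0 : ℂ × ℂ) C.r := by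
    show L 0 ∈ ball (0 : ℂ × ℂ) C.r
    rw [map_zero]
    exact mem_ball_self C.r_pos
  obtain ⟨ρ₀, hρ₀, hρ₀U⟩ : ∃ ρ₀ > 0, closedBall (0 : Fin 2 → ℂ) ρ₀ ⊆ L ⁻¹' ball (0 : ℂ × ℂ) C.r :=
    Metric.nhds_basis_closedBall.mem_iff.mp (hUo.mem_nhds h0U)
  -- the size of the first square
  set T : Set ℂ := {s : ℂ | (0 : ℂ × ℂ) + s • ((1 : ℂ), τ) ∈ ball (0 : ℂ × ℂ) C.r ∧
      C.x (0 + s • ((1 : ℂ), τ)) ∈ {v | ¬ GoodPt V v}} with hT
  obtain ⟨ρ, ⟨hρ0, hρρ₀⟩, hρT⟩ := exists_notMem_countable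
    ((hτ.image (fun s => |s.re|)).union (hτ.image (fun s => |s.im|))) (a := 0) (b := ρ₀ / 2)
    (by positivity)
  -- norm estimates on rectangles
  have hrect : ∀ (σ : ℝ) (z : ℂ), z ∈ rect (-σ) σ (-σ) σ → ‖z‖ ≤ 2 * σ := by
    rintro σ z ⟨hre, him⟩
    refine (Complex.norm_le_abs_re_add_abs_im z).trans ?_
    have h1 : |z.re| ≤ σ := abs_le.mpr hre
    have h2 : |z.im| ≤ σ := abs_le.mpr him
    linarith
  have hbox : ∀ s w : ℂ, ‖s‖ ≤ ρ₀ → ‖w‖ ≤ ρ₀ → L ![s, w] ∈ ball (0 : ℂ × ℂ) C.r := by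
    intro s w hs hw
    refine hρ₀U ?_
    rw [mem_closedBall_zero_iff, pi_norm_le_iff_of_nonneg hρ₀.le]
    intro i
    fin_cases i
    · exact hs
    · exact hw
  -- good points on the boundary of the first square
  have hbd : ∀ s ∈ rectBd (-ρ) ρ (-ρ) ρ, GoodPt V (C.x (L ![s, 0])) := by
    rintro s ⟨hs, hs'⟩
    have hsn : ‖s‖ ≤ ρ₀ := (hrect ρ s hs).trans (by linarith)
    have h1 := hbox s 0 hsn (by rw [norm_zero]; exact hρ₀.le)
    have h2 : L ![s, 0] = (0 : ℂ × ℂ) + s • ((1 : ℂ), τ) := by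
      rw [hLval]
      simp [mul_comm]
    by_contra hbad
    have hsT : s ∈ T := by
      refine ⟨by rwa [← h2], ?_⟩
      rw [← h2]
      exact hbad
    apply hρT
    rcases hs' with h | h | h | h
    · exact Or.inl ⟨s, hsT, by simp only; rw [h, abs_neg, abs_of_pos hρ0]⟩
    · exact Or.inl ⟨s, hsT, by simp only; rw [h, abs_of_pos hρ0]⟩
    · exact Or.inr ⟨s, hsT, by simp only; rw [h, abs_neg, abs_of_pos hρ0]⟩
    · exact Or.inr ⟨s, hsT, by simp only; rw [h, abs_of_pos hρ0]⟩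
  -- the tube lemma
  have hmk : Continuous (fun p : ℂ × ℂ => (![p.1, p.2] : Fin 2 → ℂ)) := by
    refine continuous_pi fun i => ?_
    fin_cases i
    · exact continuous_fst
    · exact continuous_snd
  set n : Set (ℂ × ℂ) := interior {p : ℂ × ℂ | GoodPt V (C.x (L ![p.1, p.2]))} with hn
  have hsub : rectBd (-ρ) ρ (-ρ) ρ ×ˢ ({0} : Set ℂ) ⊆ n := by
    rintro ⟨s, w⟩ ⟨hs, hw⟩
    rw [mem_singleton_iff] at hw
    simp only at hw
    subst hw
    have hsn : ‖s‖ ≤ ρ₀ := (hrect ρ s hs.1).trans (by linarith)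
    have hin := hbox s 0 hsn (by rw [norm_zero]; exact hρ₀.le)
    have hgood := hbd s hs
    have hVs : C.x (L ![s, 0]) ∈ V := (C.x_mem _ hin).1
    obtain ⟨C'⟩ := hch _ hVs
    obtain ⟨W, hWo, hvW, hW⟩ := goodPt_nhds hV C' hgood
    have hin' : ∀ᶠ p : ℂ × ℂ in 𝓝 (s, (0 : ℂ)), L ![p.1, p.2] ∈ ball (0 : ℂ × ℂ) C.r :=
      ((isOpen_ball.preimage (L.continuous.comp hmk)).mem_nhds hin)
    have hcont : ContinuousAt (fun p : ℂ × ℂ => C.x (L ![p.1, p.2])) (s, (0 : ℂ)) := by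
      have h1 : ContinuousAt C.x (L ![s, 0]) :=
        (C.diff_x.continuousOn).continuousAt (isOpen_ball.mem_nhds hin)
      exact ContinuousAt.comp (f := fun p : ℂ × ℂ => L ![p.1, p.2]) (g := C.x) h1
        (L.continuous.comp hmk).continuousAt
    rw [hn, mem_interior_iff_mem_nhds]
    filter_upwards [hin', hcont.preimage_mem_nhds (hWo.mem_nhds hvW)] with p hp hpW
    exact hW _ hpW (C.x_mem _ hp).1
  obtain ⟨u, w, hu, hw, hsu, h0w, huw⟩ := generalized_tube_lemma (isCompact_rectBd (-ρ) ρ (-ρ) ρ)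
    isCompact_singleton isOpen_interior hsub
  obtain ⟨η₀, hη₀, hη₀w⟩ := Metric.isOpen_iff.mp hw 0 (h0w rfl)
  obtain ⟨η, hη, hηη₀, hηρ₀⟩ : ∃ η : ℝ, 0 < η ∧ 2 * η < η₀ ∧ 2 * η ≤ ρ₀ :=
    ⟨min (η₀ / 4) (ρ₀ / 2), lt_min (by positivity) (by positivity), by
      have := min_le_left (η₀ / 4) (ρ₀ / 2)
      linarith, by
      have := min_le_right (η₀ / 4) (ρ₀ / 2)
      linarith⟩
  -- the birectangle
  set P : Fin 2 → ℝ × ℝ × ℝ × ℝ := ![(-ρ, ρ, -ρ, ρ), (-η, η, -η, η)] with hP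
  have hPok : ∀ i, RectOK (P i) := by
    intro i
    fin_cases i
    · show (-ρ < ρ) ∧ (-ρ < ρ)
      constructor <;> linarith
    · show (-η < η) ∧ (-η < η)
      constructor <;> linarith
  have hmem : ∀ y : Fin 2 → ℂ, y ∈ polyRect P →
      y 0 ∈ rect (-ρ) ρ (-ρ) ρ ∧ y 1 ∈ rect (-η) η (-η) η := fun y hy => ⟨hy 0, hy 1⟩
  have heta : ∀ y : Fin 2 → ℂ, ![y 0, y 1] = y := by
    intro y
    ext i
    fin_cases i <;> rfl
  have hKL : ∀ y ∈ polyRect P, L y ∈ ball (0 : ℂ × ℂ) C.r := by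
    intro y hy
    obtain ⟨h0, h1⟩ := hmem y hy
    rw [← heta y]
    exact hbox _ _ ((hrect ρ _ h0).trans (by linarith)) ((hrect η _ h1).trans hηρ₀)
  have hhol : HolNear V (fun y => C.x (L y)) (polyRect P) :=
    ⟨_, hUo, hKL, C.diff_x.comp L.differentiable.differentiableOn (fun y hy => hy),
      fun y hy => (C.x_mem _ hy).1⟩
  have hgood : Good V (polyRect P) (fun y => C.x (L y)) := by
    refine h42 P hPok _ hhol ?_
    intro y hy hybd
    obtain ⟨h0, h1⟩ := hmem y hy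
    have hy0 : y 0 ∈ rectBd (-ρ) ρ (-ρ) ρ := hybd 0
    have hy1 : y 1 ∈ w := by
      refine hη₀w ?_
      rw [mem_ball_zero_iff]
      exact (hrect η _ h1).trans_lt hηη₀
    have h2 : ((y 0, y 1) : ℂ × ℂ) ∈ n := huw ⟨hsu hy0, hy1⟩
    have h3 := interior_subset h2
    have h4 : GoodPt V (C.x (L ![y 0, y 1])) := h3
    rw [heta y] at h4
    exact h4
  have hcap := capOn_of_good hgood hhol
  have hint : (0 : Fin 2 → ℂ) ∈ interior (polyRect P) := by
    rw [mem_interior_iff_mem_nhds]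
    have hball : ball (0 : Fin 2 → ℂ) (min ρ η) ∈ 𝓝 (0 : Fin 2 → ℂ) :=
      ball_mem_nhds _ (lt_min hρ0 hη)
    refine mem_of_superset hball ?_
    intro y hy
    rw [mem_ball_zero_iff, pi_norm_lt_iff (lt_min hρ0 hη)] at hy
    have hkey : ∀ (σ : ℝ) (z : ℂ), ‖z‖ < σ → z ∈ rect (-σ) σ (-σ) σ := by
      intro σ z hz
      have h1 := (Complex.abs_re_le_norm z).trans hz.le
      have h2 := (Complex.abs_im_le_norm z).trans hz.le
      exact ⟨abs_le.mp h1, abs_le.mp h2⟩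
    intro i
    fin_cases i
    · exact hkey ρ _ ((hy 0).trans_le (min_le_left _ _))
    · exact hkey η _ ((hy 1).trans_le (min_le_right _ _))
  have hfin := goodPt_of_chart hV C L hKL hcap hint one_ne_zero
  rw [map_zero, C.x_zero, one_smul] at hfin
  exact hfin

/-- **PART 7** for a smooth quartic (any degree) cone. -/
theorem boot {Q : MvPolynomial (Fin 4) ℂ} {d : ℕ} (hQ : Q.IsHomogeneous d)
    (hsm : ∀ v : Fin 4 → ℂ, v ≠ 0 → MvPolynomial.eval v Q = 0 →
      ∃ i, MvPolynomial.eval v (MvPolynomial.pderiv i Q) ≠ 0)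
    (h42 : Cor42 (Vstar Q)) (hthin : Thin (Vstar Q) {v | ¬ GoodPt (Vstar Q) v}) :
    ∀ v ∈ Vstar Q, GoodPt (Vstar Q) v :=
  boot_of_charts (vstar_conic hQ)
    (fun v hv => by
      obtain ⟨C, -⟩ := exists_chart hQ hv.1 hv.2 (hsm v hv.1 hv.2) one_pos
      exact ⟨C⟩) h42 hthin

end Crest.Agent.R279.Boot
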