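import Crest.Agent.R279.TwoPlanes471
import Crest.Agent.R279.RegDefs545
import Crest.Agent.R279.GenDefs28
import Crest.Agent.R279.Bridge149

/-!
# R279 (helper471): `TwoArcsTarget` from A6, A7, the local maximum principle and
"`D` is not contained in a plane of dimension two"
-/

set_option autoImplicit false

namespace Crest.Agent.R279.TwoPl

open Filter Topology MvPolynomial Crest.Agent.R279.HV Metric Set

/-- helper545's embedded arcs give `ArcTo`. -/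
theorem arcTo_of_arcAt {Q : MvPolynomial (Fin 4) ℂ} {D : Set (Fin 4 → ℂ)}
    (hD0 : ∀ q ∈ D, q ≠ 0 ∧ eval q Q = 0) {x p : Fin 4 → ℂ} (A : Reg.ArcAt D p)
    (h : deriv (fun c => dQ Q (A.a c) x) 0 ≠ 0) : ArcTo Q D x p := by
  have h0 : (0 : ℂ) ∈ ball (0 : ℂ) 1 := mem_ball_self one_pos
  have hpO : p ∈ A.O := by
    have := (A.a_mem 0 h0).2
    rwa [A.a_zero] at this
  refine ⟨A.a, A.k, A.diff_a.differentiableAt (isOpen_ball.mem_nhds h0), A.a_zero, ?_, h,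
    (A.diff_k.differentiableAt (A.isOpen_O.mem_nhds hpO)).continuousAt, ?_, ?_⟩
  · filter_upwards [isOpen_ball.mem_nhds h0] with c hc
    exact (hD0 _ (A.a_mem c hc).1).2
  · have := A.k_a 0 h0
    rwa [A.a_zero] at this
  · filter_upwards [A.isOpen_O.mem_nhds hpO] with y hy hyD
    exact A.cover y hy hyD

theorem dQ_eq_q1 {Q : MvPolynomial (Fin 4) ℂ} (hQ : Q.IsHomogeneous 4) (p x : Fin 4 → ℂ) :
    dQ Q p x = q1 Q p x := by
  rw [dQ_apply, q1_eq hQ]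

theorem linInd_grad {Q : MvPolynomial (Fin 4) ℂ} {p p' : Fin 4 → ℂ}
    (h : LinearIndependent ℂ ![dQ Q p, dQ Q p']) :
    LinearIndependent ℂ ![EllAlg.grad Q p, EllAlg.grad Q p'] := by
  rw [LinearIndependent.pair_iff] at h ⊢
  intro s t hst
  apply h s t
  ext v
  have h1 : ∀ i, s * EllAlg.grad Q p i + t * EllAlg.grad Q p' i = 0 := by
    intro i
    have := congrFun hst i
    simpa using this
  simp only [add_apply, smul_apply, smul_eq_mul, dQ_apply, Finset.mul_sum,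
    ← Finset.sum_add_distrib, zero_apply]
  refine Finset.sum_eq_zero fun i _ => ?_
  have h2 := h1 i
  simp only [EllAlg.grad] at h2
  linear_combination (v i) * h2

theorem DD_subset {Q : MvPolynomial (Fin 4) ℂ} : ∀ q ∈ DD Q, q ≠ 0 ∧ eval q Q = 0 :=
  fun _ hq => hq.1

theorem DD_smul {Q : MvPolynomial (Fin 4) ℂ} (hQ : Q.IsHomogeneous 4) :
    ∀ q ∈ DD Q, ∀ s : ℂ, s ≠ 0 → s • q ∈ DD Q := by
  intro q hq s hs
  refine ⟨⟨smul_ne_zero hs hq.1.1, ?_⟩, InD_smul hs hq.2⟩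
  rw [eval_smul hQ, hq.1.2, mul_zero]

theorem thin_mono {S Z Z' : Set (Fin 4 → ℂ)} (h : Thin S Z) (hZ : ∀ z ∈ Z', z ∈ S → z ∈ Z) :
    Thin S Z' := by
  obtain ⟨A, hA, h1, h2⟩ := h
  exact ⟨A, hA, h1, fun z hz hzS => h2 z (hZ z hz hzS) hzS⟩

theorem thin_union {S Z Z' : Set (Fin 4 → ℂ)} (h : Thin S Z) (h' : Thin S Z') :
    Thin S (Z ∪ Z') := by
  obtain ⟨A, hA, h1, h2⟩ := h
  obtain ⟨A', hA', h1', h2'⟩ := h'
  refine ⟨A ∪ A', hA.union hA', ?_, ?_⟩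
  · rintro a (ha | ha)
    · exact h1 a ha
    · exact h1' a ha
  · rintro z (hz | hz) hzS
    · obtain ⟨a, ha, hc⟩ := h2 z hz hzS
      exact ⟨a, Or.inl ha, hc⟩
    · obtain ⟨a, ha, hc⟩ := h2' z hz hzS
      exact ⟨a, Or.inr ha, hc⟩

/-- Input 1 of M14. -/
theorem twoArcsTarget {Q : MvPolynomial (Fin 4) ℂ} (hQ : Q.IsHomogeneous 4)
    (hsmooth : ∀ p : Fin 4 → ℂ, p ≠ 0 → eval p Q = 0 → ∃ i : Fin 4, eval p (pderiv i Q) ≠ 0)
    (hDcl : ∀ q : Fin 4 → ℂ, q ≠ 0 → q ∈ closure (DD Q) → q ∈ DD Q)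
    (hM : NoStrictMax (DD Q))
    (hD2 : ∀ L : Submodule ℂ (Fin 4 → ℂ), Module.finrank ℂ L = 2 →
      ¬ DD Q ⊆ (L : Set (Fin 4 → ℂ)))
    (hE : ∀ x ∈ Vstar Q, ∃ p ∈ DD Q, dQ Q p x = 0)
    (hReg : Thin (Vstar Q) {x | ¬ Reg.IsReg Q (DD Q) x})
    (hPl : ∀ τ : (Fin 4 → ℂ) →L[ℂ] ℂ, τ ≠ 0 → Thin (Vstar Q) {x | τ x = 0}) :
    Gen.TwoArcsTarget Q := by
  obtain ⟨τ, hτ, H⟩ := two_planes hQ hsmooth DD_subset (DD_smul hQ) hDcl hM hD2
  refine thin_mono (thin_union hReg (hPl τ hτ)) ?_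
  intro x hx hxS
  by_contra hcon
  rw [mem_union, not_or] at hcon
  obtain ⟨hc1, hc2⟩ := hcon
  have hr : Reg.IsReg Q (DD Q) x := by
    by_contra h
    exact hc1 h
  have hτx : τ x ≠ 0 := hc2
  obtain ⟨p, hp, p', hp', h1, h2, hli⟩ := H x hτx
    (fun p hp hpx => by
      obtain ⟨A, hA⟩ := hr p hp hpx
      exact arcTo_of_arcAt DD_subset A hA) (hE x hxS)
  obtain ⟨A, hA⟩ := hr p hp h1
  obtain ⟨A', hA'⟩ := hr p' hp' h2
  apply hx
  have conv : ∀ q : Fin 4 → ℂ, ∀ B : Reg.ArcAt (DD Q) q, dQ Q q x = 0 →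
      deriv (fun c => dQ Q (B.a c) x) 0 ≠ 0 → Gen.ArcThrough Q x B.a := by
    intro q B hq hB
    refine ⟨B.diff_a, fun γ hγ => (B.a_mem γ hγ).1, ?_, ?_⟩
    · rw [B.a_zero, ← dQ_eq_q1 hQ]
      exact hq
    · have : (fun γ => q1 Q (B.a γ) x) = fun γ => dQ Q (B.a γ) x := by
        funext γ; rw [dQ_eq_q1 hQ]
      rw [this]
      exact hB
  refine ⟨A.a, A'.a, conv p A h1 hA, conv p' A' h2 hA', ?_⟩
  rw [A.a_zero, A'.a_zero]
  exact linInd_grad hli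

end Crest.Agent.R279.TwoPl
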