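import Crest.Agent.R279.Red625
import Crest.Agent.R279.Split250
import Crest.Agent.R279.MergeApp250
import Crest.Agent.R279.H777j
import Crest.Agent.R279.SprayTarget477
import Crest.Agent.R279.Part7_556
import Crest.Agent.R279.ThinCalc556
import Crest.Agent.R279.FamUncond520
import Crest.Agent.R279.TwoArcs471
import Crest.Agent.R279.GenDefs28
import Crest.Agent.R279.NoStrictB471
import Crest.Agent.R279.LocEq60

/-!
# R279: final glue (helper149)

The frozen statement from the nine open targets.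
-/

set_option autoImplicit false

namespace Crest.Agent.R279.Final

open Metric Set MvPolynomial

/-- smoothness hypothesis of S0422 -/
def Smooth (Q : MvPolynomial (Fin 4) ℂ) : Prop :=
  ∀ p : Fin 4 → ℂ, p ≠ 0 → eval p Q = 0 → ∃ i : Fin 4, eval p (pderiv i Q) ≠ 0

theorem splitProp (n : ℕ) : Merge.SplitProp n :=
  Merge.splitProp_of fun _ c => Box.sprop c

theorem lift21 : Red.Lift21 := by
  intro m n K U f hK hKc hU hKU hf
  exact Merge.lifting' (splitProp m) hK hKc hU hKU hf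

theorem sprayTarget {Q : MvPolynomial (Fin 4) ℂ} (hs : Smooth Q) : SprayTarget (Vstar Q) :=
  Spray.sprayTarget hs splitProp

/-- output of Part 9 (helper928) -/
def TwoFamTarget : Prop :=
  ∀ (Q : MvPolynomial (Fin 4) ℂ), Q.IsHomogeneous 4 → Smooth Q → ∀ x ∈ Vstar Q,
    Gen.LL0 Q x → Fam.TwoFam (Vstar Q) x

/-- all points of the cone are good -/
theorem all_good {Q : MvPolynomial (Fin 4) ℂ} (hQ : Q.IsHomogeneous 4) (hs : Smooth Q)
    (h42 : Cor42 (Vstar Q)) (hTF : TwoFamTarget) (hLL : Gen.LL0Target Q) :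
    ∀ v ∈ Vstar Q, GoodPt (Vstar Q) v := by
  refine Boot.boot hQ hs h42 (hLL.mono ?_)
  rintro v ⟨hv1, hv2⟩ hLv
  exact hv1 (Fam.goodPt_of_twoFam' hQ (hs v hv2.1 hv2.2) (hTF Q hQ hs v hv2 hLv))

/-- `DD Q` is relatively closed -/
theorem closed_DD {Q : MvPolynomial (Fin 4) ℂ} (hQ : Q.IsHomogeneous 4) (hs : Smooth Q)
    (q : Fin 4 → ℂ) (hq : q ≠ 0) (hcl : q ∈ closure (DD Q)) : q ∈ DD Q := by
  have hq0 : eval q Q = 0 := by
    have hc : IsClosed {p : Fin 4 → ℂ | eval p Q = 0} :=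
      isClosed_singleton.preimage (continuous_eval Q)
    exact closure_minimal (fun p hp => hp.1.2) hc hcl
  exact LocEq.isClosed_DD hQ hs q hq hq0 hcl

/-- A6, Theorem E (helper855) -/
def ThmETarget : Prop :=
  ∀ (Q : MvPolynomial (Fin 4) ℂ), Q.IsHomogeneous 4 → Smooth Q →
    ∀ x ∈ Vstar Q, ∃ p ∈ DD Q, dQ Q p x = 0

/-- (D4'), helper421 -/
def NotPlaneTarget : Prop :=
  ∀ (Q : MvPolynomial (Fin 4) ℂ), Q.IsHomogeneous 4 → Smooth Q →
    ∀ L : Submodule ℂ (Fin 4 → ℂ), Module.finrank ℂ L = 2 → ¬ DD Q ⊆ (L : Set (Fin 4 → ℂ))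

/-- A7, helper545 -/
def RegTarget : Prop :=
  ∀ (Q : MvPolynomial (Fin 4) ℂ), Q.IsHomogeneous 4 → Smooth Q →
    Thin (Vstar Q) {x | ¬ Reg.IsReg Q (DD Q) x}

/-- plane sections are thin, helper545 -/
def PlaneThinTarget : Prop :=
  ∀ (Q : MvPolynomial (Fin 4) ℂ), Q.IsHomogeneous 4 → Smooth Q →
    ∀ τ : (Fin 4 → ℂ) →L[ℂ] ℂ, τ ≠ 0 → Thin (Vstar Q) {x | τ x = 0}

/-- A10, helper28: two arcs and arc data give two branches in general position -/
def GenTarget : Prop :=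
  ∀ (Q : MvPolynomial (Fin 4) ℂ), Q.IsHomogeneous 4 → Smooth Q →
    Gen.TwoArcsTarget Q → Gen.ArcTarget Q → Gen.LL0Target Q

/-- A10 (iii), (iv), helper269 -/
def ArcDataTarget : Prop :=
  ∀ (Q : MvPolynomial (Fin 4) ℂ), Q.IsHomogeneous 4 → Smooth Q → Gen.ArcTarget Q

theorem twoArcs {Q : MvPolynomial (Fin 4) ℂ} (hQ : Q.IsHomogeneous 4) (hs : Smooth Q)
    (hE : ThmETarget) (hP : NotPlaneTarget) (hR : RegTarget) (hPl : PlaneThinTarget) :
    Gen.TwoArcsTarget Q :=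
  TwoPl.twoArcsTarget hQ hs (closed_DD hQ hs) (HV.noStrictMax_DD' hQ hs) (hP Q hQ hs)
    (hE Q hQ hs) (hR Q hQ hs) (hPl Q hQ hs)

/-- Part 4 (helper765) -/
def Cor41Target : Prop := PGLTarget → LemmaE → LemmaK → ∀ V : Set C4, SprayTarget V → Cor41 V
/-- Part 4 (helper765) -/
def Cor42Target : Prop := PGLTarget → LemmaE → LemmaK → ∀ V : Set C4, SprayTarget V → Cor42 V

/-- Part 5 (helper532) -/
def ConvTarget : Prop :=
  ∀ (Q : MvPolynomial (Fin 4) ℂ), Q.IsHomogeneous 4 → Smooth Q → Cor41 (Vstar Q) →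
    (∀ v ∈ Vstar Q, GoodPt (Vstar Q) v) → Red.CAPR Q

/-- the frozen statement from the open targets -/
theorem s0422_of_targets (h41 : Cor41Target) (h42 : Cor42Target) (h5 : ConvTarget)
    (hTF : TwoFamTarget) (hE : ThmETarget) (hP : NotPlaneTarget) (hR : RegTarget)
    (hPl : PlaneThinTarget) (hG : GenTarget) (hA : ArcDataTarget)
    (Q : MvPolynomial (Fin 4) ℂ) (hQ : Q.IsHomogeneous 4)
    (hsmooth : ∀ p : Fin 4 → ℂ, p ≠ 0 → MvPolynomial.eval p Q = 0 →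
      ∃ i : Fin 4, MvPolynomial.eval p (MvPolynomial.pderiv i Q) ≠ 0)
    (m : ℕ) (hm : 1 ≤ m) (K : Set (Fin m → ℂ)) (hK : IsCompact K) (hKc : Convex ℝ K)
    (hKn : K.Nonempty) (U : Set (Fin m → ℂ)) (hU : IsOpen U) (hKU : K ⊆ U)
    (f : (Fin m → ℂ) → Projectivization ℂ (Fin 4 → ℂ))
    (hf : Crest.AlgGeometry.ProjHolomorphicOn f U)
    (hfQ : ∀ z ∈ U, MvPolynomial.eval (f z).rep Q = 0) (ε : ℝ) (hε : 0 < ε) :
    ∃ F : (Fin m → ℂ) → Projectivization ℂ (Fin 4 → ℂ),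
      Crest.AlgGeometry.ProjHolomorphicOn F Set.univ ∧
      (∀ z, MvPolynomial.eval (F z).rep Q = 0) ∧
      ∀ z ∈ K, Crest.AlgGeometry.projGap (F z) (f z) < ε := by
  refine Red.s0422_of lift21 ?_ Q hQ hsmooth m hm K hK hKc hKn U hU hKU f hf hfQ ε hε
  intro Q hQ hs
  have hSp : SprayTarget (Vstar Q) := sprayTarget hs
  have hc41 : Cor41 (Vstar Q) :=
    h41 Box.pglTarget' Planar.lemmaE Planar.lemmaK _ hSp
  have hc42 : Cor42 (Vstar Q) :=
    h42 Box.pglTarget' Planar.lemmaE Planar.lemmaK _ hSp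
  refine h5 Q hQ hs hc41 (all_good hQ hs hc42 hTF (hG Q hQ hs ?_ (hA Q hQ hs)))
  exact twoArcs hQ hs hE hP hR hPl

end Crest.Agent.R279.Final
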