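import Crest.Agent.R279.Branch28

/-!
# R279, M14 (helper28): `V* \ LL0` is thin
-/

set_option autoImplicit false

namespace Crest.Agent.R279.Gen

open MvPolynomial Set Filter Topology Metric EllAlg

variable {Q : MvPolynomial (Fin 4) ℂ}

/-! ### conic invariance -/

theorem grad_smul (hQ : Q.IsHomogeneous 4) (t : ℂ) (x : C4) :
    grad Q (t • x) = t ^ 3 • grad Q x := by
  funext i
  have h : (pderiv i Q).IsHomogeneous 3 := hQ.pderiv
  exact Crest.Agent.R279.eval_smul h t x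

theorem pr_smul_right (a b : C4) (t : ℂ) : pr a (t • b) = t * pr a b := by
  simp only [pr, Pi.smul_apply, smul_eq_mul, Finset.mul_sum]
  exact Finset.sum_congr rfl fun i _ => by ring

theorem pr_smul_left (a b : C4) (t : ℂ) : pr (t • a) b = t * pr a b := by
  simp only [pr, Pi.smul_apply, smul_eq_mul, Finset.mul_sum]
  exact Finset.sum_congr rfl fun i _ => by ring

/-- `BranchAt` at `t • x`. -/
noncomputable def BranchAt_smul (hQ : Q.IsHomogeneous 4) {x : C4} (be : BranchAt Q x) {t : ℂ}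
    (ht : t ≠ 0) : BranchAt Q (t • x) :=
  { be with
    N := (fun y => t⁻¹ • y) ⁻¹' be.N
    isOpen_N := be.isOpen_N.preimage (by fun_prop)
    x₁_mem := by
      show t⁻¹ • t • x ∈ be.N
      rw [smul_smul, inv_mul_cancel₀ ht, one_smul]
      exact be.x₁_mem
    cf := fun y => be.cf (t⁻¹ • y)
    diff_cf := be.diff_cf.comp (by fun_prop) fun y hy => hy
    cf_mem := fun y hy => be.cf_mem hy
    cf_x₁ := by
      show be.cf (t⁻¹ • t • x) = be.c₁
      rw [smul_smul, inv_mul_cancel₀ ht, one_smul]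
      exact be.cf_x₁
    pr_cf := by
      intro y hy
      have h := be.pr_cf (t⁻¹ • y) hy
      rw [pr_smul_right] at h
      exact (mul_eq_zero.mp h).resolve_left (inv_ne_zero ht)
    trans := by
      rw [grad_smul hQ, pr_smul_left]
      exact mul_ne_zero (pow_ne_zero _ ht) be.trans }

theorem indep_smul_left {u v w : C4} {t : ℂ} (ht : t ≠ 0)
    (h : LinearIndependent ℂ ![u, v, w]) : LinearIndependent ℂ ![t • u, v, w] := by
  rw [Fintype.linearIndependent_iff] at h ⊢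
  intro g hg
  rw [Fin.sum_univ_three] at hg
  simp only [Matrix.cons_val_zero, Matrix.cons_val_one, Matrix.cons_val, smul_smul] at hg
  have h1 := h ![g 0 * t, g 1, g 2] (by
    rw [Fin.sum_univ_three]
    simpa using hg)
  intro i
  fin_cases i
  · have := h1 0
    simp only [Matrix.cons_val_zero] at this
    exact (mul_eq_zero.mp this).resolve_right ht
  · exact h1 1
  · exact h1 2

theorem LL0_smul (hQ : Q.IsHomogeneous 4) {x : C4} (h : LL0 Q x) {t : ℂ} (ht : t ≠ 0) :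
    LL0 Q (t • x) := by
  obtain ⟨be, be', hi⟩ := h
  refine ⟨BranchAt_smul hQ be ht, BranchAt_smul hQ be' ht, ?_⟩
  show LinearIndependent ℂ ![grad Q (t • x), grad Q (be.b be.c₁), grad Q (be'.b be'.c₁)]
  rw [grad_smul hQ]
  exact indep_smul_left (pow_ne_zero _ ht) hi

/-! ### the minor -/

/-- a `4 × 4` determinant detecting independence of three vectors -/
noncomputable def minor (y u v w : C4) : ℂ := Matrix.det (Matrix.of ![y, u, v, w])

theorem indep_of_minor {y u v w : C4} (h : minor y u v w ≠ 0) :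
    LinearIndependent ℂ ![u, v, w] := by
  have h1 : IsUnit (Matrix.of ![y, u, v, w] : Matrix (Fin 4) (Fin 4) ℂ) := by
    rw [Matrix.isUnit_iff_isUnit_det]
    exact isUnit_iff_ne_zero.mpr h
  have h2 : LinearIndependent ℂ (Matrix.of ![y, u, v, w] : Matrix (Fin 4) (Fin 4) ℂ).row :=
    Matrix.linearIndependent_rows_iff_isUnit.mpr h1
  have h3 : LinearIndependent ℂ (Fin.cons y ![u, v, w] : Fin 4 → C4) := h2
  rw [linearIndependent_finCons] at h3
  exact h3.1

theorem exists_minor_ne {u v w : C4} (h : LinearIndependent ℂ ![u, v, w]) :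
    ∃ y : C4, minor y u v w ≠ 0 := by
  have h1 : Submodule.span ℂ (range ![u, v, w]) ≠ ⊤ := by
    intro htop
    have h2 := finrank_span_eq_card h
    rw [htop, finrank_top, Module.finrank_fintype_fun_eq_card] at h2
    simp at h2
  obtain ⟨y, hy⟩ : ∃ y, y ∉ Submodule.span ℂ (range ![u, v, w]) := by
    by_contra hcon
    push Not at hcon
    exact h1 (Submodule.eq_top_iff'.mpr hcon)
  refine ⟨y, ?_⟩
  have h3 : LinearIndependent ℂ (Fin.cons y ![u, v, w] : Fin 4 → C4) :=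
    linearIndependent_finCons.mpr ⟨h, hy⟩
  have h4 : LinearIndependent ℂ (Matrix.of ![y, u, v, w] : Matrix (Fin 4) (Fin 4) ℂ).row := h3
  have h5 := Matrix.linearIndependent_rows_iff_isUnit.mp h4
  rw [Matrix.isUnit_iff_isUnit_det] at h5
  exact isUnit_iff_ne_zero.mp h5

theorem differentiable_det4 :
    Differentiable ℂ (fun M : Fin 4 → Fin 4 → ℂ => Matrix.det (Matrix.of M)) := by
  simp only [Matrix.det_apply', Matrix.of_apply]
  fun_prop

theorem differentiableOn_minor {E : Type*} [NormedAddCommGroup E] [NormedSpace ℂ E] {U : Set E}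
    (y : C4) {u v w : E → C4} (hu : DifferentiableOn ℂ u U) (hv : DifferentiableOn ℂ v U)
    (hw : DifferentiableOn ℂ w U) : DifferentiableOn ℂ (fun z => minor y (u z) (v z) (w z)) U := by
  have h1 : DifferentiableOn ℂ (fun z => (![y, u z, v z, w z] : Fin 4 → Fin 4 → ℂ)) U := by
    rw [differentiableOn_pi]
    intro i
    fin_cases i
    · exact differentiableOn_const y
    · exact hu
    · exact hv
    · exact hw
  have h2 := differentiable_det4.comp_differentiableOn h1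
  simpa only [Function.comp_def, minor] using h2

theorem differentiable_grad : Differentiable ℂ (grad Q) :=
  differentiable_pi.mpr fun _ => Crest.Agent.R279.differentiable_eval _

/-! ### the good points of a chart -/

/-- one branch at a good point -/
theorem exists_branchAt (hQ : Q.IsHomogeneous 4) {b : ℂ → C4} {O : Set C4} {c : C4 → ℂ}
    (hO : IsOpen O) (hc : DifferentiableOn ℂ c O) (hz : ∀ x ∈ O, q1 Q (b (c x)) x = 0)
    {x : C4} (hx : x ∈ O) (A : ArcAt Q b (c x)) (htr : q1 Q x (b (c x)) ≠ 0) :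
    ∃ be : BranchAt Q x, be.b be.c₁ = b (c x) := by
  refine ⟨A.toBranchAt (O ∩ c ⁻¹' A.B) (hc.continuousOn.isOpen_inter_preimage hO A.isOpen_B)
    ⟨hx, A.c₁_mem⟩ c (hc.mono inter_subset_left) (fun y hy => hy.2) rfl
    (fun y hy => ?_) ?_, rfl⟩
  · rw [← q1_eq_pr hQ]; exact hz y hy.1
  · rw [← q1_eq_pr hQ]; exact htr

theorem local_thin (hQ : Alg.SmoothQuartic Q) (hArc : ArcTarget Q) {x₀ : C4}
    (hx₀ : x₀ ∈ Vstar Q) (h2 : TwoArcs Q x₀) :
    ∃ O : Set C4, IsOpen O ∧ x₀ ∈ O ∧ Thin (Vstar Q) ({x | ¬ LL0 Q x} ∩ O) := by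
  obtain ⟨b, b', hb, hb', hind⟩ := h2
  obtain ⟨O, c, hO, hxO, hc, hc0, hcm, hcz, hct⟩ := exists_branch hb
  obtain ⟨O', c', hO', hxO', hc', hc0', hcm', hcz', hct'⟩ := exists_branch hb'
  obtain ⟨N₀, hN₀, hA⟩ := hArc b hb.diff hb.mem hb.not_const
  obtain ⟨N₀', hN₀', hA'⟩ := hArc b' hb'.diff hb'.mem hb'.not_const
  obtain ⟨C, -⟩ := Boot.exists_chart hQ.hom hx₀.1 hx₀.2 (hQ.smooth x₀ hx₀.1 hx₀.2) one_pos
  change Chart (Vstar Q) x₀ at C
  -- the radius
  have hgc : ContinuousOn (fun x => grad Q (b (c x))) (O ∩ O') :=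
    continuous_grad.comp_continuousOn
      ((hb.diff.comp hc hcm).continuousOn.mono inter_subset_left)
  have hgc' : ContinuousOn (fun x => grad Q (b' (c' x))) (O ∩ O') :=
    continuous_grad.comp_continuousOn
      ((hb'.diff.comp hc' hcm').continuousOn.mono inter_subset_right)
  have hopen : IsOpen {x | x ∈ O ∩ O' ∧
      LinearIndependent ℂ ![grad Q (b (c x)), grad Q (b' (c' x))]} := by
    have h1 : IsOpen {w : (Fin 2 → Fin 4 → ℂ) | LinearIndependent ℂ w} :=
      isOpen_setOfPred_linearIndependent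
    have h2 : ContinuousOn (fun x => (![grad Q (b (c x)), grad Q (b' (c' x))] :
        Fin 2 → Fin 4 → ℂ)) (O ∩ O') := by
      rw [continuousOn_pi]
      intro i
      fin_cases i
      · exact hgc
      · exact hgc'
    exact h2.isOpen_inter_preimage (hO.inter hO') h1
  have hx₀open : x₀ ∈ {x | x ∈ O ∩ O' ∧
      LinearIndependent ℂ ![grad Q (b (c x)), grad Q (b' (c' x))]} := by
    refine ⟨⟨hxO, hxO'⟩, ?_⟩
    rw [hc0, hc0']
    exact hind
  have hCc : ContinuousAt C.x 0 :=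
    C.diff_x.continuousOn.continuousAt (isOpen_ball.mem_nhds (mem_ball_self C.r_pos))
  have hpre : C.x ⁻¹' {x | x ∈ O ∩ O' ∧
      LinearIndependent ℂ ![grad Q (b (c x)), grad Q (b' (c' x))]} ∈ 𝓝 (0 : ℂ × ℂ) :=
    hCc (hopen.mem_nhds (by rw [C.x_zero]; exact hx₀open))
  obtain ⟨ε, hε, hball⟩ := Metric.mem_nhds_iff.1 hpre
  set ρ : ℝ := min ε C.r with hρdef
  have hρ : 0 < ρ := lt_min hε C.r_pos
  have hρr : ρ ≤ C.r := min_le_right _ _
  have hsub : ∀ z ∈ ball (0 : ℂ × ℂ) ρ, (C.x z ∈ O ∧ C.x z ∈ O') ∧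
      LinearIndependent ℂ ![grad Q (b (c (C.x z))), grad Q (b' (c' (C.x z)))] :=
    fun z hz => hball (ball_subset_ball (min_le_left _ _) hz)
  -- chart and branches over the chart
  have hC : Alg.IsChart Q (ball 0 ρ) C.x :=
    chart_mono (isChart_of_chart C) isOpen_ball (ball_subset_ball hρr)
  have hB := chartBranch_of_arc C hb hc hcm hcz hct hρr fun z hz => (hsub z hz).1.1
  have hB' := chartBranch_of_arc C hb' hc' hcm' hcz' hct' hρr fun z hz => (hsub z hz).1.2
  have h0mem : (0 : ℂ × ℂ) ∈ ball (0 : ℂ × ℂ) ρ := mem_ball_self hρ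
  -- the minor
  obtain ⟨z₁, hz₁, hi₁⟩ := exists_indep hQ hC hB hB' ⟨0, h0mem, (hsub 0 h0mem).2⟩
  obtain ⟨y, hy⟩ := exists_minor_ne hi₁
  -- the exceptional functions
  set F₁ : ℂ × ℂ → ℂ := fun z => q1 Q (C.x z) (b (c (C.x z))) with hF₁
  set F₂ : ℂ × ℂ → ℂ := fun z => q1 Q (C.x z) (b' (c' (C.x z))) with hF₂
  set F₃ : ℂ × ℂ → ℂ := fun z =>
    minor y (grad Q (C.x z)) (grad Q (b (c (C.x z)))) (grad Q (b' (c' (C.x z)))) with hF₃
  have hq1 : Differentiable ℂ (fun z : C4 × C4 => q1 Q z.1 z.2) := by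
    have h1 : Differentiable ℂ (fun z : C4 × C4 => ((z.1, z.1, z.1, z.2) : C4 × C4 × C4 × C4)) :=
      differentiable_fst.prodMk (differentiable_fst.prodMk
        (differentiable_fst.prodMk differentiable_snd))
    exact ((differentiable_tens Q).comp h1).const_mul 4
  have hF₁d : DifferentiableOn ℂ F₁ (ball 0 ρ) := by
    have := hq1.comp_differentiableOn (hC.diff.prodMk hB.diff_comp)
    simpa only [Function.comp_def] using this
  have hF₂d : DifferentiableOn ℂ F₂ (ball 0 ρ) := by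
    have := hq1.comp_differentiableOn (hC.diff.prodMk hB'.diff_comp)
    simpa only [Function.comp_def] using this
  have hF₃d : DifferentiableOn ℂ F₃ (ball 0 ρ) :=
    differentiableOn_minor y (differentiable_grad.comp_differentiableOn hC.diff)
      (differentiable_grad.comp_differentiableOn hB.diff_comp)
      (differentiable_grad.comp_differentiableOn hB'.diff_comp)
  have hT₁ := thin_zero_chart C hρr hF₁d fun U hU hUs hUn =>
    exists_trans hQ (chart_mono hC hU hUs) hUn (hB.mono hUs)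
  have hT₂ := thin_zero_chart C hρr hF₂d fun U hU hUs hUn =>
    exists_trans hQ (chart_mono hC hU hUs) hUn (hB'.mono hUs)
  have hT₃ := thin_zero_chart C hρr hF₃d fun U hU hUs hUn => by
    by_contra hcon
    push Not at hcon
    obtain ⟨z₂, hz₂⟩ := hUn
    have hA3 : AnalyticOnNhd ℂ F₃ (ball 0 ρ) :=
      Crest.Agent.R266.SCV.analyticOnNhd_of_differentiableOn isOpen_ball hF₃d
    have := hA3.eqOn_zero_of_preconnected_of_eventuallyEq_zero
      (convex_ball (0 : ℂ × ℂ) ρ).isPreconnected (hUs hz₂)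
      ((hU.eventually_mem hz₂).mono hcon)
    exact hy (this hz₁)
  have hTn : ∀ n ∈ N₀, Thin (Vstar Q) {y | y ∈ C.O ∧ Strat.coord C y ∈ ball (0 : ℂ × ℂ) ρ ∧
      c (C.x (Strat.coord C y)) - n = 0} := fun n _ =>
    thin_zero_chart C hρr (hB.diff.sub_const n) fun U hU hUs hUn => by
      obtain ⟨z, hz, hzn⟩ := exists_ne_const hQ (chart_mono hC hU hUs) hUn (hB.mono hUs) n
      exact ⟨z, hz, sub_ne_zero.mpr hzn⟩
  have hTn' : ∀ n ∈ N₀', Thin (Vstar Q) {y | y ∈ C.O ∧ Strat.coord C y ∈ ball (0 : ℂ × ℂ) ρ ∧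
      c' (C.x (Strat.coord C y)) - n = 0} := fun n _ =>
    thin_zero_chart C hρr (hB'.diff.sub_const n) fun U hU hUs hUn => by
      obtain ⟨z, hz, hzn⟩ := exists_ne_const hQ (chart_mono hC hU hUs) hUn (hB'.mono hUs) n
      exact ⟨z, hz, sub_ne_zero.mpr hzn⟩
  have hT := ((hT₁.union hT₂).union hT₃).union
    ((Thin.biUnion hN₀ hTn).union (Thin.biUnion hN₀' hTn'))
  refine ⟨C.O ∩ Strat.coord C ⁻¹' ball 0 ρ,
    (Strat.differentiableOn_coord C).continuousOn.isOpen_inter_preimage C.isOpen_O isOpen_ball,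
    ⟨Strat.v_mem_O C, ?_⟩, hT.mono ?_⟩
  · show Strat.coord C x₀ ∈ ball 0 ρ
    rw [Strat.coord_v C]
    exact h0mem
  rintro v ⟨⟨hvL, hvO, hvρ⟩, hvS⟩
  have hzρ : Strat.coord C v ∈ ball (0 : ℂ × ℂ) ρ := hvρ
  set z := Strat.coord C v with hzdef
  by_contra hnot
  simp only [mem_union, mem_iUnion, not_or, not_exists] at hnot
  obtain ⟨⟨⟨n1, n2⟩, n3⟩, n4, n5⟩ := hnot
  have g1 : q1 Q (C.x z) (b (c (C.x z))) ≠ 0 := fun h => n1 ⟨hvO, hzρ, h⟩
  have g2 : q1 Q (C.x z) (b' (c' (C.x z))) ≠ 0 := fun h => n2 ⟨hvO, hzρ, h⟩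
  have g3 : F₃ z ≠ 0 := fun h => n3 ⟨hvO, hzρ, h⟩
  have g4 : c (C.x z) ∉ N₀ := fun h => n4 _ h ⟨hvO, hzρ, sub_self _⟩
  have g5 : c' (C.x z) ∉ N₀' := fun h => n5 _ h ⟨hvO, hzρ, sub_self _⟩
  obtain ⟨A⟩ := hA _ ⟨hcm (hsub z hzρ).1.1, g4⟩
  obtain ⟨A'⟩ := hA' _ ⟨hcm' (hsub z hzρ).1.2, g5⟩
  obtain ⟨be, hbe⟩ := exists_branchAt hQ.hom hO hc hcz (hsub z hzρ).1.1 A g1
  obtain ⟨be', hbe'⟩ := exists_branchAt hQ.hom hO' hc' hcz' (hsub z hzρ).1.2 A' g2
  have hLL : LL0 Q (C.x z) := by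
    refine ⟨be, be', ?_⟩
    rw [hbe, hbe']
    exact indep_of_minor g3
  apply hvL
  show LL0 Q v
  rw [C.eq_x v hvO hvS]
  exact LL0_smul hQ.hom hLL (C.a_ne v hvO)

/-- **Output of A10.** -/
theorem ll0Target (hQ : Alg.SmoothQuartic Q) (hTwo : TwoArcsTarget Q)
    (hArc : ArcTarget Q) : LL0Target Q := by
  have h1 : Thin (Vstar Q) {x | TwoArcs Q x ∧ ¬ LL0 Q x} := by
    refine thin_of_locally fun x hx hxS => ?_
    obtain ⟨O, hO, hxO, hT⟩ := local_thin hQ hArc hxS hx.1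
    exact ⟨O, hO, hxO, hT.mono fun y hy => ⟨hy.1.1.2, hy.1.2⟩⟩
  refine (h1.union hTwo).mono ?_
  rintro x ⟨hx, -⟩
  by_cases h : TwoArcs Q x
  · exact Or.inl ⟨h, hx⟩
  · exact Or.inr h

end Crest.Agent.R279.Gen
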