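import Mathlib
import Crest.Agent.R279.RegDefs545
import Crest.Agent.R279.Impl545

/-!
# R279, A7 (helper545), part A: the set of regular points is open, local branches
-/

set_option autoImplicit false
set_option maxHeartbeats 400000

namespace Crest.Agent.R279.Reg

open Metric Set Filter Topology

variable {Q : MvPolynomial (Fin 4) ℂ}

/-- `dQ` is homogeneous of degree `n - 1` -/
theorem dQ_smul {n : ℕ} (hQ : Q.IsHomogeneous n) (t : ℂ) (v w : C4) :
    dQ Q (t • v) w = t ^ (n - 1) * dQ Q v w := by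
  rw [dQ_apply, dQ_apply, Finset.mul_sum]
  refine Finset.sum_congr rfl fun i _ => ?_
  rw [eval_smul (MvPolynomial.IsHomogeneous.pderiv hQ) t v]
  ring

/-- joint holomorphy of the pairing -/
theorem differentiable_pair (Q : MvPolynomial (Fin 4) ℂ) :
    Differentiable ℂ (fun z : C4 × C4 => dQ Q z.1 z.2) := by
  simp only [dQ_apply]
  refine Differentiable.fun_sum fun i _ => ?_
  refine Differentiable.mul ?_ ?_
  · exact (differentiable_eval (MvPolynomial.pderiv i Q)).comp differentiable_fst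
  · exact (differentiable_pi.mp differentiable_snd) i

/-- the function `N(x,c) = ⟨H(a c), x⟩` -/
noncomputable def NN (Q : MvPolynomial (Fin 4) ℂ) (a : ℂ → C4) : C4 × ℂ → ℂ :=
  fun z => dQ Q (a z.2) z.1

theorem diff_NN {a : ℂ → C4} {B : Set ℂ} (ha : DifferentiableOn ℂ a B) :
    DifferentiableOn ℂ (NN Q a) (univ ×ˢ B) := by
  have h1 : DifferentiableOn ℂ (fun z : C4 × ℂ => ((a z.2, z.1) : C4 × C4)) (univ ×ˢ B) := by
    refine DifferentiableOn.prodMk ?_ differentiable_fst.differentiableOn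
    exact ha.comp differentiable_snd.differentiableOn (fun z hz => hz.2)
  have h2 := Differentiable.comp_differentiableOn (g := fun z : C4 × C4 => dQ Q z.1 z.2)
    (f := fun z : C4 × ℂ => ((a z.2, z.1) : C4 × C4)) (s := univ ×ˢ B)
    (differentiable_pair Q) h1
  exact h2

theorem deriv_NN {a : ℂ → C4} {B : Set ℂ} (hB : IsOpen B) (ha : DifferentiableOn ℂ a B)
    (x : C4) {c : ℂ} (hc : c ∈ B) :
    HasDerivAt (fun c => dQ Q (a c) x) (fderiv ℂ (NN Q a) (x, c) (0, 1)) c := by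
  have h0 : DifferentiableAt ℂ (NN Q a) (x, c) :=
    (diff_NN ha).differentiableAt ((isOpen_univ.prod hB).mem_nhds ⟨mem_univ _, hc⟩)
  have h1 : HasFDerivAt (fun w' : ℂ => ((x, w') : C4 × ℂ)) (ContinuousLinearMap.inr ℂ C4 ℂ) c :=
    hasFDerivAt_prodMk_right x c
  have h2 := (HasFDerivAt.comp c (g := NN Q a) h0.hasFDerivAt h1).hasDerivAt
  have e : ((fderiv ℂ (NN Q a) (x, c)).comp (ContinuousLinearMap.inr ℂ C4 ℂ)) 1
      = fderiv ℂ (NN Q a) (x, c) (0, 1) := by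
    simp
  rw [e] at h2
  exact h2

/-- LOCAL BRANCH along one arc. -/
theorem exists_branch {D : Set C4} {p : C4} (A : ArcAt D p) {x₀ : C4}
    (h0 : dQ Q p x₀ = 0) (hd : deriv (fun c => dQ Q (A.a c) x₀) 0 ≠ 0) :
    ∃ (W : Set C4) (δ : ℝ) (χ : C4 → ℂ), IsOpen W ∧ x₀ ∈ W ∧ 0 < δ ∧
      ball (0 : ℂ) δ ⊆ ball 0 1 ∧ DifferentiableOn ℂ χ W ∧ χ x₀ = 0 ∧
      ∀ x ∈ W, χ x ∈ ball (0 : ℂ) δ ∧ dQ Q (A.a (χ x)) x = 0 ∧
        deriv (fun c => dQ Q (A.a c) x) (χ x) ≠ 0 ∧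
        ∀ c ∈ ball (0 : ℂ) δ, dQ Q (A.a c) x = 0 → c = χ x := by
  have hN : DifferentiableOn ℂ (NN Q A.a) (univ ×ˢ ball 0 1) := diff_NN A.diff_a
  have hO : IsOpen (univ ×ˢ ball (0 : ℂ) 1 : Set (C4 × ℂ)) := isOpen_univ.prod isOpen_ball
  have h01 : (0 : ℂ) ∈ ball (0 : ℂ) 1 := mem_ball_self one_pos
  have hmem : ((x₀, 0) : C4 × ℂ) ∈ (univ ×ˢ ball (0 : ℂ) 1 : Set (C4 × ℂ)) :=
    ⟨mem_univ _, h01⟩
  have hz : NN Q A.a (x₀, 0) = 0 := by
    show dQ Q (A.a 0) x₀ = 0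
    rw [A.a_zero]
    exact h0
  have hd' : fderiv ℂ (NN Q A.a) (x₀, 0) (0, 1) ≠ 0 := by
    rw [← (deriv_NN isOpen_ball A.diff_a x₀ h01).deriv]
    exact hd
  obtain ⟨W, δ, χ, hWo, hxW, hδ, hχd, hχ0, hsub, hχm, hiff⟩ :=
    Impl.exists_implicit hO hN hmem hz hd'
  -- the derivative does not vanish nearby
  have hcont : ContinuousAt (fun x => fderiv ℂ (NN Q A.a) (x, χ x) (0, 1)) x₀ := by
    have h1 : ContinuousAt (fderiv ℂ (NN Q A.a)) (x₀, χ x₀) := by
      rw [hχ0]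
      exact (Hol.continuousOn_fderiv hO hN).continuousAt (hO.mem_nhds hmem)
    have h2 : ContinuousAt (fun x => ((x, χ x) : C4 × ℂ)) x₀ :=
      continuousAt_id.prodMk (hχd.differentiableAt (hWo.mem_nhds hxW)).continuousAt
    have h3 : ContinuousAt (fun x => fderiv ℂ (NN Q A.a) (x, χ x)) x₀ :=
      ContinuousAt.comp (g := fderiv ℂ (NN Q A.a)) (f := fun x => ((x, χ x) : C4 × ℂ)) h1 h2
    exact h3.clm_apply continuousAt_const
  have hev : ∀ᶠ x in 𝓝 x₀, fderiv ℂ (NN Q A.a) (x, χ x) (0, 1) ≠ 0 := by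
    refine hcont.eventually_ne ?_
    rw [hχ0]
    exact hd'
  obtain ⟨W', hW'sub, hW'o, hxW'⟩ := _root_.mem_nhds_iff.mp hev
  have hsubball : ball (0 : ℂ) δ ⊆ ball 0 1 := fun c hc => (hsub (show ((x₀, c) : C4 × ℂ) ∈
    W ×ˢ ball (0 : ℂ) δ from ⟨hxW, hc⟩)).2
  refine ⟨W ∩ W', δ, χ, hWo.inter hW'o, ⟨hxW, hxW'⟩, hδ, hsubball, hχd.mono inter_subset_left,
    hχ0, ?_⟩
  rintro x ⟨hx, hx'⟩
  refine ⟨hχm x hx, (hiff x hx _ (hχm x hx)).mpr rfl, ?_, ?_⟩
  · rw [(deriv_NN isOpen_ball A.diff_a x (hsubball (hχm x hx))).deriv]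
    exact hW'sub hx'
  · intro c hc hc0
    exact ((hiff x hx c hc).mp hc0).symm

/-- `D ∩ sphere` is compact -/
theorem isCompact_sphere {D : Set C4} (hDV : D ⊆ Vstar Q) (hDc : closure D ∩ Vstar Q ⊆ D) :
    IsCompact (D ∩ sphere (0 : C4) 1) := by
  have hcl : IsClosed (D ∩ sphere (0 : C4) 1) := by
    rw [← closure_subset_iff_isClosed]
    intro v hv
    have h1 : v ∈ closure D := closure_mono inter_subset_left hv
    have h2 : v ∈ sphere (0 : C4) 1 := by
      have := closure_mono inter_subset_right hv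
      rwa [isClosed_sphere.closure_eq] at this
    have h3 : MvPolynomial.eval v Q = 0 := by
      have hc : IsClosed {y : C4 | MvPolynomial.eval y Q = 0} :=
        isClosed_eq (continuous_eval Q) continuous_const
      have h4 : D ⊆ {y : C4 | MvPolynomial.eval y Q = 0} := fun y hy => (hDV hy).2
      exact closure_minimal h4 hc h1
    have h5 : v ≠ 0 := by
      rintro rfl
      simp at h2
    exact ⟨hDc ⟨h1, h5, h3⟩, h2⟩
  exact (_root_.isCompact_sphere (0 : C4) 1).of_isClosed_subset hcl inter_subset_right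

end Crest.Agent.R279.Reg
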