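import Mathlib
import Crest.Agent.R279.RegDefs545
import Crest.Agent.R279.Alg712Defs
import Crest.Agent.R279.Boot556

/-!
# R279, A7 (helper545), part B: no one-parameter family of planes is tangent to an open set
-/

set_option autoImplicit false
set_option maxHeartbeats 400000

namespace Crest.Agent.R279.Reg

open Metric Set Filter Topology

variable {Q : MvPolynomial (Fin 4) ℂ}

/-- A3 (helper712) as a hypothesis -/
def GaussRank (Q : MvPolynomial (Fin 4) ℂ) : Prop :=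
  ∀ (W : Set (ℂ × ℂ)) (x : ℂ × ℂ → Fin 4 → ℂ), Alg.IsChart Q W x → W.Nonempty →
    ∃ z ∈ W, LinearIndependent ℂ ![Alg.grad Q (x z),
      fderiv ℂ (fun z => Alg.grad Q (x z)) z (1, 0), fderiv ℂ (fun z => Alg.grad Q (x z)) z (0, 1)]

theorem differentiable_grad (Q : MvPolynomial (Fin 4) ℂ) : Differentiable ℂ (Alg.grad Q) := by
  rw [differentiable_pi]
  intro i
  exact differentiable_eval (MvPolynomial.pderiv i Q)

theorem grad_dot (Q : MvPolynomial (Fin 4) ℂ) (p x : C4) : Alg.grad Q p ⬝ᵥ x = dQ Q p x := by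
  rw [dQ_apply]
  rfl

/-- three independent vectors of `ℂ⁴` have a one-dimensional annihilator -/
theorem ann_unique {x y z g w : Fin 4 → ℂ} (h : LinearIndependent ℂ ![x, y, z]) (hg : g ≠ 0)
    (hgx : g ⬝ᵥ x = 0) (hgy : g ⬝ᵥ y = 0) (hgz : g ⬝ᵥ z = 0)
    (hwx : w ⬝ᵥ x = 0) (hwy : w ⬝ᵥ y = 0) (hwz : w ⬝ᵥ z = 0) : ∃ μ : ℂ, w = μ • g := by
  set M : Matrix (Fin 3) (Fin 4) ℂ := Matrix.of ![x, y, z] with hM
  have hrank : M.rank = 3 := by
    have := LinearIndependent.rank_matrix (M := M) h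
    simpa using this
  have hk : Module.finrank ℂ (LinearMap.ker M.mulVecLin) = 1 := by
    have h1 := LinearMap.finrank_range_add_finrank_ker M.mulVecLin
    have h2 : Module.finrank ℂ (LinearMap.range M.mulVecLin) = 3 := hrank
    have h3 : Module.finrank ℂ (Fin 4 → ℂ) = 4 := by simp
    omega
  have hmem : ∀ u : Fin 4 → ℂ, u ⬝ᵥ x = 0 → u ⬝ᵥ y = 0 → u ⬝ᵥ z = 0 →
      u ∈ LinearMap.ker M.mulVecLin := by
    intro u h1 h2 h3
    rw [LinearMap.mem_ker, Matrix.mulVecLin_apply]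
    funext i
    fin_cases i
    · simpa [hM, Matrix.mulVec, dotProduct_comm] using h1
    · simpa [hM, Matrix.mulVec, dotProduct_comm] using h2
    · simpa [hM, Matrix.mulVec, dotProduct_comm] using h3
  have hg' : (⟨g, hmem g hgx hgy hgz⟩ : LinearMap.ker M.mulVecLin) ≠ 0 := by
    intro h0
    exact hg (congrArg Subtype.val h0)
  obtain ⟨μ, hμ⟩ := (finrank_eq_one_iff_of_nonzero' _ hg').mp hk
    ⟨w, hmem w hwx hwy hwz⟩
  exact ⟨μ, (congrArg Subtype.val hμ).symm⟩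

/-- the algebraic heart: if `w = μ G` along a two-parameter family and all derivatives of `w` are
multiples of one vector `k'`, then `G, ∂₁G, ∂₂G` are dependent. -/
theorem not_indep_of_prop {G w : ℂ × ℂ → Fin 4 → ℂ} {W : Set (ℂ × ℂ)} (hW : IsOpen W)
    (hG : DifferentiableOn ℂ G W) (hw : DifferentiableOn ℂ w W)
    (hG0 : ∀ z ∈ W, G z ≠ 0) (hw0 : ∀ z ∈ W, w z ≠ 0)
    (hprop : ∀ z ∈ W, ∃ μ : ℂ, w z = μ • G z) {z : ℂ × ℂ} (hz : z ∈ W) {k' : Fin 4 → ℂ}
    (hk : ∀ e : ℂ × ℂ, ∃ c : ℂ, fderiv ℂ w z e = c • k') :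
    ¬ LinearIndependent ℂ ![G z, fderiv ℂ G z (1, 0), fderiv ℂ G z (0, 1)] := by
  -- an index with `G z i ≠ 0`
  obtain ⟨i, hi⟩ : ∃ i, G z i ≠ 0 := by
    by_contra h
    push Not at h
    exact hG0 z hz (funext h)
  obtain ⟨μ, hμ⟩ := hprop z hz
  have hμ0 : μ ≠ 0 := by
    rintro rfl
    apply hw0 z hz
    rw [hμ, zero_smul]
  have hwi : w z i ≠ 0 := by
    rw [hμ]
    exact mul_ne_zero hμ0 hi
  have hGd : DifferentiableAt ℂ G z := hG.differentiableAt (hW.mem_nhds hz)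
  have hwd : DifferentiableAt ℂ w z := hw.differentiableAt (hW.mem_nhds hz)
  have hGi : ∀ j, HasFDerivAt (fun z => G z j)
      ((ContinuousLinearMap.proj (R := ℂ) (φ := fun _ : Fin 4 => ℂ) j).comp (fderiv ℂ G z)) z :=
    fun j => (hasFDerivAt_pi'.mp hGd.hasFDerivAt) j
  have hwi' : ∀ j, HasFDerivAt (fun z => w z j)
      ((ContinuousLinearMap.proj (R := ℂ) (φ := fun _ : Fin 4 => ℂ) j).comp (fderiv ℂ w z)) z :=
    fun j => (hasFDerivAt_pi'.mp hwd.hasFDerivAt) j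
  -- the differentiated proportionality
  have key : ∀ (e : ℂ × ℂ) (j : Fin 4),
      w z i * fderiv ℂ G z e j + G z j * fderiv ℂ w z e i
        = w z j * fderiv ℂ G z e i + G z i * fderiv ℂ w z e j := by
    intro e j
    have h1 := (hwi' i).fun_mul (hGi j)
    have h2 := (hwi' j).fun_mul (hGi i)
    have hev : (fun z => w z i * G z j) =ᶠ[𝓝 z] fun z => w z j * G z i := by
      filter_upwards [hW.mem_nhds hz] with z' hz'
      obtain ⟨ν, hν⟩ := hprop z' hz'
      rw [hν]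
      simp only [Pi.smul_apply, smul_eq_mul]
      ring
    have h3 := h1.congr_of_eventuallyEq hev.symm
    have h4 := h3.unique h2
    have h5 := congrArg (fun L : ℂ × ℂ →L[ℂ] ℂ => L e) h4
    simpa using h5
  -- `∂G` in the span of `k'` and `G`
  have hspan : ∀ e : ℂ × ℂ, ∃ α β : ℂ, fderiv ℂ G z e = α • k' + β • G z := by
    intro e
    obtain ⟨c, hc⟩ := hk e
    refine ⟨G z i * c / w z i, (μ * fderiv ℂ G z e i - c * k' i) / w z i, ?_⟩
    funext j
    have h1 := key e j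
    have h2 : w z j = μ * G z j := by rw [hμ]; rfl
    rw [hc, h2] at h1
    simp only [Pi.smul_apply, smul_eq_mul, Pi.add_apply] at h1 ⊢
    field_simp
    linear_combination h1
  intro hli
  rw [Fintype.linearIndependent_iff] at hli
  obtain ⟨α₁, β₁, h1⟩ := hspan (1, 0)
  obtain ⟨α₂, β₂, h2⟩ := hspan (0, 1)
  have h3 := hli ![-(α₂ * β₁ - α₁ * β₂), α₂, -α₁] (by
    rw [Fin.sum_univ_three]
    simp only [Matrix.cons_val_zero, Matrix.cons_val_one, Matrix.cons_val]
    rw [h1, h2]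
    module)
  have hα₁ : α₁ = 0 := by
    have := h3 2
    simpa using this
  have h4 := hli ![-β₁, 1, 0] (by
    rw [Fin.sum_univ_three]
    simp only [Matrix.cons_val_zero, Matrix.cons_val_one, Matrix.cons_val]
    rw [h1, hα₁]
    module)
  have := h4 1
  simp at this

/-- chart facts: `x, ∂₁x, ∂₂x` are independent -/
theorem chart_indep {S : Set C4} {v : C4} (C : Chart S v) {z : ℂ × ℂ}
    (hz : z ∈ ball (0 : ℂ × ℂ) C.r) :
    LinearIndependent ℂ ![C.x z, fderiv ℂ C.x z (1, 0), fderiv ℂ C.x z (0, 1)] := by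
  have hd : DifferentiableAt ℂ C.x z := C.diff_x.differentiableAt (isOpen_ball.mem_nhds hz)
  have ha : ∀ e, C.a (fderiv ℂ C.x z e) = 0 := by
    intro e
    have h1 : HasFDerivAt (fun z => C.a (C.x z)) (C.a.comp (fderiv ℂ C.x z)) z :=
      C.a.hasFDerivAt.comp z hd.hasFDerivAt
    have hev : (fun z => C.a (C.x z)) =ᶠ[𝓝 z] fun _ => (1 : ℂ) := by
      filter_upwards [isOpen_ball.mem_nhds hz] with z' hz'
      exact C.a_x z' hz'
    have h2 : HasFDerivAt (fun z => C.a (C.x z)) (0 : ℂ × ℂ →L[ℂ] ℂ) z :=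
      (hasFDerivAt_const (1 : ℂ) z).congr_of_eventuallyEq hev
    have h3 := h1.unique h2
    have := congrArg (fun L : ℂ × ℂ →L[ℂ] ℂ => L e) h3
    simpa using this
  have hb : ∀ e, C.b (fderiv ℂ C.x z e) = e := by
    intro e
    have h1 : HasFDerivAt (fun z => C.b (C.x z)) (C.b.comp (fderiv ℂ C.x z)) z :=
      C.b.hasFDerivAt.comp z hd.hasFDerivAt
    have hev : (fun z => C.b (C.x z)) =ᶠ[𝓝 z] fun z => z := by
      filter_upwards [isOpen_ball.mem_nhds hz] with z' hz'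
      exact C.b_x z' hz'
    have h2 : HasFDerivAt (fun z => C.b (C.x z)) (ContinuousLinearMap.id ℂ (ℂ × ℂ)) z :=
      (hasFDerivAt_id z).congr_of_eventuallyEq hev
    have h3 := h1.unique h2
    have := congrArg (fun L : ℂ × ℂ →L[ℂ] ℂ × ℂ => L e) h3
    simpa using this
  rw [Fintype.linearIndependent_iff]
  intro g hg
  rw [Fin.sum_univ_three] at hg
  simp only [Matrix.cons_val_zero, Matrix.cons_val_one, Matrix.cons_val] at hg
  have h0 : g 0 = 0 := by
    have := congrArg C.a hg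
    simpa [ha, C.a_x z hz] using this
  have h12 := congrArg C.b hg
  rw [h0, zero_smul, zero_add, map_add, map_smul, map_smul, hb, hb, map_zero] at h12
  have h1 : g 1 = 0 := by simpa using congrArg Prod.fst h12
  have h2 : g 2 = 0 := by simpa using congrArg Prod.snd h12
  intro i
  fin_cases i
  · exact h0
  · exact h1
  · exact h2

/-- a `Chart` (helper556) of `V*` gives an `IsChart` (helper712) on every smaller open set -/
theorem isChart {v : C4} (C : Chart (Vstar Q) v) {W : Set (ℂ × ℂ)} (hW : IsOpen W)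
    (hWr : W ⊆ ball 0 C.r) : Alg.IsChart Q W C.x :=
  ⟨hW, C.diff_x.mono hWr, fun z hz => (C.x_mem z (hWr hz)).1.2,
    fun z hz => chart_indep C (hWr hz)⟩

/-- **No one-parameter family of planes is tangent to an open piece of `X`** : if `k` is a
holomorphic curve of nonzero linear forms, `s` a holomorphic function near `v ∈ V*`, then
`⟨k(s y), y⟩` and `⟨k'(s y), y⟩` do not both vanish on `V*` near `v`. -/
theorem exists_ne {n : ℕ} (hQ : Q.IsHomogeneous n)
    (hsm : ∀ p : Fin 4 → ℂ, p ≠ 0 → MvPolynomial.eval p Q = 0 →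
      ∃ i : Fin 4, MvPolynomial.eval p (MvPolynomial.pderiv i Q) ≠ 0)
    (hR : GaussRank Q) {v : C4} (hv : v ∈ Vstar Q) {A : Set C4} (hA : IsOpen A) (hvA : v ∈ A)
    {B : Set ℂ} (hB : IsOpen B) {k : ℂ → Fin 4 → ℂ} (hk : DifferentiableOn ℂ k B)
    (hk0 : ∀ c ∈ B, k c ≠ 0) {s : C4 → ℂ} (hs : DifferentiableOn ℂ s A) (hsB : ∀ y ∈ A, s y ∈ B) :
    ∃ y ∈ A ∩ Vstar Q, k (s y) ⬝ᵥ y ≠ 0 ∨ deriv k (s y) ⬝ᵥ y ≠ 0 := by
  by_contra hcon
  push Not at hcon
  obtain ⟨C, -⟩ := Boot.exists_chart hQ hv.1 hv.2 (hsm v hv.1 hv.2) one_pos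
  have hcont : ContinuousAt C.x 0 :=
    (C.diff_x.continuousOn).continuousAt (isOpen_ball.mem_nhds (mem_ball_self C.r_pos))
  have hpre : C.x ⁻¹' A ∈ 𝓝 (0 : ℂ × ℂ) := hcont (hA.mem_nhds (by rw [C.x_zero]; exact hvA))
  obtain ⟨ε, hε, hball⟩ := Metric.mem_nhds_iff.1 hpre
  set W : Set (ℂ × ℂ) := ball 0 (min ε C.r) with hWdef
  have hW : IsOpen W := isOpen_ball
  have hWr : W ⊆ ball 0 C.r := ball_subset_ball (min_le_right _ _)
  have hWA : ∀ z ∈ W, C.x z ∈ A := fun z hz => hball (ball_subset_ball (min_le_left _ _) hz)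
  have hWne : W.Nonempty := ⟨0, mem_ball_self (lt_min hε C.r_pos)⟩
  have hV : ∀ z ∈ W, C.x z ∈ Vstar Q := fun z hz => (C.x_mem z (hWr hz)).1
  have hch : Alg.IsChart Q W C.x := isChart C hW hWr
  obtain ⟨z, hz, hli⟩ := hR W C.x hch hWne
  -- the functions `G`, `w`
  set G : ℂ × ℂ → Fin 4 → ℂ := fun z => Alg.grad Q (C.x z) with hGdef
  set w : ℂ × ℂ → Fin 4 → ℂ := fun z => k (s (C.x z)) with hwdef
  have hsx : DifferentiableOn ℂ (fun z => s (C.x z)) W :=
    hs.comp (C.diff_x.mono hWr) hWA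
  have hwd : DifferentiableOn ℂ w W := hk.comp hsx (fun z hz => hsB _ (hWA z hz))
  have hGd : DifferentiableOn ℂ G W :=
    (differentiable_grad Q).comp_differentiableOn (C.diff_x.mono hWr)
  have hfw : ∀ z ∈ W, ∀ e, fderiv ℂ w z e
      = (fderiv ℂ (fun z => s (C.x z)) z e) • deriv k (s (C.x z)) := by
    intro z hz e
    have h1 : HasDerivAt k (deriv k (s (C.x z))) (s (C.x z)) :=
      (hk.differentiableAt (hB.mem_nhds (hsB _ (hWA z hz)))).hasDerivAt
    have h2 : HasFDerivAt (fun z => s (C.x z)) (fderiv ℂ (fun z => s (C.x z)) z) z :=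
      (hsx.differentiableAt (hW.mem_nhds hz)).hasFDerivAt
    have h3 := HasFDerivAt.comp z h1.hasFDerivAt h2
    have h4 : fderiv ℂ w z = _ := h3.fderiv
    rw [h4]
    simp
  -- `w z` kills the tangent space
  have hker : ∀ z ∈ W, ∀ e, w z ⬝ᵥ fderiv ℂ C.x z e = 0 := by
    intro z hz e
    have hxd : DifferentiableAt ℂ C.x z := C.diff_x.differentiableAt (isOpen_ball.mem_nhds (hWr hz))
    have h1 : ∀ j, HasFDerivAt (fun z => w z j * C.x z j) _ z := fun j =>
      ((hasFDerivAt_pi'.mp (hwd.differentiableAt (hW.mem_nhds hz)).hasFDerivAt) j).fun_mul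
        ((hasFDerivAt_pi'.mp hxd.hasFDerivAt) j)
    have h2 := HasFDerivAt.fun_sum (u := Finset.univ) (fun j _ => h1 j)
    have hev : (fun z => ∑ j, w z j * C.x z j) =ᶠ[𝓝 z] fun _ => (0 : ℂ) := by
      filter_upwards [hW.mem_nhds hz] with z' hz'
      exact (hcon _ ⟨hWA z' hz', hV z' hz'⟩).1
    have h3 : HasFDerivAt (fun z => ∑ j, w z j * C.x z j) (0 : ℂ × ℂ →L[ℂ] ℂ) z :=
      (hasFDerivAt_const (0 : ℂ) z).congr_of_eventuallyEq hev
    have h4 := congrArg (fun L : ℂ × ℂ →L[ℂ] ℂ => L e) (h2.unique h3)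
    have h5 : ∑ j, (w z j * fderiv ℂ C.x z e j + C.x z j * fderiv ℂ w z e j) = 0 := by
      simpa using h4
    have h6 : ∑ j, C.x z j * fderiv ℂ w z e j = 0 := by
      rw [hfw z hz e]
      have h7 := (hcon _ ⟨hWA z hz, hV z hz⟩).2
      rw [dotProduct] at h7
      calc ∑ j, C.x z j * ((fderiv ℂ (fun z => s (C.x z)) z e) • deriv k (s (C.x z))) j
          = (fderiv ℂ (fun z => s (C.x z)) z e) * ∑ j, deriv k (s (C.x z)) j * C.x z j := by
            rw [Finset.mul_sum]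
            refine Finset.sum_congr rfl fun j _ => ?_
            simp only [Pi.smul_apply, smul_eq_mul]
            ring
        _ = 0 := by rw [h7, mul_zero]
    rw [Finset.sum_add_distrib, h6, add_zero] at h5
    exact h5
  have hGker : ∀ z ∈ W, ∀ e, G z ⬝ᵥ fderiv ℂ C.x z e = 0 := by
    intro z hz e
    have hxd : DifferentiableAt ℂ C.x z := C.diff_x.differentiableAt (isOpen_ball.mem_nhds (hWr hz))
    have h1 : HasFDerivAt (fun z => MvPolynomial.eval (C.x z) Q) _ z :=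
      (hasFDerivAt_eval Q (C.x z)).comp z hxd.hasFDerivAt
    have hev : (fun z => MvPolynomial.eval (C.x z) Q) =ᶠ[𝓝 z] fun _ => (0 : ℂ) := by
      filter_upwards [hW.mem_nhds hz] with z' hz'
      exact (hV z' hz').2
    have h3 : HasFDerivAt (fun z => MvPolynomial.eval (C.x z) Q) (0 : ℂ × ℂ →L[ℂ] ℂ) z :=
      (hasFDerivAt_const (0 : ℂ) z).congr_of_eventuallyEq hev
    have h4 := congrArg (fun L : ℂ × ℂ →L[ℂ] ℂ => L e) (h1.unique h3)
    rw [hGdef]
    show Alg.grad Q (C.x z) ⬝ᵥ _ = 0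
    rw [grad_dot]
    simpa using h4
  have hG0 : ∀ z ∈ W, G z ≠ 0 := by
    intro z hz h0
    obtain ⟨i, hi⟩ := hsm _ (hV z hz).1 (hV z hz).2
    exact hi (congrFun h0 i)
  have hprop : ∀ z ∈ W, ∃ μ : ℂ, w z = μ • G z := by
    intro z hz
    refine ann_unique (chart_indep C (hWr hz)) (hG0 z hz) ?_ (hGker z hz _) (hGker z hz _) ?_
      (hker z hz _) (hker z hz _)
    · rw [hGdef]
      show Alg.grad Q (C.x z) ⬝ᵥ _ = 0
      rw [grad_dot, dQ_self hQ, (hV z hz).2, mul_zero]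
    · exact (hcon _ ⟨hWA z hz, hV z hz⟩).1
  refine not_indep_of_prop hW hGd hwd hG0 (fun z hz => hk0 _ (hsB _ (hWA z hz))) hprop hz
    (k' := deriv k (s (C.x z))) ?_ hli
  intro e
  exact ⟨_, hfw z hz e⟩

end Crest.Agent.R279.Reg
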