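import Mathlib
import Crest.Agent.R279.Strat524C
import Crest.Agent.R279.ThinCalc556
import Crest.Agent.R279.LocEq60
import Crest.Agent.R279.Alg712Defs
import Crest.Agent.R279.Boot556
import Crest.Agent.R279.TwoArcs471

/-!
# R279 (helper524): zero sets in charts are thin; the curve `D` has an `ArcStructure`

* `thin_zero`: the zero set of a holomorphic function on a chart, nowhere locally zero, is thin.
* `isChart_of_chart`: the charts `Chart (Vstar Q) v` are charts in the sense of `Alg712Defs`.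
* `arcStructure_DD`, `thin_DD`: the curve `DD Q`, from the input (A4) "`D` has empty interior".
-/

set_option autoImplicit false

namespace Crest.Agent.R279.Strat

open Metric Set Filter Topology MvPolynomial

/-- the zero set of a holomorphic function in a chart (nowhere locally zero) is thin -/
theorem thin_zero {S : Set C4} {v : C4} (C : Chart S v) {U : Set (ℂ × ℂ)} (hU : IsOpen U)
    (hUr : U ⊆ ball (0 : ℂ × ℂ) C.r) {G : ℂ × ℂ → ℂ} (hG : AnalyticOnNhd ℂ G U)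
    (hne : ∀ p ∈ U, ¬ ∀ᶠ q in 𝓝 p, G q = 0) :
    Thin S {y | y ∈ C.O ∧ coord C y ∈ U ∧ G (coord C y) = 0} := by
  obtain ⟨A, hA, hA1, hA2⟩ := strat_cover hU hG hne
  refine (thin_chart C hA ?_).mono ?_
  · intro γ hγ
    exact ⟨(hA1 γ hγ).1, fun c hc => hUr ((hA1 γ hγ).2 c hc).1⟩
  · rintro y ⟨⟨hyO, hyU, hy0⟩, -⟩
    obtain ⟨a, ha, c, hc, hac⟩ := hA2 _ hyU hy0
    exact ⟨hyO, a, ha, c, hc, hac.symm⟩

/-- `DifferentiableOn` version of `thin_zero` on a ball with `G` not identically zero -/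
theorem thin_zero_ball {S : Set C4} {v : C4} (C : Chart S v) {r : ℝ}
    (hr : r ≤ C.r) {G : ℂ × ℂ → ℂ} (hG : DifferentiableOn ℂ G (ball 0 r))
    (hne : ∃ z ∈ ball (0 : ℂ × ℂ) r, G z ≠ 0) :
    Thin S {y | y ∈ C.O ∧ coord C y ∈ ball (0 : ℂ × ℂ) r ∧ G (coord C y) = 0} := by
  have hGa : AnalyticOnNhd ℂ G (ball 0 r) :=
    Crest.Agent.R266.SCV.analyticOnNhd_of_differentiableOn isOpen_ball hG
  refine thin_zero C isOpen_ball (ball_subset_ball hr) hGa ?_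
  intro p hp hev
  obtain ⟨z, hz, hGz⟩ := hne
  apply hGz
  have h0 : EqOn G 0 (ball 0 r) :=
    hGa.eqOn_zero_of_preconnected_of_eventuallyEq_zero (convex_ball _ _).isPreconnected hp hev
  exact h0 hz

/-- a `Chart` of `Vstar Q` is a chart in the sense of `Alg712Defs` -/
theorem isChart_of_chart {Q : MvPolynomial (Fin 4) ℂ} {v : C4}
    (C : Chart {v : C4 | v ≠ 0 ∧ eval v Q = 0} v) {U : Set (ℂ × ℂ)} (hU : IsOpen U)
    (hUr : U ⊆ ball (0 : ℂ × ℂ) C.r) : Alg.IsChart Q U C.x := by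
  refine ⟨hU, C.diff_x.mono hUr, fun z hz => (C.x_mem z (hUr hz)).1.2, ?_⟩
  intro z hz
  have hzr := hUr hz
  have hd : DifferentiableAt ℂ C.x z := C.diff_x.differentiableAt (isOpen_ball.mem_nhds hzr)
  have ha : ∀ ξ, C.a (fderiv ℂ C.x z ξ) = 0 := by
    intro ξ
    have h1 : HasFDerivAt (fun z => C.a (C.x z)) (C.a.comp (fderiv ℂ C.x z)) z :=
      C.a.hasFDerivAt.comp z hd.hasFDerivAt
    have h2 : HasFDerivAt (fun z => C.a (C.x z)) (0 : ℂ × ℂ →L[ℂ] ℂ) z := by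
      refine (hasFDerivAt_const (1 : ℂ) z).congr_of_eventuallyEq ?_
      filter_upwards [isOpen_ball.mem_nhds hzr] with w hw
      exact C.a_x w hw
    have h3 := h1.unique h2
    have := congrArg (fun L : ℂ × ℂ →L[ℂ] ℂ => L ξ) h3
    simpa using this
  have hb : ∀ ξ, C.b (fderiv ℂ C.x z ξ) = ξ := by
    intro ξ
    have h1 : HasFDerivAt (fun z => C.b (C.x z)) (C.b.comp (fderiv ℂ C.x z)) z :=
      C.b.hasFDerivAt.comp z hd.hasFDerivAt
    have h2 : HasFDerivAt (fun z => C.b (C.x z)) (ContinuousLinearMap.id ℂ (ℂ × ℂ)) z := by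
      refine (hasFDerivAt_id z).congr_of_eventuallyEq ?_
      filter_upwards [isOpen_ball.mem_nhds hzr] with w hw
      exact C.b_x w hw
    have h3 := h1.unique h2
    have := congrArg (fun L : ℂ × ℂ →L[ℂ] ℂ × ℂ => L ξ) h3
    simpa using this
  rw [Fintype.linearIndependent_iff]
  intro g hg
  rw [Fin.sum_univ_three] at hg
  simp only [Matrix.cons_val_zero, Matrix.cons_val_one, Matrix.cons_val] at hg
  have e1 := congrArg C.a hg
  simp only [map_add, map_smul, C.a_x z hzr, ha, smul_eq_mul, mul_one, mul_zero, add_zero,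
    map_zero] at e1
  have e2 := congrArg C.b hg
  simp only [map_add, map_smul, hb, e1, zero_smul, zero_add, map_zero] at e2
  have e3 := congrArg Prod.fst e2
  have e4 := congrArg Prod.snd e2
  simp at e3 e4
  intro i
  fin_cases i
  · exact e1
  · exact e3
  · exact e4

section DDsec

variable {Q : MvPolynomial (Fin 4) ℂ}

/-- the input (A4) of helper712 -/
def EmptyInterior (Q : MvPolynomial (Fin 4) ℂ) : Prop :=
  ∀ (W : Set (ℂ × ℂ)) (x : ℂ × ℂ → C4), Alg.IsChart Q W x → W.Nonempty →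
    ∃ z ∈ W, x z ∉ DD Q

theorem nonempty_chart (hQ : Q.IsHomogeneous 4)
    (hsmooth : ∀ p : Fin 4 → ℂ, p ≠ 0 → eval p Q = 0 → ∃ i, eval p (pderiv i Q) ≠ 0)
    (v : C4) (hv : v ∈ {v : C4 | v ≠ 0 ∧ eval v Q = 0}) :
    Nonempty (Chart {v : C4 | v ≠ 0 ∧ eval v Q = 0} v) := by
  obtain ⟨C, -⟩ := Boot.exists_chart hQ hv.1 hv.2 (hsmooth v hv.1 hv.2) one_pos
  exact ⟨C⟩

theorem interior_DD (hQ : Q.IsHomogeneous 4)
    (hsmooth : ∀ p : Fin 4 → ℂ, p ≠ 0 → eval p Q = 0 → ∃ i, eval p (pderiv i Q) ≠ 0)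
    (hA4 : EmptyInterior Q) :
    ∀ y ∈ {v : C4 | v ≠ 0 ∧ eval v Q = 0}, ∀ W : Set C4, IsOpen W → y ∈ W →
      ∃ y' ∈ W, y' ∈ {v : C4 | v ≠ 0 ∧ eval v Q = 0} ∧ y' ∉ DD Q := by
  intro y hy W hW hyW
  obtain ⟨C⟩ := nonempty_chart hQ hsmooth y hy
  have hc : ContinuousOn C.x (ball 0 C.r) := C.diff_x.continuousOn
  have hUo : IsOpen (ball (0 : ℂ × ℂ) C.r ∩ C.x ⁻¹' W) := hc.isOpen_inter_preimage isOpen_ball hW
  obtain ⟨z, hz, hzD⟩ := hA4 _ C.x (isChart_of_chart C hUo inter_subset_left)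
    ⟨0, mem_ball_self C.r_pos, by rw [mem_preimage, C.x_zero]; exact hyW⟩
  exact ⟨C.x z, hz.2, (C.x_mem z hz.1).1, hzD⟩

theorem DD_subset : DD Q ⊆ {v : C4 | v ≠ 0 ∧ eval v Q = 0} := fun _ h => h.1

theorem locEqAt_DD (hQ : Q.IsHomogeneous 4)
    (hsmooth : ∀ p : Fin 4 → ℂ, p ≠ 0 → eval p Q = 0 → ∃ i, eval p (pderiv i Q) ≠ 0)
    {v : C4} (hv : v ∈ {v : C4 | v ≠ 0 ∧ eval v Q = 0}) :
    LocEqAt {v : C4 | v ≠ 0 ∧ eval v Q = 0} (DD Q) v := by
  obtain ⟨O, F, hO, hvO, -, hF, -, hO0, hiff⟩ := LocEq.locEq hQ hsmooth hv.1 hv.2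
  refine ⟨O, F, hO, hvO, hF.differentiableOn, ?_⟩
  intro y hyO hy
  exact ⟨fun h => ⟨hy, (hiff y hyO hy.2).2 h⟩, fun h => (hiff y hyO hy.2).1 h.2⟩

/-- **INPUT of A7**: the curve `D` has an `ArcStructure`. -/
theorem arcStructure_DD (hQ : Q.IsHomogeneous 4)
    (hsmooth : ∀ p : Fin 4 → ℂ, p ≠ 0 → eval p Q = 0 → ∃ i, eval p (pderiv i Q) ≠ 0)
    (hA4 : EmptyInterior Q) : Reg.ArcStructure (DD Q) :=
  arcStructure (S := {v : C4 | v ≠ 0 ∧ eval v Q = 0}) (nonempty_chart hQ hsmooth) DD_subset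
    (TwoPl.DD_smul hQ) (fun _ hv => locEqAt_DD hQ hsmooth (DD_subset hv))
    (interior_DD hQ hsmooth hA4)

/-- a set with an arc structure is thin -/
theorem thin_of_arcStructure {S D : Set C4} (hDS : D ⊆ S) (h : Reg.ArcStructure D) :
    Thin S D := by
  obtain ⟨E₀, hE₀, hmain⟩ := h
  have h1 : Thin S {z : C4 | ∃ v ∈ E₀, ∃ t : ℂ, t ≠ 0 ∧ z = t • v} := thin_of_countable hE₀
  have h2 : Thin S {z : C4 | z ∈ D ∧ Nonempty (Reg.ArcAt D z)} := by
    refine thin_of_locally ?_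
    rintro z ⟨hz, ⟨A⟩⟩ -
    refine ⟨A.O, A.isOpen_O, ?_, ?_⟩
    · have := (A.a_mem 0 (mem_ball_self one_pos)).2
      rwa [A.a_zero] at this
    · refine (thin_arc (S := S) isOpen_ball A.diff_a (fun c hc => hDS (A.a_mem c hc).1)).mono ?_
      rintro y ⟨⟨⟨hyD, -⟩, hyO⟩, -⟩
      obtain ⟨t, ht, hyt⟩ := A.cover y hyO hyD
      exact ⟨A.k y, A.k_mem y hyO, t, ht, hyt⟩
  refine (h1.union h2).mono ?_
  rintro z ⟨hz, -⟩
  rcases hmain z hz with h' | h'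
  · exact Or.inl h'
  · exact Or.inr ⟨hz, h'⟩

theorem thin_DD (hQ : Q.IsHomogeneous 4)
    (hsmooth : ∀ p : Fin 4 → ℂ, p ≠ 0 → eval p Q = 0 → ∃ i, eval p (pderiv i Q) ≠ 0)
    (hA4 : EmptyInterior Q) : Thin {v : C4 | v ≠ 0 ∧ eval v Q = 0} (DD Q) :=
  thin_of_arcStructure DD_subset (arcStructure_DD hQ hsmooth hA4)

/-- **no isolated rays**, general form: in a chart, a set with a local equation has no isolated
rays -/
theorem no_isolated_ray {S D : Set C4} {v : C4} (C : Chart S v) (hv : v ∈ D)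
    (h : LocEqAt S D v) {W : Set C4} (hW : IsOpen W) (hvW : v ∈ W) :
    ∃ y ∈ W, y ∈ D ∧ LinearIndependent ℂ ![v, y] := by
  obtain ⟨r, G, hr, hrC, hG, hGD⟩ := exists_chart_eq C h
  have h0 : G 0 = 0 := (hGD 0 (mem_ball_self hr)).2 (by rw [C.x_zero]; exact hv)
  have hfr := frequently_zero isOpen_ball hG (mem_ball_self hr) h0
  have hc : ContinuousAt C.x 0 :=
    (C.diff_x.continuousOn).continuousAt (isOpen_ball.mem_nhds (mem_ball_self C.r_pos))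
  have hpre : C.x ⁻¹' W ∈ 𝓝 (0 : ℂ × ℂ) := hc (hW.mem_nhds (by rw [C.x_zero]; exact hvW))
  have hev : ∀ᶠ q in 𝓝[≠] (0 : ℂ × ℂ), q ∈ C.x ⁻¹' W ∧ q ∈ ball (0 : ℂ × ℂ) r ∧ q ≠ 0 := by
    have h1 : ∀ᶠ q in 𝓝[≠] (0 : ℂ × ℂ), q ∈ C.x ⁻¹' W := nhdsWithin_le_nhds hpre
    have h2 : ∀ᶠ q in 𝓝[≠] (0 : ℂ × ℂ), q ∈ ball (0 : ℂ × ℂ) r :=
      nhdsWithin_le_nhds (ball_mem_nhds _ hr)
    filter_upwards [h1, h2, self_mem_nhdsWithin] with q h1 h2 h3
    exact ⟨h1, h2, h3⟩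
  obtain ⟨q, hq0, hqW, hqr, hqne⟩ := (hfr.and_eventually hev).exists
  refine ⟨C.x q, hqW, (hGD q hqr).1 hq0, ?_⟩
  have hqC : q ∈ ball (0 : ℂ × ℂ) C.r := ball_subset_ball hrC hqr
  have hav : C.a v = 1 := by
    have := C.a_x 0 (mem_ball_self C.r_pos)
    rwa [C.x_zero] at this
  have hbv : C.b v = 0 := by
    have := C.b_x 0 (mem_ball_self C.r_pos)
    rwa [C.x_zero] at this
  rw [LinearIndependent.pair_iff]
  intro s t hst
  have e1 := congrArg C.a hst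
  have e2 := congrArg C.b hst
  simp only [map_add, map_smul, hav, C.a_x q hqC, smul_eq_mul, mul_one, map_zero] at e1
  simp only [map_add, map_smul, hbv, C.b_x q hqC, smul_zero, zero_add, map_zero] at e2
  rcases smul_eq_zero.1 e2 with h3 | h3
  · exact ⟨by rw [h3, add_zero] at e1; exact e1, h3⟩
  · exact absurd h3 hqne

/-- `D` has no isolated rays -/
theorem no_isolated_ray_DD (hQ : Q.IsHomogeneous 4)
    (hsmooth : ∀ p : Fin 4 → ℂ, p ≠ 0 → eval p Q = 0 → ∃ i, eval p (pderiv i Q) ≠ 0)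
    {v : C4} (hv : v ∈ DD Q) {W : Set C4} (hW : IsOpen W) (hvW : v ∈ W) :
    ∃ y ∈ W, y ∈ DD Q ∧ LinearIndependent ℂ ![v, y] := by
  obtain ⟨C⟩ := nonempty_chart hQ hsmooth v (DD_subset hv)
  exact no_isolated_ray C hv (locEqAt_DD hQ hsmooth (DD_subset hv)) hW hvW

end DDsec

end Crest.Agent.R279.Strat
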