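import Mathlib
import Crest.Agent.R279.ThinCalc556
import Crest.Agent.R279.Boot556
import Crest.Agent.R279.Strat524B

/-!
# R279: zero sets of homogeneous holomorphic functions are thin (helper556)
-/

set_option autoImplicit false

namespace Crest.Agent.R279

open Metric Set Filter Topology

section coordfacts

variable {S : Set (Fin 4 → ℂ)} {v : Fin 4 → ℂ}

theorem Chart.coord_diff (C : Chart S v) :
    DifferentiableOn ℂ (fun y => (C.a y)⁻¹ • C.b y) C.O :=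
  (C.a.differentiable.differentiableOn.inv C.a_ne).smul C.b.differentiable.differentiableOn

theorem Chart.coord_x (C : Chart S v) {z : ℂ × ℂ} (hz : z ∈ ball (0 : ℂ × ℂ) C.r) :
    (C.a (C.x z))⁻¹ • C.b (C.x z) = z := by
  rw [C.a_x z hz, C.b_x z hz, inv_one, one_smul]

theorem Chart.v_mem (C : Chart S v) : v ∈ S ∧ v ∈ C.O := by
  have := C.x_mem 0 (mem_ball_self C.r_pos)
  rwa [C.x_zero] at this

theorem Chart.coord_v (C : Chart S v) : (C.a v)⁻¹ • C.b v = 0 := by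
  have := C.coord_x (mem_ball_self C.r_pos)
  rwa [C.x_zero] at this

theorem Chart.x_coord (C : Chart S v) {y : Fin 4 → ℂ} (hy : y ∈ C.O) (hyS : y ∈ S) :
    C.x ((C.a y)⁻¹ • C.b y) = (C.a y)⁻¹ • y := by
  have h := C.eq_x y hy hyS
  conv_rhs => rw [h]
  rw [smul_smul]
  have h1 : C.a y = C.a (C.a y • C.x ((C.a y)⁻¹ • C.b y)) := by rw [← h]
  rw [← h1, inv_mul_cancel₀ (C.a_ne y hy), one_smul]

end coordfacts

/-- zero sets of planar holomorphic functions, seen through a chart, are thin -/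
theorem thin_zero_chart {S : Set (Fin 4 → ℂ)} {v : Fin 4 → ℂ} (C : Chart S v)
    {U : Set (ℂ × ℂ)} (hU : IsOpen U) (hUr : U ⊆ ball 0 C.r) {F : ℂ × ℂ → ℂ}
    (hF : DifferentiableOn ℂ F U) (hne : ∀ p ∈ U, ¬ ∀ᶠ q in 𝓝 p, F q = 0) :
    Thin S {y | y ∈ C.O ∧ (C.a y)⁻¹ • C.b y ∈ U ∧ F ((C.a y)⁻¹ • C.b y) = 0} := by
  have hFa : AnalyticOnNhd ℂ F U :=
    Crest.Agent.R266.SCV.analyticOnNhd_of_differentiableOn hU hF
  obtain ⟨A, hA, hA1, hA2⟩ := Strat.strat_cover hU hFa hne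
  refine (thin_chart C hA fun γ hγ => ⟨(hA1 γ hγ).1, fun c hc => hUr ((hA1 γ hγ).2 c hc).1⟩).mono ?_
  rintro y ⟨⟨hyO, hyU, hy0⟩, -⟩
  obtain ⟨γ, hγ, c, hc, h⟩ := hA2 _ hyU hy0
  exact ⟨hyO, γ, hγ, c, hc, h.symm⟩

/-- **Zero sets are thin**, local homogeneity version. -/
theorem thin_zero_local {V : Set (Fin 4 → ℂ)} (hch : ∀ v ∈ V, Nonempty (Chart V v))
    {W : Set (Fin 4 → ℂ)} (hW : IsOpen W) {F : (Fin 4 → ℂ) → ℂ} (hF : DifferentiableOn ℂ F W)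
    (hom : ∀ v ∈ W, v ∈ V → ∃ N ∈ 𝓝 v, ∀ y ∈ N, y ∈ V → ∀ t : ℂ, t ≠ 0 → t • y ∈ N →
      F y = 0 → F (t • y) = 0)
    (hne : ∀ v ∈ V, v ∈ W → ∀ N ∈ 𝓝 v, ∃ y ∈ N, y ∈ V ∧ F y ≠ 0) :
    Thin V {y | y ∈ W ∧ F y = 0} := by
  refine thin_of_locally ?_
  rintro v ⟨hvW, -⟩ hvV
  obtain ⟨C⟩ := hch v hvV
  -- normalise: `C.x` hits a multiple of `v`; here `C.x 0 = v`
  obtain ⟨N, hN, hNF⟩ := hom v hvW hvV
  set W' : Set (Fin 4 → ℂ) := interior N ∩ W with hW'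
  have hW'o : IsOpen W' := isOpen_interior.inter hW
  have hvW' : v ∈ W' := ⟨mem_interior_iff_mem_nhds.mpr hN, hvW⟩
  set U : Set (ℂ × ℂ) := ball (0 : ℂ × ℂ) C.r ∩ C.x ⁻¹' W' with hUdef
  have hU : IsOpen U := C.diff_x.continuousOn.isOpen_inter_preimage isOpen_ball hW'o
  have hUr : U ⊆ ball 0 C.r := inter_subset_left
  have hG : DifferentiableOn ℂ (fun z => F (C.x z)) U :=
    hF.comp (C.diff_x.mono hUr) (fun z hz => hz.2.2)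
  have hcd := C.coord_diff
  have key : ∀ y ∈ C.O, y ∈ V → y ∈ W' → (C.a y)⁻¹ • C.b y ∈ U →
      (F y = 0 ↔ F (C.x ((C.a y)⁻¹ • C.b y)) = 0) := by
    intro y hyO hyV hyW' hyU
    have hxy := C.x_coord hyO hyV
    have hmem : C.x ((C.a y)⁻¹ • C.b y) ∈ W' := hyU.2
    have hxV : C.x ((C.a y)⁻¹ • C.b y) ∈ V := (C.x_mem _ hyU.1).1
    constructor
    · intro h
      rw [hxy] at hmem ⊢
      exact hNF y (interior_subset hyW'.1) hyV _ (inv_ne_zero (C.a_ne y hyO))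
        (interior_subset hmem.1) h
    · intro h
      have h1 := C.eq_x y hyO hyV
      have h2 : C.a y • C.x ((C.a y)⁻¹ • C.b y) ∈ N := by
        rw [← h1]
        exact interior_subset hyW'.1
      have h3 := hNF _ (interior_subset hmem.1) hxV _ (C.a_ne y hyO) h2 h
      rw [← h1] at h3
      exact h3
  have hne' : ∀ p ∈ U, ¬ ∀ᶠ q in 𝓝 p, F (C.x q) = 0 := by
    intro p hp hev
    have hxp := C.x_mem p hp.1
    have hcont : ContinuousAt (fun y => (C.a y)⁻¹ • C.b y) (C.x p) :=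
      (hcd.continuousOn).continuousAt (C.isOpen_O.mem_nhds hxp.2)
    have hcx : (C.a (C.x p))⁻¹ • C.b (C.x p) = p := C.coord_x hp.1
    have h1 : ∀ᶠ y in 𝓝 (C.x p), F (C.x ((C.a y)⁻¹ • C.b y)) = 0 ∧ (C.a y)⁻¹ • C.b y ∈ U := by
      have h2 : ∀ᶠ q in 𝓝 ((C.a (C.x p))⁻¹ • C.b (C.x p)), F (C.x q) = 0 ∧ q ∈ U := by
        rw [hcx]
        exact hev.and (hU.mem_nhds hp)
      exact hcont.eventually h2
    have h2 : ∀ᶠ y in 𝓝 (C.x p), y ∈ C.O ∧ y ∈ W' :=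
      (C.isOpen_O.mem_nhds hxp.2 |> fun h => (h : ∀ᶠ y in 𝓝 (C.x p), y ∈ C.O)).and
        (hW'o.mem_nhds hp.2)
    obtain ⟨y, ⟨⟨h3, h4⟩, h5, h6⟩, hyV, hy0⟩ := hne (C.x p) hxp.1 hp.2.2 _ (h1.and h2)
    exact hy0 ((key y h5 hyV h6 h4).mpr h3)
  have hthin := thin_zero_chart C hU hUr hG hne'
  refine ⟨(C.O ∩ (fun y => (C.a y)⁻¹ • C.b y) ⁻¹' U) ∩ W',
    (hcd.continuousOn.isOpen_inter_preimage C.isOpen_O hU).inter hW'o,
    ⟨⟨C.v_mem.2, ?_⟩, hvW'⟩, hthin.mono ?_⟩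
  · show (C.a v)⁻¹ • C.b v ∈ U
    rw [C.coord_v]
    refine ⟨mem_ball_self C.r_pos, ?_⟩
    show C.x 0 ∈ W'
    rw [C.x_zero]
    exact hvW'
  · rintro y ⟨⟨⟨-, hy0⟩, ⟨hyO, hyU⟩, hyW'⟩, hyV⟩
    exact ⟨hyO, hyU, (key y hyO hyV hyW' hyU).mp hy0⟩

/-- **Zero sets are thin.** -/
theorem thin_zero {V : Set (Fin 4 → ℂ)} (hch : ∀ v ∈ V, Nonempty (Chart V v))
    {W : Set (Fin 4 → ℂ)} (hW : IsOpen W) {F : (Fin 4 → ℂ) → ℂ} (hF : DifferentiableOn ℂ F W)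
    (hom : ∀ y ∈ W, y ∈ V → ∀ t : ℂ, t ≠ 0 → t • y ∈ W → F y = 0 → F (t • y) = 0)
    (hne : ∀ v ∈ V, v ∈ W → ∀ N ∈ 𝓝 v, ∃ y ∈ N, y ∈ V ∧ F y ≠ 0) :
    Thin V {y | y ∈ W ∧ F y = 0} :=
  thin_zero_local hch hW hF
    (fun v hv _ => ⟨W, hW.mem_nhds hv, fun y hy hyV t ht hty h => hom y hy hyV t ht hty h⟩) hne

end Crest.Agent.R279
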