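import Mathlib
import Crest.Agent.R279.Reg545A
import Crest.Agent.R279.Reg545B
import Crest.Agent.R279.Strat524D
import Crest.Agent.R279.ThinZero556

/-!
# R279, A7 (helper545), part C: plane sections are thin, the set of non-regular points is thin
-/

set_option autoImplicit false
set_option maxHeartbeats 400000

namespace Crest.Agent.R279.Reg

open Metric Set Filter Topology

variable {Q : MvPolynomial (Fin 4) ℂ}

/-- plane sections are thin -/
theorem plane_thin (hQ : Q.IsHomogeneous 4)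
    (hsm : ∀ p : Fin 4 → ℂ, p ≠ 0 → MvPolynomial.eval p Q = 0 →
      ∃ i : Fin 4, MvPolynomial.eval p (MvPolynomial.pderiv i Q) ≠ 0)
    (hR : GaussRank Q) (τ : C4 →L[ℂ] ℂ) (hτ : τ ≠ 0) : Thin (Vstar Q) {x | τ x = 0} := by
  set kv : Fin 4 → ℂ := fun i => τ (Pi.single i 1) with hkv
  have hdot : ∀ y : C4, kv ⬝ᵥ y = τ y := by
    intro y
    have h1 : y = ∑ i, y i • (Pi.single i 1 : C4) := by
      funext j
      simp [Finset.sum_apply, Pi.single_apply]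
    conv_rhs => rw [h1]
    rw [map_sum, dotProduct]
    refine Finset.sum_congr rfl fun i _ => ?_
    rw [map_smul, smul_eq_mul, mul_comm]
  have hkv0 : kv ≠ 0 := by
    intro h0
    apply hτ
    ext1 y
    rw [← hdot y, h0]
    simp
  have h := Crest.Agent.R279.thin_zero (V := Vstar Q) (W := univ) (F := fun y => τ y)
    (Strat.nonempty_chart hQ hsm) isOpen_univ τ.differentiable.differentiableOn
    (fun y _ _ t _ _ h0 => by
      show τ (t • y) = 0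
      rw [map_smul, h0, smul_zero])
    (fun v hv _ N hN => by
      obtain ⟨y, hy, h1⟩ := exists_ne hQ hsm hR hv isOpen_interior
        (mem_interior_iff_mem_nhds.mpr hN) isOpen_univ
        (k := fun _ => kv) (differentiableOn_const _) (fun _ _ => hkv0) (s := fun _ => 0)
        (differentiableOn_const _) (fun _ _ => mem_univ _)
      refine ⟨y, interior_subset hy.1, hy.2, ?_⟩
      rcases h1 with h1 | h1
      · rwa [hdot] at h1
      · simp at h1)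
  refine h.mono ?_
  rintro x ⟨hx, -⟩
  exact ⟨mem_univ _, hx⟩

theorem analytic_NN {a : ℂ → C4} {B : Set ℂ} (hB : IsOpen B) (ha : DifferentiableOn ℂ a B) :
    AnalyticOnNhd ℂ (NN Q a) (univ ×ˢ B) :=
  Crest.Agent.R266.SCV.analyticOnNhd_of_differentiableOn (isOpen_univ.prod hB) (diff_NN ha)

/-- the `c`-derivatives of `N` are linear in `x` -/
theorem Dw_NN_smul {a : ℂ → C4} {B : Set ℂ} (hB : IsOpen B) (ha : DifferentiableOn ℂ a B)
    (j : ℕ) (t : ℂ) (x : C4) {c : ℂ} (hc : c ∈ B) :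
    (Strat.Dw^[j] (NN Q a)) (t • x, c) = t * (Strat.Dw^[j] (NN Q a)) (x, c) := by
  have hU : IsOpen (univ ×ˢ B : Set (C4 × ℂ)) := isOpen_univ.prod hB
  rw [← Strat.iteratedDeriv_slice hU (analytic_NN hB ha) (t • x) j c ⟨mem_univ _, hc⟩,
    ← Strat.iteratedDeriv_slice hU (analytic_NN hB ha) x j c ⟨mem_univ _, hc⟩]
  have h1 : (fun c => NN Q a (t • x, c)) = fun c => t * NN Q a (x, c) := by
    funext c
    simp [NN]
  rw [h1, iteratedDeriv_const_mul_field]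

theorem ordEq_smul {a : ℂ → C4} {B : Set ℂ} (hB : IsOpen B) (ha : DifferentiableOn ℂ a B)
    {k : ℕ} {t : ℂ} (ht : t ≠ 0) {x : C4} {c : ℂ} (hc : c ∈ B)
    (h : Strat.OrdEq (NN Q a) k (x, c)) : Strat.OrdEq (NN Q a) k (t • x, c) := by
  refine ⟨fun j hj => ?_, ?_⟩
  · rw [Dw_NN_smul hB ha, h.1 j hj, mul_zero]
    exact hc
  · rw [Dw_NN_smul hB ha _ _ _ hc]
    exact mul_ne_zero ht h.2

/-- local thinness of the set of points at which `N(x,·)` has order exactly `k ≥ 2` -/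
theorem local_thin (hQ : Q.IsHomogeneous 4)
    (hsm : ∀ p : Fin 4 → ℂ, p ≠ 0 → MvPolynomial.eval p Q = 0 →
      ∃ i : Fin 4, MvPolynomial.eval p (MvPolynomial.pderiv i Q) ≠ 0)
    (hR : GaussRank Q) {a : ℂ → C4} {B : Set ℂ} (hB : IsOpen B) (ha : DifferentiableOn ℂ a B)
    (haV : ∀ c ∈ B, a c ∈ Vstar Q) {k : ℕ} (hk : 2 ≤ k) {x₀ : C4} {c₀ : ℂ} (hx₀ : x₀ ∈ Vstar Q)
    (hc₀ : c₀ ∈ B) (ho : Strat.OrdEq (NN Q a) k (x₀, c₀)) :
    ∃ (O : Set C4) (r : ℝ), IsOpen O ∧ x₀ ∈ O ∧ 0 < r ∧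
      Thin (Vstar Q) {x | x ∈ O ∧ ∃ c ∈ ball c₀ r, c ∈ B ∧ Strat.OrdEq (NN Q a) k (x, c)} := by
  have hU : IsOpen (univ ×ˢ B : Set (C4 × ℂ)) := isOpen_univ.prod hB
  have hN := analytic_NN (Q := Q) hB ha
  obtain ⟨A, r, χ, hA, hxA, hr, hsub, hχd, hχ0, hχm, hiff, -, -⟩ :=
    Strat.local_order hU hN (show ((x₀, c₀) : C4 × ℂ) ∈ univ ×ˢ B from ⟨mem_univ _, hc₀⟩)
      (by omega : 1 ≤ k) ho
  have hχB : ∀ x ∈ A, χ x ∈ B := fun x hx =>
    (hsub (show ((x, χ x) : C4 × ℂ) ∈ A ×ˢ ball c₀ r from ⟨hx, hχm x hx⟩)).2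
  obtain ⟨C, -⟩ := Boot.exists_chart hQ hx₀.1 hx₀.2 (hsm x₀ hx₀.1 hx₀.2) one_pos
  have hcont : ContinuousAt C.x 0 :=
    (C.diff_x.continuousOn).continuousAt (isOpen_ball.mem_nhds (mem_ball_self C.r_pos))
  have hpre : C.x ⁻¹' A ∈ 𝓝 (0 : ℂ × ℂ) := hcont (hA.mem_nhds (by rw [C.x_zero]; exact hxA))
  obtain ⟨ε, hε, hball⟩ := Metric.mem_nhds_iff.1 hpre
  set ρ : ℝ := min ε C.r with hρ
  have hρ0 : 0 < ρ := lt_min hε C.r_pos
  have hρC : ρ ≤ C.r := min_le_right _ _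
  have hρA : ∀ z ∈ ball (0 : ℂ × ℂ) ρ, C.x z ∈ A :=
    fun z hz => hball (ball_subset_ball (min_le_left _ _) hz)
  -- the two functions
  have hG : ∀ j : ℕ, DifferentiableOn ℂ
      (fun z => (Strat.Dw^[j] (NN Q a)) (C.x z, χ (C.x z))) (ball 0 ρ) := by
    intro j
    have h1 : DifferentiableOn ℂ (fun z => ((C.x z, χ (C.x z)) : C4 × ℂ)) (ball 0 ρ) := by
      have h2 : DifferentiableOn ℂ C.x (ball 0 ρ) := C.diff_x.mono (ball_subset_ball hρC)
      exact h2.prodMk (hχd.comp h2 hρA)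
    exact ((Strat.analytic_iter hN j).differentiableOn).comp h1
      (fun z hz => ⟨mem_univ _, hχB _ (hρA z hz)⟩)
  -- one of them is not identically zero
  have hne : ∃ j < 2, ∃ z ∈ ball (0 : ℂ × ℂ) ρ,
      (Strat.Dw^[j] (NN Q a)) (C.x z, χ (C.x z)) ≠ 0 := by
    by_contra hcon
    push Not at hcon
    set A' : Set C4 := (C.O ∩ (fun y => (C.a y)⁻¹ • C.b y) ⁻¹' (ball 0 ρ)) ∩ A with hA'
    have hA'o : IsOpen A' :=
      (C.coord_diff.continuousOn.isOpen_inter_preimage C.isOpen_O isOpen_ball).inter hA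
    have hxA' : x₀ ∈ A' := by
      refine ⟨⟨C.v_mem.2, ?_⟩, hxA⟩
      show (C.a x₀)⁻¹ • C.b x₀ ∈ ball (0 : ℂ × ℂ) ρ
      rw [C.coord_v]
      exact mem_ball_self hρ0
    have hkd : DifferentiableOn ℂ (fun c => Alg.grad Q (a c)) B :=
      (differentiable_grad Q).comp_differentiableOn ha
    obtain ⟨y, ⟨⟨⟨hyO, hyρ⟩, hyA⟩, hyV⟩, hy⟩ := exists_ne hQ hsm hR hx₀ hA'o hxA' hB hkd
      (fun c hc => by
        intro h0
        obtain ⟨i, hi⟩ := hsm _ (haV c hc).1 (haV c hc).2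
        exact hi (congrFun h0 i))
      (hχd.mono inter_subset_right) (fun y hy => hχB y hy.2)
    have hyρ' : (C.a y)⁻¹ • C.b y ∈ ball (0 : ℂ × ℂ) ρ := hyρ
    have hay : C.a y ≠ 0 := C.a_ne y hyO
    have hxy : C.x ((C.a y)⁻¹ • C.b y) = (C.a y)⁻¹ • y := C.x_coord hyO hyV
    -- `χ` is homogeneous of degree zero
    have hχy : χ ((C.a y)⁻¹ • y) = χ y := by
      have h1 : (C.a y)⁻¹ • y ∈ A := by
        rw [← hxy]
        exact hρA _ hyρ'
      have h2 : (Strat.Dw^[k - 1] (NN Q a)) (y, χ y) = 0 :=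
        (hiff y hyA _ (hχm y hyA)).mpr rfl
      have h3 : (Strat.Dw^[k - 1] (NN Q a)) ((C.a y)⁻¹ • y, χ y) = 0 := by
        rw [Dw_NN_smul hB ha _ _ _ (hχB y hyA), h2, mul_zero]
      exact ((hiff _ h1 _ (hχm y hyA)).mp h3).symm
    have hj : ∀ j < 2, (Strat.Dw^[j] (NN Q a)) (y, χ y) = 0 := by
      intro j hj
      have h1 := hcon j hj _ hyρ'
      rw [hxy, hχy, Dw_NN_smul hB ha _ _ _ (hχB y hyA)] at h1
      exact (mul_eq_zero.mp h1).resolve_left (inv_ne_zero hay)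
    rcases hy with hy | hy
    · apply hy
      have := hj 0 (by norm_num)
      rw [grad_dot]
      exact this
    · apply hy
      have h1 := hj 1 (by norm_num)
      have h2 : (Strat.Dw^[1] (NN Q a)) (y, χ y) = deriv (fun c => dQ Q (a c) y) (χ y) := by
        rw [(deriv_NN hB ha y (hχB y hyA)).deriv]
        rfl
      rw [h2] at h1
      have h3 : HasDerivAt (fun c => Alg.grad Q (a c)) (deriv (fun c => Alg.grad Q (a c)) (χ y))
          (χ y) := (hkd.differentiableAt (hB.mem_nhds (hχB y hyA))).hasDerivAt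
      have h4 : HasDerivAt (fun c => dQ Q (a c) y)
          (deriv (fun c => Alg.grad Q (a c)) (χ y) ⬝ᵥ y) (χ y) := by
        have h5 : ∀ i, HasDerivAt (fun c => Alg.grad Q (a c) i * y i)
            (deriv (fun c => Alg.grad Q (a c)) (χ y) i * y i) (χ y) := fun i =>
          ((hasDerivAt_pi.mp h3) i).mul_const (y i)
        have h6 := HasDerivAt.fun_sum (u := Finset.univ) (fun i _ => h5 i)
        have h7 : (fun c => dQ Q (a c) y) = fun c => ∑ i, Alg.grad Q (a c) i * y i := by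
          funext c
          rw [← grad_dot]
          rfl
        rw [h7]
        exact h6
      rw [← h4.deriv]
      exact h1
  obtain ⟨j, hj2, hj⟩ := hne
  have hthin := Strat.thin_zero_ball C hρC (hG j) hj
  refine ⟨C.O ∩ (fun y => (C.a y)⁻¹ • C.b y) ⁻¹' (ball 0 ρ), r,
    C.coord_diff.continuousOn.isOpen_inter_preimage C.isOpen_O isOpen_ball, ⟨C.v_mem.2, ?_⟩, hr,
    hthin.mono ?_⟩
  · show (C.a x₀)⁻¹ • C.b x₀ ∈ ball (0 : ℂ × ℂ) ρ
    rw [C.coord_v]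
    exact mem_ball_self hρ0
  · rintro y ⟨⟨⟨hyO, hyρ⟩, c, hc, hcB, hord⟩, hyV⟩
    have hyρ' : (C.a y)⁻¹ • C.b y ∈ ball (0 : ℂ × ℂ) ρ := hyρ
    refine ⟨hyO, hyρ', ?_⟩
    show (Strat.Dw^[j] (NN Q a)) (C.x ((C.a y)⁻¹ • C.b y), χ (C.x ((C.a y)⁻¹ • C.b y))) = 0
    have hay : C.a y ≠ 0 := C.a_ne y hyO
    have hxy : C.x ((C.a y)⁻¹ • C.b y) = (C.a y)⁻¹ • y := C.x_coord hyO hyV
    have h1 : (C.a y)⁻¹ • y ∈ A := by
      rw [← hxy]
      exact hρA _ hyρ'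
    have h2 := ordEq_smul hB ha (inv_ne_zero hay) hcB hord
    have h3 : c = χ ((C.a y)⁻¹ • y) := (hiff _ h1 c hc).mp (h2.1 (k - 1) (by omega))
    rw [hxy, ← h3]
    exact h2.1 j (by omega)

/-- the bad set of one arc is thin -/
theorem bad_thin (hQ : Q.IsHomogeneous 4)
    (hsm : ∀ p : Fin 4 → ℂ, p ≠ 0 → MvPolynomial.eval p Q = 0 →
      ∃ i : Fin 4, MvPolynomial.eval p (MvPolynomial.pderiv i Q) ≠ 0)
    (hR : GaussRank Q) {a : ℂ → C4} (ha : DifferentiableOn ℂ a (ball 0 1))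
    (haV : ∀ c ∈ ball (0 : ℂ) 1, a c ∈ Vstar Q) :
    Thin (Vstar Q) {x | ∃ c ∈ ball (0 : ℂ) 1, dQ Q (a c) x = 0 ∧
      deriv (fun c => dQ Q (a c) x) c = 0} := by
  have hB : IsOpen (ball (0 : ℂ) 1) := isOpen_ball
  have hN := analytic_NN (Q := Q) hB ha
  have hU : IsOpen (univ ×ˢ ball (0 : ℂ) 1 : Set (C4 × ℂ)) := isOpen_univ.prod hB
  have h01 : (0 : ℂ) ∈ ball (0 : ℂ) 1 := mem_ball_self one_pos
  -- the set of points of order exactly `k`
  have hk : ∀ k : ℕ, 2 ≤ k → Thin (Vstar Q)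
      {x | ∃ c ∈ ball (0 : ℂ) 1, Strat.OrdEq (NN Q a) k (x, c)} := by
    intro k hk2
    set P : Set (C4 × ℂ) := {z | z.1 ∈ Vstar Q ∧ z.2 ∈ ball (0 : ℂ) 1 ∧
      Strat.OrdEq (NN Q a) k z} with hP
    have hloc : ∀ z ∈ P, ∃ (O : Set C4) (r : ℝ), IsOpen O ∧ z.1 ∈ O ∧ 0 < r ∧
        Thin (Vstar Q) {x | x ∈ O ∧ ∃ c ∈ ball z.2 r, c ∈ ball (0 : ℂ) 1 ∧
          Strat.OrdEq (NN Q a) k (x, c)} := by
      rintro ⟨x₀, c₀⟩ ⟨hx₀, hc₀, ho⟩
      exact local_thin hQ hsm hR hB ha haV hk2 hx₀ hc₀ ho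
    choose! O r hO hzO hr hT using hloc
    obtain ⟨t, htP, htc, hcov⟩ := TopologicalSpace.countable_cover_nhdsWithin
      (f := fun z => O z ×ˢ ball z.2 (r z)) (s := P)
      (fun z hz => mem_nhdsWithin_of_mem_nhds
        (((hO z hz).prod isOpen_ball).mem_nhds ⟨hzO z hz, mem_ball_self (hr z hz)⟩))
    refine (Thin.biUnion htc fun z hz => hT z (htP hz)).mono ?_
    rintro x ⟨⟨c, hc, ho⟩, hxV⟩
    obtain ⟨z, hz, hxz⟩ := mem_iUnion₂.mp (hcov (show ((x, c) : C4 × ℂ) ∈ P from ⟨hxV, hc, ho⟩))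
    exact mem_iUnion₂.mpr ⟨z, hz, hxz.1, c, hxz.2, hc, ho⟩
  have hplane : Thin (Vstar Q) {x | dQ Q (a 0) x = 0} :=
    plane_thin hQ hsm hR _ (dQ_ne_zero (hsm _ (haV 0 h01).1 (haV 0 h01).2))
  have hall : Thin (Vstar Q) (⋃ k : ℕ, {x | 2 ≤ k ∧ ∃ c ∈ ball (0 : ℂ) 1,
      Strat.OrdEq (NN Q a) k (x, c)}) := by
    refine Thin.iUnion fun k => ?_
    by_cases h : 2 ≤ k
    · exact (hk k h).mono fun x hx => hx.1.2
    · exact (thin_empty _).mono fun x hx => absurd hx.1.1 h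
  refine (hplane.union hall).mono ?_
  rintro x ⟨⟨c, hc, h0, h1⟩, hxV⟩
  by_cases hz : ∀ᶠ w' in 𝓝 c, NN Q a (x, w') = 0
  · left
    have han : AnalyticOnNhd ℂ (fun w => NN Q a (x, w)) (ball (0 : ℂ) 1) := by
      intro w hw
      have h2 : AnalyticAt ℂ (fun w' : ℂ => ((x, w') : C4 × ℂ)) w := by fun_prop
      exact (hN (x, w) ⟨mem_univ _, hw⟩).comp h2
    have h3 := han.eqOn_zero_of_preconnected_of_eventuallyEq_zero
      (convex_ball (0 : ℂ) 1).isPreconnected hc hz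
    exact h3 h01
  · right
    obtain ⟨k, hk⟩ := Strat.exists_ordEq hU hN (show ((x, c) : C4 × ℂ) ∈ univ ×ˢ ball (0 : ℂ) 1
      from ⟨mem_univ _, hc⟩) hz
    refine mem_iUnion.mpr ⟨k, ?_, c, hc, hk⟩
    by_contra hlt
    have hk2 := hk.2
    have hd : (Strat.Dw^[1] (NN Q a)) (x, c) = 0 := by
      rw [← h1, (deriv_NN hB ha x hc).deriv]
      rfl
    interval_cases k
    · exact hk2 h0
    · exact hk2 hd

/-- **A7: the set of non-regular points is thin.** -/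
theorem thin_not_reg (hQ : Q.IsHomogeneous 4)
    (hsm : ∀ p : Fin 4 → ℂ, p ≠ 0 → MvPolynomial.eval p Q = 0 →
      ∃ i : Fin 4, MvPolynomial.eval p (MvPolynomial.pderiv i Q) ≠ 0)
    (hR : GaussRank Q) {D : Set C4} (hDV : D ⊆ Vstar Q)
    (hDs : ∀ y ∈ D, ∀ t : ℂ, t ≠ 0 → t • y ∈ D) (hD : ArcStructure D) :
    Thin (Vstar Q) {x | ¬ IsReg Q D x} := by
  classical
  obtain ⟨E₀, hE₀, hmain⟩ := hD
  set Dr : Set C4 := {p | p ∈ D ∧ Nonempty (ArcAt D p)} with hDr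
  have hch : ∀ p : C4, p ∈ Dr → ∃ A : ArcAt D p, True := fun p hp => ⟨hp.2.some, trivial⟩
  choose A _ using hch
  -- neighbourhoods
  have hOmem : ∀ p (hp : p ∈ Dr), p ∈ (A p hp).O := by
    intro p hp
    have := ((A p hp).a_mem 0 (mem_ball_self one_pos)).2
    rwa [(A p hp).a_zero] at this
  obtain ⟨t, htD, htc, hcov⟩ := TopologicalSpace.countable_cover_nhdsWithin
    (f := fun p => if hp : p ∈ Dr then (A p hp).O else univ) (s := Dr)
    (fun p hp => by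
      refine mem_nhdsWithin_of_mem_nhds ?_
      simp only [dif_pos hp]
      exact (A p hp).isOpen_O.mem_nhds (hOmem p hp))
  have h1 : Thin (Vstar Q) (⋃ e ∈ E₀ ∩ Vstar Q, {x | dQ Q e x = 0}) :=
    Thin.biUnion (hE₀.mono inter_subset_left) fun e he =>
      plane_thin hQ hsm hR _ (dQ_ne_zero (hsm _ he.2.1 he.2.2))
  have h2 : Thin (Vstar Q) (⋃ p ∈ t, {x | ∃ hp : p ∈ Dr, ∃ c ∈ ball (0 : ℂ) 1,
      dQ Q ((A p hp).a c) x = 0 ∧ deriv (fun c => dQ Q ((A p hp).a c) x) c = 0}) := by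
    refine Thin.biUnion htc fun p hp => ?_
    have hpD := htD hp
    refine (bad_thin hQ hsm hR (A p hpD).diff_a
      (fun c hc => hDV ((A p hpD).a_mem c hc).1)).mono ?_
    rintro x ⟨⟨_, h⟩, -⟩
    exact h
  refine (h1.union h2).mono ?_
  rintro x ⟨hx, hxV⟩
  have hx' : ¬ ∀ p ∈ D, dQ Q p x = 0 → ∃ A : ArcAt D p, deriv (fun c => dQ Q (A.a c) x) 0 ≠ 0 := hx
  push Not at hx'
  obtain ⟨p, hpD, hpx, hbad⟩ := hx'
  rcases hmain p hpD with ⟨e, he, s, hs, rfl⟩ | hne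
  · left
    refine mem_iUnion₂.mpr ⟨e, ⟨he, ?_⟩, ?_⟩
    · have := hDV (hDs _ hpD s⁻¹ (inv_ne_zero hs))
      rwa [smul_smul, inv_mul_cancel₀ hs, one_smul] at this
    · show dQ Q e x = 0
      rw [dQ_smul hQ] at hpx
      exact (mul_eq_zero.mp hpx).resolve_left (pow_ne_zero _ hs)
  · right
    have hpr : p ∈ Dr := ⟨hpD, hne⟩
    obtain ⟨p', hp't, hpp'⟩ := mem_iUnion₂.mp (hcov hpr)
    have hp'D := htD hp't
    simp only [dif_pos hp'D] at hpp'
    obtain ⟨s, hs, hps⟩ := (A p' hp'D).cover p hpp' hpD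
    set c : ℂ := (A p' hp'D).k p with hc
    have hcm : c ∈ ball (0 : ℂ) 1 := (A p' hp'D).k_mem p hpp'
    obtain ⟨ε, hε, hεs⟩ := Metric.isOpen_iff.mp isOpen_ball c hcm
    have h3 := hbad ((A p' hp'D).recenter hDs hε hεs hs hps)
    have h4 : (fun γ => dQ Q (((A p' hp'D).recenter hDs hε hεs hs hps).a γ) x)
        = fun γ => s ^ 3 * (fun c => dQ Q ((A p' hp'D).a c) x) (c + (ε : ℂ) * γ) := by
      funext γ
      show dQ Q (s • (A p' hp'D).a (c + (ε : ℂ) * γ)) x = _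
      rw [dQ_smul hQ]
    have h5 : HasDerivAt (fun c => dQ Q ((A p' hp'D).a c) x)
        (deriv (fun c => dQ Q ((A p' hp'D).a c) x) c) c :=
      (deriv_NN isOpen_ball (A p' hp'D).diff_a x hcm).differentiableAt.hasDerivAt
    have h6 : HasDerivAt (fun γ : ℂ => c + (ε : ℂ) * γ) (ε : ℂ) 0 := by
      simpa using ((hasDerivAt_id (0 : ℂ)).const_mul (ε : ℂ)).const_add c
    have h7 : HasDerivAt (fun γ : ℂ => (fun c => dQ Q ((A p' hp'D).a c) x) (c + (ε : ℂ) * γ))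
        (deriv (fun c => dQ Q ((A p' hp'D).a c) x) c * (ε : ℂ)) 0 := by
      have h8 : HasDerivAt (fun c => dQ Q ((A p' hp'D).a c) x)
          (deriv (fun c => dQ Q ((A p' hp'D).a c) x) c) (c + (ε : ℂ) * 0) := by
        rw [mul_zero, add_zero]
        exact h5
      exact HasDerivAt.comp (0 : ℂ) h8 h6
    rw [h4, (h7.const_mul (s ^ 3)).deriv] at h3
    have hε' : (ε : ℂ) ≠ 0 := by exact_mod_cast hε.ne'
    refine mem_iUnion₂.mpr ⟨p', hp't, hp'D, c, hcm, ?_, ?_⟩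
    · rw [hps, dQ_smul hQ] at hpx
      exact (mul_eq_zero.mp hpx).resolve_left (pow_ne_zero _ hs)
    · rcases mul_eq_zero.mp h3 with h | h
      · exact absurd h (pow_ne_zero _ hs)
      · exact (mul_eq_zero.mp h).resolve_right hε'

end Crest.Agent.R279.Reg
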