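import Mathlib
import Crest.Agent.R279.Reg545C
import Crest.Agent.R279.Alg712A3

/-!
# R279, A7 (helper545): the two outputs for `DD Q`
-/

set_option autoImplicit false

namespace Crest.Agent.R279.Reg

variable {Q : MvPolynomial (Fin 4) ℂ}

/-- A3 (helper712) -/
theorem gaussRank (hQ : Q.IsHomogeneous 4)
    (hsm : ∀ p : Fin 4 → ℂ, p ≠ 0 → MvPolynomial.eval p Q = 0 →
      ∃ i : Fin 4, MvPolynomial.eval p (MvPolynomial.pderiv i Q) ≠ 0) : GaussRank Q :=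
  fun _ _ h hne => Alg.gauss_rank ⟨hQ, hsm⟩ h hne

/-- plane sections are thin (unconditional) -/
theorem planeThin (hQ : Q.IsHomogeneous 4)
    (hsm : ∀ p : Fin 4 → ℂ, p ≠ 0 → MvPolynomial.eval p Q = 0 →
      ∃ i : Fin 4, MvPolynomial.eval p (MvPolynomial.pderiv i Q) ≠ 0)
    (τ : (Fin 4 → ℂ) →L[ℂ] ℂ) (hτ : τ ≠ 0) : Thin (Vstar Q) {x | τ x = 0} :=
  plane_thin hQ hsm (gaussRank hQ hsm) τ hτ

/-- A7 for `D = DD Q`, from A4 (`Strat.EmptyInterior`) of helper712. -/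
theorem thin_not_reg_DD (hQ : Q.IsHomogeneous 4)
    (hsm : ∀ p : Fin 4 → ℂ, p ≠ 0 → MvPolynomial.eval p Q = 0 →
      ∃ i : Fin 4, MvPolynomial.eval p (MvPolynomial.pderiv i Q) ≠ 0)
    (hA4 : Strat.EmptyInterior Q) :
    Thin (Vstar Q) {x | ¬ IsReg Q (DD Q) x} :=
  thin_not_reg hQ hsm (gaussRank hQ hsm) (fun _ h => h.1) (TwoPl.DD_smul hQ)
    (Strat.arcStructure_DD hQ hsm hA4)

end Crest.Agent.R279.Reg
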