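import Mathlib
import Crest.Agent.R279.Defs765

/-!
R279 Part 4: the stage lemma (one application of PGL).
-/

set_option autoImplicit false

namespace Crest.Agent.R279.Shear

open Metric Set Crest.Agent.R279

/-- evaluation of a coordinate, as a continuous function on the product -/
theorem isOpen_coord {m : ℕ} (i : Fin m) {T : Set (Fin m → ℂ)} (hT : IsOpen T)
    {A : Set ℂ} (hA : IsOpen A) : IsOpen {x : Fin m → ℂ | x ∈ T ∧ x i ∈ A} :=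
  hT.inter (hA.preimage (continuous_apply i))

theorem stage {V : Set C4} (hP : PGLTarget) (A B : Set ℂ) (hA : IsOpen A) (hB : IsOpen B)
    (hb : Bornology.IsBounded (A ∪ B))
    (hs : ∃ η : ℝ, 0 < η ∧ ∀ z ∈ A \ B, ∀ w ∈ B \ A, η ≤ dist z w) :
    ∃ K : ℝ, 0 < K ∧ ∀ (m : ℕ) (i : Fin m) (T : Set (Fin m → ℂ)), IsOpen T →
      (∀ x ∈ T, ∀ z : ℂ, Function.update x i z ∈ T) →
      ∀ (ρ ε : ℝ), 0 < ρ → 0 ≤ ε → K * ε ≤ ρ →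
      ∀ (G₁ G₂ gA gB : (Fin m → ℂ) × C4 → C4),
        DifferentiableOn ℂ G₁ ({x | x ∈ T ∧ x i ∈ A} ×ˢ ball (0 : C4) ρ) →
        MapsTo G₁ ({x | x ∈ T ∧ x i ∈ A} ×ˢ ball (0 : C4) ρ) V →
        DifferentiableOn ℂ G₂ ({x | x ∈ T ∧ x i ∈ B} ×ˢ ball (0 : C4) ρ) →
        MapsTo G₂ ({x | x ∈ T ∧ x i ∈ B} ×ˢ ball (0 : C4) ρ) V →
        DifferentiableOn ℂ gA ({x | x ∈ T ∧ x i ∈ A ∩ B} ×ˢ ball (0 : C4) ρ) →
        DifferentiableOn ℂ gB ({x | x ∈ T ∧ x i ∈ A ∩ B} ×ˢ ball (0 : C4) ρ) →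
        (∀ x ∈ T, x i ∈ A ∩ B → ∀ t ∈ ball (0 : C4) ρ, ‖gA (x, t) - t‖ ≤ ε) →
        (∀ x ∈ T, x i ∈ A ∩ B → ∀ t ∈ ball (0 : C4) ρ, ‖gB (x, t) - t‖ ≤ ε) →
        (∀ x ∈ T, x i ∈ A ∩ B → ∀ t ∈ ball (0 : C4) ρ, ∀ t' ∈ ball (0 : C4) ρ,
          gA (x, t) = gB (x, t') → G₁ (x, t) = G₂ (x, t')) →
        ∃ G α β : (Fin m → ℂ) × C4 → C4,
          DifferentiableOn ℂ G ({x | x ∈ T ∧ x i ∈ A ∪ B} ×ˢ ball (0 : C4) (ρ / 2)) ∧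
          MapsTo G ({x | x ∈ T ∧ x i ∈ A ∪ B} ×ˢ ball (0 : C4) (ρ / 2)) V ∧
          DifferentiableOn ℂ α ({x | x ∈ T ∧ x i ∈ A} ×ˢ ball (0 : C4) (ρ / 2)) ∧
          DifferentiableOn ℂ β ({x | x ∈ T ∧ x i ∈ B} ×ˢ ball (0 : C4) (ρ / 2)) ∧
          (∀ x ∈ T, x i ∈ A → ∀ t ∈ ball (0 : C4) (ρ / 2),
            α (x, t) ∈ ball (0 : C4) ρ ∧ ‖α (x, t) - t‖ ≤ K * ε ∧
              G (x, t) = G₁ (x, α (x, t))) ∧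
          (∀ x ∈ T, x i ∈ B → ∀ t ∈ ball (0 : C4) (ρ / 2),
            β (x, t) ∈ ball (0 : C4) ρ ∧ ‖β (x, t) - t‖ ≤ K * ε ∧
              G (x, t) = G₂ (x, β (x, t))) := by
  classical
  obtain ⟨K, hK, H⟩ := hP A B hA hB hb hs
  refine ⟨K, hK, ?_⟩
  intro m i T hT hcyl ρ ε hρ hε hKε G₁ G₂ gA gB hG₁ hG₁V hG₂ hG₂V hgA hgB hgAε hgBε hcomp
  obtain ⟨α, β, hα, hβ, hα', hβ', hab⟩ :=
    H m i T hT hcyl ρ ε hρ hε hKε gA gB hgA hgB hgAε hgBε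
  set G : (Fin m → ℂ) × C4 → C4 := fun p =>
    if p.1 i ∈ A then G₁ (p.1, α p) else G₂ (p.1, β p) with hGdef
  have hGA : ∀ x ∈ T, x i ∈ A → ∀ t ∈ ball (0 : C4) (ρ / 2), G (x, t) = G₁ (x, α (x, t)) := by
    intro x _ hxA t _
    simp [hGdef, hxA]
  have hGB : ∀ x ∈ T, x i ∈ B → ∀ t ∈ ball (0 : C4) (ρ / 2), G (x, t) = G₂ (x, β (x, t)) := by
    intro x hx hxB t ht
    by_cases hxA : x i ∈ A
    · rw [hGA x hx hxA t ht]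
      exact hcomp x hx ⟨hxA, hxB⟩ _ (hα' x hx hxA t ht).1 _ (hβ' x hx hxB t ht).1
        (hab x hx ⟨hxA, hxB⟩ t ht)
    · simp [hGdef, hxA]
  have hdA : DifferentiableOn ℂ (fun p : (Fin m → ℂ) × C4 => G₁ (p.1, α p))
      ({x | x ∈ T ∧ x i ∈ A} ×ˢ ball (0 : C4) (ρ / 2)) := by
    refine hG₁.comp (differentiableOn_fst.prodMk hα) ?_
    rintro ⟨x, t⟩ ⟨⟨hx, hxA⟩, ht⟩
    exact ⟨⟨hx, hxA⟩, (hα' x hx hxA t ht).1⟩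
  have hdB : DifferentiableOn ℂ (fun p : (Fin m → ℂ) × C4 => G₂ (p.1, β p))
      ({x | x ∈ T ∧ x i ∈ B} ×ˢ ball (0 : C4) (ρ / 2)) := by
    refine hG₂.comp (differentiableOn_fst.prodMk hβ) ?_
    rintro ⟨x, t⟩ ⟨⟨hx, hxB⟩, ht⟩
    exact ⟨⟨hx, hxB⟩, (hβ' x hx hxB t ht).1⟩
  refine ⟨G, α, β, ?_, ?_, hα, hβ, ?_, ?_⟩
  · rintro ⟨x, t⟩ ⟨⟨hx, hxAB⟩, ht⟩
    rcases hxAB with hxA | hxB
    · have hO : IsOpen ({x | x ∈ T ∧ x i ∈ A} ×ˢ ball (0 : C4) (ρ / 2)) :=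
        (isOpen_coord i hT hA).prod isOpen_ball
      have hmem : ((x, t) : (Fin m → ℂ) × C4) ∈
          ({x | x ∈ T ∧ x i ∈ A} ×ˢ ball (0 : C4) (ρ / 2)) := ⟨⟨hx, hxA⟩, ht⟩
      have h1 : DifferentiableAt ℂ (fun p : (Fin m → ℂ) × C4 => G₁ (p.1, α p)) (x, t) :=
        (hdA _ hmem).differentiableAt (hO.mem_nhds hmem)
      refine (h1.congr_of_eventuallyEq ?_).differentiableWithinAt
      filter_upwards [hO.mem_nhds hmem] with p hp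
      exact hGA p.1 hp.1.1 hp.1.2 p.2 hp.2
    · have hO : IsOpen ({x | x ∈ T ∧ x i ∈ B} ×ˢ ball (0 : C4) (ρ / 2)) :=
        (isOpen_coord i hT hB).prod isOpen_ball
      have hmem : ((x, t) : (Fin m → ℂ) × C4) ∈
          ({x | x ∈ T ∧ x i ∈ B} ×ˢ ball (0 : C4) (ρ / 2)) := ⟨⟨hx, hxB⟩, ht⟩
      have h1 : DifferentiableAt ℂ (fun p : (Fin m → ℂ) × C4 => G₂ (p.1, β p)) (x, t) :=
        (hdB _ hmem).differentiableAt (hO.mem_nhds hmem)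
      refine (h1.congr_of_eventuallyEq ?_).differentiableWithinAt
      filter_upwards [hO.mem_nhds hmem] with p hp
      exact hGB p.1 hp.1.1 hp.1.2 p.2 hp.2
  · rintro ⟨x, t⟩ ⟨⟨hx, hxAB⟩, ht⟩
    rcases hxAB with hxA | hxB
    · rw [hGA x hx hxA t ht]
      exact hG₁V ⟨⟨hx, hxA⟩, (hα' x hx hxA t ht).1⟩
    · rw [hGB x hx hxB t ht]
      exact hG₂V ⟨⟨hx, hxB⟩, (hβ' x hx hxB t ht).1⟩
  · intro x hx hxA t ht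
    exact ⟨(hα' x hx hxA t ht).1, (hα' x hx hxA t ht).2, hGA x hx hxA t ht⟩
  · intro x hx hxB t ht
    exact ⟨(hβ' x hx hxB t ht).1, (hβ' x hx hxB t ht).2, hGB x hx hxB t ht⟩

end Crest.Agent.R279.Shear
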