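import Mathlib
import Crest.Agent.R279.Shear765A

/-!
R279 Part 4: the `n+1` stage gluing (abstract form).
-/

set_option autoImplicit false

namespace Crest.Agent.R279.Shear

open Metric Set Crest.Agent.R279

/-- Geometric data of the chain of shears. -/
structure Chain (n : ℕ) where
  R : ℝ
  Rk : Fin (n + 1) → ℝ
  A : Fin (n + 1) → Set ℂ
  B : Fin (n + 1) → Set ℂ
  p : Fin n → ℂ → ℂ
  Pm : Fin (n + 1) → Set ℂ
  Pp : Fin (n + 1) → Set ℂ
  e : ℝ
  Rk0 : Rk 0 = R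
  Ale : ∀ i, R ≤ Rk i
  oA : ∀ i, IsOpen (A i)
  oB : ∀ i, IsOpen (B i)
  AB : ∀ i, A i ∪ B i = ball (0 : ℂ) (Rk i)
  sep : ∀ i, ∃ η : ℝ, 0 < η ∧ ∀ z ∈ A i \ B i, ∀ w ∈ B i \ A i, η ≤ dist z w
  dp : ∀ i, Differentiable ℂ (p i)
  bp : ∀ i : Fin n, ∀ z ∈ ball (0 : ℂ) (Rk i.castSucc), R + ‖p i z‖ ≤ Rk i.succ
  esc : ∀ i : Fin n, ∀ z ∈ B i.castSucc, ∀ y : ℂ, ‖y‖ < R → y + p i z ∈ B i.succ
  PmR : ∀ i, ∀ z ∈ Pm i, ‖z‖ < R
  PmPp : ∀ i, Pm i ⊆ Pp i
  PpA : ∀ i, Pp i ⊆ A i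
  epos : 0 ≤ e
  near : ∀ i : Fin n, ∀ z ∈ Pp i.castSucc, ∀ y ∈ Pm i.succ, y + p i z ∈ Pp i.succ
  small : ∀ i : Fin n, ∀ z ∈ Pp i.castSucc, ‖p i z‖ ≤ e

namespace Chain

variable {n : ℕ} (c : Chain n)

/-- cylinder of stage `k` -/
def Tk (k : ℕ) : Set (Fin (n + 1) → ℂ) :=
  {u | (∀ l : Fin (n + 1), l.val < k → u l ∈ c.A l) ∧ ∀ l : Fin (n + 1), k < l.val → ‖u l‖ < c.R}

/-- domain of stage `k` -/
def Dk (k : Fin (n + 1)) : Set (Fin (n + 1) → ℂ) := {u | u ∈ c.Tk k.val ∧ u k ∈ c.A k ∪ c.B k}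

/-- the larger box on which the shear map is controlled -/
def Dk' (k : ℕ) : Set (Fin (n + 1) → ℂ) :=
  {u | (∀ l : Fin (n + 1), l.val ≤ k → ‖u l‖ < c.Rk l) ∧
    ∀ l : Fin (n + 1), k < l.val → ‖u l‖ < c.R}

/-- near sets -/
def Nk (k : ℕ) : Set (Fin (n + 1) → ℂ) :=
  {u | (∀ l : Fin (n + 1), l.val ≤ k → u l ∈ c.Pp l) ∧
    ∀ l : Fin (n + 1), k < l.val → u l ∈ c.Pm l}

/-- one shear -/
noncomputable def Phi (k : Fin n) (u : Fin (n + 1) → ℂ) : Fin (n + 1) → ℂ :=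
  Function.update u k.succ (u k.succ + c.p k (u k.castSucc))

theorem A_sub (i : Fin (n + 1)) : c.A i ⊆ ball (0 : ℂ) (c.Rk i) :=
  (c.AB i) ▸ subset_union_left

theorem B_sub (i : Fin (n + 1)) : c.B i ⊆ ball (0 : ℂ) (c.Rk i) :=
  (c.AB i) ▸ subset_union_right

theorem Phi_same (k : Fin n) (u : Fin (n + 1) → ℂ) : c.Phi k u k.succ =
    u k.succ + c.p k (u k.castSucc) := by
  simp [Phi]

theorem Phi_ne (k : Fin n) (u : Fin (n + 1) → ℂ) {l : Fin (n + 1)} (h : l ≠ k.succ) :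
    c.Phi k u l = u l := by
  simp [Phi, Function.update_of_ne h]

theorem Phi_diff (k : Fin n) : Differentiable ℂ (c.Phi k) := by
  rw [differentiable_pi]
  intro l
  by_cases h : l = k.succ
  · subst h
    have : (fun u : Fin (n + 1) → ℂ => c.Phi k u k.succ) =
        fun u => u k.succ + c.p k (u k.castSucc) := by
      funext u; exact c.Phi_same k u
    rw [this]
    exact (differentiable_apply _).add ((c.dp k).comp (differentiable_apply _))
  · have : (fun u : Fin (n + 1) → ℂ => c.Phi k u l) = fun u => u l := by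
      funext u; exact c.Phi_ne k u h
    rw [this]
    exact differentiable_apply _

theorem isOpen_Tk (k : ℕ) : IsOpen (c.Tk k) := by
  have h1 : IsOpen {u : Fin (n + 1) → ℂ | ∀ l : Fin (n + 1), l.val < k → u l ∈ c.A l} := by
    have : {u : Fin (n + 1) → ℂ | ∀ l : Fin (n + 1), l.val < k → u l ∈ c.A l} =
        ⋂ l : Fin (n + 1), {u | l.val < k → u l ∈ c.A l} := by
      ext u; simp
    rw [this]
    refine isOpen_iInter_of_finite fun l => ?_
    by_cases hl : l.val < k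
    · simp only [hl, true_implies]
      exact (c.oA l).preimage (continuous_apply l)
    · simp [hl]
  have h2 : IsOpen {u : Fin (n + 1) → ℂ | ∀ l : Fin (n + 1), k < l.val → ‖u l‖ < c.R} := by
    have : {u : Fin (n + 1) → ℂ | ∀ l : Fin (n + 1), k < l.val → ‖u l‖ < c.R} =
        ⋂ l : Fin (n + 1), {u | k < l.val → ‖u l‖ < c.R} := by
      ext u; simp
    rw [this]
    refine isOpen_iInter_of_finite fun l => ?_
    by_cases hl : k < l.val
    · simp only [hl, true_implies]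
      exact isOpen_lt (continuous_norm.comp (continuous_apply l)) continuous_const
    · simp [hl]
  exact h1.inter h2

theorem Tk_cyl (k : Fin (n + 1)) : ∀ x ∈ c.Tk k.val, ∀ z : ℂ,
    Function.update x k z ∈ c.Tk k.val := by
  intro x hx z
  refine ⟨fun l hl => ?_, fun l hl => ?_⟩
  · have : l ≠ k := fun h => by subst h; exact lt_irrefl _ hl
    rw [Function.update_of_ne this]; exact hx.1 l hl
  · have : l ≠ k := fun h => by subst h; exact lt_irrefl _ hl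
    rw [Function.update_of_ne this]; exact hx.2 l hl

/-- `Φ_k` maps the `A`-part of stage `k` into the domain of stage `k+1`. -/
theorem Phi_mem_Dk (k : Fin n) {u : Fin (n + 1) → ℂ} (hu : u ∈ c.Tk k.val)
    (hA : u k.castSucc ∈ c.A k.castSucc) : c.Phi k u ∈ c.Dk k.succ := by
  have hR : ‖u k.succ‖ < c.R := hu.2 _ (by simp)
  have hb := c.bp k _ (c.A_sub _ hA)
  refine ⟨⟨fun l hl => ?_, fun l hl => ?_⟩, ?_⟩
  · have hne : l ≠ k.succ := fun h => by subst h; exact lt_irrefl _ hl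
    rw [c.Phi_ne k u hne]
    have hl' : l.val ≤ k.val := by simpa using Nat.lt_succ_iff.mp (by simpa using hl)
    rcases hl'.lt_or_eq with h | h
    · exact hu.1 l h
    · have : l = k.castSucc := Fin.ext (by simpa using h)
      subst this; exact hA
  · have hne : l ≠ k.succ := fun h => by subst h; exact lt_irrefl _ hl
    rw [c.Phi_ne k u hne]
    refine hu.2 l ?_
    have : k.val + 1 < l.val := by simpa using hl
    omega
  · rw [c.AB, c.Phi_same, mem_ball_zero_iff]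
    calc ‖u k.succ + c.p k (u k.castSucc)‖ ≤ ‖u k.succ‖ + ‖c.p k (u k.castSucc)‖ :=
          norm_add_le _ _
      _ < c.R + ‖c.p k (u k.castSucc)‖ := by linarith
      _ ≤ _ := hb

theorem Phi_mem_Dk' (k : Fin n) {u : Fin (n + 1) → ℂ} (hu : u ∈ c.Dk' k.val) :
    c.Phi k u ∈ c.Dk' (k.val + 1) := by
  have hR : ‖u k.succ‖ < c.R := hu.2 _ (by simp)
  have hk : ‖u k.castSucc‖ < c.Rk k.castSucc := hu.1 _ (by simp)
  have hb := c.bp k (u k.castSucc) (by rwa [mem_ball_zero_iff])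
  refine ⟨fun l hl => ?_, fun l hl => ?_⟩
  · by_cases hne : l = k.succ
    · subst hne
      rw [c.Phi_same]
      calc ‖u k.succ + c.p k (u k.castSucc)‖ ≤ ‖u k.succ‖ + ‖c.p k (u k.castSucc)‖ :=
            norm_add_le _ _
        _ < c.R + ‖c.p k (u k.castSucc)‖ := by linarith
        _ ≤ _ := hb
    · rw [c.Phi_ne k u hne]
      refine hu.1 l ?_
      have : l.val ≠ k.val + 1 := fun h => hne (Fin.ext (by simpa using h))
      omega
  · have hne : l ≠ k.succ := fun h => by subst h; simp at hl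
    rw [c.Phi_ne k u hne]
    exact hu.2 l (by omega)

theorem Phi_esc (k : Fin n) {u : Fin (n + 1) → ℂ} (hR : ‖u k.succ‖ < c.R)
    (hB : u k.castSucc ∈ c.B k.castSucc) : c.Phi k u k.succ ∈ c.B k.succ := by
  rw [c.Phi_same]
  exact c.esc k _ hB _ hR

theorem Phi_mem_Nk (k : Fin n) {u : Fin (n + 1) → ℂ} (hu : u ∈ c.Nk k.val) :
    c.Phi k u ∈ c.Nk (k.val + 1) := by
  refine ⟨fun l hl => ?_, fun l hl => ?_⟩
  · by_cases hne : l = k.succ
    · subst hne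
      rw [c.Phi_same]
      exact c.near k _ (hu.1 _ (by simp)) _ (hu.2 _ (by simp))
    · rw [c.Phi_ne k u hne]
      refine hu.1 l ?_
      have : l.val ≠ k.val + 1 := fun h => hne (Fin.ext (by simpa using h))
      omega
  · have hne : l ≠ k.succ := fun h => by subst h; simp at hl
    rw [c.Phi_ne k u hne]
    exact hu.2 l (by omega)

theorem Tk_B_sub (k : Fin (n + 1)) {u : Fin (n + 1) → ℂ} (hu : u ∈ c.Tk k.val)
    (h : u k ∈ c.A k ∪ c.B k) : u ∈ c.Dk' k.val := by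
  refine ⟨fun l hl => ?_, fun l hl => hu.2 l hl⟩
  rcases hl.lt_or_eq with h1 | h1
  · simpa using c.A_sub l (hu.1 l h1)
  · have : l = k := Fin.ext h1
    subst this
    rw [c.AB] at h
    simpa using h

/-- The claim of stage `k`. `r` is the radius in the spray parameter, `ε` the size of the
transitions. -/
def Claim (V : Set C4) (s1 N : (Fin (n + 1) → ℂ) × C4 → C4) (k : Fin (n + 1)) (r ε : ℝ) : Prop :=
  ∃ (S : (Fin (n + 1) → ℂ) → (Fin (n + 1) → ℂ)) (G β : (Fin (n + 1) → ℂ) × C4 → C4),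
    Differentiable ℂ S ∧
    (∀ u ∈ c.Dk' k.val, ∀ i, ‖S u i‖ < c.Rk i) ∧
    (∀ u ∈ c.Dk' k.val, u k ∈ c.B k → S u (Fin.last n) ∈ c.B (Fin.last n)) ∧
    DifferentiableOn ℂ G (c.Dk k ×ˢ ball (0 : C4) r) ∧
    MapsTo G (c.Dk k ×ˢ ball (0 : C4) r) V ∧
    DifferentiableOn ℂ β ({u | u ∈ c.Tk k.val ∧ u k ∈ c.B k} ×ˢ ball (0 : C4) r) ∧
    (∀ u ∈ c.Tk k.val, u k ∈ c.B k → ∀ t ∈ ball (0 : C4) r,
      ‖β (u, t) - t‖ ≤ ε ∧ G (u, t) = N (S u, β (u, t))) ∧
    (∀ u ∈ c.Nk k.val, ∀ t ∈ ball (0 : C4) r, ∃ (v : Fin (n + 1) → ℂ) (τ : C4),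
      (∀ i, v i ∈ c.Pp i) ∧ (∀ i, i.val ≤ k.val → v i = u i) ∧ (∀ i, ‖v i - u i‖ ≤ c.e) ∧
      ‖τ - t‖ ≤ ε ∧ G (u, t) = s1 (v, τ))

/-- The box of all intermediate points. -/
def Box : Set (Fin (n + 1) → ℂ) := {v | (∀ i, ‖v i‖ < c.Rk i) ∧ v (Fin.last n) ∈ c.B (Fin.last n)}

theorem step {V : Set C4} (hP : PGLTarget) (k : Fin n) :
    ∃ K : ℝ, 1 ≤ K ∧ ∀ (s1 N : (Fin (n + 1) → ℂ) × C4 → C4) (ρ0 r ε : ℝ), 0 < r → r ≤ ρ0 →
      0 ≤ ε → K * ε ≤ r →
      DifferentiableOn ℂ N (c.Box ×ˢ ball (0 : C4) ρ0) →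
      MapsTo N (c.Box ×ˢ ball (0 : C4) ρ0) V →
      c.Claim V s1 N k.succ r ε → c.Claim V s1 N k.castSucc (r / 2) (2 * K * ε) := by
  obtain ⟨K, hK, hst⟩ := stage (V := V) hP (c.A k.castSucc) (c.B k.castSucc)
    (c.oA _) (c.oB _) (by rw [c.AB]; exact isBounded_ball) (c.sep _)
  refine ⟨max K 1, le_max_right _ _, ?_⟩
  intro s1 N ρ0 r ε hr hrρ hε hKε hN hNV
  rintro ⟨S, G', β', hS, hSbox, hSesc, hG', hG'V, hβ', hform, hnear⟩
  have hKle : K * ε ≤ r := (mul_le_mul_of_nonneg_right (le_max_left _ _) hε).trans hKε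
  have hkk : (k.castSucc : Fin (n + 1)).val = k.val := rfl
  -- the data of the stage lemma
  have hPhi := c.Phi_diff k
  have hPhi2 : Differentiable ℂ (fun q : (Fin (n + 1) → ℂ) × C4 => (c.Phi k q.1, q.2)) :=
    (hPhi.comp differentiable_fst).prodMk differentiable_snd
  have hS2 : Differentiable ℂ (fun q : (Fin (n + 1) → ℂ) × C4 => (S (c.Phi k q.1), q.2)) :=
    (hS.comp (hPhi.comp differentiable_fst)).prodMk differentiable_snd
  have mapA : ∀ q ∈ ({x | x ∈ c.Tk (k.castSucc : Fin (n+1)).val ∧ x k.castSucc ∈ c.A k.castSucc} ×ˢ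
      ball (0 : C4) r), (c.Phi k q.1, q.2) ∈ (c.Dk k.succ ×ˢ ball (0 : C4) r) := by
    rintro ⟨x, t⟩ ⟨⟨hx, hxA⟩, ht⟩
    exact ⟨c.Phi_mem_Dk k hx hxA, ht⟩
  have inBox : ∀ x, x ∈ c.Tk k.val → x k.castSucc ∈ c.B k.castSucc →
      S (c.Phi k x) ∈ c.Box := by
    intro x hx hxB
    have h1 : x ∈ c.Dk' k.val := c.Tk_B_sub k.castSucc hx (Or.inr hxB)
    have h2 : c.Phi k x ∈ c.Dk' (k.succ : Fin (n+1)).val := by simpa using c.Phi_mem_Dk' k h1
    exact ⟨hSbox _ h2, hSesc _ h2 (c.Phi_esc k (hx.2 _ (by simp)) hxB)⟩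
  have mapB : ∀ q ∈ ({x | x ∈ c.Tk (k.castSucc : Fin (n+1)).val ∧ x k.castSucc ∈ c.B k.castSucc} ×ˢ
      ball (0 : C4) r), (S (c.Phi k q.1), q.2) ∈ (c.Box ×ˢ ball (0 : C4) ρ0) := by
    rintro ⟨x, t⟩ ⟨⟨hx, hxB⟩, ht⟩
    exact ⟨inBox x hx hxB, ball_subset_ball hrρ ht⟩
  have mapAB : ∀ q ∈ ({x | x ∈ c.Tk (k.castSucc : Fin (n+1)).val ∧
      x k.castSucc ∈ c.A k.castSucc ∩ c.B k.castSucc} ×ˢ ball (0 : C4) r),
      (c.Phi k q.1, q.2) ∈
        ({u | u ∈ c.Tk (k.succ : Fin (n+1)).val ∧ u k.succ ∈ c.B k.succ} ×ˢ ball (0 : C4) r) := by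
    rintro ⟨x, t⟩ ⟨⟨hx, hxA, hxB⟩, ht⟩
    exact ⟨⟨(c.Phi_mem_Dk k hx hxA).1, c.Phi_esc k (hx.2 _ (by simp)) hxB⟩, ht⟩
  obtain ⟨G, α, β, hG, hGV, hα, hβ, hα', hβ''⟩ := hst (n + 1) k.castSucc (c.Tk k.val)
    (c.isOpen_Tk _) (c.Tk_cyl k.castSucc) r ε hr hε hKle
    (fun q => G' (c.Phi k q.1, q.2)) (fun q => N (S (c.Phi k q.1), q.2))
    (fun q => β' (c.Phi k q.1, q.2)) (fun q => q.2)
    (hG'.comp hPhi2.differentiableOn mapA) (fun q hq => hG'V (mapA q hq))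
    (hN.comp hS2.differentiableOn mapB) (fun q hq => hNV (mapB q hq))
    (hβ'.comp hPhi2.differentiableOn mapAB) differentiableOn_snd
    (by
      intro x hx hxAB t ht
      have := mapAB (x, t) ⟨⟨hx, hxAB⟩, ht⟩
      exact (hform _ this.1.1 this.1.2 t ht).1)
    (by intro x hx hxAB t ht; simpa using hε)
    (by
      intro x hx hxAB t ht t' ht' heq
      have := mapAB (x, t) ⟨⟨hx, hxAB⟩, ht⟩
      have h2 := (hform _ this.1.1 this.1.2 t ht).2
      simp only at heq ⊢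
      rw [h2, heq])
  have h2K : K * ε ≤ 2 * max K 1 * ε := by
    have : K ≤ 2 * max K 1 := by
      have := le_max_left K 1
      have := le_max_right K 1
      linarith
    exact mul_le_mul_of_nonneg_right this hε
  refine ⟨fun u => S (c.Phi k u), G, β, hS.comp hPhi, ?_, ?_, ?_, ?_, hβ, ?_, ?_⟩
  · intro u hu i
    exact hSbox _ (by simpa using c.Phi_mem_Dk' k hu) i
  · intro u hu huB
    have h2 : c.Phi k u ∈ c.Dk' (k.succ : Fin (n+1)).val := by simpa using c.Phi_mem_Dk' k hu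
    exact hSesc _ h2 (c.Phi_esc k (hu.2 _ (by simp)) huB)
  · exact hG
  · exact hGV
  · intro u hu huB t ht
    obtain ⟨-, h2, h3⟩ := hβ'' u hu huB t ht
    exact ⟨h2.trans h2K, h3⟩
  · intro u hu t ht
    have huA : u k.castSucc ∈ c.A k.castSucc := c.PpA _ (hu.1 _ (by simp))
    have huT : u ∈ c.Tk k.val :=
      ⟨fun l hl => c.PpA _ (hu.1 l (by simpa using hl.le)),
        fun l hl => c.PmR _ _ (hu.2 l (by simpa using hl))⟩
    obtain ⟨h1, h2, h3⟩ := hα' u huT huA t ht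
    have hN' : c.Phi k u ∈ c.Nk (k.succ : Fin (n+1)).val := by simpa using c.Phi_mem_Nk k hu
    obtain ⟨v, τ, hv, hveq, hvc, hτ, hGs⟩ := hnear _ hN' (α (u, t)) h1
    refine ⟨v, τ, hv, ?_, ?_, ?_, ?_⟩
    · intro i hi
      have hne : i ≠ k.succ := fun h => by subst h; simp at hi
      have hle : i.val ≤ (k.succ : Fin (n+1)).val := by
        have : i.val ≤ k.val := hi
        simp; omega
      rw [hveq i hle, c.Phi_ne k u hne]
    · intro i
      by_cases hi : i = k.succ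
      · subst hi
        rw [hveq _ le_rfl, c.Phi_same, add_sub_cancel_left]
        exact c.small k _ (hu.1 _ (by simp))
      · rw [← c.Phi_ne k u hi]
        exact hvc i
    · have hK1 : K ≤ max K 1 := le_max_left _ _
      have hK2 : (1 : ℝ) ≤ max K 1 := le_max_right _ _
      have h4 : ‖τ - t‖ ≤ ‖τ - α (u, t)‖ + ‖α (u, t) - t‖ := by
        have : τ - t = (τ - α (u, t)) + (α (u, t) - t) := by abel
        rw [this]; exact norm_add_le _ _
      nlinarith [mul_le_mul_of_nonneg_right hK1 hε, mul_le_mul_of_nonneg_right hK2 hε]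
    · rw [h3]; exact hGs

end Chain

end Crest.Agent.R279.Shear
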