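import Mathlib
import Crest.Agent.R279.Shear765B

/-!
R279 Part 4: iteration of the stages.
-/

set_option autoImplicit false

namespace Crest.Agent.R279.Shear

open Metric Set Crest.Agent.R279

namespace Chain

variable {n : ℕ} (c : Chain n)

/-- Hypotheses on the three maps entering the gluing. -/
structure Maps (V : Set C4) (s1 N γ : (Fin (n + 1) → ℂ) × C4 → C4) (ρ0 ε : ℝ) : Prop where
  ds : DifferentiableOn ℂ s1 ({u | ∀ i, u i ∈ c.A i} ×ˢ ball (0 : C4) ρ0)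
  ms : MapsTo s1 ({u | ∀ i, u i ∈ c.A i} ×ˢ ball (0 : C4) ρ0) V
  dN : DifferentiableOn ℂ N (c.Box ×ˢ ball (0 : C4) ρ0)
  mN : MapsTo N (c.Box ×ˢ ball (0 : C4) ρ0) V
  dγ : DifferentiableOn ℂ γ
    ({u | (∀ i, u i ∈ c.A i) ∧ u (Fin.last n) ∈ c.B (Fin.last n)} ×ˢ ball (0 : C4) ρ0)
  bγ : ∀ u : Fin (n + 1) → ℂ, (∀ i, u i ∈ c.A i) → u (Fin.last n) ∈ c.B (Fin.last n) →
    ∀ t ∈ ball (0 : C4) ρ0, ‖γ (u, t) - t‖ ≤ ε
  eγ : ∀ u : Fin (n + 1) → ℂ, (∀ i, u i ∈ c.A i) → u (Fin.last n) ∈ c.B (Fin.last n) →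
    ∀ t ∈ ball (0 : C4) ρ0, s1 (u, γ (u, t)) = N (u, t)

theorem base {V : Set C4} (hP : PGLTarget) :
    ∃ K : ℝ, 1 ≤ K ∧ ∀ (s1 N γ : (Fin (n + 1) → ℂ) × C4 → C4) (ρ0 ε : ℝ), 0 < ρ0 →
      0 ≤ ε → K * ε ≤ ρ0 → c.Maps V s1 N γ ρ0 ε →
      c.Claim V s1 N (Fin.last n) (ρ0 / 2) (K * ε) := by
  obtain ⟨K, hK, hst⟩ := stage (V := V) hP (c.A (Fin.last n)) (c.B (Fin.last n))
    (c.oA _) (c.oB _) (by rw [c.AB]; exact isBounded_ball) (c.sep _)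
  refine ⟨max K 1, le_max_right _ _, ?_⟩
  intro s1 N γ ρ0 ε hρ hε hKε M
  have hKle : K * ε ≤ ρ0 := (mul_le_mul_of_nonneg_right (le_max_left _ _) hε).trans hKε
  have hKle' : K * ε ≤ max K 1 * ε := mul_le_mul_of_nonneg_right (le_max_left _ _) hε
  have allA : ∀ x : Fin (n + 1) → ℂ, x ∈ c.Tk (Fin.last n : Fin (n+1)).val →
      x (Fin.last n) ∈ c.A (Fin.last n) → ∀ i, x i ∈ c.A i := by
    intro x hx hxl i
    rcases Fin.eq_castSucc_or_eq_last i with ⟨j, rfl⟩ | rfl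
    · exact hx.1 _ (by simp)
    · exact hxl
  have inBox : ∀ x : Fin (n + 1) → ℂ, x ∈ c.Tk (Fin.last n : Fin (n+1)).val →
      x (Fin.last n) ∈ c.B (Fin.last n) → x ∈ c.Box := by
    intro x hx hxl
    refine ⟨fun i => ?_, hxl⟩
    rcases Fin.eq_castSucc_or_eq_last i with ⟨j, rfl⟩ | rfl
    · simpa using c.A_sub _ (hx.1 _ (by simp))
    · simpa using c.B_sub _ hxl
  obtain ⟨G, α, β, hG, hGV, hα, hβ, hα', hβ'⟩ := hst (n + 1) (Fin.last n)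
    (c.Tk (Fin.last n : Fin (n+1)).val) (c.isOpen_Tk _) (c.Tk_cyl (Fin.last n)) ρ0 ε hρ hε hKle
    s1 N (fun q => q.2) γ
    (M.ds.mono (fun q hq => ⟨allA q.1 hq.1.1 hq.1.2, hq.2⟩))
    (fun q hq => M.ms ⟨allA q.1 hq.1.1 hq.1.2, hq.2⟩)
    (M.dN.mono (fun q hq => ⟨inBox q.1 hq.1.1 hq.1.2, hq.2⟩))
    (fun q hq => M.mN ⟨inBox q.1 hq.1.1 hq.1.2, hq.2⟩)
    differentiableOn_snd
    (M.dγ.mono (fun q hq => ⟨⟨allA q.1 hq.1.1 hq.1.2.1, hq.1.2.2⟩, hq.2⟩))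
    (by intro x hx hxAB t ht; simpa using hε)
    (by intro x hx hxAB t ht; exact M.bγ x (allA x hx hxAB.1) hxAB.2 t ht)
    (by
      intro x hx hxAB t ht t' ht' heq
      have := M.eγ x (allA x hx hxAB.1) hxAB.2 t' ht'
      simp only at heq
      rw [heq, this])
  refine ⟨id, G, β, differentiable_id, ?_, ?_, hG, hGV, hβ, ?_, ?_⟩
  · intro u hu i
    exact hu.1 i (by simpa using Nat.lt_succ_iff.mp i.isLt)
  · intro u _ huB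
    exact huB
  · intro u hu huB t ht
    obtain ⟨-, h2, h3⟩ := hβ' u hu huB t ht
    exact ⟨h2.trans hKle', h3⟩
  · intro u hu t ht
    have huP : ∀ i, u i ∈ c.Pp i := fun i => hu.1 i (by simpa using Nat.lt_succ_iff.mp i.isLt)
    have huT : u ∈ c.Tk (Fin.last n : Fin (n+1)).val :=
      ⟨fun l _ => c.PpA _ (huP l), fun l hl => by
        have := l.isLt
        simp at hl
        omega⟩
    obtain ⟨h1, h2, h3⟩ := hα' u huT (c.PpA _ (huP _)) t ht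
    exact ⟨u, α (u, t), huP, fun _ _ => rfl, fun i => by simpa using c.epos, h2.trans hKle', h3⟩

theorem iterate {V : Set C4} (hP : PGLTarget) (k : Fin (n + 1)) :
    ∃ K a : ℝ, 1 ≤ K ∧ 0 < a ∧ a ≤ 1 ∧
      ∀ (s1 N γ : (Fin (n + 1) → ℂ) × C4 → C4) (ρ0 ε : ℝ), 0 < ρ0 →
      0 ≤ ε → K * ε ≤ a * ρ0 → c.Maps V s1 N γ ρ0 ε → c.Claim V s1 N k (a * ρ0) (K * ε) := by
  induction k using Fin.reverseInduction with
  | last =>
    obtain ⟨K, hK, H⟩ := c.base (V := V) hP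
    refine ⟨K, 1 / 2, hK, by norm_num, by norm_num, ?_⟩
    intro s1 N γ ρ0 ε hρ hε hKε M
    have := H s1 N γ ρ0 ε hρ hε (by linarith) M
    have h2 : ρ0 / 2 = 1 / 2 * ρ0 := by ring
    rwa [h2] at this
  | cast k ih =>
    obtain ⟨K, a, hK, ha, ha1, H⟩ := ih
    obtain ⟨K', hK', H'⟩ := c.step (V := V) hP k
    refine ⟨2 * K' * K, a / 2, by nlinarith, by linarith, by linarith, ?_⟩
    intro s1 N γ ρ0 ε hρ hε hKε M
    have hKε0 : 0 ≤ K * ε := by positivity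
    have h1 : K' * (K * ε) ≤ a * ρ0 := by nlinarith [mul_nonneg (by linarith : (0:ℝ) ≤ K') hKε0, mul_pos ha hρ]
    have h2 : K * ε ≤ a * ρ0 := by nlinarith
    have h3 := H s1 N γ ρ0 ε hρ hε h2 M
    have haρ : a * ρ0 ≤ ρ0 := by nlinarith
    have h4 := H' s1 N ρ0 (a * ρ0) (K * ε) (by positivity) haρ hKε0 h1 M.dN M.mN h3
    have e1 : a * ρ0 / 2 = a / 2 * ρ0 := by ring
    have e2 : 2 * K' * (K * ε) = 2 * K' * K * ε := by ring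
    rwa [e1, e2] at h4

/-- The whole multi-stage gluing. -/
theorem main {V : Set C4} (hP : PGLTarget) (hR : 0 < c.R) :
    ∃ K a : ℝ, 1 ≤ K ∧ 0 < a ∧
      ∀ (s1 N γ : (Fin (n + 1) → ℂ) × C4 → C4) (ρ0 ε : ℝ), 0 < ρ0 →
      0 ≤ ε → K * ε ≤ a * ρ0 → c.Maps V s1 N γ ρ0 ε →
      ∃ G : (Fin (n + 1) → ℂ) → C4, DifferentiableOn ℂ G (ball 0 c.R) ∧
        MapsTo G (ball 0 c.R) V ∧
        ∀ u : Fin (n + 1) → ℂ, (∀ i, u i ∈ c.Pm i) → ∃ (v : Fin (n + 1) → ℂ) (τ : C4),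
          (∀ i, v i ∈ c.Pp i) ∧ (∀ i, ‖v i - u i‖ ≤ c.e) ∧ ‖τ‖ ≤ K * ε ∧ G u = s1 (v, τ) := by
  obtain ⟨K, a, hK, ha, -, H⟩ := c.iterate (V := V) hP 0
  refine ⟨K, a, hK, ha, ?_⟩
  intro s1 N γ ρ0 ε hρ hε hKε M
  obtain ⟨S, G, β, -, -, -, hG, hGV, -, -, hnear⟩ := H s1 N γ ρ0 ε hρ hε hKε M
  have hr : 0 < a * ρ0 := by positivity
  have hmem : ∀ u ∈ ball (0 : Fin (n + 1) → ℂ) c.R,
      ((u, 0) : (Fin (n + 1) → ℂ) × C4) ∈ c.Dk 0 ×ˢ ball (0 : C4) (a * ρ0) := by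
    intro u hu
    have hu' : ∀ i, ‖u i‖ < c.R := by
      rw [mem_ball_zero_iff, pi_norm_lt_iff hR] at hu
      exact hu
    refine ⟨⟨⟨fun l hl => by simp at hl, fun l _ => hu' l⟩, ?_⟩, by simpa using hr⟩
    rw [c.AB, mem_ball_zero_iff, c.Rk0]
    exact hu' 0
  refine ⟨fun u => G (u, 0), ?_, ?_, ?_⟩
  · exact hG.comp (differentiableOn_id.prodMk (differentiableOn_const _)) hmem
  · intro u hu
    exact hGV (hmem u hu)
  · intro u hu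
    obtain ⟨v, τ, hv, -, hvc, hτ, hGs⟩ := hnear u
      ⟨fun l _ => c.PmPp _ (hu l), fun l _ => hu l⟩ 0 (by simpa using hr)
    exact ⟨v, τ, hv, hvc, by simpa using hτ, hGs⟩

end Chain

end Crest.Agent.R279.Shear
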