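import Mathlib
import Crest.Agent.R279.Defs765

/-!
R279 Part 4: planar facts (rectangles, nearest point projection, crosses, contraction,
locally constant labels).
-/

set_option autoImplicit false

namespace Crest.Agent.R279.Shear

open Metric Set Crest.Agent.R279

theorem norm_le_re_add_im (z : ℂ) : ‖z‖ ≤ |z.re| + |z.im| := Complex.norm_le_abs_re_add_abs_im z

theorem rect_nonempty {a b c d : ℝ} (h1 : a < b) (h2 : c < d) : (rect a b c d).Nonempty :=
  ⟨⟨a, c⟩, ⟨⟨le_rfl, h1.le⟩, ⟨le_rfl, h2.le⟩⟩⟩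

theorem rect_eq (a b c d : ℝ) : rect a b c d = Icc a b ×ℂ Icc c d := by
  ext z; simp [rect, Complex.mem_reProdIm]

theorem isCompact_rect (a b c d : ℝ) : IsCompact (rect a b c d) := by
  rw [rect_eq]; exact isCompact_Icc.reProdIm isCompact_Icc

theorem clampQ_mem {a b c d : ℝ} (h1 : a < b) (h2 : c < d) (z : ℂ) :
    clampQ a b c d z ∈ rect a b c d := by
  simp only [clampQ, rect, Set.mem_ofPred_eq, mem_Icc]
  exact ⟨⟨le_max_left _ _, max_le h1.le (min_le_left _ _)⟩,
    ⟨le_max_left _ _, max_le h2.le (min_le_left _ _)⟩⟩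

theorem clampQ_of_mem {a b c d : ℝ} {z : ℂ} (hz : z ∈ rect a b c d) : clampQ a b c d z = z := by
  obtain ⟨⟨h1, h2⟩, h3, h4⟩ := hz
  apply Complex.ext
  · simp [clampQ, h1, h2]
  · simp [clampQ, h3, h4]

/-- If `z` is not in the rectangle its projection is on the boundary. -/
theorem clampQ_bd {a b c d : ℝ} (h1 : a < b) (h2 : c < d) {z : ℂ} (hz : z ∉ rect a b c d) :
    clampQ a b c d z ∈ rectBd a b c d := by
  refine ⟨clampQ_mem h1 h2 z, ?_⟩
  by_contra hcon
  push Not at hcon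
  obtain ⟨e1, e2, e3, e4⟩ := hcon
  simp only [clampQ] at e1 e2 e3 e4
  apply hz
  refine ⟨⟨?_, ?_⟩, ?_, ?_⟩
  · by_contra h
    push Not at h
    apply e1
    rw [min_eq_right (by linarith), max_eq_left h.le]
  · by_contra h
    push Not at h
    apply e2
    rw [min_eq_left h.le, max_eq_right h1.le]
  · by_contra h
    push Not at h
    apply e3
    rw [min_eq_right (by linarith), max_eq_left h.le]
  · by_contra h
    push Not at h
    apply e4
    rw [min_eq_left h.le, max_eq_right h2.le]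

theorem rect_sub_cross (a b c d : ℝ) (X Y : Finset ℝ) : rect a b c d ⊆ cross a b c d X Y :=
  fun _ hz => Or.inl hz

theorem cross_nonempty {a b c d : ℝ} (h1 : a < b) (h2 : c < d) (X Y : Finset ℝ) :
    (cross a b c d X Y).Nonempty := (rect_nonempty h1 h2).mono (rect_sub_cross _ _ _ _ _ _)

theorem infDist_rect {a b c d : ℝ} {X Y : Finset ℝ} {z : ℂ} (hz : z ∈ rect a b c d) :
    infDist z (cross a b c d X Y) = 0 := infDist_zero_of_mem (Or.inl hz)

/-- far away in the first quadrant we are far from the cross -/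
theorem far_cross {a b c d : ℝ} (h1 : a < b) (h2 : c < d) {X Y : Finset ℝ}
    (hX : ∀ x ∈ X, a < x ∧ x < b) (hY : ∀ y ∈ Y, c < y ∧ y < d) {w : ℂ}
    (hw1 : b + 1 ≤ w.re) (hw2 : d + 1 ≤ w.im) : 1 ≤ infDist w (cross a b c d X Y) := by
  rw [le_infDist (cross_nonempty h1 h2 X Y)]
  intro g hg
  have key : g.re ≤ b ∨ g.im ≤ d := by
    rcases hg with h | h | h
    · exact Or.inl h.1.2
    · exact Or.inl (hX _ h).2.le
    · exact Or.inr (hY _ h).2.le
  rw [Complex.dist_eq]
  rcases key with h | h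
  · calc (1 : ℝ) ≤ |(w - g).re| := by
          rw [Complex.sub_re]; exact (by linarith : (1:ℝ) ≤ w.re - g.re).trans (le_abs_self _)
      _ ≤ _ := Complex.abs_re_le_norm _
  · calc (1 : ℝ) ≤ |(w - g).im| := by
          rw [Complex.sub_im]; exact (by linarith : (1:ℝ) ≤ w.im - g.im).trans (le_abs_self _)
      _ ≤ _ := Complex.abs_im_le_norm _

theorem far_point {B R L : ℝ} (hL : L = R + 2 + B) {w : ℂ}
    (hw : ‖w - (⟨L, L⟩ : ℂ)‖ < R + 1) : B + 1 ≤ w.re ∧ B + 1 ≤ w.im := by
  have h1 := (Complex.abs_re_le_norm (w - ⟨L, L⟩)).trans_lt hw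
  have h2 := (Complex.abs_im_le_norm (w - ⟨L, L⟩)).trans_lt hw
  rw [Complex.sub_re, abs_lt] at h1
  rw [Complex.sub_im, abs_lt] at h2
  constructor
  · linarith [h1.1]
  · linarith [h2.1]

/-- centre of a rectangle -/
noncomputable def ctr (a b c d : ℝ) : ℂ := ⟨(a + b) / 2, (c + d) / 2⟩

/-- contraction towards the centre -/
noncomputable def contr (a b c d θ : ℝ) (z : ℂ) : ℂ :=
  ctr a b c d + ((1 - θ : ℝ) : ℂ) * (z - ctr a b c d)

theorem contr_diff (a b c d θ : ℝ) : Differentiable ℂ (contr a b c d θ) := by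
  unfold contr; fun_prop

theorem contr_sub (a b c d θ : ℝ) (z : ℂ) :
    contr a b c d θ z - z = -((θ : ℝ) : ℂ) * (z - ctr a b c d) := by
  unfold contr; push_cast; ring

/-- The contraction maps the `2σ`-enlargement into the rectangle. -/
theorem contr_mem {a b c d θ σ : ℝ} (hθ : 0 ≤ θ) (hθ1 : θ ≤ 1)
    (hσ : 0 ≤ σ) (hs1 : 4 * σ ≤ θ * (b - a) / 2) (hs2 : 4 * σ ≤ θ * (d - c) / 2) {z : ℂ}
    (hz : z ∈ rect (a - 2 * σ) (b + 2 * σ) (c - 2 * σ) (d + 2 * σ)) :
    contr a b c d θ z ∈ rect a b c d := by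
  obtain ⟨⟨z1, z2⟩, z3, z4⟩ := hz
  have hre : (contr a b c d θ z).re = (a + b) / 2 + (1 - θ) * (z.re - (a + b) / 2) := by
    simp [contr, ctr]
  have him : (contr a b c d θ z).im = (c + d) / 2 + (1 - θ) * (z.im - (c + d) / 2) := by
    simp [contr, ctr]
  have hθ' : 0 ≤ 1 - θ := by linarith
  refine ⟨⟨?_, ?_⟩, ?_, ?_⟩
  · rw [hre]
    nlinarith [mul_le_mul_of_nonneg_left z1 hθ', mul_nonneg hθ' hσ, mul_nonneg hθ hσ]
  · rw [hre]
    nlinarith [mul_le_mul_of_nonneg_left z2 hθ', mul_nonneg hθ' hσ, mul_nonneg hθ hσ]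
  · rw [him]
    nlinarith [mul_le_mul_of_nonneg_left z3 hθ', mul_nonneg hθ' hσ, mul_nonneg hθ hσ]
  · rw [him]
    nlinarith [mul_le_mul_of_nonneg_left z4 hθ', mul_nonneg hθ' hσ, mul_nonneg hθ hσ]

theorem mem_enlarge {a b c d η : ℝ} {z w : ℂ} (hw : w ∈ rect a b c d) (h : ‖z - w‖ ≤ η) :
    z ∈ rect (a - η) (b + η) (c - η) (d + η) := by
  have h1 := (Complex.abs_re_le_norm (z - w)).trans h
  have h2 := (Complex.abs_im_le_norm (z - w)).trans h
  rw [Complex.sub_re, abs_le] at h1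
  rw [Complex.sub_im, abs_le] at h2
  obtain ⟨⟨w1, w2⟩, w3, w4⟩ := hw
  refine ⟨⟨?_, ?_⟩, ?_, ?_⟩ <;> linarith [h1.1, h1.2, h2.1, h2.2]

theorem norm_sub_ctr {a b c d η : ℝ} (hab : a ≤ b) (hcd : c ≤ d) {z : ℂ}
    (hz : z ∈ rect (a - η) (b + η) (c - η) (d + η)) :
    ‖z - ctr a b c d‖ ≤ (b - a) + (d - c) + 2 * η := by
  obtain ⟨⟨w1, w2⟩, w3, w4⟩ := hz
  refine (norm_le_re_add_im _).trans ?_
  have e1 : |(z - ctr a b c d).re| ≤ (b - a) / 2 + η := by
    rw [Complex.sub_re, abs_le]; simp only [ctr]; constructor <;> linarith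
  have e2 : |(z - ctr a b c d).im| ≤ (d - c) / 2 + η := by
    rw [Complex.sub_im, abs_le]; simp only [ctr]; constructor <;> linarith
  have hb : 0 ≤ (b - a) / 2 + η := (abs_nonneg _).trans e1
  have hd : 0 ≤ (d - c) / 2 + η := (abs_nonneg _).trans e2
  linarith

/-! ### grid lines and labels -/

/-- half grid points `a + (k + 1/2) (b-a)/m`, `k < m` -/
noncomputable def grid (a b : ℝ) (m : ℕ) : Finset ℝ :=
  (Finset.range m).image (fun k : ℕ => a + ((k : ℝ) + 1 / 2) * ((b - a) / m))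

theorem grid_mem {a b : ℝ} {m : ℕ} (h : a < b) (hm : 0 < m) :
    ∀ x ∈ grid a b m, a < x ∧ x < b := by
  intro x hx
  simp only [grid, Finset.mem_image, Finset.mem_range] at hx
  obtain ⟨k, hk, rfl⟩ := hx
  have hm' : (0 : ℝ) < m := by exact_mod_cast hm
  have hpos : 0 < (b - a) / m := div_pos (by linarith) hm'
  have hk' : (k : ℝ) + 1 ≤ m := by exact_mod_cast hk
  constructor
  · have : 0 < ((k : ℝ) + 1 / 2) * ((b - a) / m) := by positivity
    linarith
  · have h1 : ((k : ℝ) + 1 / 2) * ((b - a) / m) < m * ((b - a) / m) :=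
      mul_lt_mul_of_pos_right (by linarith) hpos
    have h2 : (m : ℝ) * ((b - a) / m) = b - a := by field_simp
    linarith

theorem grid_nonempty {a b : ℝ} {m : ℕ} (hm : 0 < m) : (grid a b m).Nonempty :=
  ⟨_, Finset.mem_image_of_mem _ (Finset.mem_range.mpr hm)⟩

/-- rounding to the grid `a + k (b-a)/m` -/
noncomputable def rnd (a b : ℝ) (m : ℕ) (x : ℝ) : ℝ :=
  a + (⌊(x - a) / ((b - a) / m) + 1 / 2⌋ : ℝ) * ((b - a) / m)

theorem rnd_dist {a b : ℝ} {m : ℕ} (h : a < b) (hm : 0 < m) (x : ℝ) :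
    |x - rnd a b m x| ≤ (b - a) / m := by
  have hm' : (0 : ℝ) < m := by exact_mod_cast hm
  have hpos : 0 < (b - a) / m := div_pos (by linarith) hm'
  set s := (b - a) / m with hs
  set q := (x - a) / s + 1 / 2 with hq
  have h1 : (⌊q⌋ : ℝ) ≤ q := Int.floor_le q
  have h2 : q < ⌊q⌋ + 1 := Int.lt_floor_add_one q
  have hx : x = a + (q - 1 / 2) * s := by rw [hq]; field_simp; ring
  have : x - rnd a b m x = (q - 1 / 2 - ⌊q⌋) * s := by
    unfold rnd
    rw [← hs, ← hq]
    linear_combination hx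
  rw [this, abs_mul, abs_of_pos hpos]
  have h3 : |q - 1 / 2 - ⌊q⌋| ≤ 1 := by rw [abs_le]; constructor <;> linarith
  nlinarith

theorem rnd_mem {a b : ℝ} {m : ℕ} (h : a < b) (hm : 0 < m) {x : ℝ} (hx : x ∈ Icc a b) :
    rnd a b m x ∈ Icc a b := by
  have hm' : (0 : ℝ) < m := by exact_mod_cast hm
  have hpos : 0 < (b - a) / m := div_pos (by linarith) hm'
  have hsm : (m : ℝ) * ((b - a) / m) = b - a := by field_simp
  obtain ⟨h1, h2⟩ := hx
  unfold rnd
  have hq0 : 0 ≤ (x - a) / ((b - a) / m) := div_nonneg (by linarith) hpos.le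
  have hqm : (x - a) / ((b - a) / m) ≤ m := by
    rw [div_le_iff₀ hpos]; linarith
  have f0 : (0 : ℤ) ≤ ⌊(x - a) / ((b - a) / m) + 1 / 2⌋ := Int.floor_nonneg.mpr (by linarith)
  have fm : ⌊(x - a) / ((b - a) / m) + 1 / 2⌋ ≤ (m : ℤ) := by
    rw [← Int.lt_add_one_iff, Int.floor_lt]
    push_cast; linarith
  have f0' : (0 : ℝ) ≤ (⌊(x - a) / ((b - a) / m) + 1 / 2⌋ : ℝ) := by exact_mod_cast f0
  have fm' : (⌊(x - a) / ((b - a) / m) + 1 / 2⌋ : ℝ) ≤ m := by exact_mod_cast fm
  constructor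
  · have := mul_nonneg f0' hpos.le
    linarith
  · have := mul_le_mul_of_nonneg_right fm' hpos.le
    linarith

theorem rnd_left {a b : ℝ} {m : ℕ} : rnd a b m a = a := by
  have : ⌊(a - a) / ((b - a) / m) + 1 / 2⌋ = 0 := by
    rw [sub_self, zero_div, zero_add, Int.floor_eq_iff]; norm_num
  unfold rnd
  rw [this]
  simp

theorem rnd_right {a b : ℝ} {m : ℕ} (h : a < b) (hm : 0 < m) : rnd a b m b = b := by
  have hm' : (0 : ℝ) < m := by exact_mod_cast hm
  have hba : b - a ≠ 0 := by intro h'; linarith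
  have h1 : (b - a) / ((b - a) / m) = m := by field_simp
  have : ⌊(b - a) / ((b - a) / m) + 1 / 2⌋ = (m : ℤ) := by
    rw [h1, Int.floor_eq_iff]; push_cast; constructor <;> linarith
  unfold rnd
  rw [this]
  push_cast
  field_simp
  ring

/-- off the grid lines the rounding of the clamped coordinate is locally constant -/
theorem rnd_locconst {a b : ℝ} {m : ℕ} (h : a < b) (hm : 0 < m) {x : ℝ} (hx : x ∉ grid a b m) :
    ∀ᶠ y in nhds x, rnd a b m (max a (min b y)) = rnd a b m (max a (min b x)) := by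
  have hm' : (0 : ℝ) < m := by exact_mod_cast hm
  have hpos : 0 < (b - a) / m := div_pos (by linarith) hm'
  have hsm : (m : ℝ) * ((b - a) / m) = b - a := by field_simp
  set g : ℝ → ℝ := fun y => (max a (min b y) - a) / ((b - a) / m) + 1 / 2 with hg
  have hgc : Continuous g := by
    rw [hg]
    exact (((continuous_const.max (continuous_const.min continuous_id)).sub
      continuous_const).div_const _).add continuous_const
  have hne : g x ≠ ⌊g x⌋ := by
    intro heq
    apply hx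
    set q := ⌊g x⌋ with hqd
    have e1 : (max a (min b x) - a) = ((q : ℝ) - 1 / 2) * ((b - a) / m) := by
      have : (max a (min b x) - a) / ((b - a) / m) = (q : ℝ) - 1 / 2 := by
        have : g x = (max a (min b x) - a) / ((b - a) / m) + 1 / 2 := rfl
        linarith
      rwa [div_eq_iff hpos.ne'] at this
    have c1 : a ≤ max a (min b x) := le_max_left _ _
    have c2 : max a (min b x) ≤ b := max_le h.le (min_le_left _ _)
    have hq1 : (0 : ℝ) ≤ (q : ℝ) - 1 / 2 := by
      by_contra hcon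
      push Not at hcon
      have := mul_neg_of_neg_of_pos hcon hpos
      linarith
    have hq2 : (q : ℝ) - 1 / 2 ≤ m := by
      by_contra hcon
      push Not at hcon
      have := mul_lt_mul_of_pos_right hcon hpos
      linarith
    have hq1' : (1 : ℤ) ≤ q := by
      have : (0 : ℝ) < q := by linarith
      have : (0 : ℤ) < q := by exact_mod_cast this
      omega
    have hq2' : q ≤ (m : ℤ) := by
      have : (q : ℝ) < (m : ℝ) + 1 := by linarith
      have : q < (m : ℤ) + 1 := by exact_mod_cast this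
      omega
    obtain ⟨k, hk⟩ : ∃ k : ℕ, q = (k : ℤ) + 1 := ⟨(q - 1).toNat, by omega⟩
    have hkm : k < m := by omega
    have hqk : (q : ℝ) - 1 / 2 = (k : ℝ) + 1 / 2 := by
      rw [hk]; push_cast; ring
    rw [hqk] at e1
    have hval : max a (min b x) = a + ((k : ℝ) + 1 / 2) * ((b - a) / m) := by linarith
    have hmem : max a (min b x) ∈ grid a b m := by
      rw [hval]
      exact Finset.mem_image_of_mem _ (Finset.mem_range.mpr hkm)
    have hin := grid_mem h hm _ hmem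
    have hxx : max a (min b x) = x := by
      have h1 : min b x = max a (min b x) := by
        rcases max_choice a (min b x) with h' | h'
        · rw [h'] at hin; exact absurd hin.1 (lt_irrefl _)
        · exact h'.symm
      have h2 : min b x = x := by
        rcases min_choice b x with h' | h'
        · rw [← h1, h'] at hin; exact absurd hin.2 (lt_irrefl _)
        · exact h'
      rw [← h1, h2]
    rwa [hxx] at hmem
  have hlt : (⌊g x⌋ : ℝ) < g x := lt_of_le_of_ne (Int.floor_le _) (Ne.symm hne)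
  have hlt2 : g x < ⌊g x⌋ + 1 := Int.lt_floor_add_one _
  have : ∀ᶠ y in nhds x, (⌊g x⌋ : ℝ) < g y ∧ g y < ⌊g x⌋ + 1 :=
    hgc.continuousAt.eventually ((isOpen_Ioo (a := (⌊g x⌋ : ℝ)) (b := ⌊g x⌋ + 1)).mem_nhds
      ⟨hlt, hlt2⟩)
  filter_upwards [this] with y hy
  have : ⌊g y⌋ = ⌊g x⌋ := Int.floor_eq_iff.mpr ⟨hy.1.le, hy.2⟩
  unfold rnd
  rw [show (max a (min b y) - a) / ((b - a) / m) + 1 / 2 = g y from rfl,
    show (max a (min b x) - a) / ((b - a) / m) + 1 / 2 = g x from rfl, this]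

end Crest.Agent.R279.Shear
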