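import Mathlib
import Crest.Agent.R279.Shear765D

/-!
R279 Part 4: packaged planar data.
-/

set_option autoImplicit false

namespace Crest.Agent.R279.Shear

open Metric Set Crest.Agent.R279 Filter Topology

/-- rectangle data `(a,b,c,d)` -/
abbrev RD : Type := ℝ × ℝ × ℝ × ℝ

def rP (p : RD) : Set ℂ := rect p.1 p.2.1 p.2.2.1 p.2.2.2
def bP (p : RD) : Set ℂ := rectBd p.1 p.2.1 p.2.2.1 p.2.2.2
noncomputable def cP (p : RD) (m : ℕ) : Set ℂ :=
  cross p.1 p.2.1 p.2.2.1 p.2.2.2 (grid p.1 p.2.1 m) (grid p.2.2.1 p.2.2.2 m)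
noncomputable def clP (p : RD) (z : ℂ) : ℂ := clampQ p.1 p.2.1 p.2.2.1 p.2.2.2 z
noncomputable def ctP (p : RD) (θ : ℝ) (z : ℂ) : ℂ := contr p.1 p.2.1 p.2.2.1 p.2.2.2 θ z
noncomputable def rep (p : RD) (m : ℕ) (z : ℂ) : ℂ :=
  ⟨rnd p.1 p.2.1 m z.re, rnd p.2.2.1 p.2.2.2 m z.im⟩
/-- enlargement by `σ` -/
def big (p : RD) (σ : ℝ) : RD := (p.1 - σ, p.2.1 + σ, p.2.2.1 - σ, p.2.2.2 + σ)

theorem big_ok {p : RD} (hp : RectOK p) {σ : ℝ} (hσ : 0 ≤ σ) : RectOK (big p σ) := by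
  obtain ⟨h1, h2⟩ := hp
  exact ⟨by simp only [big]; linarith, by simp only [big]; linarith⟩

theorem rP_sub_big {p : RD} {σ : ℝ} (hσ : 0 ≤ σ) : rP p ⊆ rP (big p σ) := by
  rintro z ⟨⟨h1, h2⟩, h3, h4⟩
  refine ⟨⟨?_, ?_⟩, ?_, ?_⟩ <;> simp only [big] <;> linarith

theorem isCompact_rP (p : RD) : IsCompact (rP p) := isCompact_rect _ _ _ _

theorem rP_sub_cP (p : RD) (m : ℕ) : rP p ⊆ cP p m := rect_sub_cross _ _ _ _ _ _

theorem cP_nonempty {p : RD} (hp : RectOK p) (m : ℕ) : (cP p m).Nonempty :=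
  cross_nonempty hp.1 hp.2 _ _

/-- closest point data off the cross -/
theorem rep_mem_bd {p : RD} (hp : RectOK p) {m : ℕ} (hm : 0 < m) {z : ℂ} (hz : z ∈ bP p) :
    rep p m z ∈ bP p := by
  obtain ⟨⟨h1, h2⟩, h3⟩ := hz
  refine ⟨⟨rnd_mem hp.1 hm h1, rnd_mem hp.2 hm h2⟩, ?_⟩
  rcases h3 with h | h | h | h
  · left; simp only [rep]; rw [h]; exact rnd_left
  · right; left; simp only [rep]; rw [h]; exact rnd_right hp.1 hm
  · right; right; left; simp only [rep]; rw [h]; exact rnd_left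
  · right; right; right; simp only [rep]; rw [h]; exact rnd_right hp.2 hm

theorem rep_dist {p : RD} (hp : RectOK p) {m : ℕ} (hm : 0 < m) (z : ℂ) :
    ‖z - rep p m z‖ ≤ (p.2.1 - p.1) / m + (p.2.2.2 - p.2.2.1) / m := by
  refine (norm_le_re_add_im _).trans (add_le_add ?_ ?_)
  · rw [Complex.sub_re]; exact rnd_dist hp.1 hm _
  · rw [Complex.sub_im]; exact rnd_dist hp.2 hm _

/-- clamping a boundary point of the enlarged rectangle to the original one -/
theorem clamp_big_bd {p : RD} (hp : RectOK p) {σ : ℝ} (hσ : 0 ≤ σ) {z : ℂ}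
    (hz : z ∈ bP (big p σ)) : clP p z ∈ bP p := by
  obtain ⟨-, h3⟩ := hz
  refine ⟨clampQ_mem hp.1 hp.2 z, ?_⟩
  obtain ⟨h1, h2⟩ := hp
  rcases h3 with h | h | h | h
  · left
    have h' : z.re = p.1 - σ := h
    simp only [clP, clampQ]
    rw [h', min_eq_right (by linarith), max_eq_left (by linarith)]
  · right; left
    have h' : z.re = p.2.1 + σ := h
    simp only [clP, clampQ]
    rw [h', min_eq_left (by linarith), max_eq_right (by linarith)]
  · right; right; left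
    have h' : z.im = p.2.2.1 - σ := h
    simp only [clP, clampQ]
    rw [h', min_eq_right (by linarith), max_eq_left (by linarith)]
  · right; right; right
    have h' : z.im = p.2.2.2 + σ := h
    simp only [clP, clampQ]
    rw [h', min_eq_left (by linarith), max_eq_right (by linarith)]

theorem clamp_big_dist {p : RD} (hp : RectOK p) {σ : ℝ} (hσ : 0 ≤ σ) {z : ℂ}
    (hz : z ∈ rP (big p σ)) : ‖z - clP p z‖ ≤ 2 * σ := by
  obtain ⟨⟨h1, h2⟩, h3, h4⟩ := hz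
  have h1' : p.1 - σ ≤ z.re := h1
  have h2' : z.re ≤ p.2.1 + σ := h2
  have h3' : p.2.2.1 - σ ≤ z.im := h3
  have h4' : z.im ≤ p.2.2.2 + σ := h4
  obtain ⟨hp1, hp2⟩ := hp
  have e1 : |(z - clP p z).re| ≤ σ := by
    rw [Complex.sub_re]; simp only [clP, clampQ]
    rw [abs_le]
    constructor
    · have : max p.1 (min p.2.1 z.re) ≤ z.re + σ := max_le (by linarith) ((min_le_right _ _).trans (by linarith))
      linarith
    · have h : z.re - σ ≤ min p.2.1 z.re := le_min (by linarith) (by linarith)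
      have : z.re - σ ≤ max p.1 (min p.2.1 z.re) := h.trans (le_max_right _ _)
      linarith
  have e2 : |(z - clP p z).im| ≤ σ := by
    rw [Complex.sub_im]; simp only [clP, clampQ]
    rw [abs_le]
    constructor
    · have : max p.2.2.1 (min p.2.2.2 z.im) ≤ z.im + σ := max_le (by linarith) ((min_le_right _ _).trans (by linarith))
      linarith
    · have h : z.im - σ ≤ min p.2.2.2 z.im := le_min (by linarith) (by linarith)
      have : z.im - σ ≤ max p.2.2.1 (min p.2.2.2 z.im) := h.trans (le_max_right _ _)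
      linarith
  exact (norm_le_re_add_im _).trans (by linarith)

/-- the centre chosen at `z`: a boundary point of the original rectangle -/
noncomputable def cc (p : RD) (σ : ℝ) (m : ℕ) (z : ℂ) : ℂ :=
  clP p (rep (big p σ) m (clP (big p σ) z))

theorem cc_mem {p : RD} (hp : RectOK p) {σ : ℝ} (hσ : 0 ≤ σ) {m : ℕ} (hm : 0 < m) {z : ℂ}
    (hz : z ∉ cP (big p σ) m) : cc p σ m z ∈ bP p := by
  have hb := big_ok hp hσ
  have h1 : clP (big p σ) z ∈ bP (big p σ) :=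
    clampQ_bd hb.1 hb.2 (fun h => hz (rP_sub_cP _ _ h))
  exact clamp_big_bd hp hσ (rep_mem_bd hb hm h1)

theorem cc_dist {p : RD} (hp : RectOK p) {σ : ℝ} (hσ : 0 ≤ σ) {m : ℕ} (hm : 0 < m) {z : ℂ}
    (hz : z ∉ cP (big p σ) m) : ‖clP (big p σ) z - cc p σ m z‖ ≤
      ((big p σ).2.1 - (big p σ).1) / m + ((big p σ).2.2.2 - (big p σ).2.2.1) / m + 2 * σ := by
  have hb := big_ok hp hσ
  have h1 : clP (big p σ) z ∈ bP (big p σ) :=
    clampQ_bd hb.1 hb.2 (fun h => hz (rP_sub_cP _ _ h))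
  have h2 := rep_mem_bd hb hm h1
  have h3 := clamp_big_dist hp hσ h2.1
  have h4 := rep_dist hb hm (clP (big p σ) z)
  have : clP (big p σ) z - cc p σ m z = (clP (big p σ) z - rep (big p σ) m (clP (big p σ) z)) +
      (rep (big p σ) m (clP (big p σ) z) - clP p (rep (big p σ) m (clP (big p σ) z))) := by
    simp [cc]
  rw [this]
  exact (norm_add_le _ _).trans (add_le_add h4 h3)

theorem cc_locconst {p : RD} (hp : RectOK p) {σ : ℝ} (hσ : 0 ≤ σ) {m : ℕ} (hm : 0 < m) {z : ℂ}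
    (hz : z ∉ cP (big p σ) m) : ∀ᶠ w in 𝓝 z, cc p σ m w = cc p σ m z := by
  have hb := big_ok hp hσ
  have h1 : z.re ∉ grid (big p σ).1 (big p σ).2.1 m := fun h => hz (Or.inr (Or.inl h))
  have h2 : z.im ∉ grid (big p σ).2.2.1 (big p σ).2.2.2 m := fun h => hz (Or.inr (Or.inr h))
  have e1 := Complex.continuous_re.continuousAt.eventually (rnd_locconst hb.1 hm h1)
  have e2 := Complex.continuous_im.continuousAt.eventually (rnd_locconst hb.2 hm h2)
  filter_upwards [e1, e2] with w hw1 hw2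
  have : rep (big p σ) m (clP (big p σ) w) = rep (big p σ) m (clP (big p σ) z) := by
    apply Complex.ext
    · simpa [rep, clP, clampQ] using hw1
    · simpa [rep, clP, clampQ] using hw2
  simp only [cc, this]

theorem exists_planar (hE : LemmaE) (hK : LemmaK) {p : RD} (hp : RectOK p) {m : ℕ} (hm : 0 < m)
    {η e : ℝ} (hη : 0 < η) (he : 0 < e) (Λ : ℂ) (R : ℝ) :
    ∃ (F k : ℂ → ℂ) (δ M : ℝ), 0 < δ ∧ δ ≤ 1 ∧ 0 ≤ M ∧ Differentiable ℂ F ∧ Differentiable ℂ k ∧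
      (∀ z : ℂ, ‖z‖ ≤ R → infDist z (cP p m) < δ → ‖F z - clP p z‖ < η) ∧
      (∀ z ∈ rP p, ‖k z‖ < e) ∧
      (∀ z : ℂ, ‖z‖ ≤ R → δ / 2 ≤ infDist z (cP p m) → ‖k z - Λ‖ < 1) ∧
      (∀ z : ℂ, ‖z‖ ≤ R → ‖k z‖ ≤ M) := by
  obtain ⟨P, δ, hδ, hP⟩ := hE p.1 p.2.1 p.2.2.1 p.2.2.2 (grid p.1 p.2.1 m)
    (grid p.2.2.1 p.2.2.2 m) hp.1 hp.2 (grid_mem hp.1 hm) (grid_mem hp.2 hm) η R hη
  obtain ⟨k, hk1, hk2⟩ := hK p.1 p.2.1 p.2.2.1 p.2.2.2 (grid p.1 p.2.1 m)
    (grid p.2.2.1 p.2.2.2 m) hp.1 hp.2 (grid_mem hp.1 hm) (grid_mem hp.2 hm)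
    (grid_nonempty hm) (min δ 1 / 2) (min e 1) R Λ (by positivity) (by positivity)
  have hcpt : IsCompact (closedBall (0 : ℂ) R) := isCompact_closedBall _ _
  obtain ⟨M, hM⟩ := hcpt.exists_bound_of_continuousOn (f := fun z => k.eval z)
    k.differentiable.continuous.continuousOn
  refine ⟨fun z => P.eval z, fun z => k.eval z, min δ 1, max M 0, by positivity, min_le_right _ _,
    le_max_right _ _, P.differentiable, k.differentiable, ?_, ?_, ?_, ?_⟩
  · intro z hz h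
    exact hP z hz (h.trans_le (min_le_left _ _))
  · intro z hz
    exact (hk1 z hz).trans_le (min_le_left _ _)
  · intro z hz h
    exact (hk2 z hz h).trans_le (min_le_right _ _)
  · intro z hz
    exact (hM z (by simpa using hz)).trans (le_max_left _ _)

theorem exists_pos_le {ι : Type*} [Finite ι] [Nonempty ι] (g : ι → ℝ) (hg : ∀ i, 0 < g i) :
    ∃ w : ℝ, 0 < w ∧ w ≤ 1 ∧ ∀ i, w ≤ g i := by
  obtain ⟨i0, hi0⟩ := Finite.exists_min g
  exact ⟨min 1 (g i0), lt_min one_pos (hg i0), min_le_left _ _,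
    fun i => (min_le_right _ _).trans (hi0 i)⟩

theorem exists_bound {ι : Type*} [Finite ι] [Nonempty ι] (g : ι → ℝ) :
    ∃ w : ℝ, 0 < w ∧ ∀ i, g i ≤ w := by
  obtain ⟨i0, hi0⟩ := Finite.exists_max g
  exact ⟨max 1 (g i0), lt_max_of_lt_left one_pos, fun i => (hi0 i).trans (le_max_right _ _)⟩

theorem norm_rP {p : RD} {z : ℂ} {σ : ℝ} (hσ : 0 ≤ σ) (hz : z ∈ rP (big p σ)) :
    ‖z‖ ≤ |p.1| + |p.2.1| + |p.2.2.1| + |p.2.2.2| + 2 * σ := by
  obtain ⟨⟨h1, h2⟩, h3, h4⟩ := hz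
  have h1' : p.1 - σ ≤ z.re := h1
  have h2' : z.re ≤ p.2.1 + σ := h2
  have h3' : p.2.2.1 - σ ≤ z.im := h3
  have h4' : z.im ≤ p.2.2.2 + σ := h4
  have e1 : |z.re| ≤ |p.1| + |p.2.1| + σ := by
    rw [abs_le]
    constructor
    · linarith [neg_abs_le p.1, abs_nonneg p.2.1]
    · linarith [le_abs_self p.2.1, abs_nonneg p.1]
  have e2 : |z.im| ≤ |p.2.2.1| + |p.2.2.2| + σ := by
    rw [abs_le]
    constructor
    · linarith [neg_abs_le p.2.2.1, abs_nonneg p.2.2.2]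
    · linarith [le_abs_self p.2.2.2, abs_nonneg p.2.2.1]
  exact (norm_le_re_add_im z).trans (by linarith)

end Crest.Agent.R279.Shear
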