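import Mathlib
import Crest.Agent.R279.Shear765C
import Crest.Agent.R279.Shear765E

/-!
R279 Part 4: construction of the chain of shears from LEMMA E and LEMMA K.
-/

set_option autoImplicit false

namespace Crest.Agent.R279.Shear

open Metric Set Crest.Agent.R279 Filter Topology

/-- everything the gluing needs, for a prescribed accuracy `κ` -/
theorem exists_chain (hE : LemmaE) (hK : LemmaK) {n : ℕ} (P : Fin (n + 1) → RD)
    (hP : ∀ i, RectOK (P i)) {κ : ℝ} (hκ : 0 < κ) (R0 : ℝ) :
    ∃ (c : Chain n) (ξ : Fin (n + 1) → ℂ → ℂ) (lam : ℂ → ℂ), R0 ≤ c.R ∧ 0 < c.R ∧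
      (∀ i, c.Pm i = rP (P i)) ∧ (∀ i, Differentiable ℂ (ξ i)) ∧
      (∀ i, ∀ z ∈ c.A i, ξ i z ∈ rP (P i)) ∧
      (∀ i, ∀ z ∈ c.Pp i, ∀ u : ℂ, ‖z - u‖ ≤ c.e → ‖ξ i z - u‖ < κ) ∧
      (∀ z ∈ c.B (Fin.last n), lam z ∈ bP (P (Fin.last n))) ∧
      (∀ z ∈ c.B (Fin.last n), ∀ᶠ w in 𝓝 z, lam w = lam z) ∧
      (∀ z ∈ c.A (Fin.last n), z ∈ c.B (Fin.last n) → ‖ξ (Fin.last n) z - lam z‖ < κ) := by
  -- sizes
  obtain ⟨w0, hw0, hw1, hwle⟩ := exists_pos_le
    (fun i : Fin (n + 1) => min ((P i).2.1 - (P i).1) ((P i).2.2.2 - (P i).2.2.1))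
    (fun i => lt_min (by linarith [(hP i).1]) (by linarith [(hP i).2]))
  have hwx : ∀ i, w0 ≤ (P i).2.1 - (P i).1 := fun i => (hwle i).trans (min_le_left _ _)
  have hwy : ∀ i, w0 ≤ (P i).2.2.2 - (P i).2.2.1 := fun i => (hwle i).trans (min_le_right _ _)
  obtain ⟨D0, hD0, hDle⟩ := exists_bound
    (fun i : Fin (n + 1) => ((P i).2.1 - (P i).1) + ((P i).2.2.2 - (P i).2.2.1))
  obtain ⟨B0, hB0, hBle⟩ := exists_bound
    (fun i : Fin (n + 1) => |(P i).1| + |(P i).2.1| + |(P i).2.2.1| + |(P i).2.2.2|)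
  set D1 : ℝ := D0 + 4 with hD1
  have hD1pos : 0 < D1 := by positivity
  set θ : ℝ := min (1 / 2) (κ / (16 * D1)) with hθ
  have hθpos : 0 < θ := lt_min (by norm_num) (by positivity)
  have hθ2 : θ ≤ 1 / 2 := min_le_left _ _
  have hθD : θ * D1 ≤ κ / 16 := by
    have h1 : θ ≤ κ / (16 * D1) := min_le_right _ _
    calc θ * D1 ≤ κ / (16 * D1) * D1 := mul_le_mul_of_nonneg_right h1 hD1pos.le
      _ = κ / 16 := by field_simp
  set σ : ℝ := θ * w0 / 8 with hσ
  have hσpos : 0 < σ := by positivity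
  have hσθ : σ ≤ θ / 8 := by
    rw [hσ]; nlinarith
  have hσ1 : σ ≤ 1 / 16 := by linarith
  have hσκ : 8 * σ ≤ κ / 16 := by
    have : θ * 1 ≤ θ * D1 := mul_le_mul_of_nonneg_left (by rw [hD1]; linarith) hθpos.le
    linarith
  obtain ⟨m, hm⟩ := exists_nat_gt (max 0 (16 * D1 / κ))
  have hm0' : (0 : ℝ) < m := (le_max_left _ _).trans_lt hm
  have hm0 : 0 < m := by exact_mod_cast hm0'
  have hmκ : D1 / m ≤ κ / 16 := by
    have h1 : 16 * D1 / κ < m := (le_max_right _ _).trans_lt hm
    rw [div_lt_iff₀ hκ] at h1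
    rw [div_le_iff₀ hm0']
    linarith
  -- enlarged rectangles
  set Pb : Fin (n + 1) → RD := fun i => big (P i) σ with hPb
  have hPbok : ∀ i, RectOK (Pb i) := fun i => big_ok (hP i) hσpos.le
  set R : ℝ := max R0 (B0 + 3) with hR
  have hRB : B0 + 3 ≤ R := le_max_right _ _
  have hRpos : 0 < R := by linarith
  set L : ℝ := R + 2 + (B0 + 1) with hL
  set Λ : ℂ := ⟨L, L⟩ with hΛ
  have hpl : ∀ (i : Fin (n + 1)) (r : ℝ), ∃ (F k : ℂ → ℂ) (δ M : ℝ), 0 < δ ∧ δ ≤ 1 ∧ 0 ≤ M ∧
      Differentiable ℂ F ∧ Differentiable ℂ k ∧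
      (∀ z : ℂ, ‖z‖ ≤ r → infDist z (cP (Pb i) m) < δ → ‖F z - clP (Pb i) z‖ < σ) ∧
      (∀ z ∈ rP (Pb i), ‖k z‖ < σ) ∧
      (∀ z : ℂ, ‖z‖ ≤ r → δ / 2 ≤ infDist z (cP (Pb i) m) → ‖k z - Λ‖ < 1) ∧
      (∀ z : ℂ, ‖z‖ ≤ r → ‖k z‖ ≤ M) := fun i r =>
    exists_planar hE hK (hPbok i) hm0 hσpos hσpos Λ r
  choose F k δ M hδ hδ1 hM0 hFd hkd hF hk1 hk2 hkM using hpl
  -- radii
  set rad : ℕ → ℝ := fun j => Nat.rec R
    (fun j r => R + (if h : j < n + 1 then M ⟨j, h⟩ r else 0)) j with hrad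
  have hrad0 : rad 0 = R := rfl
  have hradS : ∀ j : ℕ, rad (j + 1) = R + (if h : j < n + 1 then M ⟨j, h⟩ (rad j) else 0) :=
    fun j => rfl
  have hradR : ∀ j, R ≤ rad j := by
    intro j
    cases j with
    | zero => exact le_rfl
    | succ j =>
      rw [hradS]
      split_ifs with h
      · linarith [hM0 ⟨j, h⟩ (rad j)]
      · linarith
  set Rk : Fin (n + 1) → ℝ := fun i => rad i.val with hRk
  set dd : Fin (n + 1) → ℝ := fun i => δ i (Rk i) with hdd
  set cr : Fin (n + 1) → Set ℂ := fun i => cP (Pb i) m with hcr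
  have hbnorm : ∀ i, ∀ z ∈ rP (Pb i), ‖z‖ < R := by
    intro i z hz
    have := norm_rP hσpos.le hz
    have h2 := hBle i
    linarith
  have hzero : ∀ i, ∀ z ∈ rP (Pb i), infDist z (cr i) = 0 := fun i z hz => infDist_rect hz
  -- the chain
  let c : Chain n :=
  { R := R
    Rk := Rk
    A := fun i => {z | infDist z (cr i) < dd i ∧ ‖z‖ < Rk i}
    B := fun i => {z | dd i / 2 < infDist z (cr i) ∧ ‖z‖ < Rk i}
    p := fun i z => k i.castSucc (Rk i.castSucc) z
    Pm := fun i => rP (P i)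
    Pp := fun i => rP (Pb i)
    e := σ
    Rk0 := rfl
    Ale := fun i => hradR _
    oA := fun i => (isOpen_lt (continuous_infDist_pt _) continuous_const).inter
      (isOpen_lt continuous_norm continuous_const)
    oB := fun i => (isOpen_lt continuous_const (continuous_infDist_pt _)).inter
      (isOpen_lt continuous_norm continuous_const)
    AB := by
      intro i
      ext z
      simp only [Set.mem_union, Set.mem_ofPred_eq, mem_ball_zero_iff]
      constructor
      · rintro (h | h)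
        · exact h.2
        · exact h.2
      · intro h
        rcases lt_or_ge (infDist z (cr i)) (dd i) with h' | h'
        · exact Or.inl ⟨h', h⟩
        · right
          have := hδ i (Rk i)
          exact ⟨by simp only [hdd] at h' ⊢; linarith, h⟩
    sep := by
      intro i
      refine ⟨dd i / 2, by have := hδ i (Rk i); simp only [hdd]; linarith, ?_⟩
      rintro z ⟨hzA, hzB⟩ w ⟨hwB, hwA⟩
      have h1 : infDist z (cr i) ≤ dd i / 2 := by
        by_contra h
        push Not at h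
        exact hzB ⟨h, hzA.2⟩
      have h2 : dd i ≤ infDist w (cr i) := by
        by_contra h
        push Not at h
        exact hwA ⟨h, hwB.2⟩
      have h3 : infDist w (cr i) ≤ infDist z (cr i) + dist w z := infDist_le_infDist_add_dist
      rw [dist_comm w z] at h3
      linarith
    dp := fun i => hkd _ _
    bp := by
      intro i z hz
      rw [mem_ball_zero_iff] at hz
      have h1 := hkM i.castSucc (Rk i.castSucc) z hz.le
      have h2 : Rk i.succ = R + M i.castSucc (Rk i.castSucc) := by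
        simp only [hRk, Fin.val_succ, Fin.val_castSucc]
        rw [hradS]
        have : i.val < n + 1 := by omega
        rw [dif_pos this]
        rfl
      rw [h2]
      linarith
    esc := by
      rintro i z ⟨hz1, hz2⟩ y hy
      have hk := hk2 i.castSucc (Rk i.castSucc) z hz2.le (by simpa only [hdd, hcr] using hz1.le)
      have hkk := hkM i.castSucc (Rk i.castSucc) z hz2.le
      have h2 : Rk i.succ = R + M i.castSucc (Rk i.castSucc) := by
        simp only [hRk, Fin.val_succ, Fin.val_castSucc]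
        rw [hradS]
        have : i.val < n + 1 := by omega
        rw [dif_pos this]
        rfl
      have hw : ‖(y + k i.castSucc (Rk i.castSucc) z) - (⟨L, L⟩ : ℂ)‖ < R + 1 := by
        calc ‖(y + k i.castSucc (Rk i.castSucc) z) - (⟨L, L⟩ : ℂ)‖
            = ‖y + (k i.castSucc (Rk i.castSucc) z - Λ)‖ := by rw [hΛ]; ring_nf
          _ ≤ ‖y‖ + ‖k i.castSucc (Rk i.castSucc) z - Λ‖ := norm_add_le _ _
          _ < R + 1 := by linarith
      obtain ⟨f1, f2⟩ := far_point (B := B0 + 1) hL hw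
      have hb1 : (Pb i.succ).2.1 ≤ B0 + 1 := by
        have h3 := hBle i.succ
        have h4 := le_abs_self (P i.succ).2.1
        have h5 := abs_nonneg (P i.succ).1
        have h6 := abs_nonneg (P i.succ).2.2.1
        have h7 := abs_nonneg (P i.succ).2.2.2
        simp only [hPb, big]
        linarith
      have hb2 : (Pb i.succ).2.2.2 ≤ B0 + 1 := by
        have h3 := hBle i.succ
        have h4 := le_abs_self (P i.succ).2.2.2
        have h5 := abs_nonneg (P i.succ).1
        have h6 := abs_nonneg (P i.succ).2.2.1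
        have h7 := abs_nonneg (P i.succ).2.1
        simp only [hPb, big]
        linarith
      have h1 : 1 ≤ infDist (y + k i.castSucc (Rk i.castSucc) z) (cr i.succ) :=
        far_cross (hPbok i.succ).1 (hPbok i.succ).2 (grid_mem (hPbok i.succ).1 hm0)
          (grid_mem (hPbok i.succ).2 hm0) (by linarith) (by linarith)
      have h3 := hδ1 i.succ (Rk i.succ)
      refine ⟨?_, ?_⟩
      · simp only [hdd]; linarith
      · rw [h2]
        calc ‖y + k i.castSucc (Rk i.castSucc) z‖ ≤ ‖y‖ + ‖k i.castSucc (Rk i.castSucc) z‖ :=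
              norm_add_le _ _
          _ < R + M i.castSucc (Rk i.castSucc) := by linarith
    PmR := fun i z hz => hbnorm i z (rP_sub_big hσpos.le hz)
    PmPp := fun i => rP_sub_big hσpos.le
    PpA := by
      intro i z hz
      refine ⟨?_, (hbnorm i z hz).trans_le (hradR _)⟩
      rw [hzero i z hz]
      exact hδ i (Rk i)
    epos := hσpos.le
    near := by
      intro i z hz y hy
      have h1 := hk1 i.castSucc (Rk i.castSucc) z hz
      have h2 : ‖(y + k i.castSucc (Rk i.castSucc) z) - y‖ ≤ σ := by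
        rw [add_sub_cancel_left]; exact h1.le
      exact mem_enlarge hy h2
    small := by
      intro i z hz
      exact (hk1 i.castSucc (Rk i.castSucc) z hz).le }
  -- closeness of F to the clamp
  have hFc : ∀ i, ∀ z ∈ c.A i, ‖F i (Rk i) z - clP (Pb i) z‖ < σ := by
    intro i z hz
    exact hF i (Rk i) z hz.2.le hz.1
  have hFin : ∀ i, ∀ z ∈ c.A i, F i (Rk i) z ∈ rect ((P i).1 - 2 * σ) ((P i).2.1 + 2 * σ)
      ((P i).2.2.1 - 2 * σ) ((P i).2.2.2 + 2 * σ) := by
    intro i z hz
    have h1 : clP (Pb i) z ∈ rP (Pb i) := clampQ_mem (hPbok i).1 (hPbok i).2 z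
    have h2 := mem_enlarge h1 (hFc i z hz).le
    obtain ⟨⟨g1, g2⟩, g3, g4⟩ := h2
    simp only [hPb, big] at g1 g2 g3 g4
    refine ⟨⟨?_, ?_⟩, ?_, ?_⟩ <;> linarith
  have hclose : ∀ i, ∀ z ∈ c.A i,
      ‖ctP (P i) θ (F i (Rk i) z) - clP (Pb i) z‖ < κ / 4 := by
    intro i z hz
    have h1 : ‖ctP (P i) θ (F i (Rk i) z) - F i (Rk i) z‖ ≤ κ / 16 := by
      have e1 : ctP (P i) θ (F i (Rk i) z) - F i (Rk i) z =
        -((θ : ℝ) : ℂ) * (F i (Rk i) z - ctr (P i).1 (P i).2.1 (P i).2.2.1 (P i).2.2.2) :=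
        contr_sub _ _ _ _ _ _
      rw [e1, norm_mul, norm_neg, Complex.norm_real, Real.norm_eq_abs, abs_of_pos hθpos]
      have h2 := norm_sub_ctr (hP i).1.le (hP i).2.le (hFin i z hz)
      have h3 := hDle i
      have h4 : ‖F i (Rk i) z - ctr (P i).1 (P i).2.1 (P i).2.2.1 (P i).2.2.2‖ ≤ D1 := by
        refine h2.trans ?_
        rw [hD1]
        linarith
      exact (mul_le_mul_of_nonneg_left h4 hθpos.le).trans hθD
    have h2 := hFc i z hz
    have e2 : ctP (P i) θ (F i (Rk i) z) - clP (Pb i) z =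
      (ctP (P i) θ (F i (Rk i) z) - F i (Rk i) z) + (F i (Rk i) z - clP (Pb i) z) := by ring
    rw [e2]
    refine (norm_add_le _ _).trans_lt ?_
    linarith
  refine ⟨c, fun i z => ctP (P i) θ (F i (Rk i) z), cc (P (Fin.last n)) σ m, le_max_left _ _,
    hRpos, fun i => rfl, ?_, ?_, ?_, ?_, ?_, ?_⟩
  · intro i
    exact (contr_diff _ _ _ _ θ).comp (hFd i (Rk i))
  · intro i z hz
    refine contr_mem hθpos.le (by linarith) hσpos.le ?_ ?_ (hFin i z hz)
    · have := mul_le_mul_of_nonneg_left (hwx i) hθpos.le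
      rw [hσ]; linarith
    · have := mul_le_mul_of_nonneg_left (hwy i) hθpos.le
      rw [hσ]; linarith
  · intro i z hz u hu
    have h1 := hclose i z (c.PpA i hz)
    have h2 : clP (Pb i) z = z := clampQ_of_mem hz
    rw [h2] at h1
    have hu' : ‖z - u‖ ≤ σ := hu
    have e2 : ctP (P i) θ (F i (Rk i) z) - u = (ctP (P i) θ (F i (Rk i) z) - z) + (z - u) := by
      ring
    simp only
    rw [e2]
    refine (norm_add_le _ _).trans_lt ?_
    linarith
  · intro z hz
    refine cc_mem (hP _) hσpos.le hm0 ?_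
    intro hmem
    have h1 : infDist z (cr (Fin.last n)) = 0 := infDist_zero_of_mem hmem
    have h2 := hz.1
    rw [h1] at h2
    have h3 := hδ (Fin.last n) (Rk (Fin.last n))
    simp only [hdd] at h2
    linarith
  · intro z hz
    refine cc_locconst (hP _) hσpos.le hm0 ?_
    intro hmem
    have h1 : infDist z (cr (Fin.last n)) = 0 := infDist_zero_of_mem hmem
    have h2 := hz.1
    rw [h1] at h2
    have h3 := hδ (Fin.last n) (Rk (Fin.last n))
    simp only [hdd] at h2
    linarith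
  · intro z hzA hz
    have hnot : z ∉ cP (big (P (Fin.last n)) σ) m := by
      intro hmem
      have h1 : infDist z (cr (Fin.last n)) = 0 := infDist_zero_of_mem hmem
      have h2 := hz.1
      rw [h1] at h2
      have h3 := hδ (Fin.last n) (Rk (Fin.last n))
      simp only [hdd] at h2
      linarith
    have h1 := cc_dist (hP _) hσpos.le hm0 hnot
    have h2 := hclose (Fin.last n) z hzA
    have h3 : ((big (P (Fin.last n)) σ).2.1 - (big (P (Fin.last n)) σ).1) / m +
        ((big (P (Fin.last n)) σ).2.2.2 - (big (P (Fin.last n)) σ).2.2.1) / m ≤ κ / 16 := by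
      rw [← add_div]
      refine le_trans ?_ hmκ
      apply div_le_div_of_nonneg_right _ hm0'.le
      have h4 := hDle (Fin.last n)
      simp only [big]
      rw [hD1]
      linarith
    have e2 : ctP (P (Fin.last n)) θ (F (Fin.last n) (Rk (Fin.last n)) z) -
        cc (P (Fin.last n)) σ m z =
        (ctP (P (Fin.last n)) θ (F (Fin.last n) (Rk (Fin.last n)) z) - clP (Pb (Fin.last n)) z) +
        (clP (Pb (Fin.last n)) z - cc (P (Fin.last n)) σ m z) := by ring
    simp only
    rw [e2]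
    refine (norm_add_le _ _).trans_lt ?_
    simp only [hPb] at h2 ⊢
    linarith

end Crest.Agent.R279.Shear
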