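import Mathlib
import Crest.Agent.R279.Shear765F

/-!
R279 Part 4: the shear lemma, core form.
-/

set_option autoImplicit false

namespace Crest.Agent.R279.Shear

open Metric Set Crest.Agent.R279 Filter Topology

theorem isCompact_polyRect {n : ℕ} (P : Fin n → RD) : IsCompact (polyRect P) := by
  have : polyRect P = Set.univ.pi (fun i => rP (P i)) := by
    ext x; simp [polyRect, rP, Set.mem_pi]
  rw [this]
  exact isCompact_univ_pi fun i => isCompact_rP _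

/-- uniform closeness of the spray to its core -/
theorem spray_unif {n : ℕ} {V : Set C4} {f : (Fin n → ℂ) → C4} {K : Set (Fin n → ℂ)}
    (hK : IsCompact K) (sd : SprayData V f K) {ε : ℝ} (hε : 0 < ε) :
    ∃ ω : ℝ, 0 < ω ∧ ω ≤ sd.r / 2 ∧ ∀ x ∈ K, ∀ y ∈ K, ∀ t : C4, ‖y - x‖ < ω → ‖t‖ < ω →
      ‖sd.s (y, t) - f x‖ < ε := by
  have hr := sd.rpos
  have hcpt : IsCompact (K ×ˢ closedBall (0 : C4) (sd.r / 2)) :=
    hK.prod (isCompact_closedBall _ _)
  have hsub : K ×ˢ closedBall (0 : C4) (sd.r / 2) ⊆ sd.O ×ˢ ball (0 : C4) sd.r :=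
    Set.prod_mono sd.sub (closedBall_subset_ball (by linarith))
  have hcont : ContinuousOn sd.s (K ×ˢ closedBall (0 : C4) (sd.r / 2)) :=
    sd.diff.continuousOn.mono hsub
  have huc := hcpt.uniformContinuousOn_of_continuous hcont
  rw [Metric.uniformContinuousOn_iff] at huc
  obtain ⟨δ, hδ, H⟩ := huc ε hε
  refine ⟨min δ (sd.r / 2), lt_min hδ (by linarith), min_le_right _ _, ?_⟩
  intro x hx y hy t hyx ht
  have h1 : (y, t) ∈ K ×ˢ closedBall (0 : C4) (sd.r / 2) := by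
    refine ⟨hy, ?_⟩
    rw [mem_closedBall_zero_iff]
    exact (ht.trans_le (min_le_right _ _)).le
  have h2 : (x, (0 : C4)) ∈ K ×ˢ closedBall (0 : C4) (sd.r / 2) := by
    refine ⟨hx, ?_⟩
    rw [mem_closedBall_zero_iff, norm_zero]
    linarith
  have h3 := H _ h1 _ h2 (by
    rw [Prod.dist_eq, dist_eq_norm, dist_zero_right]
    exact max_lt (hyx.trans_le (min_le_left _ _)) (ht.trans_le (min_le_left _ _)))
  rw [dist_eq_norm, sd.zero x (sd.sub hx)] at h3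
  exact h3

theorem core (hPGL : PGLTarget) (hE : LemmaE) (hK : LemmaK) {n : ℕ} (P : Fin (n + 1) → RD)
    (hP : ∀ i, RectOK (P i)) {V : Set C4} {f : (Fin (n + 1) → ℂ) → C4}
    (sd : SprayData V f (polyRect P)) {ρ : ℝ} (hρ : 0 < ρ)
    (hG : ∀ c0 ∈ bP (P (Fin.last n)), ∀ R ε : ℝ, 0 < ε →
      ∃ G : (Fin (n + 1) → ℂ) × C4 → C4, DifferentiableOn ℂ G (ball 0 R) ∧
        MapsTo G (ball 0 R) V ∧ ∀ x ∈ polyRect P, ‖x (Fin.last n) - c0‖ < ρ →
          ∀ t ∈ ball (0 : C4) ρ, ‖G (x, t) - sd.s (x, t)‖ < ε) :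
    CapOn V (polyRect P) f := by
  intro Rg εg hεg
  obtain ⟨ω, hω, -, hunif⟩ := spray_unif (isCompact_polyRect P) sd hεg
  obtain ⟨c, ξ, lam, hR0, hRpos, hPm, hξd, hξA, hξP, hlB, hlc, hlξ⟩ :=
    exists_chain hE hK P hP (lt_min hρ hω) Rg
  obtain ⟨K, a, hK1, ha, Hmain⟩ := c.main (V := V) hPGL hRpos
  have hr := sd.rpos
  have he := sd.epos
  set ρ0 : ℝ := min ρ (sd.r / 2) with hρ0
  have hρ0pos : 0 < ρ0 := lt_min hρ (by linarith)
  -- accuracy
  set ε1 : ℝ := min sd.e (min (a * ρ0 / K) (ω / (2 * K))) with hε1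
  have hKpos : 0 < K := by linarith
  have hε1pos : 0 < ε1 := lt_min he (lt_min (by positivity) (by positivity))
  have hε1e : ε1 ≤ sd.e := min_le_left _ _
  have hKε : K * ε1 ≤ a * ρ0 := by
    have h1 : ε1 ≤ a * ρ0 / K := (min_le_right _ _).trans (min_le_left _ _)
    calc K * ε1 ≤ K * (a * ρ0 / K) := mul_le_mul_of_nonneg_left h1 hKpos.le
      _ = a * ρ0 := by field_simp
  have hKω : K * ε1 < ω := by
    have h1 : ε1 ≤ ω / (2 * K) := (min_le_right _ _).trans (min_le_right _ _)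
    calc K * ε1 ≤ K * (ω / (2 * K)) := mul_le_mul_of_nonneg_left h1 hKpos.le
      _ = ω / 2 := by field_simp
      _ < ω := by linarith
  -- bound for the inserted points
  have hbd : ∀ i, ∃ b : ℝ, ∀ z : ℂ, ‖z‖ < c.Rk i → ‖ξ i z‖ ≤ b := by
    intro i
    obtain ⟨b, hb⟩ := (isCompact_closedBall (0 : ℂ) (c.Rk i)).exists_bound_of_continuousOn
      (f := ξ i) (hξd i).continuous.continuousOn
    exact ⟨b, fun z hz => hb z (by rw [mem_closedBall_zero_iff]; exact hz.le)⟩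
  choose b hb using hbd
  obtain ⟨b0, hb0, hb0le⟩ := exists_bound b
  set RG : ℝ := b0 + ρ0 + 1 with hRG
  have hRGpos : 0 < RG := by positivity
  -- approximations
  have hGf : ∀ c0 : ℂ, ∃ G : (Fin (n + 1) → ℂ) × C4 → C4, c0 ∈ bP (P (Fin.last n)) →
      DifferentiableOn ℂ G (ball 0 RG) ∧
        MapsTo G (ball 0 RG) V ∧ ∀ x ∈ polyRect P, ‖x (Fin.last n) - c0‖ < ρ →
          ∀ t ∈ ball (0 : C4) ρ, ‖G (x, t) - sd.s (x, t)‖ < ε1 := by
    intro c0
    by_cases h : c0 ∈ bP (P (Fin.last n))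
    · obtain ⟨G, h1⟩ := hG c0 h RG ε1 hε1pos
      exact ⟨G, fun _ => h1⟩
    · exact ⟨fun _ => 0, fun h' => absurd h' h⟩
  choose Gf hGf using hGf
  -- the insertion map
  set Xi : (Fin (n + 1) → ℂ) × C4 → (Fin (n + 1) → ℂ) × C4 :=
    fun q => (fun i => ξ i (q.1 i), q.2) with hXi
  have hXid : Differentiable ℂ Xi := by
    refine Differentiable.prodMk ?_ differentiable_snd
    rw [differentiable_pi]
    intro i
    have h1 : Differentiable ℂ (fun q : (Fin (n + 1) → ℂ) × C4 => q.1 i) := by fun_prop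
    exact (hξd i).comp h1
  have hXiK : ∀ q : (Fin (n + 1) → ℂ) × C4, (∀ i, q.1 i ∈ c.A i) → (Xi q).1 ∈ polyRect P :=
    fun q hq i => hξA i _ (hq i)
  have hXiball : ∀ q ∈ c.Box ×ˢ ball (0 : C4) ρ0, Xi q ∈ ball (0 : (Fin (n + 1) → ℂ) × C4) RG := by
    rintro q ⟨⟨hq1, -⟩, hq2⟩
    rw [mem_ball_zero_iff] at hq2 ⊢
    rw [Prod.norm_def, max_lt_iff]
    constructor
    · rw [pi_norm_lt_iff hRGpos]
      intro i
      have := (hb i _ (hq1 i)).trans (hb0le i)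
      simp only [hXi]
      linarith
    · simp only [hXi]; linarith
  set s1 : (Fin (n + 1) → ℂ) × C4 → C4 := fun q => sd.s (Xi q) with hs1
  set N : (Fin (n + 1) → ℂ) × C4 → C4 := fun q => Gf (lam (q.1 (Fin.last n))) (Xi q) with hN
  set γ : (Fin (n + 1) → ℂ) × C4 → C4 := fun q => q.2 + (N q - s1 q) with hγ
  have hρ0ρ : ρ0 ≤ ρ := min_le_left _ _
  have hρ0r : ρ0 ≤ sd.r / 2 := min_le_right _ _
  have hsAmaps : MapsTo Xi ({u | ∀ i, u i ∈ c.A i} ×ˢ ball (0 : C4) ρ0)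
      (sd.O ×ˢ ball (0 : C4) sd.r) := by
    rintro q ⟨hq1, hq2⟩
    exact ⟨sd.sub (hXiK q hq1), ball_subset_ball (by linarith) hq2⟩
  have hds : DifferentiableOn ℂ s1 ({u | ∀ i, u i ∈ c.A i} ×ˢ ball (0 : C4) ρ0) :=
    sd.diff.comp hXid.differentiableOn hsAmaps
  have hdN : DifferentiableOn ℂ N (c.Box ×ˢ ball (0 : C4) ρ0) := by
    intro q0 hq0
    have hB : q0.1 (Fin.last n) ∈ c.B (Fin.last n) := hq0.1.2
    have hmem := hlB _ hB
    obtain ⟨hd, -, -⟩ := hGf (lam (q0.1 (Fin.last n))) hmem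
    have hin := hXiball q0 hq0
    have hdat : DifferentiableAt ℂ (fun q => Gf (lam (q0.1 (Fin.last n))) (Xi q)) q0 :=
      ((hd _ hin).differentiableAt (isOpen_ball.mem_nhds hin)).comp q0 (hXid q0)
    have hev : (fun q => Gf (lam (q0.1 (Fin.last n))) (Xi q)) =ᶠ[𝓝 q0] N := by
      have hc : Filter.Tendsto (fun q : (Fin (n + 1) → ℂ) × C4 => q.1 (Fin.last n)) (𝓝 q0)
          (𝓝 (q0.1 (Fin.last n))) :=
        ((continuous_apply _).comp continuous_fst).continuousAt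
      filter_upwards [hc.eventually (hlc _ hB)] with q hq
      simp only [hN]
      rw [hq]
    exact (hdat.congr_of_eventuallyEq hev.symm).differentiableWithinAt
  have hclose : ∀ u : Fin (n + 1) → ℂ, (∀ i, u i ∈ c.A i) →
      u (Fin.last n) ∈ c.B (Fin.last n) → ∀ t ∈ ball (0 : C4) ρ0,
      ‖N (u, t) - s1 (u, t)‖ < ε1 := by
    intro u hu huB t ht
    obtain ⟨-, -, h3⟩ := hGf (lam (u (Fin.last n))) (hlB _ huB)
    refine h3 _ (hXiK (u, t) hu) ?_ t (ball_subset_ball hρ0ρ ht)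
    exact (hlξ _ (hu _) huB).trans_le (min_le_left _ _)
  have hsubBox : ∀ u : Fin (n + 1) → ℂ, (∀ i, u i ∈ c.A i) →
      u (Fin.last n) ∈ c.B (Fin.last n) → u ∈ c.Box := by
    intro u hu huB
    exact ⟨fun i => by simpa using c.A_sub _ (hu i), huB⟩
  have hmN : MapsTo N (c.Box ×ˢ ball (0 : C4) ρ0) V := by
    intro q hq
    obtain ⟨-, h2, -⟩ := hGf (lam (q.1 (Fin.last n))) (hlB _ hq.1.2)
    exact h2 (hXiball q hq)
  have hM : c.Maps V s1 N γ ρ0 ε1 :=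
  { ds := hds
    ms := fun q hq => sd.maps (hsAmaps hq)
    dN := hdN
    mN := hmN
    dγ := by
      refine differentiableOn_snd.add ((hdN.mono ?_).sub (hds.mono ?_))
      · rintro q ⟨hq1, hq2⟩
        exact ⟨hsubBox _ hq1.1 hq1.2, hq2⟩
      · rintro q ⟨hq1, hq2⟩
        exact ⟨hq1.1, hq2⟩
    bγ := by
      intro u hu huB t ht
      simp only [hγ, add_sub_cancel_left]
      exact (hclose u hu huB t ht).le
    eγ := by
      intro u hu huB t ht
      have h1 := hclose u hu huB t ht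
      have h2 := sd.trans (Xi (u, t)).1 (sd.sub (hXiK (u, t) hu)) t (ball_subset_ball hρ0r ht)
        (N (u, t)) (hmN ⟨hsubBox _ hu huB, ht⟩) (h1.trans_le hε1e)
      exact h2.2 }
  obtain ⟨G, hGd, hGV, hGn⟩ := Hmain s1 N γ ρ0 ε1 hρ0pos hε1pos.le hKε hM
  refine ⟨G, hGd.mono (ball_subset_ball hR0), fun x hx => hGV (ball_subset_ball hR0 hx), ?_⟩
  intro x hx
  obtain ⟨v, τ, hv, hvx, hτ, hGx⟩ := hGn x (fun i => by rw [hPm]; exact hx i)
  rw [hGx]
  refine hunif x hx (Xi (v, τ)).1 (hXiK (v, τ) fun i => c.PpA i (hv i)) τ ?_ (hτ.trans_lt hKω)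
  rw [pi_norm_lt_iff hω]
  intro i
  exact (hξP i _ (hv i) (x i) (hvx i)).trans_le (min_le_right _ _)

end Crest.Agent.R279.Shear
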