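import Mathlib
import Crest.Agent.R279.Shear765G

/-!
R279 Part 4: the shear lemma SL with parameters; Corollaries (4.1) and (4.2).
-/

set_option autoImplicit false

namespace Crest.Agent.R279.Shear

open Metric Set Crest.Agent.R279 Filter Topology

/-! ### reindexing -/

section reindex

variable {n N : ℕ}

/-- `snoc` without dependent types -/
def sn {α : Type*} {n : ℕ} (y : Fin n → α) (a : α) : Fin (n + 1) → α :=
  Fin.snoc (α := fun _ => α) y a

def ini {α : Type*} {n : ℕ} (x : Fin (n + 1) → α) : Fin n → α := fun i => x i.castSucc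

def app {α : Type*} {n N : ℕ} (y : Fin n → α) (z : Fin N → α) : Fin (n + N) → α := Fin.append y z

def lft {α : Type*} {n N : ℕ} (x : Fin (n + N) → α) : Fin n → α := fun i => x (Fin.castAdd N i)
def rgt {α : Type*} {n N : ℕ} (x : Fin (n + N) → α) : Fin N → α := fun i => x (Fin.natAdd n i)

@[simp] theorem sn_last {α : Type*} (y : Fin n → α) (a : α) : sn y a (Fin.last n) = a :=
  Fin.snoc_last ..
@[simp] theorem sn_castSucc {α : Type*} (y : Fin n → α) (a : α) (i : Fin n) :
    sn y a i.castSucc = y i := Fin.snoc_castSucc ..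
@[simp] theorem app_left {α : Type*} (y : Fin n → α) (z : Fin N → α) (i : Fin n) :
    app y z (Fin.castAdd N i) = y i := Fin.append_left ..
@[simp] theorem app_right {α : Type*} (y : Fin n → α) (z : Fin N → α) (i : Fin N) :
    app y z (Fin.natAdd n i) = z i := Fin.append_right ..
@[simp] theorem ini_sn {α : Type*} (y : Fin n → α) (a : α) : ini (sn y a) = y := by
  funext i; simp [ini]
@[simp] theorem sn_ini {α : Type*} (x : Fin (n + 1) → α) : sn (ini x) (x (Fin.last n)) = x := by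
  funext i
  refine Fin.lastCases ?_ (fun j => ?_) i <;> simp [ini]
@[simp] theorem lft_app {α : Type*} (y : Fin n → α) (z : Fin N → α) : lft (app y z) = y := by
  funext i; simp [lft]
@[simp] theorem rgt_app {α : Type*} (y : Fin n → α) (z : Fin N → α) : rgt (app y z) = z := by
  funext i; simp [rgt]
@[simp] theorem app_lft_rgt {α : Type*} (x : Fin (n + N) → α) : app (lft x) (rgt x) = x := by
  funext i
  refine Fin.addCases (fun j => ?_) (fun j => ?_) i <;> simp [lft, rgt]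

theorem forall_sn {α : Type*} {p : α → Prop} (y : Fin n → α) (a : α) :
    (∀ i, p (sn y a i)) ↔ (∀ i, p (y i)) ∧ p a := by
  constructor
  · intro h
    exact ⟨fun i => by simpa using h i.castSucc, by simpa using h (Fin.last n)⟩
  · rintro ⟨h1, h2⟩ i
    refine Fin.lastCases ?_ (fun j => ?_) i
    · simpa using h2
    · simpa using h1 j

theorem forall_app {α : Type*} {p : α → Prop} (y : Fin n → α) (z : Fin N → α) :
    (∀ i, p (app y z i)) ↔ (∀ i, p (y i)) ∧ ∀ i, p (z i) := by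
  constructor
  · intro h
    exact ⟨fun i => by simpa using h (Fin.castAdd N i), fun i => by simpa using h (Fin.natAdd n i)⟩
  · rintro ⟨h1, h2⟩ i
    refine Fin.addCases (fun j => ?_) (fun j => ?_) i
    · simpa using h1 j
    · simpa using h2 j

theorem norm_sn_le {y : Fin n → ℂ} {a : ℂ} {r : ℝ} (hr : 0 ≤ r) :
    ‖sn y a‖ ≤ r ↔ ‖y‖ ≤ r ∧ ‖a‖ ≤ r := by
  rw [pi_norm_le_iff_of_nonneg hr, pi_norm_le_iff_of_nonneg hr]
  exact forall_sn (p := fun z : ℂ => ‖z‖ ≤ r) y a

theorem norm_sn_lt {y : Fin n → ℂ} {a : ℂ} {r : ℝ} (hr : 0 < r) :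
    ‖sn y a‖ < r ↔ ‖y‖ < r ∧ ‖a‖ < r := by
  rw [pi_norm_lt_iff hr, pi_norm_lt_iff hr]
  exact forall_sn (p := fun z : ℂ => ‖z‖ < r) y a

theorem norm_app_le {y : Fin n → ℂ} {z : Fin N → ℂ} {r : ℝ} (hr : 0 ≤ r) :
    ‖app y z‖ ≤ r ↔ ‖y‖ ≤ r ∧ ‖z‖ ≤ r := by
  rw [pi_norm_le_iff_of_nonneg hr, pi_norm_le_iff_of_nonneg hr, pi_norm_le_iff_of_nonneg hr]
  exact forall_app (p := fun z : ℂ => ‖z‖ ≤ r) y z

theorem norm_app_lt {y : Fin n → ℂ} {z : Fin N → ℂ} {r : ℝ} (hr : 0 < r) :
    ‖app y z‖ < r ↔ ‖y‖ < r ∧ ‖z‖ < r := by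
  rw [pi_norm_lt_iff hr, pi_norm_lt_iff hr, pi_norm_lt_iff hr]
  exact forall_app (p := fun z : ℂ => ‖z‖ < r) y z

theorem norm_ini_le (x : Fin (n + 1) → ℂ) : ‖ini x‖ ≤ ‖x‖ := by
  rw [pi_norm_le_iff_of_nonneg (norm_nonneg _)]
  exact fun i => norm_le_pi_norm x _

theorem norm_lft_le (x : Fin (n + N) → ℂ) : ‖lft x‖ ≤ ‖x‖ := by
  rw [pi_norm_le_iff_of_nonneg (norm_nonneg _)]
  exact fun i => norm_le_pi_norm x _

theorem norm_rgt_le (x : Fin (n + N) → ℂ) : ‖rgt x‖ ≤ ‖x‖ := by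
  rw [pi_norm_le_iff_of_nonneg (norm_nonneg _)]
  exact fun i => norm_le_pi_norm x _

variable {X : Type*} [NormedAddCommGroup X] [NormedSpace ℂ X]

theorem diff_sn {g : X → Fin n → ℂ} {h : X → ℂ} (hg : Differentiable ℂ g)
    (hh : Differentiable ℂ h) : Differentiable ℂ (fun x => sn (g x) (h x)) := by
  rw [differentiable_pi] at hg ⊢
  intro i
  refine Fin.lastCases ?_ (fun j => ?_) i
  · simpa using hh
  · simpa using hg j

theorem diff_app {g : X → Fin n → ℂ} {h : X → Fin N → ℂ} (hg : Differentiable ℂ g)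
    (hh : Differentiable ℂ h) : Differentiable ℂ (fun x => app (g x) (h x)) := by
  rw [differentiable_pi] at hg hh ⊢
  intro i
  refine Fin.addCases (fun j => ?_) (fun j => ?_) i
  · simpa using hg j
  · simpa using hh j

theorem diff_ini {g : X → Fin (n + 1) → ℂ} (hg : Differentiable ℂ g) :
    Differentiable ℂ (fun x => ini (g x)) := by
  rw [differentiable_pi] at hg ⊢
  exact fun i => hg _

theorem diff_lft {g : X → Fin (n + N) → ℂ} (hg : Differentiable ℂ g) :
    Differentiable ℂ (fun x => lft (g x)) := by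
  rw [differentiable_pi] at hg ⊢
  exact fun i => hg _

theorem diff_rgt {g : X → Fin (n + N) → ℂ} (hg : Differentiable ℂ g) :
    Differentiable ℂ (fun x => rgt (g x)) := by
  rw [differentiable_pi] at hg ⊢
  exact fun i => hg _

end reindex

/-- pull back of `HolNear` -/
theorem holNear_comp {X Y : Type*} [NormedAddCommGroup X] [NormedSpace ℂ X]
    [NormedAddCommGroup Y] [NormedSpace ℂ Y] {V : Set C4} {F : Y → C4} {L : Set Y}
    (hF : HolNear V F L) {g : X → Y} (hg : Differentiable ℂ g) {K : Set X} (hK : MapsTo g K L) :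
    HolNear V (fun x => F (g x)) K := by
  obtain ⟨O, hO, hLO, hd, hm⟩ := hF
  exact ⟨g ⁻¹' O, hO.preimage hg.continuous, fun x hx => hLO (hK hx),
    hd.comp hg.differentiableOn (fun x hx => hx), fun x hx => hm hx⟩

theorem isCompact_bP (p : RD) : IsCompact (bP p) := by
  refine (isCompact_rP p).of_isClosed_subset ?_ (fun z hz => hz.1)
  have h1 : IsClosed (rP p) := (isCompact_rP p).isClosed
  have : bP p = rP p ∩ ({z | z.re = p.1} ∪ ({z | z.re = p.2.1} ∪
      ({z | z.im = p.2.2.1} ∪ {z | z.im = p.2.2.2}))) := by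
    ext z
    simp only [bP, rectBd, rP, Set.mem_ofPred_eq, Set.mem_inter_iff, Set.mem_union]
  rw [this]
  refine h1.inter ?_
  exact (isClosed_eq Complex.continuous_re continuous_const).union
    ((isClosed_eq Complex.continuous_re continuous_const).union
    ((isClosed_eq Complex.continuous_im continuous_const).union
    (isClosed_eq Complex.continuous_im continuous_const)))

theorem mem_polyRect_sn {n : ℕ} {P : Fin (n + 1) → RD} {y : Fin n → ℂ} {a : ℂ}
    (hy : y ∈ polyRect (ini P)) (ha : a ∈ rP (P (Fin.last n))) : sn y a ∈ polyRect P := by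
  intro i
  refine Fin.lastCases ?_ (fun j => ?_) i
  · rw [sn_last]; exact ha
  · rw [sn_castSucc]; exact hy j

theorem ini_mem_polyRect {n : ℕ} {P : Fin (n + 1) → RD} {x : Fin (n + 1) → ℂ}
    (hx : x ∈ polyRect P) : ini x ∈ polyRect (ini P) := fun _ => hx _

/-- uniform radius over the boundary of the last rectangle -/
theorem unif_param {n : ℕ} {P : Fin (n + 1) → RD} {V : Set C4} {f : (Fin (n + 1) → ℂ) → C4}
    (hgood : ∀ c0 ∈ bP (P (Fin.last n)), Good V (polyRect (ini P)) (fun y => f (sn y c0)))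
    {N : ℕ} {F : (Fin (n + 1) → ℂ) × (Fin N → ℂ) → C4}
    (hF : HolNear V F (polyRect P ×ˢ {0})) (hF0 : ∀ x ∈ polyRect P, F (x, 0) = f x) :
    ∃ ρ : ℝ, 0 < ρ ∧ ∀ c0 ∈ bP (P (Fin.last n)), ∀ R ε : ℝ, 0 < ε →
      ∃ G : (Fin (n + 1) → ℂ) × (Fin N → ℂ) → C4, DifferentiableOn ℂ G (ball 0 R) ∧
        MapsTo G (ball 0 R) V ∧ ∀ x ∈ polyRect P, ‖x (Fin.last n) - c0‖ < ρ →
          ∀ w ∈ closedBall (0 : Fin N → ℂ) ρ, ‖G (x, w) - F (x, w)‖ < ε := by
  have hloc : ∀ c0 : ℂ, ∃ ρ : ℝ, 0 < ρ ∧ (c0 ∈ bP (P (Fin.last n)) → ∀ R ε : ℝ, 0 < ε →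
      ∃ G : (Fin (n + 1) → ℂ) × (Fin N → ℂ) → C4, DifferentiableOn ℂ G (ball 0 R) ∧
        MapsTo G (ball 0 R) V ∧ ∀ x ∈ polyRect P, ‖x (Fin.last n) - c0‖ ≤ ρ →
          ∀ w ∈ closedBall (0 : Fin N → ℂ) ρ, ‖G (x, w) - F (x, w)‖ < ε) := by
    intro c0
    by_cases hc0 : c0 ∈ bP (P (Fin.last n))
    swap
    · exact ⟨1, one_pos, fun h => absurd h hc0⟩
    -- the shifted family
    set Φ : (Fin n → ℂ) × (Fin (N + 1) → ℂ) → (Fin (n + 1) → ℂ) × (Fin N → ℂ) :=
      fun q => (sn q.1 (c0 + q.2 (Fin.last N)), ini q.2) with hΦ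
    have hΦd : Differentiable ℂ Φ := by
      refine Differentiable.prodMk (diff_sn differentiable_fst ?_) (diff_ini differentiable_snd)
      fun_prop
    have hΦm : MapsTo Φ (polyRect (ini P) ×ˢ {0}) (polyRect P ×ˢ {0}) := by
      rintro ⟨y, w⟩ ⟨hy, hw⟩
      simp only [Set.mem_singleton_iff] at hw
      subst hw
      refine ⟨mem_polyRect_sn hy ?_, ?_⟩
      · simp only [Pi.zero_apply, add_zero]; exact hc0.1
      · simp only [hΦ, Set.mem_singleton_iff]
        rfl
    obtain ⟨ρ, hρ, H⟩ := hgood c0 hc0 (N + 1) (fun q => F (Φ q)) (holNear_comp hF hΦd hΦm) (by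
      intro y hy
      have h1 : Φ (y, 0) = (sn y c0, 0) := by
        simp only [hΦ, Pi.zero_apply, add_zero]
        rfl
      rw [h1]
      exact hF0 _ (mem_polyRect_sn hy hc0.1))
    refine ⟨ρ, hρ, fun _ R ε hε => ?_⟩
    obtain ⟨G, hGd, hGV, hGn⟩ := H (max R 1 + ‖c0‖) ε hε
    set Ψ : (Fin (n + 1) → ℂ) × (Fin N → ℂ) → (Fin n → ℂ) × (Fin (N + 1) → ℂ) :=
      fun q => (ini q.1, sn q.2 (q.1 (Fin.last n) - c0)) with hΨ
    have hΨd : Differentiable ℂ Ψ := by
      refine Differentiable.prodMk (diff_ini differentiable_fst) (diff_sn differentiable_snd ?_)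
      fun_prop
    have hR1 : 0 < max R 1 := lt_max_of_lt_right one_pos
    have hΨb : MapsTo Ψ (ball 0 R) (ball 0 (max R 1 + ‖c0‖)) := by
      rintro ⟨x, w⟩ hq
      rw [mem_ball_zero_iff] at hq ⊢
      have hq' := hq.trans_le (le_max_left R 1)
      rw [Prod.norm_def, max_lt_iff] at hq' ⊢
      have hc := norm_nonneg c0
      constructor
      · exact (norm_ini_le x).trans_lt (hq'.1.trans_le (by linarith))
      · rw [norm_sn_lt (by linarith)]
        refine ⟨hq'.2.trans_le (by linarith), ?_⟩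
        have h1 : ‖x (Fin.last n)‖ ≤ ‖x‖ := norm_le_pi_norm x _
        have h2 : ‖x (Fin.last n) - c0‖ ≤ ‖x (Fin.last n)‖ + ‖c0‖ := norm_sub_le _ _
        have h3 := hq'.1
        simp only at h3 ⊢
        linarith
    refine ⟨fun q => G (Ψ q), hGd.comp hΨd.differentiableOn hΨb, fun q hq => hGV (hΨb hq), ?_⟩
    intro x hx hxc w hw
    have h1 := hGn (ini x) (ini_mem_polyRect hx) (sn w (x (Fin.last n) - c0)) (by
      rw [mem_closedBall_zero_iff, norm_sn_le hρ.le]
      exact ⟨by simpa using hw, hxc⟩)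
    simp only at h1
    have h2 : Φ (ini x, sn w (x (Fin.last n) - c0)) = (x, w) := by
      simp only [hΦ, sn_last, ini_sn, add_sub_cancel]
      rw [sn_ini]
    rw [h2] at h1
    exact h1
  choose ρ hρ H using hloc
  -- finite subcover
  obtain ⟨t, htsub, htcov⟩ := (isCompact_bP (P (Fin.last n))).elim_nhds_subcover
    (fun c => ball c (ρ c / 2)) (fun c _ => ball_mem_nhds c (by have := hρ c; linarith))
  rcases t.eq_empty_or_nonempty with ht | ht
  · subst ht
    refine ⟨1, one_pos, fun c0 hc0 => ?_⟩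
    have := htcov hc0
    simp at this
  · obtain ⟨cm, hcm, hmin⟩ := t.exists_min_image (fun c => ρ c / 2) ht
    refine ⟨ρ cm / 2, by have := hρ cm; linarith, fun c0 hc0 R ε hε => ?_⟩
    have h1 := htcov hc0
    simp only [Set.mem_iUnion] at h1
    obtain ⟨c1, hc1, hc01⟩ := h1
    obtain ⟨G, hGd, hGV, hGn⟩ := H c1 (htsub c1 hc1) R ε hε
    have hle := hmin c1 hc1
    have hpos := hρ c1
    refine ⟨G, hGd, hGV, fun x hx hxc w hw => hGn x hx ?_ w ?_⟩
    · rw [mem_ball, dist_eq_norm] at hc01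
      have e : x (Fin.last n) - c1 = (x (Fin.last n) - c0) + (c0 - c1) := by ring
      rw [e]
      refine (norm_add_le _ _).trans ?_
      linarith
    · rw [mem_closedBall_zero_iff] at hw ⊢
      linarith

end Crest.Agent.R279.Shear
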