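import Mathlib
import Crest.Agent.R279.Shear765H

/-!
R279 Part 4: the shear lemma SL with parameters; Corollaries (4.1) and (4.2).
-/

set_option autoImplicit false

namespace Crest.Agent.R279.Shear

open Metric Set Crest.Agent.R279 Filter Topology

/-- restriction of a spray to a smaller compact -/
def SprayData.mono' {E : Type*} [NormedAddCommGroup E] [NormedSpace ℂ E] {V : Set C4}
    {f : E → C4} {K L : Set E} (sd : SprayData V f K) (h : L ⊆ K) : SprayData V f L :=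
  { s := sd.s, O := sd.O, r := sd.r, e := sd.e, isOpen := sd.isOpen, sub := h.trans sd.sub,
    rpos := sd.rpos, epos := sd.epos, diff := sd.diff, maps := sd.maps, zero := sd.zero,
    trans := sd.trans }

/-- a tube around `K × {0}` -/
theorem exists_tube {E W : Type*} [NormedAddCommGroup E] [NormedAddCommGroup W]
    {K : Set E} (hK : IsCompact K) {O : Set (E × W)} (hO : IsOpen O) (h : K ×ˢ {0} ⊆ O) :
    ∃ r : ℝ, 0 < r ∧ K ×ˢ closedBall (0 : W) r ⊆ O := by
  obtain ⟨u, v, hu, hv, hKu, h0v, huv⟩ := generalized_tube_lemma hK isCompact_singleton hO h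
  obtain ⟨r, hr, hrv⟩ := Metric.isOpen_iff.mp hv 0 (h0v rfl)
  refine ⟨r / 2, by positivity, ?_⟩
  rintro ⟨x, w⟩ ⟨hx, hw⟩
  exact huv ⟨hKu hx, hrv (closedBall_subset_ball (by linarith) hw)⟩

section

variable {n N : ℕ}

/-- the reordering `(y, w, a) ↦ ((y,a), w)` -/
def J (u : Fin (n + N + 1) → ℂ) : (Fin (n + 1) → ℂ) × (Fin N → ℂ) :=
  (sn (lft (ini u)) (u (Fin.last _)), rgt (ini u))

def Jinv (q : (Fin (n + 1) → ℂ) × (Fin N → ℂ)) : Fin (n + N + 1) → ℂ :=
  sn (app (ini q.1) q.2) (q.1 (Fin.last _))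

theorem J_Jinv (q : (Fin (n + 1) → ℂ) × (Fin N → ℂ)) : J (Jinv q) = q := by
  obtain ⟨x, w⟩ := q
  simp only [J, Jinv, ini_sn, lft_app, rgt_app, sn_last, sn_ini]

theorem Jinv_J (u : Fin (n + N + 1) → ℂ) : Jinv (J u : (Fin (n + 1) → ℂ) × (Fin N → ℂ)) = u := by
  simp only [J, Jinv, ini_sn, sn_last, app_lft_rgt, sn_ini]

theorem J_diff : Differentiable ℂ (J : (Fin (n + N + 1) → ℂ) → _ × (Fin N → ℂ)) := by
  refine Differentiable.prodMk (diff_sn (diff_lft (diff_ini differentiable_id)) ?_)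
    (diff_rgt (diff_ini differentiable_id))
  exact differentiable_apply _

theorem Jinv_diff : Differentiable ℂ (Jinv : (Fin (n + 1) → ℂ) × (Fin N → ℂ) → _) := by
  refine diff_sn (diff_app (diff_ini differentiable_fst) differentiable_snd) ?_
  fun_prop

theorem J_norm (u : Fin (n + N + 1) → ℂ) :
    ‖(J u : (Fin (n + 1) → ℂ) × (Fin N → ℂ))‖ ≤ ‖u‖ := by
  rw [Prod.norm_def, max_le_iff]
  refine ⟨?_, ?_⟩
  · simp only [J]
    rw [norm_sn_le (norm_nonneg _)]
    exact ⟨(norm_lft_le _).trans (norm_ini_le _), norm_le_pi_norm u _⟩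
  · exact (norm_rgt_le _).trans (norm_ini_le _)

theorem Jinv_norm (q : (Fin (n + 1) → ℂ) × (Fin N → ℂ)) : ‖Jinv q‖ ≤ ‖q‖ := by
  simp only [Jinv]
  rw [norm_sn_le (norm_nonneg _), norm_app_le (norm_nonneg _)]
  exact ⟨⟨(norm_ini_le _).trans (norm_fst_le _), norm_snd_le _⟩,
    (norm_le_pi_norm q.1 _).trans (norm_fst_le _)⟩

/-- the polyrectangle `Π × box × Q` -/
def PW (P : Fin (n + 1) → RD) (N : ℕ) (r : ℝ) : Fin (n + N + 1) → RD :=
  sn (app (ini P) (fun _ => (-r, r, -r, r))) (P (Fin.last n))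

theorem PW_ok {P : Fin (n + 1) → RD} (hP : ∀ i, RectOK (P i)) {r : ℝ} (hr : 0 < r) :
    ∀ i, RectOK (PW P N r i) := by
  unfold PW
  rw [forall_sn, forall_app]
  exact ⟨⟨fun i => hP _, fun i => ⟨by simp only; linarith, by simp only; linarith⟩⟩, hP _⟩

theorem mem_PW {P : Fin (n + 1) → RD} {r : ℝ} {u : Fin (n + N + 1) → ℂ} :
    u ∈ polyRect (PW P N r) ↔ (J u : (Fin (n + 1) → ℂ) × (Fin N → ℂ)).1 ∈ polyRect P ∧
      ∀ j, (J u : (Fin (n + 1) → ℂ) × (Fin N → ℂ)).2 j ∈ rect (-r) r (-r) r := by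
  constructor
  · intro h
    refine ⟨?_, ?_⟩
    · intro i
      refine Fin.lastCases ?_ (fun j => ?_) i
      · have := h (Fin.last _)
        simpa [PW, J] using this
      · have := h (Fin.castSucc (Fin.castAdd N j))
        simpa [PW, J, lft, ini] using this
    · intro j
      have := h (Fin.castSucc (Fin.natAdd n j))
      unfold PW at this
      rw [sn_castSucc, app_right] at this
      exact this
  · rintro ⟨h1, h2⟩ i
    refine Fin.lastCases ?_ (fun j => ?_) i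
    · have := h1 (Fin.last _)
      simpa [PW, J] using this
    · refine Fin.addCases (fun j => ?_) (fun j => ?_) j
      · have := h1 (Fin.castSucc j)
        simpa [PW, J, lft, ini] using this
      · have := h2 j
        unfold PW
        rw [sn_castSucc, app_right]
        exact this

theorem norm_of_box {r : ℝ} {z : ℂ} (hz : z ∈ rect (-r) r (-r) r) : ‖z‖ ≤ 2 * r := by
  obtain ⟨⟨h1, h2⟩, h3, h4⟩ := hz
  refine (norm_le_re_add_im z).trans ?_
  have e1 : |z.re| ≤ r := abs_le.mpr ⟨h1, h2⟩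
  have e2 : |z.im| ≤ r := abs_le.mpr ⟨h3, h4⟩
  linarith

theorem box_of_norm {r : ℝ} {z : ℂ} (hz : ‖z‖ ≤ r) : z ∈ rect (-r) r (-r) r := by
  have e1 := abs_le.mp ((Complex.abs_re_le_norm z).trans hz)
  have e2 := abs_le.mp ((Complex.abs_im_le_norm z).trans hz)
  exact ⟨⟨e1.1, e1.2⟩, e2.1, e2.2⟩

theorem PW_mono {P : Fin (n + 1) → RD} {r r' : ℝ} (h : r ≤ r') :
    polyRect (PW P N r) ⊆ polyRect (PW P N r') := by
  intro u hu
  rw [mem_PW] at hu ⊢
  refine ⟨hu.1, fun j => ?_⟩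
  obtain ⟨⟨h1, h2⟩, h3, h4⟩ := hu.2 j
  exact ⟨⟨by linarith, by linarith⟩, by linarith, by linarith⟩

end

/-- SHEAR LEMMA (SL). -/
theorem shear (hPGL : PGLTarget) (hE : LemmaE) (hK : LemmaK) {V : Set C4}
    (hS : SprayTarget V) {n : ℕ} {P : Fin (n + 1) → RD} (hP : ∀ i, RectOK (P i))
    {f : (Fin (n + 1) → ℂ) → C4}
    (hgood : ∀ c0 ∈ bP (P (Fin.last n)), Good V (polyRect (ini P)) (fun y => f (sn y c0))) :
    Good V (polyRect P) f := by
  intro N F hF hF0
  obtain ⟨O, hO, hKO, hFd, hFm⟩ := hF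
  obtain ⟨r1, hr1, htube⟩ := exists_tube (isCompact_polyRect P) hO hKO
  set r : ℝ := r1 / 2 with hr
  have hrpos : 0 < r := by positivity
  -- the spray over `F ∘ J`
  have hJm : MapsTo (J : (Fin (n + N + 1) → ℂ) → (Fin (n + 1) → ℂ) × (Fin N → ℂ))
      (polyRect (PW P N r)) O := by
    intro u hu
    rw [mem_PW] at hu
    apply htube
    refine ⟨hu.1, ?_⟩
    rw [mem_closedBall_zero_iff, pi_norm_le_iff_of_nonneg hr1.le]
    intro j
    exact (norm_of_box (hu.2 j)).trans (by rw [hr]; linarith)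
  have hnear : HolNear V (fun u : Fin (n + N + 1) → ℂ => F (J u)) (polyRect (PW P N r)) :=
    ⟨J ⁻¹' O, hO.preimage J_diff.continuous, hJm, hFd.comp J_diff.differentiableOn (fun x hx => hx),
      fun x hx => hFm hx⟩
  obtain ⟨sd⟩ := hS _ (PW P N r) (PW_ok hP hrpos) _ hnear
  -- the family with the spray parameters
  set Φ : (Fin (n + 1) → ℂ) × (Fin (N + 4) → ℂ) → (Fin (n + N + 1) → ℂ) × C4 :=
    fun q => (Jinv (q.1, lft q.2), rgt q.2) with hΦ
  have hΦd : Differentiable ℂ Φ := by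
    refine Differentiable.prodMk ?_ (diff_rgt differentiable_snd)
    exact Jinv_diff.comp (differentiable_fst.prodMk (diff_lft differentiable_snd))
  have hJ0 : ∀ x ∈ polyRect P, Jinv (x, (0 : Fin N → ℂ)) ∈ polyRect (PW P N r) := by
    intro x hx
    rw [mem_PW, J_Jinv]
    refine ⟨hx, fun j => ?_⟩
    exact box_of_norm (by simp [hrpos.le])
  have hΦ0 : ∀ x, Φ (x, 0) = (Jinv (x, (0 : Fin N → ℂ)), 0) := fun x => rfl
  have hΦm : MapsTo Φ (polyRect P ×ˢ {0}) (polyRect (PW P N r) ×ˢ {0}) := by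
    rintro ⟨x, w⟩ ⟨hx, hw⟩
    simp only [Set.mem_singleton_iff] at hw
    subst hw
    rw [hΦ0]
    exact ⟨hJ0 x hx, rfl⟩
  have hsnear : HolNear V sd.s (polyRect (PW P N r) ×ˢ {0}) :=
    ⟨sd.O ×ˢ ball 0 sd.r, sd.isOpen.prod isOpen_ball,
      Set.prod_mono sd.sub (by simpa using sd.rpos), sd.diff, sd.maps⟩
  obtain ⟨ρ, hρ, Huni⟩ := unif_param hgood (holNear_comp hsnear hΦd hΦm) (by
    intro x hx
    show sd.s (Φ (x, 0)) = f x
    rw [hΦ0, sd.zero _ (sd.sub (hJ0 x hx)), J_Jinv]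
    exact hF0 x hx)
  -- the smaller box
  set r2 : ℝ := min r (ρ / 2) with hr2
  have hr2pos : 0 < r2 := lt_min hrpos (by positivity)
  have hsub : polyRect (PW P N r2) ⊆ polyRect (PW P N r) := PW_mono (min_le_left _ _)
  have hlast : PW P N r2 (Fin.last _) = P (Fin.last n) := by simp [PW]
  have hcap := core hPGL hE hK (PW P N r2) (PW_ok hP hr2pos) (SprayData.mono' sd hsub) hρ (by
    intro c0 hc0 R ε hε
    rw [hlast] at hc0
    obtain ⟨G, hGd, hGV, hGn⟩ := Huni c0 hc0 R ε hε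
    set Ψ : (Fin (n + N + 1) → ℂ) × C4 → (Fin (n + 1) → ℂ) × (Fin (N + 4) → ℂ) :=
      fun q => ((J q.1 : (Fin (n + 1) → ℂ) × (Fin N → ℂ)).1, app (J q.1).2 q.2) with hΨ
    have hJd : Differentiable ℂ (fun q : (Fin (n + N + 1) → ℂ) × C4 =>
        (J q.1 : (Fin (n + 1) → ℂ) × (Fin N → ℂ))) := J_diff.comp differentiable_fst
    have hΨd : Differentiable ℂ Ψ := by
      refine Differentiable.prodMk ?_ (diff_app ?_ differentiable_snd)
      · exact differentiable_fst.comp hJd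
      · exact differentiable_snd.comp hJd
    have hΨb : MapsTo Ψ (ball 0 R) (ball 0 R) := by
      rintro ⟨u, t⟩ hq
      rw [mem_ball_zero_iff] at hq ⊢
      have hR : 0 < R := (norm_nonneg _).trans_lt hq
      rw [Prod.norm_def, max_lt_iff] at hq ⊢
      have h1 := (J_norm (n := n) (N := N) u).trans_lt hq.1
      refine ⟨(norm_fst_le (J u : (Fin (n + 1) → ℂ) × (Fin N → ℂ))).trans_lt h1, ?_⟩
      simp only [hΨ]
      rw [norm_app_lt hR]
      exact ⟨(norm_snd_le (J u : (Fin (n + 1) → ℂ) × (Fin N → ℂ))).trans_lt h1, hq.2⟩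
    refine ⟨fun q => G (Ψ q), hGd.comp hΨd.differentiableOn hΨb, fun q hq => hGV (hΨb hq), ?_⟩
    intro u hu huc t ht
    have hu' := hu
    rw [mem_PW] at hu'
    have h1 := hGn (Ψ (u, t)).1 hu'.1 (by
      simpa [hΨ, J] using huc) (Ψ (u, t)).2 (by
      simp only [hΨ]
      rw [mem_closedBall_zero_iff, norm_app_le hρ.le]
      refine ⟨?_, by simpa using (mem_ball_zero_iff.mp ht).le⟩
      rw [pi_norm_le_iff_of_nonneg hρ.le]
      intro j
      refine (norm_of_box (hu'.2 j)).trans ?_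
      have : r2 ≤ ρ / 2 := min_le_right _ _
      linarith)
    have h2 : Φ ((Ψ (u, t)).1, (Ψ (u, t)).2) = (u, t) := by
      simp only [hΦ, hΨ, lft_app, rgt_app]
      rw [Prod.mk.eta, Jinv_J]
    rw [h2] at h1
    exact h1)
  refine ⟨r2, hr2pos, fun R ε hε => ?_⟩
  obtain ⟨G, hGd, hGV, hGn⟩ := hcap R ε hε
  have hb : MapsTo (Jinv : (Fin (n + 1) → ℂ) × (Fin N → ℂ) → _) (ball 0 R) (ball 0 R) := by
    intro q hq
    rw [mem_ball_zero_iff] at hq ⊢
    exact (Jinv_norm q).trans_lt hq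
  refine ⟨fun q => G (Jinv q), hGd.comp Jinv_diff.differentiableOn hb, fun q hq => hGV (hb hq), ?_⟩
  intro x hx w hw
  have h1 : ‖G (Jinv (x, w)) - F (J (Jinv (x, w)))‖ < ε := hGn (Jinv (x, w)) (by
    rw [mem_PW, J_Jinv]
    refine ⟨hx, fun j => box_of_norm ?_⟩
    rw [mem_closedBall_zero_iff] at hw
    exact (norm_le_pi_norm w j).trans hw)
  rw [J_Jinv] at h1
  exact h1

/-- base case: a point -/
theorem good_point {V : Set C4} {P : Fin 0 → RD} {f : (Fin 0 → ℂ) → C4}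
    (h : GoodPt V (f 0)) : Good V (polyRect P) f := by
  intro N F hF hF0
  have h0 : ∀ x : Fin 0 → ℂ, x = 0 := fun x => Subsingleton.elim _ _
  have hmem : (0 : Fin 0 → ℂ) ∈ polyRect P := fun i => i.elim0
  have hd : Differentiable ℂ (fun w : Fin N → ℂ => ((0 : Fin 0 → ℂ), w)) :=
    (differentiable_const _).prodMk differentiable_id
  obtain ⟨ρ, hρ, H⟩ := h.2 N (fun w => F (0, w)) (holNear_comp hF hd (by
    intro w hw
    exact ⟨hmem, hw⟩)) (hF0 0 hmem)
  refine ⟨ρ, hρ, fun R ε hε => ?_⟩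
  obtain ⟨G, hGd, hGV, hGn⟩ := H R ε hε
  have hb : MapsTo (Prod.snd : (Fin 0 → ℂ) × (Fin N → ℂ) → _) (ball 0 R) (ball 0 R) := by
    intro q hq
    rw [mem_ball_zero_iff] at hq ⊢
    exact (norm_snd_le q).trans_lt hq
  refine ⟨fun q => G q.2, hGd.comp differentiable_snd.differentiableOn hb,
    fun q hq => hGV (hb hq), ?_⟩
  intro x _ w hw
  rw [h0 x]
  exact hGn w hw

theorem polyRect_ini_of_ok {n : ℕ} {P : Fin (n + 1) → RD} {V : Set C4}
    {f : (Fin (n + 1) → ℂ) → C4} {c0 : ℂ} (hc0 : c0 ∈ rP (P (Fin.last n)))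
    (hf : HolNear V f (polyRect P)) :
    HolNear V (fun y => f (sn y c0)) (polyRect (ini P)) :=
  holNear_comp hf (diff_sn differentiable_id (differentiable_const _))
    (fun _ hy => mem_polyRect_sn hy hc0)

/-- goodness from goodness of the distinguished boundary points -/
theorem good_of_bd (hPGL : PGLTarget) (hE : LemmaE) (hK : LemmaK) {V : Set C4}
    (hS : SprayTarget V) : ∀ (n : ℕ) (P : Fin n → RD), (∀ i, RectOK (P i)) →
    ∀ f : (Fin n → ℂ) → C4, (∀ x, (∀ i, x i ∈ bP (P i)) → GoodPt V (f x)) →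
      Good V (polyRect P) f := by
  intro n
  induction n with
  | zero =>
    intro P _ f h
    exact good_point (h 0 (fun i => i.elim0))
  | succ n ih =>
    intro P hP f h
    refine shear hPGL hE hK hS hP ?_
    intro c0 hc0
    refine ih (ini P) (fun i => hP _) _ ?_
    intro y hy
    refine h _ ?_
    intro i
    refine Fin.lastCases ?_ (fun j => ?_) i
    · rw [sn_last]; exact hc0
    · rw [sn_castSucc]; exact hy j

/-- COROLLARY (4.1) -/
theorem cor41 (hPGL : PGLTarget) (hE : LemmaE) (hK : LemmaK) {V : Set C4}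
    (hS : SprayTarget V) : Cor41 V := by
  intro hV n P hP f hf
  refine good_of_bd hPGL hE hK hS n P hP f ?_
  intro x hx
  obtain ⟨O, -, hKO, -, hm⟩ := hf
  exact hV _ (hm (hKO fun i => (hx i).1))

/-- COROLLARY (4.2) -/
theorem cor42 (hPGL : PGLTarget) (hE : LemmaE) (hK : LemmaK) {V : Set C4}
    (hS : SprayTarget V) : Cor42 V := by
  intro P hP f _ hbd
  refine good_of_bd hPGL hE hK hS 2 P hP f ?_
  intro x hx
  exact hbd x (fun i => (hx i).1) hx

end Crest.Agent.R279.Shear
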