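import Crest.Agent.R279.ThmE421
import Crest.Agent.R279.TwoArcs471

/-!
# R279 (helper421): `TwoArcsTarget` from Theorem E and A7
-/

set_option autoImplicit false

namespace Crest.Agent.R279.D4

open MvPolynomial Metric Set Filter Topology Crest.Agent.R279.HV

variable {Q : MvPolynomial (Fin 4) ℂ}

theorem DD_closed (hQ : Q.IsHomogeneous 4)
    (hsmooth : ∀ p : V4, p ≠ 0 → eval p Q = 0 → ∃ i, eval p (pderiv i Q) ≠ 0) :
    ∀ q : V4, q ≠ 0 → q ∈ closure (DD Q) → q ∈ DD Q := by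
  intro q hq0 hq
  have h1 : closure (DD Q) ⊆ {x : V4 | eval x Q = 0} :=
    closure_minimal (fun x hx => hx.1.2) (evalQ_closed hQ)
  exact LocEq.isClosed_DD hQ hsmooth q hq0 (h1 hq) hq

/-- Input 1 of M14 from Theorem E, A7 and "plane sections are thin". -/
theorem twoArcsTarget (hQ : Q.IsHomogeneous 4)
    (hsmooth : ∀ p : V4, p ≠ 0 → eval p Q = 0 → ∃ i, eval p (pderiv i Q) ≠ 0)
    (hE : ThmE Q)
    (hReg : Thin (Vstar Q) {x | ¬ Reg.IsReg Q (DD Q) x})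
    (hPl : ∀ τ : V4 →L[ℂ] ℂ, τ ≠ 0 → Thin (Vstar Q) {x | τ x = 0}) :
    Gen.TwoArcsTarget Q :=
  TwoPl.twoArcsTarget hQ hsmooth (DD_closed hQ hsmooth) (noStrictMax_DD max2 hQ hsmooth)
    (not_DD_subset hQ hsmooth hE)
    (fun x hx => by
      obtain ⟨p, hp, hpx⟩ := exists_DD_polar hQ hsmooth hE x hx.1 hx.2
      exact ⟨p, hp, by rw [TwoPl.dQ_eq_q1 hQ]; exact hpx⟩) hReg hPl

end Crest.Agent.R279.D4
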