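import Crest.Agent.R279.Final149
import Crest.Agent.R279.Shear765I
import Crest.Agent.R279.EllInst928
import Crest.Agent.R279.Gen28
import Crest.Agent.R279.Strat524D
import Crest.Agent.R279.RegFinal545
import Crest.Agent.R279.Conv532g
import Crest.Agent.R279.TwoAsm421

/-!
# R279: final glue, second version (helper149)

The frozen statement from three remaining targets: Theorem E (A6), A4, the arc data of A10.
-/

set_option autoImplicit false

namespace Crest.Agent.R279.Final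

open Metric Set MvPolynomial

/-- A6, Theorem E (helper855) -/
def ThmEGen : Prop := ∀ Q : MvPolynomial (Fin 4) ℂ, Alg.SmoothQuartic Q → D4.ThmE Q

/-- A4 (helper712) -/
def EmptyIntTarget : Prop :=
  ∀ Q : MvPolynomial (Fin 4) ℂ, Alg.SmoothQuartic Q → Strat.EmptyInterior Q

theorem capr {Q : MvPolynomial (Fin 4) ℂ} (hQ : Q.IsHomogeneous 4) (hs : Smooth Q)
    (hE : ThmEGen) (hA4 : EmptyIntTarget) (hA : ArcDataTarget) : Red.CAPR Q := by
  have hSp : SprayTarget (Vstar Q) := sprayTarget hs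
  have hc41 : Cor41 (Vstar Q) :=
    Shear.cor41 Box.pglTarget' Planar.lemmaE Planar.lemmaK hSp
  have hc42 : Cor42 (Vstar Q) :=
    Shear.cor42 Box.pglTarget' Planar.lemmaE Planar.lemmaK hSp
  have hTwo : Gen.TwoArcsTarget Q :=
    D4.twoArcsTarget hQ hs (hE Q ⟨hQ, hs⟩)
      (Reg.thin_not_reg_DD hQ hs (hA4 Q ⟨hQ, hs⟩)) (Reg.planeThin hQ hs)
  have hLL : Gen.LL0Target Q := Gen.ll0Target ⟨hQ, hs⟩ hTwo (hA Q hQ hs)
  exact Conv.convTarget Q hQ hs hc41 (all_good hQ hs hc42 EllAlg.twoFam_of_LL0 hLL)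

/-- the frozen statement from the three remaining targets -/
theorem s0422_of_targets' (hE : ThmEGen) (hA4 : EmptyIntTarget) (hA : ArcDataTarget)
    (Q : MvPolynomial (Fin 4) ℂ) (hQ : Q.IsHomogeneous 4)
    (hsmooth : ∀ p : Fin 4 → ℂ, p ≠ 0 → MvPolynomial.eval p Q = 0 →
      ∃ i : Fin 4, MvPolynomial.eval p (MvPolynomial.pderiv i Q) ≠ 0)
    (m : ℕ) (hm : 1 ≤ m) (K : Set (Fin m → ℂ)) (hK : IsCompact K) (hKc : Convex ℝ K)
    (hKn : K.Nonempty) (U : Set (Fin m → ℂ)) (hU : IsOpen U) (hKU : K ⊆ U)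
    (f : (Fin m → ℂ) → Projectivization ℂ (Fin 4 → ℂ))
    (hf : Crest.AlgGeometry.ProjHolomorphicOn f U)
    (hfQ : ∀ z ∈ U, MvPolynomial.eval (f z).rep Q = 0) (ε : ℝ) (hε : 0 < ε) :
    ∃ F : (Fin m → ℂ) → Projectivization ℂ (Fin 4 → ℂ),
      Crest.AlgGeometry.ProjHolomorphicOn F Set.univ ∧
      (∀ z, MvPolynomial.eval (F z).rep Q = 0) ∧
      ∀ z ∈ K, Crest.AlgGeometry.projGap (F z) (f z) < ε :=
  Red.s0422_of lift21 (fun _ hQ hs => capr hQ hs hE hA4 hA) Q hQ hsmooth m hm K hK hKc hKn U hU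
    hKU f hf hfQ ε hε

end Crest.Agent.R279.Final
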