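import Crest.Agent.R279.Gen269D
import Crest.Agent.R279.GenDefs28
import Crest.Agent.R279.Line28
import Crest.Agent.R279.Alg712Calc
import Crest.Agent.R279.ThinCalc556

/-!
# R279, M14 (helper28): arc data, type L (the arc lies on a line of the surface)
-/

set_option autoImplicit false

namespace Crest.Agent.R279.Gen

open MvPolynomial Metric Set Filter Topology EllAlg

variable {Q : MvPolynomial (Fin 4) ℂ}

/-! ### linear algebra -/

theorem exists_dir {e1 e2 p : C4} (hli : LinearIndependent ℂ ![e1, e2]) (hp : p ≠ 0)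
    (hmem : ∃ l t : ℂ, p = l • e1 + t • e2) :
    ∃ f : C4, (f = e1 ∨ f = e2) ∧ LinearIndependent ℂ ![p, f] := by
  obtain ⟨l, t, rfl⟩ := hmem
  rw [LinearIndependent.pair_iff] at hli
  by_cases ht : t = 0
  · subst ht
    have hl : l ≠ 0 := by
      rintro rfl
      exact hp (by simp)
    refine ⟨e2, Or.inr rfl, ?_⟩
    rw [LinearIndependent.pair_iff]
    intro a s h
    obtain ⟨h1, h2⟩ := hli (a * l) s (by rw [← h]; module)
    exact ⟨(mul_eq_zero.mp h1).resolve_right hl, h2⟩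
  · refine ⟨e1, Or.inl rfl, ?_⟩
    rw [LinearIndependent.pair_iff]
    intro a s h
    obtain ⟨h1, h2⟩ := hli (a * l + s) (a * t) (by rw [← h]; module)
    have ha : a = 0 := (mul_eq_zero.mp h2).resolve_right ht
    subst ha
    exact ⟨rfl, by simpa using h1⟩

theorem exists_third (hQ : Alg.SmoothQuartic Q) {p f : C4} (hp : p ≠ 0) (h0 : eval p Q = 0)
    (hli : LinearIndependent ℂ ![p, f]) :
    ∃ w : C4, q1 Q p w = 0 ∧ LinearIndependent ℂ ![p, f, w] := by
  have h3 : ¬ LinearMap.ker (q1L Q p) ≤ Submodule.span ℂ (range ![p, f]) := by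
    intro hle
    have h4 := Submodule.finrank_mono hle
    rw [finrank_ker_q1L hQ hp h0, finrank_span_eq_card hli, Fintype.card_fin] at h4
    omega
  obtain ⟨w, hw, hwn⟩ := SetLike.not_le_iff_exists.mp h3
  refine ⟨w, hw, ?_⟩
  rw [li3_iff]
  intro a s t h
  have ht : t = 0 := by
    by_contra ht
    apply hwn
    have e : w = (-(t⁻¹ * a)) • p + (-(t⁻¹ * s)) • f := by
      have h1 : t⁻¹ • (a • p + s • f + t • w) = 0 := by rw [h, smul_zero]
      have h2 : t⁻¹ • (a • p + s • f + t • w) = (t⁻¹ * a) • p + (t⁻¹ * s) • f + w := by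
        rw [smul_add, smul_add, smul_smul, smul_smul, smul_smul, inv_mul_cancel₀ ht, one_smul]
      rw [h2] at h1
      rw [neg_smul, neg_smul]
      linear_combination (exp := 1) h1
    rw [e]
    refine Submodule.add_mem _ (Submodule.smul_mem _ _ (Submodule.subset_span ⟨0, rfl⟩))
      (Submodule.smul_mem _ _ (Submodule.subset_span ⟨1, rfl⟩))
  subst ht
  rw [LinearIndependent.pair_iff] at hli
  obtain ⟨h1, h2⟩ := hli a s (by rw [← h]; module)
  exact ⟨h1, h2, rfl⟩

theorem exists_normal (hQ : Alg.SmoothQuartic Q) {p : C4} (hp : p ≠ 0)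
    (h0 : eval p Q = 0) : ∃ n, q1 Q p n ≠ 0 := by
  have hq : q1L Q p ≠ 0 := q1L_ne_zero hQ hp h0
  by_contra hcon
  push Not at hcon
  exact hq (LinearMap.ext fun n => by simpa using hcon n)

/-- no common zero is an open condition on the parameter -/
theorem nocommon_open28 {B0 : Set ℂ} (hB0 : IsOpen B0) {c1 : ℂ} (hc1 : c1 ∈ B0) {n : Fin 3 → ℕ}
    {q : Fin 3 → ℂ × ℂ × ℂ → ℂ} (hq : ∀ j, ContinuousOn (q j) (B0 ×ˢ univ))
    (hom : ∀ j, ∀ c ∈ B0, ∀ t s1 s2 : ℂ, q j (c, t * s1, t * s2) = t ^ n j * q j (c, s1, s2))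
    (h1 : ∀ s1 s2 : ℂ, (s1 ≠ 0 ∨ s2 ≠ 0) → ∃ j, q j (c1, s1, s2) ≠ 0) :
    ∃ B, IsOpen B ∧ c1 ∈ B ∧ B ⊆ B0 ∧
      ∀ c ∈ B, ∀ s1 s2 : ℂ, (s1 ≠ 0 ∨ s2 ≠ 0) → ∃ j, q j (c, s1, s2) ≠ 0 := by
  have hK : IsCompact (sphere (0 : ℂ × ℂ) 1) := isCompact_sphere 0 1
  have hev : ∀ᶠ c in 𝓝 c1, ∀ s ∈ sphere (0 : ℂ × ℂ) 1, ∃ j, q j (c, s) ≠ 0 := by
    refine hK.eventually_forall_of_forall_eventually fun s hs => ?_
    have hs0 : s ≠ 0 := by
      intro h
      rw [h] at hs
      simp at hs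
    obtain ⟨j, hj⟩ := h1 s.1 s.2 (by
      by_contra hcon
      push Not at hcon
      exact hs0 (Prod.ext hcon.1 hcon.2))
    have hc : ContinuousAt (q j) (c1, s) := (hq j).continuousAt
      ((hB0.prod isOpen_univ).mem_nhds ⟨hc1, mem_univ _⟩)
    filter_upwards [hc.eventually_ne hj] with z hz
    exact ⟨j, hz⟩
  obtain ⟨B, hB, hBo, hcB⟩ := _root_.eventually_nhds_iff.1 (hev.and (hB0.eventually_mem hc1))
  refine ⟨B, hBo, hcB, fun c hc => (hB c hc).2, fun c hc s1 s2 hs => ?_⟩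
  have hne : ((s1, s2) : ℂ × ℂ) ≠ 0 := by
    intro h
    rcases hs with h' | h'
    · exact h' (congrArg Prod.fst h)
    · exact h' (congrArg Prod.snd h)
  have hpos : 0 < ‖((s1, s2) : ℂ × ℂ)‖ := norm_pos_iff.mpr hne
  set t : ℂ := ((‖((s1, s2) : ℂ × ℂ)‖⁻¹ : ℝ) : ℂ) with ht
  have hsph : ((t * s1, t * s2) : ℂ × ℂ) ∈ sphere (0 : ℂ × ℂ) 1 := by
    have e : ((t * s1, t * s2) : ℂ × ℂ) = t • ((s1, s2) : ℂ × ℂ) := rfl
    rw [mem_sphere_zero_iff_norm, e, norm_smul, ht, Complex.norm_real, norm_inv, norm_norm,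
      inv_mul_cancel₀ hpos.ne']
  obtain ⟨j, hj⟩ := (hB c hc).1 _ hsph
  refine ⟨j, fun h => hj ?_⟩
  rw [hom j c (hB c hc).2, h, mul_zero]

/-! ### a moving line -/

/-- A family of lines of the surface through a moving point `b c` does not sweep out a surface. -/
theorem no_moving_line (hQ : Alg.SmoothQuartic Q) {b w : ℂ → C4} {c0 : ℂ} {ρ : ℝ}
    (hb : DifferentiableOn ℂ b (ball c0 ρ)) (hw : DifferentiableOn ℂ w (ball c0 ρ))
    (hli : ∀ c ∈ ball c0 ρ, LinearIndependent ℂ ![b c, w c])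
    (h0 : ∀ c ∈ ball c0 ρ, ∀ l t : ℂ, eval (l • b c + t • w c) Q = 0) {c : ℂ}
    (hc : c ∈ ball c0 ρ) : ¬ LinearIndependent ℂ ![b c, deriv b c, w c] := by
  intro hind
  set x : ℂ × ℂ → C4 := fun z => b z.1 + z.2 • w z.1 with hx
  set D : ℂ × ℂ → C4 := fun z => deriv b z.1 + z.2 • deriv w z.1 with hD
  set U : Set (ℂ × ℂ) := Prod.fst ⁻¹' ball c0 ρ with hU
  have hUo : IsOpen U := isOpen_ball.preimage continuous_fst
  have hxd : DifferentiableOn ℂ x U := by
    have h1 : DifferentiableOn ℂ (fun z : ℂ × ℂ => b z.1) U :=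
      hb.comp differentiableOn_fst fun z hz => hz
    have h2 : DifferentiableOn ℂ (fun z : ℂ × ℂ => w z.1) U :=
      hw.comp differentiableOn_fst fun z hz => hz
    exact h1.add (differentiableOn_snd.smul h2)
  have hwd : DifferentiableOn ℂ (fun z : ℂ × ℂ => w z.1) U :=
    hw.comp differentiableOn_fst fun z hz => hz
  have hDc : ContinuousOn D U := by
    have h1 : ContinuousOn (fun z : ℂ × ℂ => deriv b z.1) U :=
      (hb.deriv isOpen_ball).continuousOn.comp continuousOn_fst fun z hz => hz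
    have h2 : ContinuousOn (fun z : ℂ × ℂ => deriv w z.1) U :=
      (hw.deriv isOpen_ball).continuousOn.comp continuousOn_fst fun z hz => hz
    exact h1.add (continuousOn_snd.smul h2)
  set W : Set (ℂ × ℂ) := {z | z ∈ U ∧ LinearIndependent ℂ ![x z, D z, w z.1]} with hW
  have hWo : IsOpen W := by
    have h1 : IsOpen {w : (Fin 3 → Fin 4 → ℂ) | LinearIndependent ℂ w} :=
      isOpen_setOfPred_linearIndependent
    have h2 : ContinuousOn (fun z => (![x z, D z, w z.1] : Fin 3 → Fin 4 → ℂ)) U := by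
      rw [continuousOn_pi]
      intro i
      fin_cases i
      · exact hxd.continuousOn
      · exact hDc
      · exact hwd.continuousOn
    exact h2.isOpen_inter_preimage hUo h1
  have hWU : W ⊆ U := fun z hz => hz.1
  have hmem : ((c, 0) : ℂ × ℂ) ∈ W := by
    refine ⟨hc, ?_⟩
    simpa [hx, hD] using hind
  have hD1 : ∀ z ∈ U, fderiv ℂ x z (1, 0) = D z := by
    intro z hz
    have h1 := hasDerivAt_comp_line ((1, 0) : ℂ × ℂ) (hxd.differentiableAt (hUo.mem_nhds hz))
    have h2 : HasDerivAt b (deriv b z.1) (z.1 + 0) := by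
      simpa using (hb.differentiableAt (isOpen_ball.mem_nhds hz)).hasDerivAt
    have h3 : HasDerivAt w (deriv w z.1) (z.1 + 0) := by
      simpa using (hw.differentiableAt (isOpen_ball.mem_nhds hz)).hasDerivAt
    have h4 : HasDerivAt (fun t : ℂ => b (z.1 + t)) (deriv b z.1) 0 := h2.comp_const_add z.1 0
    have h5 : HasDerivAt (fun t : ℂ => w (z.1 + t)) (deriv w z.1) 0 := h3.comp_const_add z.1 0
    have e : (fun t : ℂ => x (z + t • ((1, 0) : ℂ × ℂ))) =
        fun t => b (z.1 + t) + z.2 • w (z.1 + t) := by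
      funext t
      simp [hx]
    rw [e] at h1
    exact h1.unique (h4.add (h5.const_smul z.2))
  have hD2 : ∀ z ∈ U, fderiv ℂ x z (0, 1) = w z.1 := by
    intro z hz
    have h1 := hasDerivAt_comp_line ((0, 1) : ℂ × ℂ) (hxd.differentiableAt (hUo.mem_nhds hz))
    have e : (fun t : ℂ => x (z + t • ((0, 1) : ℂ × ℂ))) =
        fun t => b z.1 + (z.2 + t) • w z.1 := by
      funext t
      simp [hx]
    rw [e] at h1
    have h7 : HasDerivAt (fun t : ℂ => b z.1 + (z.2 + t) • w z.1) ((1 : ℂ) • w z.1) 0 :=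
      (((hasDerivAt_id (0 : ℂ)).const_add z.2).smul_const (w z.1)).const_add (b z.1)
    rw [one_smul] at h7
    exact h1.unique h7
  have hchart : Alg.IsChart Q W x := by
    refine ⟨hWo, hxd.mono hWU, fun z hz => ?_, fun z hz => ?_⟩
    · have := h0 z.1 hz.1 1 z.2
      rwa [one_smul] at this
    · rw [hD1 z hz.1, hD2 z hz.1]
      exact hz.2
  refine Alg.no_line_family hQ hchart ⟨_, hmem⟩ (u := fun z => w z.1) (hwd.mono hWU) ?_
  intro z hz
  refine ⟨?_, fun a s => ?_⟩
  · have h1 := hli z.1 hz.1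
    rw [LinearIndependent.pair_iff] at h1 ⊢
    intro a s h
    obtain ⟨h2, h3⟩ := h1 a (a * z.2 + s) (by rw [← h]; module)
    subst h2
    exact ⟨rfl, by simpa using h3⟩
  · have h1 := h0 z.1 hz.1 a (a * z.2 + s)
    have e : a • (b z.1 + z.2 • w z.1) + s • w z.1 = a • b z.1 + (a * z.2 + s) • w z.1 := by
      module
    show eval (a • (b z.1 + z.2 • w z.1) + s • w z.1) Q = 0
    rw [e]
    exact h1

/-- an arc with `b' ∥ b` on a small disc is projectively constant -/
theorem const_of_deriv {b : ℂ → C4} (hb : DifferentiableOn ℂ b (ball 0 1)) {c0 : ℂ} {ρ : ℝ}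
    (hρ : 0 < ρ) (hsub : ball c0 ρ ⊆ ball 0 1) (hne : ∀ c ∈ ball (0 : ℂ) 1, b c ≠ 0)
    (h : ∀ c ∈ ball c0 ρ, ¬ LinearIndependent ℂ ![b c, deriv b c]) :
    ∃ p₀ : C4, ∀ c ∈ ball (0 : ℂ) 1, ∃ s : ℂ, b c = s • p₀ := by
  have hc0 : c0 ∈ ball c0 ρ := mem_ball_self hρ
  have hc0' := hsub hc0
  obtain ⟨j, hj⟩ : ∃ j, b c0 j ≠ 0 := Function.ne_iff.mp (hne c0 hc0')
  have hbj : ∀ i, DifferentiableOn ℂ (fun c => b c i) (ball 0 1) := fun i =>
    differentiableOn_pi.mp hb i
  obtain ⟨r, hr, hrb⟩ : ∃ r > 0, ball c0 r ⊆ ball c0 ρ ∩ {c | b c j ≠ 0} := by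
    have h1 : ContinuousAt (fun c => b c j) c0 :=
      ((hbj j).continuousOn).continuousAt (isOpen_ball.mem_nhds hc0')
    have h2 : ∀ᶠ c in 𝓝 c0, b c j ≠ 0 := h1.eventually_ne hj
    exact Metric.mem_nhds_iff.mp (Filter.inter_mem (isOpen_ball.mem_nhds hc0) h2)
  have hpar : ∀ i, ∀ c ∈ ball (0 : ℂ) 1, b c i * b c0 j - b c0 i * b c j = 0 := by
    intro i
    have hder : ∀ c ∈ ball c0 r, HasDerivAt (fun c => b c i / b c j) 0 c := by
      intro c hc
      have hcρ := (hrb hc).1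
      have hc1 := hsub hcρ
      have d := (hb.differentiableAt (isOpen_ball.mem_nhds hc1)).hasDerivAt
      have d' := hasDerivAt_pi.mp d
      have h1 := (d' i).div (d' j) (hrb hc).2
      obtain ⟨κ, hκ⟩ := exists_smul_of_not_indep (hne c hc1) (h c hcρ)
      refine h1.congr_deriv ?_
      rw [hκ]
      simp only [Pi.smul_apply, smul_eq_mul]
      rw [show κ * b c i * b c j - b c i * (κ * b c j) = 0 by ring, zero_div]
    have hconst : ∀ c ∈ ball c0 r, b c i / b c j = b c0 i / b c0 j := by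
      intro c hc
      exact (convex_ball c0 r).is_const_of_fderivWithin_eq_zero (𝕜 := ℂ)
        (fun z hz => (hder z hz).differentiableAt.differentiableWithinAt)
        (fun z hz => by
          rw [fderivWithin_of_isOpen isOpen_ball hz]
          have := (hder z hz).hasFDerivAt.fderiv
          rw [this]
          ext
          simp) hc (mem_ball_self hr)
    have hg : DifferentiableOn ℂ (fun c => b c i * b c0 j - b c0 i * b c j) (ball 0 1) :=
      ((hbj i).mul_const _).sub ((hbj j).const_mul _)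
    have hz := (hg.analyticOnNhd isOpen_ball).eqOn_zero_of_preconnected_of_eventuallyEq_zero
      (convex_ball (0 : ℂ) 1).isPreconnected hc0' (by
        filter_upwards [isOpen_ball.mem_nhds (mem_ball_self hr)] with c hc
        have h1 := hconst c hc
        have h2 : b c j ≠ 0 := (hrb hc).2
        rw [div_eq_div_iff h2 hj] at h1
        show b c i * b c0 j - b c0 i * b c j = 0
        linear_combination h1)
    intro c hc
    exact hz hc
  refine ⟨b c0, fun c hc => ⟨b c j / b c0 j, ?_⟩⟩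
  funext i
  have := hpar i c hc
  simp only [Pi.smul_apply, smul_eq_mul]
  field_simp
  linear_combination this

/-! ### the expansion -/

theorem expand_line (hQ : Q.IsHomogeneous 4) {b f v : C4} (hb0 : eval b Q = 0)
    (hf : ∀ l t : ℂ, eval (l • b + t • f) Q = 0) (hv : q1 Q b v = 0) (l s t : ℂ) :
    eval (l • b + s • f + t • v) Q =
      t * (l ^ 2 * (12 * tens Q b b f v * s + q2 Q b v * t)
        + l * (12 * tens Q b f f v * s ^ 2 + 12 * tens Q b f v v * s * t + q3 Q b v * t ^ 2)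
        + (q1 Q f v * s ^ 3 + q2 Q f v * s ^ 2 * t + q3 Q f v * s * t ^ 2 + q4 Q v * t ^ 3)) := by
  obtain ⟨e0, e1, e2, e3, e4⟩ := line_coeffs hQ hf
  have hu : s • f + t • v ∈ Tg Q b := by
    refine (Tg Q b).add_mem ((Tg Q b).smul_mem _ ?_) ((Tg Q b).smul_mem _ hv)
    rw [mem_Tg, q1, e1, mul_zero]
  have h := eval_comb_tangent hQ hb0 hu l 1
  rw [one_smul, ← add_assoc] at h
  rw [h, q2_frame, q3_frame, q4_frame]
  have f2 : q2 Q b f = 0 := by rw [q2, e2, mul_zero]
  have f3 : q3 Q b f = 0 := by rw [q3, e3, mul_zero]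
  have f4 : q4 Q f = 0 := by rw [q4, e4]
  rw [f2, f3, f4]
  ring

/-- **Type L.** -/
theorem arcAt_typeL (hQ : Alg.SmoothQuartic Q) {b : ℂ → C4} (hb : DifferentiableOn ℂ b (ball 0 1))
    (hV : ∀ c ∈ ball (0 : ℂ) 1, b c ∈ Vstar Q)
    (hnc : ¬ ∃ p0 : C4, ∀ c ∈ ball (0 : ℂ) 1, ∃ s : ℂ, b c = s • p0) {e1 e2 : C4}
    (hli : LinearIndependent ℂ ![e1, e2])
    (hL : ∀ l t : ℂ, MvPolynomial.eval (l • e1 + t • e2) Q = 0)
    (hmem : ∀ c ∈ ball (0 : ℂ) 1, ∃ l t : ℂ, b c = l • e1 + t • e2) :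
    ∃ N0 : Set ℂ, N0.Countable ∧ ∀ c1 ∈ ball (0 : ℂ) 1 \ N0, Nonempty (ArcAt Q b c1) := by
  have h0mem : (0 : ℂ) ∈ ball (0 : ℂ) 1 := by simp
  -- the fixed plane
  set L : Submodule ℂ C4 := Submodule.span ℂ (range ![e1, e2]) with hLdef
  have hLrank : Module.finrank ℂ L = 2 := by
    rw [hLdef, finrank_span_eq_card hli, Fintype.card_fin]
  have he1 : e1 ∈ L := Submodule.subset_span ⟨0, rfl⟩
  have he2 : e2 ∈ L := Submodule.subset_span ⟨1, rfl⟩
  have hLQ : ∀ y ∈ L, eval y Q = 0 := by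
    intro y hy
    obtain ⟨a, ha⟩ := (Submodule.mem_span_range_iff_exists_fun ℂ).mp hy
    rw [Fin.sum_univ_two] at ha
    have := hL (a 0) (a 1)
    rw [← ha]
    exact this
  have hbL : ∀ c ∈ ball (0 : ℂ) 1, b c ∈ L := by
    intro c hc
    obtain ⟨l, t, h⟩ := hmem c hc
    rw [h]
    exact L.add_mem (L.smul_mem _ he1) (L.smul_mem _ he2)
  obtain ⟨f, hf12, hf⟩ := exists_dir hli (hV 0 h0mem).1 (hmem 0 h0mem)
  have hfL : f ∈ L := by rcases hf12 with rfl | rfl; exacts [he1, he2]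
  have hline : ∀ c ∈ ball (0 : ℂ) 1, ∀ l t : ℂ, eval (l • b c + t • f) Q = 0 := fun c hc l t =>
    hLQ _ (L.add_mem (L.smul_mem _ (hbL c hc)) (L.smul_mem _ hfL))
  -- the third frame vector
  obtain ⟨w0, hw0, hw0li⟩ := exists_third hQ (hV 0 h0mem).1 (hV 0 h0mem).2 hf
  obtain ⟨n, hn⟩ := exists_normal hQ (hV 0 h0mem).1 (hV 0 h0mem).2
  set v : ℂ → C4 := fun c => q1 Q (b c) n • w0 + (-(q1 Q (b c) w0)) • n with hv
  have hq1d : ∀ u : C4, DifferentiableOn ℂ (fun c => q1 Q (b c) u) (ball 0 1) := fun u => by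
    unfold q1
    exact (Alg.differentiableOn_tens hb hb hb (differentiableOn_const u)).const_mul 4
  have hvd : DifferentiableOn ℂ v (ball 0 1) :=
    ((hq1d n).smul_const w0).add ((hq1d w0).neg.smul_const n)
  have hvT : ∀ c, q1 Q (b c) (v c) = 0 := by
    intro c
    rw [hv]
    simp only
    rw [q1_add, q1_smul, q1_smul]
    ring
  have hfd : DifferentiableOn ℂ (fun _ : ℂ => f) (ball 0 1) := differentiableOn_const f
  have hli0 : LinearIndependent ℂ ![b 0, f, v 0] := by
    rw [li3_iff] at hw0li ⊢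
    intro a s t h
    have e : v 0 = q1 Q (b 0) n • w0 := by rw [hv]; simp [hw0]
    rw [e, smul_smul] at h
    obtain ⟨h1, h2, h3⟩ := hw0li _ _ _ h
    exact ⟨h1, h2, (mul_eq_zero.mp h3).resolve_right hn⟩
  obtain ⟨δ, hδd, hδ0, hδ⟩ := exists_delta hb hfd hvd hli0
  -- coefficients
  set A0 : ℂ → ℂ := fun c => q2 Q (b c) (v c) with hA0
  set A1 : ℂ → ℂ := fun c => 12 * tens Q (b c) (b c) f (v c) with hA1
  set B0 : ℂ → ℂ := fun c => q3 Q (b c) (v c) with hB0
  set B1 : ℂ → ℂ := fun c => 12 * tens Q (b c) f (v c) (v c) with hB1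
  set B2 : ℂ → ℂ := fun c => 12 * tens Q (b c) f f (v c) with hB2
  set G0 : ℂ → ℂ := fun c => q4 Q (v c) with hG0
  set G1 : ℂ → ℂ := fun c => q3 Q f (v c) with hG1
  set G2 : ℂ → ℂ := fun c => q2 Q f (v c) with hG2
  set G3 : ℂ → ℂ := fun c => q1 Q f (v c) with hG3
  have dA0 : DifferentiableOn ℂ A0 (ball 0 1) :=
    (Alg.differentiableOn_tens hb hb hvd hvd).const_mul 6
  have dA1 : DifferentiableOn ℂ A1 (ball 0 1) :=
    (Alg.differentiableOn_tens hb hb hfd hvd).const_mul 12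
  have dB0 : DifferentiableOn ℂ B0 (ball 0 1) :=
    (Alg.differentiableOn_tens hb hvd hvd hvd).const_mul 4
  have dB1 : DifferentiableOn ℂ B1 (ball 0 1) :=
    (Alg.differentiableOn_tens hb hfd hvd hvd).const_mul 12
  have dB2 : DifferentiableOn ℂ B2 (ball 0 1) :=
    (Alg.differentiableOn_tens hb hfd hfd hvd).const_mul 12
  have dG0 : DifferentiableOn ℂ G0 (ball 0 1) := Alg.differentiableOn_tens hvd hvd hvd hvd
  have dG1 : DifferentiableOn ℂ G1 (ball 0 1) :=
    (Alg.differentiableOn_tens hfd hvd hvd hvd).const_mul 4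
  have dG2 : DifferentiableOn ℂ G2 (ball 0 1) :=
    (Alg.differentiableOn_tens hfd hfd hvd hvd).const_mul 6
  have dG3 : DifferentiableOn ℂ G3 (ball 0 1) :=
    (Alg.differentiableOn_tens hfd hfd hfd hvd).const_mul 4
  have hexp : ∀ c ∈ ball (0 : ℂ) 1, ∀ l s t : ℂ, eval (l • b c + s • f + t • v c) Q =
      t * (l ^ 2 * (A1 c * s + A0 c * t) + l * (B2 c * s ^ 2 + B1 c * s * t + B0 c * t ^ 2)
        + (G3 c * s ^ 3 + G2 c * s ^ 2 * t + G1 c * s * t ^ 2 + G0 c * t ^ 3)) := by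
    intro c hc l s t
    exact expand_line hQ.hom (hV c hc).2 (hline c hc) (hvT c) l s t
  -- the family
  set M : Fin 3 → ℂ × ℂ → ℂ := ![fun z => A1 z.1 * z.2 + A0 z.1,
    fun z => B2 z.1 * z.2 ^ 2 + B1 z.1 * z.2 + B0 z.1,
    fun z => G3 z.1 * z.2 ^ 3 + G2 z.1 * z.2 ^ 2 + G1 z.1 * z.2 + G0 z.1] with hM
  have hMd : ∀ j, DifferentiableOn ℂ (M j) (ball 0 1 ×ˢ univ) := by
    have hc : ∀ {g : ℂ → ℂ}, DifferentiableOn ℂ g (ball 0 1) →
        DifferentiableOn ℂ (fun z : ℂ × ℂ => g z.1) (ball 0 1 ×ˢ univ) := fun hg =>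
      hg.comp differentiableOn_fst fun z hz => hz.1
    have hs : DifferentiableOn ℂ (fun z : ℂ × ℂ => z.2) (ball 0 1 ×ˢ univ) :=
      differentiableOn_snd
    intro j
    fin_cases j
    · exact ((hc dA1).mul hs).add (hc dA0)
    · exact (((hc dB2).mul (hs.pow 2)).add ((hc dB1).mul hs)).add (hc dB0)
    · exact ((((hc dG3).mul (hs.pow 3)).add ((hc dG2).mul (hs.pow 2))).add
        ((hc dG1).mul hs)).add (hc dG0)
  have hMa : ∀ j, AnalyticOnNhd ℂ (M j) (ball 0 1 ×ˢ univ) := fun j =>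
    Crest.Agent.R266.SCV.analyticOnNhd_of_differentiableOn (isOpen_ball.prod isOpen_univ) (hMd j)
  have hZ : {c : ℂ | c ∈ ball (0 : ℂ) 1 ∧ ∃ X, ∀ j, M j (c, X) = 0}.Countable := by
    by_contra hZ
    obtain ⟨j0, X0, hj0⟩ : ∃ j0 X0, M j0 (0, X0) ≠ 0 := by
      by_contra hcon
      push Not at hcon
      refine no_plane hQ hli0 fun a s t => ?_
      rw [hexp 0 h0mem]
      by_cases ht : t = 0
      · rw [ht, zero_mul]
      · have m0 : A1 0 * (s / t) + A0 0 = 0 := hcon 0 (s / t)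
        have m1 : B2 0 * (s / t) ^ 2 + B1 0 * (s / t) + B0 0 = 0 := hcon 1 (s / t)
        have m2 : G3 0 * (s / t) ^ 3 + G2 0 * (s / t) ^ 2 + G1 0 * (s / t) + G0 0 = 0 :=
          hcon 2 (s / t)
        have k0 : A1 0 * s + A0 0 * t = 0 := by
          have : A1 0 * s + A0 0 * t = t * (A1 0 * (s / t) + A0 0) := by field_simp
          rw [this, m0, mul_zero]
        have k1 : B2 0 * s ^ 2 + B1 0 * s * t + B0 0 * t ^ 2 = 0 := by
          have : B2 0 * s ^ 2 + B1 0 * s * t + B0 0 * t ^ 2 =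
              t ^ 2 * (B2 0 * (s / t) ^ 2 + B1 0 * (s / t) + B0 0) := by field_simp
          rw [this, m1, mul_zero]
        have k2 : G3 0 * s ^ 3 + G2 0 * s ^ 2 * t + G1 0 * s * t ^ 2 + G0 0 * t ^ 3 = 0 := by
          have : G3 0 * s ^ 3 + G2 0 * s ^ 2 * t + G1 0 * s * t ^ 2 + G0 0 * t ^ 3 =
              t ^ 3 * (G3 0 * (s / t) ^ 3 + G2 0 * (s / t) ^ 2 + G1 0 * (s / t) + G0 0) := by
            field_simp
          rw [this, m2, mul_zero]
        rw [k0, k1, k2]
        ring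
    obtain ⟨c', ρ, χ, hρ, hsub, hχ, hχ0⟩ := family_root hMa h0mem hj0 hZ
    -- a smaller disc on which the frame is independent
    have hδc := zeros_countable hδd h0mem hδ0
    obtain ⟨c'', hc'', hδ''⟩ : ∃ c'' ∈ ball c' ρ, δ c'' ≠ 0 := by
      by_contra hcon
      push Not at hcon
      have hcb : (ball c' ρ).Countable :=
        hδc.mono fun c hc => (⟨hsub hc, hcon c hc⟩ : c ∈ ball (0 : ℂ) 1 ∧ δ c = 0)
      exact not_countable_of_open isOpen_ball ⟨c', mem_ball_self hρ⟩ hcb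
    have hopen := (open_diff_zero hδd).inter (isOpen_ball (x := c') (ε := ρ))
    obtain ⟨r, hr, hrb⟩ := Metric.isOpen_iff.mp hopen c'' ⟨⟨hsub hc'', hδ''⟩, hc''⟩
    have hli3 : ∀ c ∈ ball c'' r, LinearIndependent ℂ ![b c, f, v c] := fun c hc =>
      hδ c (hrb hc).1.2
    have hr1 : ∀ c ∈ ball c'' r, c ∈ ball (0 : ℂ) 1 := fun c hc => (hrb hc).1.1
    set w : ℂ → C4 := fun c => χ c • f + v c with hw
    have hwd : DifferentiableOn ℂ w (ball c'' r) :=
      ((hχ.mono fun c hc => (hrb hc).2).smul_const f).add (hvd.mono hr1)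
    have hli3' : ∀ c ∈ ball c'' r, LinearIndependent ℂ ![b c, f, w c] := by
      intro c hc
      have h1 := hli3 c hc
      rw [li3_iff] at h1 ⊢
      intro a s t h
      obtain ⟨h2, h3, h4⟩ := h1 a (s + t * χ c) t (by rw [← h, hw]; module)
      subst h4
      exact ⟨h2, by simpa using h3, rfl⟩
    have hwL : ∀ c ∈ ball c'' r, w c ∉ L := by
      intro c hc hwc
      have hle : Submodule.span ℂ (range ![b c, f, w c]) ≤ L := by
        rw [Submodule.span_le]
        rintro _ ⟨i, rfl⟩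
        fin_cases i
        · exact hbL c (hr1 c hc)
        · exact hfL
        · exact hwc
      have h1 := Submodule.finrank_mono hle
      rw [finrank_span_eq_card (hli3' c hc), hLrank, Fintype.card_fin] at h1
      omega
    have hnm := fun c (hc : c ∈ ball c'' r) => no_moving_line hQ (hb.mono hr1) hwd (fun c hc => by
      have h1 := hli3' c hc
      rw [li3_iff] at h1
      rw [LinearIndependent.pair_iff]
      intro a t h
      obtain ⟨h2, -, h4⟩ := h1 a 0 t (by rw [← h]; module)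
      exact ⟨h2, h4⟩) (fun c hc l t => by
      have e : l • b c + t • w c = l • b c + (t * χ c) • f + t • v c := by rw [hw]; module
      rw [e, hexp c (hr1 c hc)]
      have m0 : A1 c * χ c + A0 c = 0 := hχ0 c (hrb hc).2 0
      have m1 : B2 c * (χ c) ^ 2 + B1 c * χ c + B0 c = 0 := hχ0 c (hrb hc).2 1
      have m2 : G3 c * (χ c) ^ 3 + G2 c * (χ c) ^ 2 + G1 c * χ c + G0 c = 0 :=
        hχ0 c (hrb hc).2 2
      linear_combination (t ^ 2 * l ^ 2) * m0 + (t ^ 3 * l) * m1 + t ^ 4 * m2) hc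
    refine hnc (const_of_deriv hb hr (fun c hc => hr1 c hc) (fun c hc => (hV c hc).1) ?_)
    intro c hc hbb
    -- the derivative lies in `L`
    have hdL : deriv b c ∈ L := by
      by_contra hn'
      obtain ⟨ψ, hψ, hψL⟩ := Submodule.exists_le_ker_of_notMem hn'
      apply hψ
      have h1 := (hb.differentiableAt (isOpen_ball.mem_nhds (hr1 c hc))).hasDerivAt
      have h2 := (LinearMap.toContinuousLinearMap ψ).hasFDerivAt.comp_hasDerivAt c h1
      have h3 : ((LinearMap.toContinuousLinearMap ψ) ∘ b) =ᶠ[𝓝 c] fun _ => 0 := by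
        filter_upwards [isOpen_ball.mem_nhds (hr1 c hc)] with y hy
        exact hψL (hbL y hy)
      exact h2.unique ((hasDerivAt_const c (0 : ℂ)).congr_of_eventuallyEq h3)
    apply hnm c hc
    rw [li3_iff]
    intro a s t h
    have ht : t = 0 := by
      by_contra ht
      apply hwL c hc
      have e : w c = (-(t⁻¹ * a)) • b c + (-(t⁻¹ * s)) • deriv b c := by
        have h1 : t⁻¹ • (a • b c + s • deriv b c + t • w c) = 0 := by rw [h, smul_zero]
        have h2 : t⁻¹ • (a • b c + s • deriv b c + t • w c) =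
            (t⁻¹ * a) • b c + (t⁻¹ * s) • deriv b c + w c := by
          rw [smul_add, smul_add, smul_smul, smul_smul, smul_smul, inv_mul_cancel₀ ht, one_smul]
        rw [h2] at h1
        rw [neg_smul, neg_smul]
        linear_combination (exp := 1) h1
      rw [e]
      exact L.add_mem (L.smul_mem _ (hbL c (hr1 c hc))) (L.smul_mem _ hdL)
    subst ht
    rw [LinearIndependent.pair_iff] at hbb
    obtain ⟨h1, h2⟩ := hbb a s (by rw [← h]; module)
    exact ⟨h1, h2, rfl⟩
  refine ⟨{c : ℂ | c ∈ ball (0 : ℂ) 1 ∧ ∃ X, ∀ j, M j (c, X) = 0} ∪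
    {c | c ∈ ball (0 : ℂ) 1 ∧ δ c = 0}, hZ.union (zeros_countable hδd h0mem hδ0), ?_⟩
  rintro c1 ⟨hc1, hnot⟩
  have hδ1 : δ c1 ≠ 0 := fun h => hnot (Or.inr ⟨hc1, h⟩)
  have hZ1 : ¬ ∃ X, ∀ j, M j (c1, X) = 0 := fun h => hnot (Or.inl ⟨hc1, h⟩)
  -- the forms
  set P2 : ℂ × ℂ × ℂ → ℂ := fun z => A1 z.1 * z.2.1 + A0 z.1 * z.2.2 with hP2
  set P3 : ℂ × ℂ × ℂ → ℂ := fun z => B2 z.1 * z.2.1 ^ 2 + B1 z.1 * z.2.1 * z.2.2 +
    B0 z.1 * z.2.2 ^ 2 with hP3
  set P4 : ℂ × ℂ × ℂ → ℂ := fun z => G3 z.1 * z.2.1 ^ 3 + G2 z.1 * z.2.1 ^ 2 * z.2.2 +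
    G1 z.1 * z.2.1 * z.2.2 ^ 2 + G0 z.1 * z.2.2 ^ 3 with hP4
  have hsubB : {c | c ∈ ball (0 : ℂ) 1 ∧ δ c ≠ 0} ⊆ ball 0 1 := fun c hc => hc.1
  have hcc : ∀ {g : ℂ → ℂ}, DifferentiableOn ℂ g (ball 0 1) →
      DifferentiableOn ℂ (fun z : ℂ × ℂ × ℂ => g z.1) (ball 0 1 ×ˢ univ) := fun hg =>
    hg.comp differentiableOn_fst fun z hz => hz.1
  have hs1 : DifferentiableOn ℂ (fun z : ℂ × ℂ × ℂ => z.2.1) (ball 0 1 ×ˢ univ) := by fun_prop
  have hs2 : DifferentiableOn ℂ (fun z : ℂ × ℂ × ℂ => z.2.2) (ball 0 1 ×ˢ univ) := by fun_prop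
  have dP2 : DifferentiableOn ℂ P2 (ball 0 1 ×ˢ univ) :=
    ((hcc dA1).mul hs1).add ((hcc dA0).mul hs2)
  have dP3 : DifferentiableOn ℂ P3 (ball 0 1 ×ˢ univ) :=
    (((hcc dB2).mul (hs1.pow 2)).add (((hcc dB1).mul hs1).mul hs2)).add ((hcc dB0).mul (hs2.pow 2))
  have dP4 : DifferentiableOn ℂ P4 (ball 0 1 ×ˢ univ) :=
    ((((hcc dG3).mul (hs1.pow 3)).add (((hcc dG2).mul (hs1.pow 2)).mul hs2)).add
      (((hcc dG1).mul hs1).mul (hs2.pow 2))).add ((hcc dG0).mul (hs2.pow 3))
  have hprod : ({c | c ∈ ball (0 : ℂ) 1 ∧ δ c ≠ 0} ×ˢ univ : Set (ℂ × ℂ × ℂ)) ⊆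
      ball 0 1 ×ˢ univ := fun z hz => ⟨hz.1.1, hz.2⟩
  obtain ⟨B, hBo, hc1B, hBsub, hBn⟩ := nocommon_open28 (open_diff_zero hδd) ⟨hc1, hδ1⟩
    (n := ![1, 2, 3]) (q := ![P2, P3, P4])
    (by
      intro j
      fin_cases j
      · exact (dP2.mono hprod).continuousOn
      · exact (dP3.mono hprod).continuousOn
      · exact (dP4.mono hprod).continuousOn)
    (by
      intro j c _ t s1 s2
      fin_cases j
      · show A1 c * (t * s1) + A0 c * (t * s2) = t ^ 1 * (A1 c * s1 + A0 c * s2)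
        ring
      · show B2 c * (t * s1) ^ 2 + B1 c * (t * s1) * (t * s2) + B0 c * (t * s2) ^ 2 =
          t ^ 2 * (B2 c * s1 ^ 2 + B1 c * s1 * s2 + B0 c * s2 ^ 2)
        ring
      · show G3 c * (t * s1) ^ 3 + G2 c * (t * s1) ^ 2 * (t * s2) + G1 c * (t * s1) * (t * s2) ^ 2
            + G0 c * (t * s2) ^ 3 =
          t ^ 3 * (G3 c * s1 ^ 3 + G2 c * s1 ^ 2 * s2 + G1 c * s1 * s2 ^ 2 + G0 c * s2 ^ 3)
        ring)
    (by
      intro s1 s2 hs
      by_contra hcon
      push Not at hcon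
      have k0 : A1 c1 * s1 + A0 c1 * s2 = 0 := hcon 0
      have k1 : B2 c1 * s1 ^ 2 + B1 c1 * s1 * s2 + B0 c1 * s2 ^ 2 = 0 := hcon 1
      have k2 : G3 c1 * s1 ^ 3 + G2 c1 * s1 ^ 2 * s2 + G1 c1 * s1 * s2 ^ 2 + G0 c1 * s2 ^ 3 = 0 :=
        hcon 2
      by_cases h2 : s2 = 0
      · have h1 : s1 ≠ 0 := by
          rcases hs with h | h
          · exact h
          · exact absurd h2 h
        subst h2
        have z0 : A1 c1 = 0 := by
          have : A1 c1 * s1 = 0 := by linear_combination k0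
          exact (mul_eq_zero.mp this).resolve_right h1
        have z1 : B2 c1 = 0 := by
          have : B2 c1 * s1 ^ 2 = 0 := by linear_combination k1
          exact (mul_eq_zero.mp this).resolve_right (pow_ne_zero _ h1)
        have z2 : G3 c1 = 0 := by
          have : G3 c1 * s1 ^ 3 = 0 := by linear_combination k2
          exact (mul_eq_zero.mp this).resolve_right (pow_ne_zero _ h1)
        refine no_tan_line hQ (hδ c1 hδ1) (hline c1 hc1) fun t => ?_
        have y0 : tens Q (b c1) (b c1) f (v c1) = 0 := by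
          have : 12 * tens Q (b c1) (b c1) f (v c1) = 0 := z0
          simpa using this
        have y1 : tens Q (b c1) f f (v c1) = 0 := by
          have : 12 * tens Q (b c1) f f (v c1) = 0 := z1
          simpa using this
        have y2 : tens Q f f f (v c1) = 0 := by
          have : 4 * tens Q f f f (v c1) = 0 := z2
          simpa using this
        have y3 : tens Q (b c1) (b c1) (b c1) (v c1) = 0 := by
          have : 4 * tens Q (b c1) (b c1) (b c1) (v c1) = 0 := hvT c1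
          simpa using this
        simp only [q1, tens_add1, tens_add2, tens_add3, tens_smul1, tens_smul2, tens_smul3]
        rw [tens_swap23 Q (b c1) f (b c1), tens_swap13 Q f (b c1) (b c1),
          tens_swap12 Q f (b c1) f, tens_swap13 Q f f (b c1), y0, y1, y2, y3]
        ring
      · apply hZ1
        refine ⟨s1 / s2, fun j => ?_⟩
        fin_cases j
        · show A1 c1 * (s1 / s2) + A0 c1 = 0
          field_simp
          linear_combination k0
        · show B2 c1 * (s1 / s2) ^ 2 + B1 c1 * (s1 / s2) + B0 c1 = 0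
          field_simp
          linear_combination k1
        · show G3 c1 * (s1 / s2) ^ 3 + G2 c1 * (s1 / s2) ^ 2 + G1 c1 * (s1 / s2) + G0 c1 = 0
          field_simp
          linear_combination k2)
  have hBball : B ⊆ ball 0 1 := fun c hc => (hBsub hc).1
  have hBprod : (B ×ˢ univ : Set (ℂ × ℂ × ℂ)) ⊆ ball 0 1 ×ˢ univ := fun z hz =>
    ⟨hBball hz.1, hz.2⟩
  refine ⟨{ e := 1, e_le := le_rfl, B := B, isOpen_B := hBo, c₁_mem := hc1B
            u₁ := fun _ => f, u₂ := v, diff_b := hb.mono hBball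
            diff_u₁ := differentiableOn_const f, diff_u₂ := hvd.mono hBball
            b_mem := fun c hc => hV c (hBball hc)
            pr_u₁ := fun c hc => by
              rw [← q1_eq_pr hQ.hom, q1, (line_coeffs hQ.hom (hline c (hBball hc))).2.1, mul_zero]
            pr_u₂ := fun c hc => by rw [← q1_eq_pr hQ.hom]; exact hvT c
            indep := fun c hc => hδ c (hBsub hc).2
            d := fun z => z.2.2, h := fun _ => 1, q2 := P2, q3 := P3, q4 := P4
            diff_d := hs2.mono hBprod, diff_h := differentiableOn_const 1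
            diff_q2 := dP2.mono hBprod, diff_q3 := dP3.mono hBprod, diff_q4 := dP4.mono hBprod
            hom_d := fun c hc t s1 s2 => by simp
            hom_h := fun c hc t s1 s2 => by simp
            hom_q2 := fun c hc t s1 s2 => by simp only [hP2]; ring
            hom_q3 := fun c hc t s1 s2 => by simp only [hP3]; ring
            hom_q4 := fun c hc t s1 s2 => by simp only [hP4]; ring
            a := ![fun c => B0 c ^ 2 - 4 * (A0 c * G0 c),
              fun c => 2 * (B0 c * B1 c) - 4 * (A0 c * G1 c + A1 c * G0 c),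
              fun c => B1 c ^ 2 + 2 * (B0 c * B2 c) - 4 * (A0 c * G2 c + A1 c * G1 c),
              fun c => 2 * (B1 c * B2 c) - 4 * (A0 c * G3 c + A1 c * G2 c),
              fun c => B2 c ^ 2 - 4 * (A1 c * G3 c)]
            diff_a := fun i => by
              have t0 := dA0.mono hBball
              have t1 := dA1.mono hBball
              have t2 := dB0.mono hBball
              have t3 := dB1.mono hBball
              have t4 := dB2.mono hBball
              have t5 := dG0.mono hBball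
              have t6 := dG1.mono hBball
              have t7 := dG2.mono hBball
              have t8 := dG3.mono hBball
              fin_cases i
              · exact (t2.pow 2).sub ((t0.mul t5).const_mul 4)
              · exact ((t2.mul t3).const_mul 2).sub (((t0.mul t6).add (t1.mul t5)).const_mul 4)
              · exact ((t3.pow 2).add ((t2.mul t4).const_mul 2)).sub
                  (((t0.mul t7).add (t1.mul t6)).const_mul 4)
              · exact ((t3.mul t4).const_mul 2).sub (((t0.mul t8).add (t1.mul t7)).const_mul 4)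
              · exact (t4.pow 2).sub ((t1.mul t8).const_mul 4)
            expand := fun c hc l s1 s2 => by
              rw [hexp c (hBball hc)]
            disc := fun c hc s1 s2 => by
              simp only [quart, Fin.sum_univ_five, hP2, hP3, hP4, Matrix.cons_val_zero,
                Matrix.cons_val_one, Matrix.cons_val]
              simp
              ring
            nocommon := fun c hc s1 s2 hs ⟨h1, h2, h3⟩ => by
              obtain ⟨j, hj⟩ := hBn c hc s1 s2 hs
              apply hj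
              fin_cases j
              · exact h1
              · exact h2
              · exact h3 }⟩

end Crest.Agent.R279.Gen
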