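import Crest.Agent.R279.Gen269G
import Crest.Agent.R279.TypeL28

/-!
# R279, M14 (helper269): arc data, part H — type N, assembly; `arcTarget`
-/

set_option autoImplicit false

namespace Crest.Agent.R279.Gen

open MvPolynomial Metric Set Filter Topology EllAlg

variable {Q : MvPolynomial (Fin 4) ℂ}

theorem li_swap {p u v : C4} (h : LinearIndependent ℂ ![p, u, v]) :
    LinearIndependent ℂ ![p, v, u] := by
  rw [li3_iff] at h ⊢
  intro a s t h0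
  obtain ⟨h1, h2, h3⟩ := h a t s (by rw [← h0]; abel)
  exact ⟨h1, h3, h2⟩

/-- **TYPE N** -/
theorem arcAt_typeN (hQ : Alg.SmoothQuartic Q) {b : ℂ → C4} (hb : DifferentiableOn ℂ b (ball 0 1))
    (hD : ∀ c ∈ ball (0 : ℂ) 1, b c ∈ DD Q)
    (hN : ¬ ∃ e1 e2 : C4, LinearIndependent ℂ ![e1, e2] ∧
      (∀ l t : ℂ, eval (l • e1 + t • e2) Q = 0) ∧
      ∀ c ∈ ball (0 : ℂ) 1, ∃ l t : ℂ, b c = l • e1 + t • e2) :
    ∃ N0 : Set ℂ, N0.Countable ∧ ∀ c1 ∈ ball (0 : ℂ) 1 \ N0, Nonempty (ArcAt Q b c1) := by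
  have h0mem : (0 : ℂ) ∈ ball (0 : ℂ) 1 := by simp
  have hV : ∀ c ∈ ball (0 : ℂ) 1, b c ∈ Vstar Q := fun c hc => (hD c hc).1
  -- the frame
  obtain ⟨i, j, hij, hi, hj⟩ := LocEq.exists_ij hQ.hom (hV 0 h0mem).1 (hV 0 h0mem).2
    (hQ.smooth _ (hV 0 h0mem).1 (hV 0 h0mem).2)
  obtain ⟨k, l, hI⟩ := LocEq.exists_idx hij
  obtain ⟨u, hu, tu, hu0⟩ : ∃ u : ℂ → C4, DifferentiableOn ℂ u (ball 0 1) ∧
      (∀ c, q1 Q (b c) (u c) = 0) ∧ u 0 = LocEq.fr Q i k (b 0) :=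
    ⟨fun c => LocEq.fr Q i k (b c), (LocEq.differentiable_fr i k).comp_differentiableOn hb,
      fun c => LocEq.fr_mem_Tg hQ.hom i k (b c), rfl⟩
  obtain ⟨v, hv, tv, hv0⟩ : ∃ v : ℂ → C4, DifferentiableOn ℂ v (ball 0 1) ∧
      (∀ c, q1 Q (b c) (v c) = 0) ∧ v 0 = LocEq.fr Q i l (b 0) :=
    ⟨fun c => LocEq.fr Q i l (b c), (LocEq.differentiable_fr i l).comp_differentiableOn hb,
      fun c => LocEq.fr_mem_Tg hQ.hom i l (b c), rfl⟩
  have hli0 : LinearIndependent ℂ ![b 0, u 0, v 0] := by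
    rw [hu0, hv0]; exact LocEq.frame_li hI hi hj
  obtain ⟨δ, hδ, hδ0, hδli⟩ := exists_delta hb hu hv hli0
  have hZδ := zeros_countable hδ h0mem hδ0
  have hδo := open_diff_zero hδ
  have hspan : ∀ c ∈ ball (0 : ℂ) 1, δ c ≠ 0 → ∀ w : C4, q1 Q (b c) w = 0 →
      ∃ a s t : ℂ, w = a • b c + s • u c + t • v c := fun c hc hδc w hw =>
    span3 hQ (hV c hc).1 (hV c hc).2 (tu c) (tv c) (hδli c hδc) hw
  -- a moving line is impossible
  have hmove : ∀ (c1 : ℂ) (ρ : ℝ) (w : ℂ → C4), 0 < ρ → ball c1 ρ ⊆ ball 0 1 →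
      DifferentiableOn ℂ w (ball c1 ρ) → (∀ c ∈ ball c1 ρ, δ c ≠ 0 →
        LinearIndependent ℂ ![b c, w c]) → (∀ c ∈ ball c1 ρ, q1 Q (b c) (w c) = 0 ∧
        q2 Q (b c) (w c) = 0 ∧ q3 Q (b c) (w c) = 0 ∧ q4 Q (w c) = 0) → False := by
    intro c1 ρ w hρ hs hw hliw hq
    obtain ⟨c2, hc2, hc2δ⟩ : ∃ c2 ∈ ball c1 ρ, δ c2 ≠ 0 := by
      by_contra hcon
      push Not at hcon
      have h1 : (ball c1 ρ).Countable := hZδ.mono
        (show ball c1 ρ ⊆ {c | c ∈ ball (0 : ℂ) 1 ∧ δ c = 0} from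
          fun c hc => ⟨hs hc, hcon c hc⟩)
      have h2 := h1.measure_zero MeasureTheory.volume
      exact (Metric.measure_ball_pos MeasureTheory.volume c1 hρ).ne' h2
    obtain ⟨ρ2, hρ2, hs2⟩ := Metric.isOpen_iff.1 (isOpen_ball.inter hδo) c2
      ⟨hc2, hs hc2, hc2δ⟩
    apply hN
    refine line_of_moving hQ hb hρ2 (fun c hc => (hs2 hc).2.1) (hw.mono fun c hc => (hs2 hc).1)
      (fun c hc => hliw c (hs2 hc).1 (hs2 hc).2.2) ?_
    intro c hc l t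
    obtain ⟨h1, h2, h3, h4⟩ := hq c (hs2 hc).1
    rw [eval_comb_tangent hQ.hom (hV c (hs2 hc).2.1).2 h1, h2, h3, h4]
    ring
  -- no common roots, finite part
  have hbz : DifferentiableOn ℂ (fun z : ℂ × ℂ => b z.1) (ball 0 1 ×ˢ univ) :=
    hb.comp differentiableOn_fst (fun z hz => hz.1)
  have hwz : DifferentiableOn ℂ (fun z : ℂ × ℂ => z.2 • u z.1 + v z.1) (ball 0 1 ×ˢ univ) := by
    have h2 : DifferentiableOn ℂ (fun z : ℂ × ℂ => u z.1) (ball 0 1 ×ˢ univ) :=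
      hu.comp differentiableOn_fst (fun z hz => hz.1)
    have h3 : DifferentiableOn ℂ (fun z : ℂ × ℂ => v z.1) (ball 0 1 ×ˢ univ) :=
      hv.comp differentiableOn_fst (fun z hz => hz.1)
    exact (differentiableOn_snd.smul h2).add h3
  have hopen : IsOpen (ball (0 : ℂ) 1 ×ˢ (univ : Set ℂ)) := isOpen_ball.prod isOpen_univ
  set M : Fin 3 → ℂ × ℂ → ℂ := ![fun z => q2 Q (b z.1) (z.2 • u z.1 + v z.1),
    fun z => q3 Q (b z.1) (z.2 • u z.1 + v z.1), fun z => q4 Q (z.2 • u z.1 + v z.1)] with hM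
  have hMa : ∀ j, AnalyticOnNhd ℂ (M j) (ball 0 1 ×ˢ univ) := by
    intro j
    apply Crest.Agent.R266.SCV.analyticOnNhd_of_differentiableOn hopen
    fin_cases j
    · exact (Alg.differentiableOn_tens hbz hbz hwz hwz).const_mul 6
    · exact (Alg.differentiableOn_tens hbz hwz hwz hwz).const_mul 4
    · exact Alg.differentiableOn_tens hwz hwz hwz hwz
  have hMne : ∃ j0 X0, M j0 (0, X0) ≠ 0 := by
    by_contra hcon
    push Not at hcon
    have key : ∀ a s t : ℂ, t ≠ 0 → eval (a • b 0 + s • u 0 + t • v 0) Q = 0 := by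
      intro a s t ht
      have e2 : a • b 0 + s • u 0 + t • v 0 = a • b 0 + t • ((s / t) • u 0 + v 0) := by
        rw [smul_add, smul_smul, mul_div_cancel₀ _ ht, add_assoc]
      have hm : (s / t) • u 0 + v 0 ∈ Tg Q (b 0) :=
        (Tg Q (b 0)).add_mem ((Tg Q (b 0)).smul_mem _ (tu 0)) (tv 0)
      have m0 : q2 Q (b 0) ((s / t) • u 0 + v 0) = 0 := hcon 0 (s / t)
      have m1 : q3 Q (b 0) ((s / t) • u 0 + v 0) = 0 := hcon 1 (s / t)
      have m2 : q4 Q ((s / t) • u 0 + v 0) = 0 := hcon 2 (s / t)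
      rw [e2, eval_comb_tangent hQ.hom (hV 0 h0mem).2 hm, m0, m1, m2]
      ring
    refine no_plane hQ hli0 fun a s t => ?_
    have hc : Continuous fun τ : ℂ => eval (a • b 0 + s • u 0 + (t + τ) • v 0) Q :=
      (MvPolynomial.continuous_eval Q).comp (by fun_prop)
    have hev : ∀ᶠ τ in 𝓝[≠] (0 : ℂ), t + τ ≠ 0 := by
      by_cases ha : t = 0
      · subst ha
        filter_upwards [self_mem_nhdsWithin] with τ hτ
        simpa using hτ
      · have h1 : ContinuousAt (fun τ : ℂ => t + τ) 0 := by fun_prop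
        exact nhdsWithin_le_nhds (h1.eventually_ne (by simpa using ha))
    have := eq_zero_at_zero hc (by
      filter_upwards [hev] with τ hτ
      exact key _ _ _ hτ)
    simpa using this
  have hZfin : {c : ℂ | c ∈ ball (0 : ℂ) 1 ∧ ∃ X, ∀ j, M j (c, X) = 0}.Countable := by
    by_contra hunc
    obtain ⟨j0, X0, hj0⟩ := hMne
    obtain ⟨c1, ρ, χ, hρ, hs, hχ, hall⟩ := family_root hMa h0mem hj0 hunc
    refine hmove c1 ρ (fun c => χ c • u c + v c) hρ hs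
      ((hχ.smul (hu.mono hs)).add (hv.mono hs)) ?_ ?_
    · intro c hc hδc
      rw [LinearIndependent.pair_iff]
      intro a t h
      obtain ⟨h1, h2, h3⟩ := li3_iff.1 (hδli c hδc) a (t * χ c) t (by rw [← h]; module)
      exact ⟨h1, h3⟩
    · intro c hc
      exact ⟨(Tg Q (b c)).add_mem ((Tg Q (b c)).smul_mem _ (tu c)) (tv c),
        hall c hc 0, hall c hc 1, hall c hc 2⟩
  -- no common roots, infinite part
  have hZinf : {c : ℂ | c ∈ ball (0 : ℂ) 1 ∧ q2 Q (b c) (u c) = 0 ∧ q3 Q (b c) (u c) = 0 ∧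
      q4 Q (u c) = 0}.Countable := by
    by_cases h2 : ∃ c ∈ ball (0 : ℂ) 1, q2 Q (b c) (u c) ≠ 0
    · obtain ⟨c0, hc0, hne⟩ := h2
      have hz := zeros_countable (f := fun c => q2 Q (b c) (u c))
        ((Alg.differentiableOn_tens hb hb hu hu).const_mul 6) hc0 hne
      refine hz.mono ?_
      rintro c ⟨hc, hc2, -, -⟩
      exact ⟨hc, hc2⟩
    by_cases h3 : ∃ c ∈ ball (0 : ℂ) 1, q3 Q (b c) (u c) ≠ 0
    · obtain ⟨c0, hc0, hne⟩ := h3
      have hz := zeros_countable (f := fun c => q3 Q (b c) (u c))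
        ((Alg.differentiableOn_tens hb hu hu hu).const_mul 4) hc0 hne
      refine hz.mono ?_
      rintro c ⟨hc, -, hc3, -⟩
      exact ⟨hc, hc3⟩
    by_cases h4 : ∃ c ∈ ball (0 : ℂ) 1, q4 Q (u c) ≠ 0
    · obtain ⟨c0, hc0, hne⟩ := h4
      have hz := zeros_countable (f := fun c => q4 Q (u c))
        (Alg.differentiableOn_tens hu hu hu hu) hc0 hne
      refine hz.mono ?_
      rintro c ⟨hc, -, -, hc4⟩
      exact ⟨hc, hc4⟩
    exfalso
    push Not at h2 h3 h4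
    refine hmove 0 1 u one_pos Subset.rfl hu ?_ fun c hc => ⟨tu c, h2 c hc, h3 c hc, h4 c hc⟩
    intro c hc hδc
    rw [LinearIndependent.pair_iff]
    intro a t h
    obtain ⟨h1, h2, h3⟩ := li3_iff.1 (hδli c hδc) a t 0 (by rw [← h]; module)
    exact ⟨h1, h2⟩
  -- no common roots
  have hnc : ∀ c1 ∈ ball (0 : ℂ) 1,
      c1 ∉ {c : ℂ | c ∈ ball (0 : ℂ) 1 ∧ ∃ X, ∀ j, M j (c, X) = 0} →
      c1 ∉ {c : ℂ | c ∈ ball (0 : ℂ) 1 ∧ q2 Q (b c) (u c) = 0 ∧ q3 Q (b c) (u c) = 0 ∧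
        q4 Q (u c) = 0} →
      ∀ s₁ s₂ : ℂ, (s₁ ≠ 0 ∨ s₂ ≠ 0) → ¬ (q2 Q (b c1) (s₁ • u c1 + s₂ • v c1) = 0 ∧
        q3 Q (b c1) (s₁ • u c1 + s₂ • v c1) = 0 ∧ q4 Q (s₁ • u c1 + s₂ • v c1) = 0) := by
    rintro c1 hc1 hn1 hn2 s t hst ⟨z2, z3, z4⟩
    by_cases ht : t = 0
    · subst ht
      have hs : s ≠ 0 := by simpa using hst
      rw [zero_smul, add_zero] at z2 z3 z4
      rw [q2_smul_right] at z2
      rw [q3_smul_right] at z3
      rw [q4_smul] at z4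
      exact hn2 ⟨hc1, (mul_eq_zero.1 z2).resolve_left (pow_ne_zero _ hs),
        (mul_eq_zero.1 z3).resolve_left (pow_ne_zero _ hs),
        (mul_eq_zero.1 z4).resolve_left (pow_ne_zero _ hs)⟩
    · have e2 : s • u c1 + t • v c1 = t • ((s / t) • u c1 + v c1) := by
        rw [smul_add, smul_smul, mul_div_cancel₀ _ ht]
      rw [e2] at z2 z3 z4
      rw [q2_smul_right] at z2
      rw [q3_smul_right] at z3
      rw [q4_smul] at z4
      refine hn1 ⟨hc1, s / t, fun j => ?_⟩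
      fin_cases j
      · exact (mul_eq_zero.1 z2).resolve_left (pow_ne_zero _ ht)
      · exact (mul_eq_zero.1 z3).resolve_left (pow_ne_zero _ ht)
      · exact (mul_eq_zero.1 z4).resolve_left (pow_ne_zero _ ht)
  by_cases hcase : ∃ c0 ∈ ball (0 : ℂ) 1, ∃ X0 : ℂ, X0 ≠ 0 ∧ g6 Q (b c0) (X0 • u c0 + v c0) ≠ 0
  · -- the sextic is not identically zero
    obtain ⟨c0, hc0, X0, hX0, hne0⟩ := hcase
    set f : ℂ → ℂ := fun c => g6 Q (b c) (X0 • u c + v c) with hf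
    have hfd : DifferentiableOn ℂ f (ball 0 1) :=
      Differentiable.comp_differentiableOn (g := fun z : C4 × C4 => g6 Q z.1 z.2)
        (f := fun c : ℂ => (b c, X0 • u c + v c)) (differentiable_g6 (Q := Q))
        (hb.prodMk ((hu.const_smul X0).add hv))
    have hZf := zeros_countable hfd hc0 hne0
    have hfo := open_diff_zero hfd
    set U : Set ℂ := {c | c ∈ ball (0 : ℂ) 1 ∧ δ c ≠ 0} ∩ {c | c ∈ ball (0 : ℂ) 1 ∧ f c ≠ 0}
      with hU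
    have hUo : IsOpen U := hδo.inter hfo
    have hUs : U ⊆ ball 0 1 := fun c hc => hc.1.1
    obtain ⟨N1, hN1, h1⟩ := typeN_chart hQ hb hu hv hV (fun c _ => tu c) (fun c _ => tv c) hUo hUs
      (fun c hc => hδli c hc.1.2) (fun c hc => ⟨X0, hc.2.2⟩)
    obtain ⟨N2, hN2, h2⟩ := typeN_chart hQ hb hv hu hV (fun c _ => tv c) (fun c _ => tu c) hUo hUs
      (fun c hc => li_swap (hδli c hc.1.2)) (fun c hc => ⟨X0⁻¹, by
        intro hz
        apply hc.2.2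
        have e : X0 • u c + v c = X0 • (X0⁻¹ • v c + u c) := by
          rw [smul_add, smul_smul, mul_inv_cancel₀ hX0, one_smul, add_comm]
        simp only [hf]
        rw [e, g6_smul_right, hz, mul_zero]⟩)
    refine ⟨{c | c ∈ ball (0 : ℂ) 1 ∧ δ c = 0} ∪ {c | c ∈ ball (0 : ℂ) 1 ∧ f c = 0} ∪
      {c : ℂ | c ∈ ball (0 : ℂ) 1 ∧ ∃ X, ∀ j, M j (c, X) = 0} ∪
      {c : ℂ | c ∈ ball (0 : ℂ) 1 ∧ q2 Q (b c) (u c) = 0 ∧ q3 Q (b c) (u c) = 0 ∧
        q4 Q (u c) = 0} ∪ N1 ∪ N2,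
      ((((hZδ.union hZf).union hZfin).union hZinf).union hN1).union hN2, ?_⟩
    rintro c1 ⟨hc1, hout⟩
    simp only [mem_union, not_or] at hout
    obtain ⟨⟨⟨⟨⟨o1, o2⟩, o3⟩, o4⟩, o5⟩, o6⟩ := hout
    have hδ1 : δ c1 ≠ 0 := fun h => o1 ⟨hc1, h⟩
    have hf1 : f c1 ≠ 0 := fun h => o2 ⟨hc1, h⟩
    have hc1U : c1 ∈ U := ⟨⟨hc1, hδ1⟩, ⟨hc1, hf1⟩⟩
    have hnc1 := hnc c1 hc1 o3 o4
    rcases root_cases hQ.hom (hV c1 hc1).2 (tu c1) (tv c1) (hspan c1 hc1 hδ1) (hD c1 hc1).2 with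
      ⟨X, hX1, hX2⟩ | ⟨X, hX1, hX2⟩
    · exact h1 c1 ⟨hc1U, o5⟩ X hX1 hX2 hnc1
    · refine h2 c1 ⟨hc1U, o6⟩ X hX1 hX2 ?_
      intro s t hst h
      refine hnc1 t s hst.symm ?_
      rw [add_comm (t • u c1)]
      exact h
  · -- the sextic is identically zero
    push Not at hcase
    have hg : ∀ c ∈ ball (0 : ℂ) 1, ∀ s t : ℂ, g6 Q (b c) (s • u c + t • v c) = 0 :=
      fun c hc s t => g6_eq_zero_of_chart (fun X hX => hcase c hc X hX) s t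
    refine ⟨{c | c ∈ ball (0 : ℂ) 1 ∧ δ c = 0} ∪
      {c : ℂ | c ∈ ball (0 : ℂ) 1 ∧ ∃ X, ∀ j, M j (c, X) = 0} ∪
      {c : ℂ | c ∈ ball (0 : ℂ) 1 ∧ q2 Q (b c) (u c) = 0 ∧ q3 Q (b c) (u c) = 0 ∧
        q4 Q (u c) = 0}, (hZδ.union hZfin).union hZinf, ?_⟩
    rintro c1 ⟨hc1, hout⟩
    simp only [mem_union, not_or] at hout
    obtain ⟨⟨o1, o3⟩, o4⟩ := hout
    have hδ1 : δ c1 ≠ 0 := fun h => o1 ⟨hc1, h⟩
    have hUs : {c | c ∈ ball (0 : ℂ) 1 ∧ δ c ≠ 0} ⊆ ball 0 1 := fun c hc => hc.1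
    refine (preN (u := u) (v := v) hQ.hom hδo (c₁ := c1) ⟨hc1, hδ1⟩ (hb.mono hUs) (hu.mono hUs)
      (hv.mono hUs) (fun c hc => hV c hc.1) (fun c _ => tu c) (fun c _ => tv c)
      (fun c hc => hδli c hc.2) (fun z => z.2.1) (by fun_prop)
      (fun c _ t s₁ s₂ => rfl) (fun _ _ => 0) (fun _ => differentiableOn_const _) ?_).nonempty ?_
    · intro c hc s t
      rw [hg c hc.1, quart]
      simp
    · exact hnc c1 hc1 o3 o4

/-- **ARC DATA** (A10 (iii), (iv)). -/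
theorem arcTarget (hQ : Alg.SmoothQuartic Q) : ArcTarget Q := by
  intro b hb hD hnc
  by_cases hN : ∃ e1 e2 : C4, LinearIndependent ℂ ![e1, e2] ∧
      (∀ l t : ℂ, eval (l • e1 + t • e2) Q = 0) ∧
      ∀ c ∈ ball (0 : ℂ) 1, ∃ l t : ℂ, b c = l • e1 + t • e2
  · obtain ⟨e1, e2, hli, hL, hmem⟩ := hN
    exact arcAt_typeL hQ hb (fun c hc => (hD c hc).1) hnc hli hL hmem
  · exact arcAt_typeN hQ hb hD hN

end Crest.Agent.R279.Gen
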