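import Mathlib

/-!
# R279 (helper471): vanishing of homogeneous functions of negative degree on compact cones

`NoStrictMax G`: local maximum principle on the cone `G` (a curve in the surface `X`).
`hom_vanish`: a locally holomorphic function on `G \ S`, homogeneous of degree `-m < 0`, which tends
to `0` at `S`, vanishes identically.
-/

set_option autoImplicit false

namespace Crest.Agent.R279.HV

open Filter Topology

/-- Local maximum principle on the cone `G`: a holomorphic function near a point `p` of `G` has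
points `q ∈ G` arbitrarily near `p`, not proportional to `p`, with `‖f q‖ ≥ ‖f p‖`. -/
def NoStrictMax (G : Set (Fin 4 → ℂ)) : Prop :=
  ∀ p ∈ G, ∀ f : (Fin 4 → ℂ) → ℂ, ∀ U : Set (Fin 4 → ℂ), IsOpen U → p ∈ U →
    DifferentiableOn ℂ f U → ∀ N ∈ 𝓝 p, ∃ q ∈ G, q ∈ N ∧ LinearIndependent ℂ ![p, q] ∧
      ‖f p‖ ≤ ‖f q‖

/-- Hermitian norm -/
noncomputable def nrm (q : Fin 4 → ℂ) : ℝ := ‖(WithLp.toLp 2 q : EuclideanSpace ℂ (Fin 4))‖

/-- Hermitian product with `p` as a linear function of `q` -/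
noncomputable def herm (p q : Fin 4 → ℂ) : ℂ := ∑ i, (starRingEnd ℂ) (p i) * q i

theorem herm_eq_inner (p q : Fin 4 → ℂ) :
    herm p q = inner ℂ (WithLp.toLp 2 p : EuclideanSpace ℂ (Fin 4)) (WithLp.toLp 2 q) := by
  rw [PiLp.inner_apply]
  simp [herm, mul_comm]

theorem nrm_smul (s : ℂ) (q : Fin 4 → ℂ) : nrm (s • q) = ‖s‖ * nrm q := by
  rw [nrm, nrm, WithLp.toLp_smul, norm_smul]

theorem nrm_pos {q : Fin 4 → ℂ} (hq : q ≠ 0) : 0 < nrm q := by
  rw [nrm, norm_pos_iff]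
  intro h
  apply hq
  have := congrArg WithLp.ofLp h
  simpa using this

theorem continuous_nrm : Continuous nrm := by
  unfold nrm
  exact continuous_norm.comp (PiLp.continuous_toLp 2 _)

theorem norm_herm_self (p : Fin 4 → ℂ) : ‖herm p p‖ = nrm p ^ 2 := by
  rw [herm_eq_inner, inner_self_eq_norm_sq_to_K, nrm]
  simp

theorem norm_herm_lt {p q : Fin 4 → ℂ} (h : LinearIndependent ℂ ![p, q]) :
    ‖herm p q‖ < nrm p * nrm q := by
  have hp : p ≠ 0 := by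
    intro h0
    have := h.ne_zero 0
    simp [h0] at this
  have hq : q ≠ 0 := by
    intro h0
    have := h.ne_zero 1
    simp [h0] at this
  rw [herm_eq_inner]
  refine lt_of_le_of_ne (norm_inner_le_norm _ _) ?_
  intro heq
  have hp' : (WithLp.toLp 2 p : EuclideanSpace ℂ (Fin 4)) ≠ 0 := by
    intro h0; exact hp (by simpa using congrArg WithLp.ofLp h0)
  have hq' : (WithLp.toLp 2 q : EuclideanSpace ℂ (Fin 4)) ≠ 0 := by
    intro h0; exact hq (by simpa using congrArg WithLp.ofLp h0)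
  obtain ⟨r, hr, hqr⟩ := (norm_inner_eq_norm_iff hp' hq').1 heq
  have hqr' : q = r • p := by simpa using congrArg WithLp.ofLp hqr
  rw [LinearIndependent.pair_iff] at h
  have := h r (-1) (by rw [hqr']; simp)
  simp at this

theorem differentiable_herm (p : Fin 4 → ℂ) : Differentiable ℂ (herm p) := by
  unfold herm
  fun_prop

theorem isCompact_sphere {G : Set (Fin 4 → ℂ)}
    (hGcl : ∀ q : Fin 4 → ℂ, q ≠ 0 → q ∈ closure G → q ∈ G) :
    IsCompact {q : Fin 4 → ℂ | q ∈ G ∧ nrm q = 1} := by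
  refine Metric.isCompact_of_isClosed_isBounded ?_ ?_
  · rw [← isSeqClosed_iff_isClosed]
    intro u q hu hq
    have h1 : nrm q = 1 := by
      have h2 : Tendsto (fun n => nrm (u n)) atTop (𝓝 (nrm q)) :=
        (continuous_nrm.tendsto q).comp hq
      have h3 : Tendsto (fun n => nrm (u n)) atTop (𝓝 1) := by
        have : (fun n => nrm (u n)) = fun _ => (1 : ℝ) := by
          funext n; exact (hu n).2
        rw [this]; exact tendsto_const_nhds
      exact tendsto_nhds_unique h2 h3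
    refine ⟨hGcl q ?_ ?_, h1⟩
    · intro h0
      rw [h0] at h1
      simp [nrm] at h1
    · exact mem_closure_of_tendsto hq (Eventually.of_forall fun n => (hu n).1)
  · have : {q : Fin 4 → ℂ | q ∈ G ∧ nrm q = 1} ⊆ Metric.closedBall 0 1 := by
      intro q hq
      rw [mem_closedBall_zero_iff, pi_norm_le_iff_of_nonneg zero_le_one]
      intro i
      have h2 := PiLp.norm_apply_le (WithLp.toLp 2 q : EuclideanSpace ℂ (Fin 4)) i
      have h3 := hq.2
      rw [nrm] at h3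
      rw [h3] at h2
      simpa using h2
    exact Metric.isBounded_closedBall.subset this

/-- A locally holomorphic function on `G \ S`, homogeneous of degree `-m`, `m ≥ 1`, tending to `0`
at `S`, is zero. -/
theorem hom_vanish {G S : Set (Fin 4 → ℂ)} (hG0 : ∀ q ∈ G, q ≠ 0)
    (hGc : ∀ q ∈ G, ∀ s : ℂ, s ≠ 0 → s • q ∈ G)
    (hGcl : ∀ q : Fin 4 → ℂ, q ≠ 0 → q ∈ closure G → q ∈ G)
    (hM : NoStrictMax G) {m : ℕ} (hm : 1 ≤ m) (ψ : (Fin 4 → ℂ) → ℂ)
    (hS : ∀ q ∈ G, q ∉ S → ∀ s : ℂ, s ≠ 0 → s • q ∉ S)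
    (hψ : ∀ p ∈ G, p ∉ S → ∃ U : Set (Fin 4 → ℂ), IsOpen U ∧ p ∈ U ∧ DifferentiableOn ℂ ψ U ∧
      ∀ q ∈ U, q ∈ G → q ∉ S)
    (hhom : ∀ q ∈ G, q ∉ S → ∀ s : ℂ, s ≠ 0 → ψ (s • q) = (s ^ m)⁻¹ * ψ q)
    (hlim : ∀ p ∈ G, p ∈ S → ∀ ε : ℝ, 0 < ε → ∃ N ∈ 𝓝 p, ∀ q ∈ N, q ∈ G → q ∉ S → ‖ψ q‖ < ε) :
    ∀ q ∈ G, q ∉ S → ψ q = 0 := by
  classical
  intro q₀ hq₀ hq₀S
  by_contra hne
  set K : Set (Fin 4 → ℂ) := {q : Fin 4 → ℂ | q ∈ G ∧ nrm q = 1} with hK
  have hKc : IsCompact K := isCompact_sphere hGcl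
  -- normalisation
  have hnorm : ∀ q ∈ G, (((nrm q : ℝ) : ℂ)⁻¹) • q ∈ K := by
    intro q hq
    have h1 := nrm_pos (hG0 q hq)
    refine ⟨hGc q hq _ (inv_ne_zero (by exact_mod_cast h1.ne')), ?_⟩
    rw [nrm_smul, norm_inv, Complex.norm_real, Real.norm_eq_abs, abs_of_pos h1]
    exact inv_mul_cancel₀ h1.ne'
  set Φ : (Fin 4 → ℂ) → ℝ := fun q => if q ∈ S then 0 else ‖ψ q‖ with hΦ
  have hcont : ContinuousOn Φ K := by
    intro p hp
    by_cases hpS : p ∈ S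
    · have hΦp : Φ p = 0 := by simp [hΦ, hpS]
      rw [ContinuousWithinAt, hΦp, Metric.tendsto_nhds]
      intro ε hε
      obtain ⟨N, hN, hNε⟩ := hlim p hp.1 hpS ε hε
      filter_upwards [mem_nhdsWithin_of_mem_nhds hN, self_mem_nhdsWithin] with q hqN hqK
      by_cases hqS : q ∈ S
      · simp [hΦ, hqS, hε]
      · simp only [hΦ, hqS, if_false, dist_zero_right, norm_norm]
        exact hNε q hqN hqK.1 hqS
    · obtain ⟨U, hU, hpU, hψU, hUS⟩ := hψ p hp.1 hpS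
      have h1 : ContinuousAt (fun q => ‖ψ q‖) p :=
        ((hψU.continuousOn.continuousAt (hU.mem_nhds hpU))).norm
      have h2 : Φ =ᶠ[𝓝[K] p] fun q => ‖ψ q‖ := by
        filter_upwards [mem_nhdsWithin_of_mem_nhds (hU.mem_nhds hpU), self_mem_nhdsWithin]
          with q hqU hqK
        simp [hΦ, hUS q hqU hqK.1]
      exact (h1.continuousWithinAt).congr_of_eventuallyEq h2 (by simp [hΦ, hpS])
  obtain ⟨p, hpK, hpmax⟩ := hKc.exists_isMaxOn ⟨_, hnorm q₀ hq₀⟩ hcont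
  have hq₀pos := nrm_pos (hG0 q₀ hq₀)
  have hs0 : (((nrm q₀ : ℝ) : ℂ)⁻¹) ≠ 0 := inv_ne_zero (by exact_mod_cast hq₀pos.ne')
  have hΦp : 0 < Φ p := by
    have h1 : Φ ((((nrm q₀ : ℝ) : ℂ)⁻¹) • q₀) ≤ Φ p := hpmax (hnorm q₀ hq₀)
    refine lt_of_lt_of_le ?_ h1
    have h2 := hS q₀ hq₀ hq₀S _ hs0
    simp only [hΦ, h2, if_false]
    rw [norm_pos_iff, hhom q₀ hq₀ hq₀S _ hs0]
    exact mul_ne_zero (inv_ne_zero (pow_ne_zero _ hs0)) hne
  have hpS : p ∉ S := by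
    intro h
    simp [hΦ, h] at hΦp
  have hΦp' : Φ p = ‖ψ p‖ := by simp [hΦ, hpS]
  obtain ⟨U, hU, hpU, hψU, hUS⟩ := hψ p hpK.1 hpS
  obtain ⟨q, hqG, hqU, hli, hle⟩ := hM p hpK.1 (fun q => herm p q ^ m * ψ q) U hU hpU
    (((differentiable_herm p).differentiableOn.pow m).mul hψU) U (hU.mem_nhds hpU)
  have hqS := hUS q hqU hqG
  have hqpos := nrm_pos (hG0 q hqG)
  have hs : (((nrm q : ℝ) : ℂ)⁻¹) ≠ 0 := inv_ne_zero (by exact_mod_cast hqpos.ne')
  have h1 : Φ ((((nrm q : ℝ) : ℂ)⁻¹) • q) ≤ Φ p := hpmax (hnorm q hqG)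
  have h2 := hS q hqG hqS _ hs
  simp only [hΦ, h2, hpS, if_false] at h1
  rw [hhom q hqG hqS _ hs, norm_mul, norm_inv, norm_pow, norm_inv, Complex.norm_real,
    Real.norm_eq_abs, abs_of_pos hqpos, inv_pow, inv_inv] at h1
  have h3 : ‖herm p q‖ < nrm q := by
    have := norm_herm_lt hli
    rwa [hpK.2, one_mul] at this
  simp only [norm_mul, norm_pow, norm_herm_self, hpK.2, one_pow, one_mul] at hle
  have hψp : 0 < ‖ψ p‖ := by rw [← hΦp']; exact hΦp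
  -- ‖ψ p‖ ≤ ‖herm p q‖ ^ m * ‖ψ q‖ < nrm q ^ m * ‖ψ q‖ ≤ ‖ψ p‖
  have hψq : 0 < ‖ψ q‖ := by
    by_contra h
    have h0 : ‖ψ q‖ = 0 := le_antisymm (not_lt.1 h) (norm_nonneg _)
    rw [h0, mul_zero] at hle
    linarith
  have h4 : ‖herm p q‖ ^ m < nrm q ^ m :=
    pow_lt_pow_left₀ h3 (norm_nonneg _) (by omega)
  have h5 : ‖herm p q‖ ^ m * ‖ψ q‖ < nrm q ^ m * ‖ψ q‖ :=
    mul_lt_mul_of_pos_right h4 hψq
  linarith

end Crest.Agent.R279.HV
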