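import Crest.Agent.R279.MaxB855
import Crest.Agent.R279.HomVanish471
import Crest.Agent.R279.Boot556
import Crest.Agent.R279.AlgDefs149

/-!
R279 (S0422), Part 8, A6 (helper855): the local maximum principle `NoStrictMax` for cones in the
surface which are locally the zero set of one holomorphic function.
-/

set_option autoImplicit false

noncomputable section

open Set Filter Topology Metric Complex MvPolynomial

namespace Crest.Agent.R279.MaxP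

theorem noStrictMax_of_local {Q : MvPolynomial (Fin 4) ℂ} {d : ℕ} (hQ : Q.IsHomogeneous d)
    (hsmooth : ∀ p : Fin 4 → ℂ, p ≠ 0 → eval p Q = 0 → ∃ i : Fin 4, eval p (pderiv i Q) ≠ 0)
    {G : Set (Fin 4 → ℂ)} (hG : ∀ p ∈ G, p ≠ 0 ∧ eval p Q = 0)
    (hloc : ∀ p ∈ G, ∃ (O : Set (Fin 4 → ℂ)) (F : (Fin 4 → ℂ) → ℂ), IsOpen O ∧ p ∈ O ∧
      DifferentiableOn ℂ F O ∧ ∀ q ∈ O, q ≠ 0 → eval q Q = 0 → (q ∈ G ↔ F q = 0)) :
    HV.NoStrictMax G := by
  intro p hp f U hU hpU hf N hN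
  obtain ⟨hp0, hpQ⟩ := hG p hp
  obtain ⟨O, F, hO, hpO, hF, hFG⟩ := hloc p hp
  obtain ⟨C, _⟩ := Boot.exists_chart hQ hp0 hpQ (hsmooth p hp0 hpQ) one_pos
  have h0r : (0 : ℂ × ℂ) ∈ ball (0 : ℂ × ℂ) C.r := mem_ball_self C.r_pos
  have hxc : ContinuousAt C.x 0 :=
    (C.diff_x.differentiableAt (ball_mem_nhds 0 C.r_pos)).continuousAt
  have hmem : ∀ᶠ z in 𝓝 (0 : ℂ × ℂ), C.x z ∈ U ∩ O ∩ N := by
    refine hxc.eventually ?_
    rw [C.x_zero]
    exact inter_mem (inter_mem (hU.mem_nhds hpU) (hO.mem_nhds hpO)) hN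
  obtain ⟨e, he, hsub⟩ := Metric.eventually_nhds_iff_ball.1 hmem
  have hr' : 0 < min e C.r := lt_min he C.r_pos
  have hs1 : ball (0 : ℂ × ℂ) (min e C.r) ⊆ ball 0 e := ball_subset_ball (min_le_left _ _)
  have hs2 : ball (0 : ℂ × ℂ) (min e C.r) ⊆ ball 0 C.r := ball_subset_ball (min_le_right _ _)
  have hgd : DifferentiableOn ℂ (fun z => F (C.x z)) (ball (0 : ℂ × ℂ) (min e C.r)) :=
    hF.comp (C.diff_x.mono hs2) (fun z hz => (hsub z (hs1 hz)).1.2)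
  have hφd : DifferentiableOn ℂ (fun z => f (C.x z)) (ball (0 : ℂ × ℂ) (min e C.r)) :=
    hf.comp (C.diff_x.mono hs2) (fun z hz => (hsub z (hs1 hz)).1.1)
  have hg0 : F (C.x 0) = 0 := by
    rw [C.x_zero]
    exact (hFG p hpO hp0 hpQ).1 hp
  obtain ⟨z, hz, hz0, hgz, hφz⟩ := exists_norm_le hr' hgd hφd hg0
  obtain ⟨⟨hzU, hzO⟩, hzN⟩ := hsub z (hs1 hz)
  have hzS := (C.x_mem z (hs2 hz)).1
  refine ⟨C.x z, (hFG _ hzO hzS.1 hzS.2).2 hgz, hzN, ?_, ?_⟩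
  · rw [LinearIndependent.pair_iff' hp0]
    intro t ht
    have ha1 : C.a p = 1 := by
      have := C.a_x 0 h0r
      rwa [C.x_zero] at this
    have h1 : t = 1 := by
      have h2 := congrArg C.a ht
      rw [map_smul, ha1, C.a_x z (hs2 hz), smul_eq_mul, mul_one] at h2
      exact h2
    rw [h1, one_smul] at ht
    apply hz0
    have h3 := C.b_x z (hs2 hz)
    rw [← ht] at h3
    have h4 := C.b_x 0 h0r
    rw [C.x_zero] at h4
    rw [← h3, h4]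
  · simpa [C.x_zero] using hφz

/-- the polar section `Γ_x` -/
theorem noStrictMax_polar {Q : MvPolynomial (Fin 4) ℂ} (hQ : Q.IsHomogeneous 4)
    (hsmooth : ∀ p : Fin 4 → ℂ, p ≠ 0 → eval p Q = 0 → ∃ i : Fin 4, eval p (pderiv i Q) ≠ 0)
    (x : Fin 4 → ℂ) :
    HV.NoStrictMax {p : Fin 4 → ℂ | (p ≠ 0 ∧ eval p Q = 0) ∧ q1 Q p x = 0} := by
  refine noStrictMax_of_local hQ hsmooth (fun p hp => hp.1) (fun p _ => ?_)
  refine ⟨univ, fun p => q1 Q p x, isOpen_univ, mem_univ _, ?_, ?_⟩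
  · refine Differentiable.differentiableOn ?_
    unfold q1 tens
    fun_prop
  · intro q _ hq0 hqQ
    exact ⟨fun h => h.2, fun h => ⟨⟨hq0, hqQ⟩, h⟩⟩

end Crest.Agent.R279.MaxP
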