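import Crest.Agent.R279.MaxG855
import Crest.Agent.R279.Impl545
import Crest.Agent.R279.MaxC855
import Crest.Agent.R279.Deriv556

/-!
R279 (S0422), Part 8, A6 (helper855): THEOREM E. A nonempty relatively closed cone in `V*` with the
local maximum principle meets `D`.
-/

set_option autoImplicit false
set_option linter.all false

noncomputable section

open Set Filter Topology Metric Complex MvPolynomial

namespace Crest.Agent.R279.MaxP

open HV

variable {Q : MvPolynomial (Fin 4) ℂ}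

/-- dependent pairs have `D4 = 0` -/
lemma LI_of_D4 {q v w n : V4} (h : D4 q v w n ≠ 0) : LinearIndependent ℂ ![q, v] := by
  have hq : q ≠ 0 := by
    intro h0; apply h; rw [h0]; simp [D4]
  rw [LI_iff hq]
  intro c hc
  apply h
  rw [← hc]
  simp only [D4, Pi.smul_apply, smul_eq_mul]
  ring

/-- the local holomorphic root through a simple root -/
lemma local_root (hQ : Q.IsHomogeneous 4) {p u w n : V4} (hp : eval p Q = 0) (hu : u ∈ Tg Q p)
    (hg : g6 Q p u = 0) (hw : w ∈ Tg Q p) (hn : q1 Q p n ≠ 0) (hd : dg6 Q p u w ≠ 0) :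
    ∃ (W : Set V4) (U : V4 → V4), IsOpen W ∧ p ∈ W ∧ DifferentiableOn ℂ U W ∧ U p = u ∧
      ∀ q ∈ W, q1 Q q (U q) = 0 ∧ g6 Q q (U q) = 0 ∧ ∃ a b : ℂ, U q = u + a • w + b • n := by
  have hdq : ∀ v : V4, Differentiable ℂ (fun q : V4 => q1 Q q v) := by
    intro v
    have h1 : Differentiable ℂ (fun q : V4 => ((q, v) : V4 × V4)) := by fun_prop
    have := (differentiable_q1 Q).comp h1
    simpa [Function.comp_def] using this
  set O : Set (V4 × ℂ) := {z | q1 Q z.1 n ≠ 0} with hO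
  have hOo : IsOpen O :=
    isOpen_ne_fun ((hdq n).continuous.comp continuous_fst) continuous_const
  set b : V4 × ℂ → ℂ := fun z => -(q1 Q z.1 u + z.2 * q1 Q z.1 w) * (q1 Q z.1 n)⁻¹ with hb
  set UU : V4 × ℂ → V4 := fun z => u + z.2 • w + b z • n with hUU
  set N : V4 × ℂ → ℂ := fun z => g6 Q z.1 (UU z) with hN
  have hdfst : ∀ v : V4, Differentiable ℂ (fun z : V4 × ℂ => q1 Q z.1 v) := fun v =>
    (hdq v).comp differentiable_fst
  have hbd : DifferentiableOn ℂ b O := by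
    have h1 : DifferentiableOn ℂ (fun z : V4 × ℂ => -(q1 Q z.1 u + z.2 * q1 Q z.1 w)) O :=
      (((hdfst u).add (differentiable_snd.mul (hdfst w))).neg).differentiableOn
    have h2 : DifferentiableOn ℂ (fun z : V4 × ℂ => q1 Q z.1 n) O := (hdfst n).differentiableOn
    have h3 : ∀ z ∈ O, q1 Q z.1 n ≠ 0 := fun z hz => hz
    exact h1.mul (h2.fun_inv h3)
  have hUd : DifferentiableOn ℂ UU O := by
    refine DifferentiableOn.add ?_ (hbd.smul (differentiableOn_const n))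
    exact ((differentiable_const u).add (differentiable_snd.smul_const w)).differentiableOn
  have hNd : DifferentiableOn ℂ N O := by
    have h1 : DifferentiableOn ℂ (fun z : V4 × ℂ => ((z.1, UU z) : V4 × V4)) O :=
      differentiable_fst.differentiableOn.prodMk hUd
    have h2 := (differentiable_g6 Q).comp_differentiableOn h1
    exact h2
  have hpO : ((p, (0:ℂ)) : V4 × ℂ) ∈ O := hn
  have hbp : ∀ a : ℂ, b (p, a) = 0 := by
    intro a
    simp only [hb]
    rw [mem_Tg.1 hu, mem_Tg.1 hw]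
    simp
  have hUp : ∀ a : ℂ, UU (p, a) = u + a • w := by
    intro a
    simp only [hUU]
    rw [hbp, zero_smul, add_zero]
  have hNp : ∀ a : ℂ, N (p, a) = g6 Q p (u + a • w) := by
    intro a
    simp only [hN]
    rw [hUp]
  have hN0 : N (p, 0) = 0 := by rw [hNp, zero_smul, add_zero, hg]
  have hfd : fderiv ℂ N (p, 0) (0, 1) ≠ 0 := by
    have h1 : HasFDerivAt N (fderiv ℂ N (p, 0)) (p, 0) :=
      (hNd.differentiableAt (hOo.mem_nhds hpO)).hasFDerivAt
    have h2 : HasDerivAt (fun a : ℂ => ((p, a) : V4 × ℂ)) ((0 : V4), (1:ℂ)) 0 :=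
      (hasDerivAt_const _ _).prodMk (hasDerivAt_id _)
    have h3 : HasDerivAt (fun a : ℂ => N (p, a)) (fderiv ℂ N (p, 0) (0, 1)) 0 :=
      HasFDerivAt.comp_hasDerivAt (0:ℂ) h1 h2
    have h4 : (fun a : ℂ => N (p, a)) = fun a => g6 Q p (u + a • w) := funext hNp
    rw [h4] at h3
    rw [h3.unique (hasDerivAt_g6 p u w)]
    exact hd
  obtain ⟨W, δ, χ, hWo, hpW, hδ, hχd, hχ0, hsub, hχm, hiff⟩ :=
    Impl.exists_implicit hOo hNd hpO hN0 hfd
  refine ⟨W, fun q => UU (q, χ q), hWo, hpW, ?_, ?_, ?_⟩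
  · have h1 : DifferentiableOn ℂ (fun q : V4 => ((q, χ q) : V4 × ℂ)) W :=
      differentiableOn_id.prodMk hχd
    have h2 : MapsTo (fun q : V4 => ((q, χ q) : V4 × ℂ)) W O := fun q hq =>
      hsub ⟨hq, hχm q hq⟩
    exact hUd.comp h1 h2
  · show UU (p, χ p) = u
    rw [hχ0, hUp, zero_smul, add_zero]
  · intro q hq
    have h6 : ((q, χ q) : V4 × ℂ) ∈ O := hsub (mk_mem_prod hq (hχm q hq))
    have hqO : q1 Q q n ≠ 0 := h6
    refine ⟨?_, ?_, χ q, b (q, χ q), rfl⟩
    · show q1 Q q (UU (q, χ q)) = 0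
      simp only [hUU, hb]
      rw [q1_add_right, q1_add_right, q1_smul_right, q1_smul_right]
      field_simp
      ring
    · have h5 : N (q, χ q) = 0 := (hiff q hq (χ q) (hχm q hq)).2 rfl
      simp only [hN] at h5
      exact h5

lemma q1_self_zero (hQ : Q.IsHomogeneous 4) {p : V4} (hp : eval p Q = 0) : q1 Q p p = 0 := by
  rw [q1_self hQ, hp, mul_zero]

/-- remove the components along an orthonormal pair -/
lemma ortho_facts {p u : V4} (hp : nrm p = 1) (hu : nrm u = 1) (hpu : herm p u = 0) (x : V4) :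
    herm p (x + (-(herm p x)) • p + (-(herm u x)) • u) = 0 ∧
      herm u (x + (-(herm p x)) • p + (-(herm u x)) • u) = 0 := by
  have hup : herm u p = 0 := by rw [herm_conj, hpu, map_zero]
  have hpp : herm p p = 1 := by rw [herm_self, hp]; simp
  have huu : herm u u = 1 := by rw [herm_self, hu]; simp
  constructor
  · rw [herm_add_right, herm_add_right, herm_smul_right, herm_smul_right, hpp, hpu]; ring
  · rw [herm_add_right, herm_add_right, herm_smul_right, herm_smul_right, hup, huu]; ring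

/-- equality case: the points near `p` on the line `⟨p, u⟩` -/
lemma double_root_of_frequently (hQ : Q.IsHomogeneous 4) {p u : V4} (hp : eval p Q = 0)
    (hu : u ∈ Tg Q p) (hp1 : nrm p = 1) (hu1 : nrm u = 1) (hpu : herm p u = 0)
    (h : ∀ N ∈ 𝓝 p, ∃ q ∈ N, eval q Q = 0 ∧ LinearIndependent ℂ ![p, q] ∧
      q = herm p q • p + herm u q • u) :
    q2 Q p u = 0 ∧ q3 Q p u = 0 ∧ q4 Q u = 0 := by
  have hup : herm u p = 0 := by rw [herm_conj, hpu, map_zero]
  have hpp : herm p p = 1 := by rw [herm_self, hp1]; simp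
  have hch : ∀ v : V4, Continuous (fun q : V4 => herm v q) := by
    intro v
    have h1 : Continuous (fun q : V4 => ((v, q) : V4 × V4)) := by fun_prop
    exact continuous_herm.comp h1
  have hkey : ∀ q : V4, eval q Q = 0 → LinearIndependent ℂ ![p, q] →
      q = herm p q • p + herm u q • u → herm u q ≠ 0 ∧
      herm p q ^ 2 * q2 Q p u + herm p q * herm u q * q3 Q p u + herm u q ^ 2 * q4 Q u = 0 := by
    intro q hq hli hqe
    have hb : herm u q ≠ 0 := by
      intro h0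
      rw [h0, zero_smul, add_zero] at hqe
      exact (LI_iff (LI_ne hli).1).1 hli _ hqe.symm
    refine ⟨hb, ?_⟩
    have h1 := eval_comb_tangent hQ hp hu (herm p q) (herm u q)
    rw [← hqe, hq] at h1
    rcases mul_eq_zero.1 h1.symm with h2 | h2
    · exact absurd h2 (pow_ne_zero 2 hb)
    · exact h2
  have h2 : q2 Q p u = 0 := by
    by_contra hne
    have hc : Continuous (fun q : V4 => herm p q ^ 2 * q2 Q p u + herm p q * herm u q * q3 Q p u +
        herm u q ^ 2 * q4 Q u) := by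
      have := hch p; have := hch u; fun_prop
    have hN : {q : V4 | herm p q ^ 2 * q2 Q p u + herm p q * herm u q * q3 Q p u +
        herm u q ^ 2 * q4 Q u ≠ 0} ∈ 𝓝 p := by
      refine (isOpen_ne_fun hc continuous_const).mem_nhds ?_
      show herm p p ^ 2 * q2 Q p u + herm p p * herm u p * q3 Q p u + herm u p ^ 2 * q4 Q u ≠ 0
      rw [hpp, hup]
      simpa using hne
    obtain ⟨q, hqN, hq0, hli, hqe⟩ := h _ hN
    exact hqN (hkey q hq0 hli hqe).2
  have h3 : q3 Q p u = 0 := by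
    by_contra hne
    have hc : Continuous (fun q : V4 => herm p q * q3 Q p u + herm u q * q4 Q u) := by
      have := hch p; have := hch u; fun_prop
    have hN : {q : V4 | herm p q * q3 Q p u + herm u q * q4 Q u ≠ 0} ∈ 𝓝 p := by
      refine (isOpen_ne_fun hc continuous_const).mem_nhds ?_
      show herm p p * q3 Q p u + herm u p * q4 Q u ≠ 0
      rw [hpp, hup]
      simpa using hne
    obtain ⟨q, hqN, hq0, hli, hqe⟩ := h _ hN
    obtain ⟨hb, h4⟩ := hkey q hq0 hli hqe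
    rw [h2] at h4
    apply hqN
    have h5 : herm u q * (herm p q * q3 Q p u + herm u q * q4 Q u) = 0 := by
      linear_combination h4
    exact (mul_eq_zero.1 h5).resolve_left hb
  refine ⟨h2, h3, ?_⟩
  obtain ⟨q, -, hq0, hli, hqe⟩ := h univ univ_mem
  obtain ⟨hb, h4⟩ := hkey q hq0 hli hqe
  rw [h2, h3] at h4
  have h5 : herm u q ^ 2 * q4 Q u = 0 := by linear_combination h4
  exact (mul_eq_zero.1 h5).resolve_left (pow_ne_zero 2 hb)

lemma differentiable_herm (p : V4) : Differentiable ℂ (fun q : V4 => herm p q) := by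
  unfold herm; fun_prop

lemma estimate (hQ : Q.IsHomogeneous 4)
    (hsmooth : ∀ p : V4, p ≠ 0 → eval p Q = 0 → ∃ i : Fin 4, eval p (pderiv i Q) ≠ 0)
    {G : Set V4} (hG : ∀ p ∈ G, p ≠ 0 ∧ eval p Q = 0)
    (hGc : ∀ q ∈ G, ∀ s : ℂ, s ≠ 0 → s • q ∈ G)
    {p u : V4} {c : ℝ} (hc : 0 < c) (hmin : ∀ z ∈ SS Q G, c ≤ ‖theta Q z.1 z.2‖)
    {q v0 w n : V4} (hq : q ∈ G) (hv0 : v0 ∈ Tg Q q) (hg : g6 Q q v0 = 0)
    (hD : D4 q v0 w n ≠ 0) (hpv : herm p v0 = 0) (huv : herm u v0 = 1)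
    (hle : c⁻¹ ≤ ‖herm p q ^ 4 * D4 q v0 w n * (Om Q q v0 w n)⁻¹‖) :
    ∃ v : V4, v ≠ 0 ∧ nrm q * nrm v ≤ ‖herm p q * herm u v - herm u q * herm p v‖ := by
  have hli := LI_of_D4 hD
  obtain ⟨z, hz, hth⟩ := theta_normalise hQ hsmooth hG hGc hq hv0 hg hli
  have hzc := hmin z hz
  refine ⟨perp q v0, perp_ne hli, ?_⟩
  have e1 : herm p q * herm u (perp q v0) - herm u q * herm p (perp q v0) = herm p q := by
    rw [perp, herm_add_right, herm_add_right, herm_smul_right, herm_smul_right, hpv, huv]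
    ring
  rw [e1]
  have hq0 := (hG q hq).1
  have hA : 0 < nrm q * nrm (perp q v0) := mul_pos (nrm_pos hq0) (nrm_pos (perp_ne hli))
  set A : ℝ := nrm q * nrm (perp q v0) with hAdef
  have hT : 0 < ‖theta Q q v0‖ := by
    rw [hth]; exact mul_pos (pow_pos hA 4) (lt_of_lt_of_le hc hzc)
  have hT0 : theta Q q v0 ≠ 0 := norm_pos_iff.1 hT
  have e2 : herm p q ^ 4 * D4 q v0 w n * (Om Q q v0 w n)⁻¹ = herm p q ^ 4 * (theta Q q v0)⁻¹ := by
    rw [theta_spec hQ (hG q hq).2 hv0 hg hli]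
    field_simp
  rw [e2, norm_mul, norm_pow, norm_inv, ← div_eq_mul_inv, le_div_iff₀ hT, hth] at hle
  have h4 : A ^ 4 ≤ ‖herm p q‖ ^ 4 := by
    have h5 : c⁻¹ * (A ^ 4 * c) ≤ c⁻¹ * (A ^ 4 * ‖theta Q z.1 z.2‖) := by gcongr
    have h6 : c⁻¹ * (A ^ 4 * c) = A ^ 4 := by field_simp
    linarith
  exact le_of_pow_le_pow_left₀ (by norm_num) (norm_nonneg _) h4

section main

attribute [local irreducible] Om D4 theta herm nrm q1 g6 dg6

/-- **Theorem E** -/
theorem thmE (hQ : Q.IsHomogeneous 4)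
    (hsmooth : ∀ p : V4, p ≠ 0 → eval p Q = 0 → ∃ i : Fin 4, eval p (pderiv i Q) ≠ 0)
    {G : Set V4} (hG : ∀ p ∈ G, p ≠ 0 ∧ eval p Q = 0) (hGne : G.Nonempty)
    (hGc : ∀ q ∈ G, ∀ s : ℂ, s ≠ 0 → s • q ∈ G)
    (hGcl : ∀ q : V4, q ≠ 0 → q ∈ closure G → q ∈ G) (hM : NoStrictMax G) :
    ∃ p ∈ G, InD Q p := by
  by_contra hcon
  push Not at hcon
  -- a minimising orthonormal root pair
  have hne : (SS Q G).Nonempty := by
    obtain ⟨p0, hp0⟩ := hGne
    obtain ⟨u0, hu0, hli0, hg0⟩ := exists_root hQ (hG p0 hp0).1 (hsmooth p0 (hG p0 hp0).1 (hG p0 hp0).2)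
    obtain ⟨z, hz, -⟩ := theta_normalise hQ hsmooth hG hGc hp0 hu0 hg0 hli0
    exact ⟨z, hz⟩
  obtain ⟨z0, hz0, hmin⟩ := (isCompact_SS (Q := Q) hGcl).exists_isMinOn hne (continuousOn_theta hQ hG)
  obtain ⟨⟨hpG, hp1⟩, hu1, hpu, hq1, hg⟩ := hz0
  have hmin' : ∀ z ∈ SS Q G, ‖theta Q z0.1 z0.2‖ ≤ ‖theta Q z.1 z.2‖ := fun z hz => hmin hz
  clear hmin
  obtain ⟨p, u⟩ := z0
  simp only at hpG hp1 hu1 hpu hq1 hg hmin'
  obtain ⟨hp0, hpQ⟩ := hG p hpG
  have huT : u ∈ Tg Q p := hq1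
  have hli : LinearIndependent ℂ ![p, u] := LI_of_orthonormal hp1 hu1 hpu
  have hup : herm u p = 0 := by rw [herm_conj, hpu, map_zero]
  have hpp : herm p p = 1 := by rw [herm_self, hp1]; simp
  have huu : herm u u = 1 := by rw [herm_self, hu1]; simp
  -- the directions `w`, `n`
  obtain ⟨w0, hw0, hd0⟩ : ∃ w0 ∈ Tg Q p, dg6 Q p u w0 ≠ 0 := by
    by_contra h
    push Not at h
    exact hcon p hpG ⟨u, huT, hli, hg, h⟩
  obtain ⟨n0, hn0⟩ := exists_q1_ne hQ (hsmooth p hp0 hpQ)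
  set w : V4 := w0 + (-(herm p w0)) • p + (-(herm u w0)) • u with hw
  set n : V4 := n0 + (-(herm p n0)) • p + (-(herm u n0)) • u with hn
  obtain ⟨hpw, huw⟩ := ortho_facts hp1 hu1 hpu w0
  obtain ⟨hpn, hun⟩ := ortho_facts hp1 hu1 hpu n0
  rw [← hw] at hpw huw
  rw [← hn] at hpn hun
  have hwT : w ∈ Tg Q p := by
    refine (Tg Q p).add_mem ((Tg Q p).add_mem hw0 ?_) ((Tg Q p).smul_mem _ huT)
    exact (Tg Q p).smul_mem _ (self_mem_Tg hQ hpQ)
  have hdw : dg6 Q p u w ≠ 0 := by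
    rw [hw, dg6_add_right, dg6_add_right, dg6_smul_right, dg6_smul_right, dg6_base hQ hpQ huT,
      dg6_self, hg]
    simpa using hd0
  have hqn : q1 Q p n ≠ 0 := by
    rw [hn, q1_add_right, q1_add_right, q1_smul_right, q1_smul_right, q1_self_zero hQ hpQ, hq1]
    simpa using hn0
  obtain ⟨W, U, hWo, hpW, hUd, hUp, hUq⟩ := local_root hQ hpQ huT hg hwT hqn hdw
  obtain ⟨hth, hD⟩ := theta_ne_zero hQ hpQ huT hg hli hqn hwT hdw
  have hthp : 0 < ‖theta Q p u‖ := norm_pos_iff.2 hth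
  -- the function
  set D : V4 → ℂ := fun q => D4 q (U q) w n with hDdef
  set M : V4 → ℂ := fun q => Om Q q (U q) w n with hMdef
  have hpair : DifferentiableOn ℂ (fun q : V4 => ((q, U q) : V4 × V4)) W :=
    differentiableOn_id.prodMk hUd
  have hDd : DifferentiableOn ℂ D W := (differentiable_D4 w n).comp_differentiableOn hpair
  have hMd : DifferentiableOn ℂ M W := (differentiable_Om w n).comp_differentiableOn hpair
  have hhd : Differentiable ℂ (fun q : V4 => herm p q) := by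
    exact differentiable_herm p
  set W' : Set V4 := W ∩ {q | D q * M q ≠ 0} with hW'
  have hW'o : IsOpen W' := by
    have h1 : ContinuousOn (fun q => D q * M q) W := hDd.continuousOn.mul hMd.continuousOn
    exact h1.isOpen_inter_preimage hWo isOpen_ne
  have hMp : M p = theta Q p u * D4 p u w n := by
    show Om Q p (U p) w n = _
    rw [hUp, theta_spec hQ hpQ huT hg hli]
  have hDp : D p = D4 p u w n := by
    show D4 p (U p) w n = _
    rw [hUp]
  have hpW' : p ∈ W' := by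
    refine ⟨hpW, ?_⟩
    show D p * M p ≠ 0
    rw [hMp, hDp]
    exact mul_ne_zero hD (mul_ne_zero hth hD)
  set f : V4 → ℂ := fun q => herm p q ^ 4 * D q * (M q)⁻¹ with hf
  have hfd : DifferentiableOn ℂ f W' := by
    have h1 : DifferentiableOn ℂ D W' := hDd.mono inter_subset_left
    have h2 : DifferentiableOn ℂ M W' := hMd.mono inter_subset_left
    have h3 : ∀ q ∈ W', M q ≠ 0 := fun q hq => (mul_ne_zero_iff.1 hq.2).2
    exact ((hhd.pow 4).differentiableOn.mul h1).mul (h2.fun_inv h3)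
  have hfp : ‖f p‖ = ‖theta Q p u‖⁻¹ := by
    simp only [hf]
    rw [hMp, hDp, hpp, one_pow, one_mul, mul_inv, ← norm_inv]
    congr 1
    field_simp
  -- equality
  have hfin : ∀ N ∈ 𝓝 p, ∃ q ∈ N, eval q Q = 0 ∧ LinearIndependent ℂ ![p, q] ∧
      q = herm p q • p + herm u q • u := by
    intro N hN
    obtain ⟨q, hqG, hqN, hpq, hle⟩ := hM p hpG f W' hW'o hpW' hfd (N ∩ W')
      (inter_mem hN (hW'o.mem_nhds hpW'))
    obtain ⟨hqW, hqDM⟩ := hqN.2
    obtain ⟨h1, h2, a, b, hab⟩ := hUq q hqW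
    have hpv : herm p (U q) = 0 := by
      rw [hab, herm_add_right, herm_add_right, herm_smul_right, herm_smul_right, hpu, hpw, hpn]
      ring
    have huv : herm u (U q) = 1 := by
      rw [hab, herm_add_right, herm_add_right, herm_smul_right, herm_smul_right, huu, huw, hun]
      ring
    have hDq : D4 q (U q) w n ≠ 0 := (mul_ne_zero_iff.1 hqDM).1
    rw [hfp] at hle
    obtain ⟨v, hv0, hv⟩ := estimate hQ hsmooth hG hGc hthp hmin' hqG h1 h2 hDq hpv huv hle
    exact ⟨q, hqN.1, (hG q hqG).2, hpq, minor_eq hp1 hu1 hpu hv0 hv⟩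
  obtain ⟨h2, h3, h4⟩ := double_root_of_frequently hQ hpQ huT hp1 hu1 hpu hfin
  apply hdw
  rw [dg6, h2, h3, h4]
  ring

end main

lemma continuous_eval (P : MvPolynomial (Fin 4) ℂ) : Continuous (fun q : V4 => eval q P) :=
  MvPolynomial.continuous_eval P

/-- **(A6)** every polar curve meets `D` -/
theorem exists_polar_DD (hQ : Q.IsHomogeneous 4)
    (hsmooth : ∀ p : V4, p ≠ 0 → eval p Q = 0 → ∃ i : Fin 4, eval p (pderiv i Q) ≠ 0)
    {x : V4} (hx0 : x ≠ 0) (hx : eval x Q = 0) : ∃ p ∈ DD Q, q1 Q p x = 0 := by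
  set G : Set V4 := {p : V4 | (p ≠ 0 ∧ eval p Q = 0) ∧ q1 Q p x = 0} with hGdef
  have hcq : Continuous (fun q : V4 => q1 Q q x) := by
    have h1 : Differentiable ℂ (fun q : V4 => ((q, x) : V4 × V4)) := by fun_prop
    have := (differentiable_q1 Q).comp h1
    exact this.continuous
  have hcone : ∀ q ∈ G, ∀ s : ℂ, s ≠ 0 → s • q ∈ G := by
    rintro q ⟨⟨hq0, hqQ⟩, hqx⟩ s hs
    refine ⟨⟨smul_ne_zero hs hq0, ?_⟩, ?_⟩
    · have h := eval_comb hQ q 0 s 0
      rw [smul_zero, add_zero, hqQ] at h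
      rw [h]; ring
    · rw [q1_smul_left, hqx, mul_zero]
  have hcl : ∀ q : V4, q ≠ 0 → q ∈ closure G → q ∈ G := by
    intro q hq0 hq
    have h1 : closure G ⊆ {q : V4 | eval q Q = 0 ∧ q1 Q q x = 0} := by
      refine closure_minimal (fun q hq => ⟨hq.1.2, hq.2⟩) ?_
      exact (isClosed_eq (continuous_eval Q) continuous_const).inter
        (isClosed_eq hcq continuous_const)
    exact ⟨⟨hq0, (h1 hq).1⟩, (h1 hq).2⟩
  have hne : G.Nonempty := ⟨x, ⟨hx0, hx⟩, q1_self_zero hQ hx⟩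
  obtain ⟨p, hp, hD⟩ := thmE (Q := Q) hQ hsmooth (G := G) (fun p hp => hp.1) hne hcone hcl
    (noStrictMax_polar hQ hsmooth x)
  exact ⟨p, ⟨hp.1, hD⟩, hp.2⟩

/-- (A6) in the form consumed by `TwoArcs471` / `Final149.ThmETarget` -/
theorem exists_polar_DD' (hQ : Q.IsHomogeneous 4)
    (hsmooth : ∀ p : V4, p ≠ 0 → eval p Q = 0 → ∃ i : Fin 4, eval p (pderiv i Q) ≠ 0) :
    ∀ x : V4, (x ≠ 0 ∧ eval x Q = 0) → ∃ p ∈ DD Q, dQ Q p x = 0 := by
  intro x hx
  obtain ⟨p, hp, h⟩ := exists_polar_DD hQ hsmooth hx.1 hx.2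
  refine ⟨p, hp, ?_⟩
  rw [dQ_apply, ← h, q1_eq hQ]

end Crest.Agent.R279.MaxP
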