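import Crest.Agent.R279.Final149B
import Crest.Agent.R279.MaxH855
import Crest.Agent.R279.Alg712A4
import Crest.Agent.R279.Gen269H

/-!
# R279: instances of the last three targets (helper149)

`ThmEGen` from `MaxH855` (helper855), `EmptyIntTarget` from `Alg712A4` (helper712),
`ArcDataTarget` from `Gen269H` (helper269, helper28, helper556).
-/

set_option autoImplicit false

namespace Crest.Agent.R279.Final

open Metric Set MvPolynomial

theorem thmEGen : ThmEGen := fun _ hQ _ hG hne hc hcl hM =>
  MaxP.thmE hQ.1 hQ.2 hG hne hc hcl hM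

theorem emptyIntTarget : EmptyIntTarget := fun _ hQ _ _ h hne =>
  Alg.exists_not_mem_DD hQ h hne

theorem arcDataTarget : ArcDataTarget := fun _ hQ hs => Gen.arcTarget ⟨hQ, hs⟩

end Crest.Agent.R279.Final
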