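import Mathlib
import Crest.Agent.R279.Strat524A

/-!
# R279, M14 (helper269): arc data, part A — roots of one-parameter families

`N (c, X)` analytic, not identically zero in `X` for any `c`.  Outside a countable set of pairs
`(c, X)` the zero set of `N` is locally the graph of a holomorphic function along which the order
in `X` is constant (`bad_countable`).  Consequences: common roots (`common_root`).
-/

set_option autoImplicit false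

namespace Crest.Agent.R279.Gen

open Metric Filter Topology Set Strat

theorem countable_of_isolated {α : Type*} [TopologicalSpace α] [SecondCountableTopology α]
    {S : Set α} (h : ∀ p ∈ S, ∃ O ∈ 𝓝 p, ∀ q ∈ S, q ∈ O → q = p) : S.Countable := by
  classical
  choose! O hO hiso using h
  obtain ⟨t, hts, htc, hcov⟩ := TopologicalSpace.countable_cover_nhdsWithin (s := S) (f := O)
    (fun x hx => mem_nhdsWithin_of_mem_nhds (hO x hx))
  refine htc.mono ?_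
  intro q hq
  obtain ⟨p, hp, hqp⟩ := mem_iUnion₂.1 (hcov hq)
  rw [hiso p (hts hp) q hq hqp]
  exact hp

/-- The zero set of `N` near `p` is the graph of a holomorphic function of constant order `k`. -/
def GoodRoot (N : ℂ × ℂ → ℂ) (U : Set ℂ) (p : ℂ × ℂ) : Prop :=
  ∃ (k : ℕ) (A : Set ℂ) (r : ℝ) (χ : ℂ → ℂ), 1 ≤ k ∧ OrdEq N k p ∧ IsOpen A ∧ p.1 ∈ A ∧ A ⊆ U ∧
    0 < r ∧ DifferentiableOn ℂ χ A ∧ χ p.1 = p.2 ∧ (∀ c ∈ A, χ c ∈ ball p.2 r) ∧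
    (∀ c ∈ A, OrdGe N k (c, χ c)) ∧ ∀ c ∈ A, ∀ X ∈ ball p.2 r, N (c, X) = 0 → X = χ c

theorem bad_countable {N : ℂ × ℂ → ℂ} {U : Set ℂ} (hU : IsOpen U)
    (hN : AnalyticOnNhd ℂ N (U ×ˢ univ))
    (hne : ∀ c ∈ U, ∀ X : ℂ, ¬ ∀ᶠ X' in 𝓝 X, N (c, X') = 0) :
    {p : ℂ × ℂ | p.1 ∈ U ∧ N p = 0 ∧ ¬ GoodRoot N U p}.Countable := by
  have hUo : IsOpen (U ×ˢ (univ : Set ℂ)) := hU.prod isOpen_univ
  have hsub : {p : ℂ × ℂ | p.1 ∈ U ∧ N p = 0 ∧ ¬ GoodRoot N U p} ⊆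
      ⋃ k : ℕ, {p : ℂ × ℂ | p.1 ∈ U ∧ OrdEq N (k + 1) p ∧ ¬ GoodRoot N U p} := by
    rintro ⟨c, X⟩ ⟨hc, h0, hb⟩
    obtain ⟨k, hk⟩ := exists_ordEq hUo hN (x := c) (w := X) ⟨hc, mem_univ _⟩ (hne c hc X)
    rcases k with _ | k
    · exact absurd h0 hk.2
    · exact mem_iUnion.2 ⟨k, hc, hk, hb⟩
  refine (countable_iUnion fun k => ?_).mono hsub
  apply countable_of_isolated
  rintro ⟨c1, X1⟩ ⟨hc, hk, hb⟩
  obtain ⟨A, r, χ, hAo, hcA, hr, hAU, hχ, hχ1, hχm, hiff, hkne, huniq⟩ :=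
    local_order hUo hN (x0 := c1) (c0 := X1) ⟨hc, mem_univ _⟩ (Nat.succ_le_succ (Nat.zero_le k)) hk
  have hAU' : A ⊆ U := fun c hcA' => (hAU (show (c, X1) ∈ A ×ˢ ball X1 r from
    ⟨hcA', mem_ball_self hr⟩)).1
  -- the functions `c ↦ D^j N (c, χ c)` are analytic at `c1`
  have han : ∀ j, AnalyticAt ℂ (fun c => (Dw^[j] N) (c, χ c)) c1 := by
    intro j
    have h1 : AnalyticAt ℂ χ c1 := (hχ.analyticOnNhd hAo) c1 hcA
    have h2 : AnalyticAt ℂ (Dw^[j] N) (c1, χ c1) :=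
      analytic_iter hN j _ ⟨hAU' hcA, mem_univ _⟩
    exact h2.comp₂ analyticAt_id h1
  by_cases hall : ∀ j < k + 1, ∀ᶠ c in 𝓝 c1, (Dw^[j] N) (c, χ c) = 0
  · -- good
    exfalso
    apply hb
    have h1 : ∀ᶠ c in 𝓝 c1, ∀ j ∈ Finset.range (k + 1), (Dw^[j] N) (c, χ c) = 0 := by
      rw [Filter.eventually_all_finset]
      intro j hj
      exact hall j (Finset.mem_range.1 hj)
    obtain ⟨A', hA'1, hA'2, hA'3⟩ := _root_.mem_nhds_iff.1 (inter_mem h1 (hAo.mem_nhds hcA))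
    refine ⟨k + 1, A', r, χ, by omega, hk, hA'2, hA'3, fun c h => hAU' (hA'1 h).2, hr,
      hχ.mono fun c h => (hA'1 h).2, hχ1, fun c h => hχm c (hA'1 h).2, ?_, ?_⟩
    · intro c h j hj
      exact (hA'1 h).1 j (Finset.mem_range.2 hj)
    · intro c h X hX h0
      exact huniq c (hA'1 h).2 (fun j hj => (hA'1 h).1 j (Finset.mem_range.2 hj)) X hX h0
  · push Not at hall
    obtain ⟨j, hj, hjf⟩ := hall
    have h2 : ∀ᶠ c in 𝓝[≠] c1, (Dw^[j] N) (c, χ c) ≠ 0 := by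
      rcases (han j).eventually_eq_zero_or_eventually_ne_zero with h | h
      · exact absurd h (by
          intro h'
          exact hjf (by simpa using h'))
      · exact h
    rw [eventually_nhdsWithin_iff] at h2
    obtain ⟨A', hA'1, hA'2, hA'3⟩ := _root_.mem_nhds_iff.1 (inter_mem h2 (hAo.mem_nhds hcA))
    refine ⟨A' ×ˢ ball X1 r, (hA'2.prod isOpen_ball).mem_nhds ⟨hA'3, mem_ball_self hr⟩, ?_⟩
    rintro ⟨c, X⟩ ⟨hc', hk', _⟩ ⟨hcA', hX⟩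
    have hX' : X ∈ ball X1 r := hX
    have hcc : c ∈ A' := hcA'
    have h3 : X = χ c := by
      have := (hiff c (hA'1 hcc).2 X hX').1
      apply this
      simpa using hk'.1 k (by omega)
    have h4 : c = c1 := by
      by_contra hne'
      exact (hA'1 hcc).1 hne' (by rw [← h3]; exact hk'.1 j hj)
    rw [h4, hχ1] at h3
    rw [h4, h3]

/-- COMMON ROOTS: if the set of `c` for which `N(c, ·)` and all `M_j(c, ·)` have a common root is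
uncountable, then there is a holomorphic common root on some disc. -/
theorem common_root {N : ℂ × ℂ → ℂ} {U : Set ℂ} (hU : IsOpen U)
    (hN : AnalyticOnNhd ℂ N (U ×ˢ univ))
    (hne : ∀ c ∈ U, ∀ X : ℂ, ¬ ∀ᶠ X' in 𝓝 X, N (c, X') = 0)
    {m : ℕ} {M : Fin m → ℂ × ℂ → ℂ} (hM : ∀ j, AnalyticOnNhd ℂ (M j) (U ×ˢ univ))
    (hZ : ¬ {c : ℂ | c ∈ U ∧ ∃ X, N (c, X) = 0 ∧ ∀ j, M j (c, X) = 0}.Countable) :
    ∃ (c1 : ℂ) (ρ : ℝ) (χ : ℂ → ℂ), 0 < ρ ∧ ball c1 ρ ⊆ U ∧ DifferentiableOn ℂ χ (ball c1 ρ) ∧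
      ∀ c ∈ ball c1 ρ, N (c, χ c) = 0 ∧ ∀ j, M j (c, χ c) = 0 := by
  set W : Set (ℂ × ℂ) := {p | p.1 ∈ U ∧ N p = 0 ∧ ∀ j, M j p = 0} with hW
  set Bad : Set (ℂ × ℂ) := {p : ℂ × ℂ | p.1 ∈ U ∧ N p = 0 ∧ ¬ GoodRoot N U p} with hBad
  have hBadc : Bad.Countable := bad_countable hU hN hne
  have hWunc : ¬ (W \ Bad).Countable := by
    intro h
    apply hZ
    have h1 : W.Countable := (h.union hBadc).mono (by
      intro p hp
      by_cases hb : p ∈ Bad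
      · exact Or.inr hb
      · exact Or.inl ⟨hp, hb⟩)
    refine (h1.image Prod.fst).mono ?_
    rintro c ⟨hc, X, hX, hXM⟩
    exact ⟨(c, X), ⟨hc, hX, hXM⟩, rfl⟩
  have hex : ∃ p ∈ W \ Bad, ∀ O ∈ 𝓝 p, ∃ q ∈ W \ Bad, q ∈ O ∧ q ≠ p := by
    by_contra hcon
    push Not at hcon
    exact hWunc (countable_of_isolated hcon)
  obtain ⟨⟨c1, X1⟩, ⟨⟨hcU, hN1, hM1⟩, hnb⟩, hacc⟩ := hex
  have hgood : GoodRoot N U (c1, X1) := by
    by_contra hg
    exact hnb ⟨hcU, hN1, hg⟩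
  obtain ⟨k, A, r, χ, hk1, hk, hAo, hcA, hAU, hr, hχ, hχ1, hχm, hord, huniq⟩ := hgood
  have hcA' : c1 ∈ A := hcA
  have hχ1' : χ c1 = X1 := hχ1
  have hzero : ∀ c ∈ A, N (c, χ c) = 0 := fun c hc => hord c hc 0 (by omega)
  have hMz : ∀ j, ∀ᶠ c in 𝓝 c1, M j (c, χ c) = 0 := by
    intro j
    have han : AnalyticAt ℂ (fun c => M j (c, χ c)) c1 := by
      have h1 : AnalyticAt ℂ χ c1 := (hχ.analyticOnNhd hAo) c1 hcA'
      have h2 : AnalyticAt ℂ (M j) (c1, χ c1) := hM j _ ⟨hcU, mem_univ _⟩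
      exact h2.comp₂ analyticAt_id h1
    rw [← han.frequently_zero_iff_eventually_zero]
    rw [frequently_nhdsWithin_iff]
    rw [Filter.frequently_iff]
    intro O hO
    obtain ⟨⟨c, X⟩, ⟨⟨hc1, hc2, hc3⟩, _⟩, hq, hqne⟩ := hacc ((O ∩ A) ×ˢ ball X1 r)
      (prod_mem_nhds (inter_mem hO (hAo.mem_nhds hcA')) (ball_mem_nhds _ hr))
    have hX : X = χ c := huniq c hq.1.2 X hq.2 hc2
    refine ⟨c, hq.1.1, ?_, ?_⟩
    · rw [← hX]; exact hc3 j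
    · rintro rfl
      apply hqne
      rw [hX, hχ1']
  have hall : ∀ᶠ c in 𝓝 c1, ∀ j, M j (c, χ c) = 0 := by
    rw [Filter.eventually_all]
    exact hMz
  obtain ⟨ρ, hρ, hρs⟩ := Metric.mem_nhds_iff.1 (inter_mem hall (hAo.mem_nhds hcA'))
  exact ⟨c1, ρ, χ, hρ, fun c hc => hAU (hρs hc).2, hχ.mono fun c hc => (hρs hc).2,
    fun c hc => ⟨hzero c (hρs hc).2, (hρs hc).1⟩⟩

end Crest.Agent.R279.Gen
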