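import Crest.Agent.R279.GenDefs28
import Crest.Agent.R279.Bridge149
import Crest.Agent.R279.Gen269A
import Crest.Agent.R266.Osgood

/-!
# R279, M14 (helper269): arc data, part B — frames and the binary forms
-/

set_option autoImplicit false

namespace Crest.Agent.R279.Gen

open Metric Set Filter Topology EllAlg

section alg

variable {Q : MvPolynomial (Fin 4) ℂ}

theorem q2_frame (b u v : C4) (s t : ℂ) :
    q2 Q b (s • u + t • v) =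
      s ^ 2 * q2 Q b u + s * t * (12 * tens Q b b u v) + t ^ 2 * q2 Q b v := by
  simp only [q2, tens_add3, tens_add4, tens_smul3, tens_smul4]
  rw [tens_swap34 Q b b v u]; ring

theorem q3_frame (b u v : C4) (s t : ℂ) :
    q3 Q b (s • u + t • v) =
      s ^ 3 * q3 Q b u + s ^ 2 * t * (12 * tens Q b u u v) + s * t ^ 2 * (12 * tens Q b u v v)
        + t ^ 3 * q3 Q b v := by
  simp only [q3, tens_add2, tens_add3, tens_add4, tens_smul2, tens_smul3, tens_smul4]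
  rw [tens_swap34 Q b u v u, tens_swap24 Q b v u u, tens_swap23 Q b v u v, tens_swap24 Q b v v u]
  ring

theorem q4_frame (u v : C4) (s t : ℂ) :
    q4 Q (s • u + t • v) =
      s ^ 4 * q4 Q u + s ^ 3 * t * q1 Q u v + s ^ 2 * t ^ 2 * q2 Q u v + s * t ^ 3 * q3 Q u v
        + t ^ 4 * q4 Q v := by
  have h := tens_comb (Q := Q) u v s t
  simp only [q4] at h ⊢
  exact h

/-- the sextic as an explicit form -/
noncomputable def AA (Q : MvPolynomial (Fin 4) ℂ) (b u v : C4) : Fin 7 → ℂ :=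
  ![q3 Q b v ^ 2 - 4 * (q2 Q b v * q4 Q v),
    2 * (q3 Q b v * (12 * tens Q b u v v)) - 4 * (q2 Q b v * q3 Q u v + (12 * tens Q b b u v) * q4 Q v),
    (12 * tens Q b u v v) ^ 2 + 2 * (q3 Q b v * (12 * tens Q b u u v))
      - 4 * (q2 Q b v * q2 Q u v + (12 * tens Q b b u v) * q3 Q u v + q2 Q b u * q4 Q v),
    2 * (q3 Q b v * q3 Q b u) + 2 * ((12 * tens Q b u v v) * (12 * tens Q b u u v))
      - 4 * (q2 Q b v * q1 Q u v + (12 * tens Q b b u v) * q2 Q u v + q2 Q b u * q3 Q u v),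
    (12 * tens Q b u u v) ^ 2 + 2 * ((12 * tens Q b u v v) * q3 Q b u)
      - 4 * (q2 Q b v * q4 Q u + (12 * tens Q b b u v) * q1 Q u v + q2 Q b u * q2 Q u v),
    2 * ((12 * tens Q b u u v) * q3 Q b u) - 4 * ((12 * tens Q b b u v) * q4 Q u + q2 Q b u * q1 Q u v),
    q3 Q b u ^ 2 - 4 * (q2 Q b u * q4 Q u)]

/-- the sextic form with coefficients `A` -/
def sext (A : Fin 7 → ℂ) (s t : ℂ) : ℂ := ∑ i : Fin 7, A i * s ^ (i : ℕ) * t ^ (6 - (i : ℕ))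

theorem g6_frame (b u v : C4) (s t : ℂ) :
    g6 Q b (s • u + t • v) = sext (AA Q b u v) s t := by
  rw [g6, q2_frame, q3_frame, q4_frame, sext]
  simp only [Fin.sum_univ_succ, Fin.sum_univ_zero, AA, Matrix.cons_val_zero, Matrix.cons_val_succ,
    Fin.val_zero, Fin.val_succ]
  ring

/-- quotient of the sextic by `(s - χ t)^2` -/
def divA (A : Fin 7 → ℂ) (χ : ℂ) : Fin 5 → ℂ :=
  let a4 := A 6
  let a3 := A 5 + 2 * χ * a4
  let a2 := A 4 + 2 * χ * a3 - χ ^ 2 * a4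
  let a1 := A 3 + 2 * χ * a2 - χ ^ 2 * a3
  let a0 := A 2 + 2 * χ * a1 - χ ^ 2 * a2
  ![a0, a1, a2, a3, a4]

theorem divA_spec (A : Fin 7 → ℂ) (χ : ℂ)
    (h0 : A 0 + A 1 * χ + A 2 * χ ^ 2 + A 3 * χ ^ 3 + A 4 * χ ^ 4 + A 5 * χ ^ 5 + A 6 * χ ^ 6 = 0)
    (h1 : A 1 + 2 * A 2 * χ + 3 * A 3 * χ ^ 2 + 4 * A 4 * χ ^ 3 + 5 * A 5 * χ ^ 4
      + 6 * A 6 * χ ^ 5 = 0) (s t : ℂ) :
    sext A s t = (s - χ * t) ^ 2 * quart (divA A χ) s t := by
  have e1 : sext A s t = A 0 * t ^ 6 + A 1 * s * t ^ 5 + A 2 * s ^ 2 * t ^ 4 + A 3 * s ^ 3 * t ^ 3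
      + A 4 * s ^ 4 * t ^ 2 + A 5 * s ^ 5 * t + A 6 * s ^ 6 := by
    rw [sext]
    simp only [Fin.sum_univ_succ, Fin.sum_univ_zero, Fin.val_zero, Fin.val_succ]
    norm_num
    have e : ∀ (i : Fin 7), A i = A i := fun _ => rfl
    show A 0 * t ^ 6 + (A 1 * s * t ^ 5 + (A 2 * s ^ 2 * t ^ 4 + (A 3 * s ^ 3 * t ^ 3
      + (A 4 * s ^ 4 * t ^ 2 + (A 5 * s ^ 5 * t + A 6 * s ^ 6))))) = _
    ring
  have e2 : quart (divA A χ) s t = (divA A χ 0) * t ^ 4 + (divA A χ 1) * s * t ^ 3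
      + (divA A χ 2) * s ^ 2 * t ^ 2 + (divA A χ 3) * s ^ 3 * t + (divA A χ 4) * s ^ 4 := by
    rw [quart]
    simp only [Fin.sum_univ_succ, Fin.sum_univ_zero, Fin.val_zero, Fin.val_succ]
    norm_num
    show divA A χ 0 * t ^ 4 + (divA A χ 1 * s * t ^ 3 + (divA A χ 2 * s ^ 2 * t ^ 2
      + (divA A χ 3 * s ^ 3 * t + divA A χ 4 * s ^ 4))) = _
    ring
  rw [e1, e2]
  have d0 : divA A χ 4 = A 6 := rfl
  have d1 : divA A χ 3 = A 5 + 2 * χ * A 6 := rfl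
  have d2 : divA A χ 2 = A 4 + 2 * χ * (A 5 + 2 * χ * A 6) - χ ^ 2 * A 6 := rfl
  have d3 : divA A χ 1 = A 3 + 2 * χ * (A 4 + 2 * χ * (A 5 + 2 * χ * A 6) - χ ^ 2 * A 6)
      - χ ^ 2 * (A 5 + 2 * χ * A 6) := rfl
  have d4 : divA A χ 0 = A 2 + 2 * χ * (A 3 + 2 * χ * (A 4 + 2 * χ * (A 5 + 2 * χ * A 6)
      - χ ^ 2 * A 6) - χ ^ 2 * (A 5 + 2 * χ * A 6))
      - χ ^ 2 * (A 4 + 2 * χ * (A 5 + 2 * χ * A 6) - χ ^ 2 * A 6) := rfl
  rw [d0, d1, d2, d3, d4]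
  linear_combination t ^ 6 * h0 + (s * t ^ 5 - χ * t ^ 6) * h1

end alg

end Crest.Agent.R279.Gen
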