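import Crest.Agent.R279.Gen269A
import Crest.Agent.R266.Osgood

/-!
# R279, M14 (helper269): arc data, part C — families over the disc
-/

set_option autoImplicit false

namespace Crest.Agent.R279.Gen

open Metric Filter Topology Set Strat

/-- Zeros of a holomorphic function on the disc which is not identically zero are countable. -/
theorem zeros_countable {f : ℂ → ℂ} (hf : DifferentiableOn ℂ f (ball 0 1)) {c0 : ℂ}
    (hc0 : c0 ∈ ball (0 : ℂ) 1) (h0 : f c0 ≠ 0) : {c | c ∈ ball (0 : ℂ) 1 ∧ f c = 0}.Countable := by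
  have han : AnalyticOnNhd ℂ f (ball 0 1) := hf.analyticOnNhd isOpen_ball
  apply countable_of_isolated
  rintro p ⟨hp, hp0⟩
  rcases (han p hp).eventually_eq_zero_or_eventually_ne_zero with h | h
  · exfalso
    apply h0
    have := han.eqOn_zero_of_preconnected_of_eventuallyEq_zero
      (convex_ball (0 : ℂ) 1).isPreconnected hp h
    exact this hc0
  · rw [eventually_nhdsWithin_iff] at h
    exact ⟨_, h, fun q hq hqO => by
      by_contra hne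
      exact hqO hne hq.2⟩

/-- Off a countable set of parameters a double root extends to a holomorphic double root. -/
theorem double_root {N : ℂ × ℂ → ℂ} {U : Set ℂ} (hU : IsOpen U)
    (hN : AnalyticOnNhd ℂ N (U ×ˢ univ))
    (hne : ∀ c ∈ U, ∀ X : ℂ, ¬ ∀ᶠ X' in 𝓝 X, N (c, X') = 0) :
    ∃ N0 : Set ℂ, N0.Countable ∧ ∀ c1 ∈ U \ N0, ∀ X1 : ℂ, N (c1, X1) = 0 → Dw N (c1, X1) = 0 →
      ∃ ρ > 0, ball c1 ρ ⊆ U ∧ ∃ χ : ℂ → ℂ, DifferentiableOn ℂ χ (ball c1 ρ) ∧ χ c1 = X1 ∧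
        ∀ c ∈ ball c1 ρ, N (c, χ c) = 0 ∧ Dw N (c, χ c) = 0 := by
  refine ⟨Prod.fst '' {p : ℂ × ℂ | p.1 ∈ U ∧ N p = 0 ∧ ¬ GoodRoot N U p},
    (bad_countable hU hN hne).image _, ?_⟩
  rintro c1 ⟨hc1, hnb⟩ X1 h0 h1
  have hg : GoodRoot N U (c1, X1) := by
    by_contra hg
    exact hnb ⟨(c1, X1), ⟨hc1, h0, hg⟩, rfl⟩
  obtain ⟨k, A, r, χ, hk1, hk, hAo, hcA, hAU, hr, hχ, hχ1, hχm, hord, huniq⟩ := hg
  have hk2 : 2 ≤ k := by
    by_contra hlt
    have hk' : k = 1 := by omega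
    subst hk'
    exact hk.2 (by simpa using h1)
  obtain ⟨ρ, hρ, hρs⟩ := Metric.mem_nhds_iff.1 (hAo.mem_nhds hcA)
  exact ⟨ρ, hρ, hρs.trans hAU, χ, hχ.mono hρs, hχ1, fun c hc =>
    ⟨hord c (hρs hc) 0 (by omega), by simpa using hord c (hρs hc) 1 (by omega)⟩⟩

/-- A function with a nonzero value on the slice is not locally zero on the slice. -/
theorem slice_ne {N : ℂ × ℂ → ℂ} {U : Set ℂ} (hN : AnalyticOnNhd ℂ N (U ×ˢ univ)) {c X0 : ℂ}
    (hc : c ∈ U) (h0 : N (c, X0) ≠ 0) (X : ℂ) : ¬ ∀ᶠ X' in 𝓝 X, N (c, X') = 0 := by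
  intro hev
  have han : AnalyticOnNhd ℂ (fun X' : ℂ => N (c, X')) univ := by
    intro X' _
    have h2 : AnalyticAt ℂ (fun w' : ℂ => ((c, w') : ℂ × ℂ)) X' := by fun_prop
    exact (hN (c, X') ⟨hc, mem_univ _⟩).comp h2
  exact h0 (han.eqOn_zero_of_preconnected_of_eventuallyEq_zero isPreconnected_univ
    (mem_univ X) hev (mem_univ X0))

theorem open_diff_zero {f : ℂ → ℂ} (hf : DifferentiableOn ℂ f (ball 0 1)) :
    IsOpen {c | c ∈ ball (0 : ℂ) 1 ∧ f c ≠ 0} := by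
  have := hf.continuousOn.isOpen_inter_preimage isOpen_ball (isOpen_compl_singleton (x := (0 : ℂ)))
  exact this

/-- A family `M_j(c, X)` on `disc × ℂ`, not all identically zero.  If the `M_j(c, ·)` have a
common root for uncountably many `c`, there is a holomorphic common root on a small disc. -/
theorem family_root {m : ℕ} {M : Fin m → ℂ × ℂ → ℂ}
    (hM : ∀ j, AnalyticOnNhd ℂ (M j) (ball 0 1 ×ˢ univ))
    {j0 : Fin m} {c0 X0 : ℂ} (hc0 : c0 ∈ ball (0 : ℂ) 1) (h0 : M j0 (c0, X0) ≠ 0)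
    (hZ : ¬ {c : ℂ | c ∈ ball (0 : ℂ) 1 ∧ ∃ X, ∀ j, M j (c, X) = 0}.Countable) :
    ∃ (c1 : ℂ) (ρ : ℝ) (χ : ℂ → ℂ), 0 < ρ ∧ ball c1 ρ ⊆ ball 0 1 ∧
      DifferentiableOn ℂ χ (ball c1 ρ) ∧ ∀ c ∈ ball c1 ρ, ∀ j, M j (c, χ c) = 0 := by
  set f : ℂ → ℂ := fun c => M j0 (c, X0) with hf
  have hfd : DifferentiableOn ℂ f (ball 0 1) := by
    have h1 : DifferentiableOn ℂ (M j0) (ball 0 1 ×ˢ univ) := (hM j0).differentiableOn
    have h2 : DifferentiableOn ℂ (fun c : ℂ => ((c, X0) : ℂ × ℂ)) (ball 0 1) := by fun_prop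
    exact h1.comp h2 (fun c hc => ⟨hc, mem_univ _⟩)
  have hcount := zeros_countable hfd hc0 h0
  have hUo := open_diff_zero hfd
  set U : Set ℂ := {c | c ∈ ball (0 : ℂ) 1 ∧ f c ≠ 0} with hU
  have hUs : U ⊆ ball 0 1 := fun c hc => hc.1
  have hZ' : ¬ {c : ℂ | c ∈ U ∧ ∃ X, M j0 (c, X) = 0 ∧ ∀ j, M j (c, X) = 0}.Countable := by
    intro h
    apply hZ
    refine (h.union hcount).mono ?_
    rintro c ⟨hc, X, hX⟩
    by_cases hfc : f c = 0
    · exact Or.inr ⟨hc, hfc⟩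
    · exact Or.inl ⟨⟨hc, hfc⟩, X, hX j0, hX⟩
  obtain ⟨c1, ρ, χ, hρ, hs, hχ, hall⟩ := common_root hUo
    ((hM j0).mono (prod_mono hUs Subset.rfl))
    (fun c hc X => slice_ne ((hM j0).mono (prod_mono hUs Subset.rfl)) hc hc.2 X)
    (fun j => (hM j).mono (prod_mono hUs Subset.rfl)) hZ'
  exact ⟨c1, ρ, χ, hρ, hs.trans hUs, hχ, fun c hc => (hall c hc).2⟩

end Crest.Agent.R279.Gen
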