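import Crest.Agent.R279.Gen269B
import Crest.Agent.R279.Gen269C
import Crest.Agent.R279.Chart28
import Crest.Agent.R279.EllStart928
import Crest.Agent.R279.Alg712A1
import Crest.Agent.R279.Alg712Rig

/-!
# R279, M14 (helper269): arc data, part D — frames of the tangent plane along an arc, lines, planes
-/

set_option autoImplicit false

namespace Crest.Agent.R279.Gen

open MvPolynomial Metric Set Filter Topology EllAlg

variable {Q : MvPolynomial (Fin 4) ℂ}

/-- a holomorphic function whose nonvanishing implies independence -/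
theorem exists_delta {b u v : ℂ → C4} (hb : DifferentiableOn ℂ b (ball 0 1))
    (hu : DifferentiableOn ℂ u (ball 0 1)) (hv : DifferentiableOn ℂ v (ball 0 1)) {c0 : ℂ}
    (h : LinearIndependent ℂ ![b c0, u c0, v c0]) :
    ∃ δ : ℂ → ℂ, DifferentiableOn ℂ δ (ball 0 1) ∧ δ c0 ≠ 0 ∧
      ∀ c, δ c ≠ 0 → LinearIndependent ℂ ![b c, u c, v c] := by
  obtain ⟨w, hw⟩ := exists_complete h
  refine ⟨fun c => Matrix.det (Matrix.of ![b c, u c, v c, w]), ?_, ?_, ?_⟩
  · have hent : ∀ r i : Fin 4, DifferentiableOn ℂ
        (fun c => Matrix.of ![b c, u c, v c, w] r i) (ball 0 1) := by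
      intro r i
      fin_cases r
      · exact fun c hc => differentiableWithinAt_pi.1 (hb c hc) i
      · exact fun c hc => differentiableWithinAt_pi.1 (hu c hc) i
      · exact fun c hc => differentiableWithinAt_pi.1 (hv c hc) i
      · exact differentiableOn_const _
    simp only [Matrix.det_apply]
    refine DifferentiableOn.fun_sum fun σ _ => ?_
    refine DifferentiableOn.const_smul ?_ _
    simp only [Fin.prod_univ_four]
    exact (((hent _ _).mul (hent _ _)).mul (hent _ _)).mul (hent _ _)
  · have hli : LinearIndependent ℂ (Matrix.of ![b c0, u c0, v c0, w]).row := by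
      rw [Fintype.linearIndependent_iff]
      intro g hg
      have hg' : g 0 • b c0 + g 1 • u c0 + g 2 • v c0 + g 3 • w = 0 := by
        rw [Fin.sum_univ_four] at hg
        exact hg
      have := hw g hg'
      intro i
      exact congrFun this i
    rw [Matrix.linearIndependent_rows_iff_isUnit] at hli
    have := (Matrix.isUnit_iff_isUnit_det _).1 hli
    exact this.ne_zero
  · intro c hc
    have h1 := Matrix.linearIndependent_rows_of_det_ne_zero hc
    have h2 := h1.comp Fin.castSucc (Fin.castSucc_injective 3)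
    have e : (fun i => Matrix.of ![b c, u c, v c, w] i) ∘ Fin.castSucc = ![b c, u c, v c] := by
      funext i
      fin_cases i <;> rfl
    rw [← e]
    exact h2

/-- an independent triple in the tangent plane spans it -/
theorem span3 (hQ : Alg.SmoothQuartic Q) {p u v : C4} (hp : p ≠ 0) (h0 : eval p Q = 0)
    (hu : q1 Q p u = 0) (hv : q1 Q p v = 0) (hli : LinearIndependent ℂ ![p, u, v]) {w : C4}
    (hw : q1 Q p w = 0) : ∃ a s t : ℂ, w = a • p + s • u + t • v := by
  have hle : Submodule.span ℂ (range ![p, u, v]) ≤ LinearMap.ker (q1L Q p) := by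
    rw [Submodule.span_le]
    rintro _ ⟨i, rfl⟩
    fin_cases i
    · change q1 Q p p = 0
      rw [q1_self hQ.hom, h0, mul_zero]
    · exact hu
    · exact hv
  have heq : Submodule.span ℂ (range ![p, u, v]) = LinearMap.ker (q1L Q p) := by
    apply Submodule.eq_of_le_of_finrank_eq hle
    rw [finrank_span_eq_card hli, finrank_ker_q1L hQ hp h0]
    rfl
  have hmem : w ∈ Submodule.span ℂ (range ![p, u, v]) := by rw [heq]; exact hw
  obtain ⟨c, hc⟩ := (Submodule.mem_span_range_iff_exists_fun ℂ).mp hmem
  refine ⟨c 0, c 1, c 2, ?_⟩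
  rw [← hc, Fin.sum_univ_three]
  simp only [Matrix.cons_val_zero, Matrix.cons_val_one, Matrix.cons_val]

theorem li3_iff {p u v : C4} : LinearIndependent ℂ ![p, u, v] ↔
    ∀ a s t : ℂ, a • p + s • u + t • v = 0 → a = 0 ∧ s = 0 ∧ t = 0 := by
  constructor
  · intro h a s t h0
    have := (Fintype.linearIndependent_iff.1 h) ![a, s, t] (by
      simpa [Fin.sum_univ_three] using h0)
    exact ⟨this 0, this 1, this 2⟩
  · intro h
    rw [Fintype.linearIndependent_iff]
    intro g hg
    obtain ⟨h1, h2, h3⟩ := h (g 0) (g 1) (g 2) (by simpa [Fin.sum_univ_three] using hg)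
    intro i
    fin_cases i
    · exact h1
    · exact h2
    · exact h3

/-- no plane on the surface -/
theorem no_plane (hQ : Alg.SmoothQuartic Q) {p u v : C4} (hli : LinearIndependent ℂ ![p, u, v])
    (h0 : ∀ a s t : ℂ, eval (a • p + s • u + t • v) Q = 0) : False := by
  have hl := li3_iff.1 hli
  have hd : ∀ z : ℂ × ℂ, HasFDerivAt (fun z : ℂ × ℂ => p + z.1 • u + z.2 • v)
      ((ContinuousLinearMap.fst ℂ ℂ ℂ).smulRight u + (ContinuousLinearMap.snd ℂ ℂ ℂ).smulRight v)
      z := by
    intro z
    have h1 : HasFDerivAt (fun z : ℂ × ℂ => z.1 • u)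
        ((ContinuousLinearMap.fst ℂ ℂ ℂ).smulRight u) z :=
      ((ContinuousLinearMap.fst ℂ ℂ ℂ).smulRight u).hasFDerivAt
    have h2 : HasFDerivAt (fun z : ℂ × ℂ => z.2 • v)
        ((ContinuousLinearMap.snd ℂ ℂ ℂ).smulRight v) z :=
      ((ContinuousLinearMap.snd ℂ ℂ ℂ).smulRight v).hasFDerivAt
    exact (h1.const_add p).add h2
  refine Alg.no_line_family hQ (W := univ) (x := fun z => p + z.1 • u + z.2 • v)
    { isOpen := isOpen_univ
      diff := fun z _ => (hd z).differentiableAt.differentiableWithinAt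
      zero := by
        intro z _
        have := h0 1 z.1 z.2
        rwa [one_smul] at this
      indep := by
        intro z _
        rw [(hd z).fderiv, li3_iff]
        intro a s t h
        simp only [add_apply, ContinuousLinearMap.smulRight_apply,
          ContinuousLinearMap.coe_fst', ContinuousLinearMap.coe_snd', one_smul, zero_smul,
          add_zero, zero_add] at h
        obtain ⟨h1, h2, h3⟩ := hl a (a * z.1 + s) (a * z.2 + t) (by
          rw [← h]; module)
        subst h1
        exact ⟨rfl, by simpa using h2, by simpa using h3⟩ } ⟨0, mem_univ _⟩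
    (u := fun _ => u) (differentiableOn_const _) ?_
  intro z _
  refine ⟨?_, ?_⟩
  · rw [LinearIndependent.pair_iff]
    intro a s h
    obtain ⟨h1, h2, h3⟩ := hl a (a * z.1 + s) (a * z.2) (by
      rw [← h]; module)
    subst h1
    exact ⟨rfl, by simpa using h2⟩
  · intro a s
    have := h0 a (a * z.1 + s) (a * z.2)
    rw [← this]
    have e : a • (p + z.1 • u + z.2 • v) + s • u = a • p + (a * z.1 + s) • u + (a * z.2) • v := by
      module
    rw [e]

/-- coefficients of `Q` on a line of the surface -/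
theorem line_coeffs (hQ : Q.IsHomogeneous 4) {b u : C4}
    (h0 : ∀ l t : ℂ, eval (l • b + t • u) Q = 0) :
    tens Q b b b b = 0 ∧ tens Q b b b u = 0 ∧ tens Q b b u u = 0 ∧ tens Q b u u u = 0 ∧
      tens Q u u u u = 0 := by
  have h1 : ∀ l t : ℂ, l ^ 4 * tens Q b b b b + l ^ 3 * t * (4 * tens Q b b b u)
      + l ^ 2 * t ^ 2 * (6 * tens Q b b u u) + l * t ^ 3 * (4 * tens Q b u u u)
      + t ^ 4 * tens Q u u u u = 0 := by
    intro l t
    have h := eval_comb hQ b u l t
    rw [h0, eval_eq_tens hQ, q1, q2, q3, q4] at h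
    exact h.symm
  have a0 := h1 1 0
  have a4 := h1 0 1
  have b1 := h1 1 1
  have b2 := h1 1 (-1)
  have b3 := h1 1 2
  have e0 : tens Q b b b b = 0 := by linear_combination a0
  have e4 : tens Q u u u u = 0 := by linear_combination a4
  rw [e0, e4] at b1 b2 b3
  have e2 : tens Q b b u u = 0 := by linear_combination (1/12) * (b1 + b2)
  rw [e2] at b1 b2 b3
  have e3 : tens Q b u u u = 0 := by linear_combination (1/24) * b3 - (1/12) * b1
  rw [e3] at b1
  have e1 : tens Q b b b u = 0 := by linear_combination (1/4) * b1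
  exact ⟨e0, e1, e2, e3, e4⟩

theorem alg_grad_apply (hQ : Q.IsHomogeneous 4) (p : C4) (i : Fin 4) :
    Alg.grad Q p i = q1 Q p (Pi.single i 1) := by
  rw [q1_eq hQ, Finset.sum_eq_single i]
  · simp [Alg.grad]
  · intro b _ hb; simp [hb]
  · simp

/-- the tangent planes along a line of the surface are not constant -/
theorem no_tan_line (hQ : Alg.SmoothQuartic Q) {b u v : C4}
    (hli : LinearIndependent ℂ ![b, u, v]) (h0 : ∀ l t : ℂ, eval (l • b + t • u) Q = 0)
    (hv : ∀ t : ℂ, q1 Q (b + t • u) v = 0) : False := by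
  have hl := li3_iff.1 hli
  obtain ⟨e0, e1, e2, e3, e4⟩ := line_coeffs hQ.hom h0
  have hne : ∀ t : ℂ, b + t • u ≠ 0 := by
    intro t h
    have := hl 1 t 0 (by rw [← h]; module)
    exact one_ne_zero this.1
  have hX : ∀ t : ℂ, eval (b + t • u) Q = 0 := by
    intro t
    have := h0 1 t
    rwa [one_smul] at this
  have hb0 : b ≠ 0 := by simpa using hne 0
  have hbX : eval b Q = 0 := by simpa using hX 0
  have hub : q1 Q b u = 0 := by rw [q1, e1, mul_zero]
  have hvb : q1 Q b v = 0 := by simpa using hv 0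
  have hbb : q1 Q b b = 0 := by rw [q1, e0, mul_zero]
  have hxb : ∀ t : ℂ, q1 Q (b + t • u) b = 0 := by
    intro t
    simp only [q1, tens_add1, tens_add2, tens_add3, tens_smul1, tens_smul2, tens_smul3]
    have f1 : tens Q b b u b = 0 := by rw [tens_swap34, e1]
    have f2 : tens Q b u b b = 0 := by rw [tens_swap24, e1]
    have f3 : tens Q u b b b = 0 := by rw [tens_swap14, e1]
    have f4 : tens Q b u u b = 0 := by rw [tens_swap24, e2]
    have f5 : tens Q u b u b = 0 := by rw [tens_swap14]; exact e2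
    have f6 : tens Q u u b b = 0 := by rw [tens_swap14, tens_swap23]; exact e2
    have f7 : tens Q u u u b = 0 := by rw [tens_swap14, e3]
    rw [e0, f1, f2, f3, f4, f5, f6, f7]
    ring
  have hxu : ∀ t : ℂ, q1 Q (b + t • u) u = 0 := by
    intro t
    simp only [q1, tens_add1, tens_add2, tens_add3, tens_smul1, tens_smul2, tens_smul3]
    have f1 : tens Q b u b u = 0 := by rw [tens_swap23, e2]
    have f2 : tens Q u b b u = 0 := by rw [tens_swap13, e2]
    have f4 : tens Q u b u u = 0 := by rw [tens_swap12, e3]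
    have f5 : tens Q u u b u = 0 := by rw [tens_swap13, e3]
    rw [e1, e2, f1, f2, e3, f4, f5, e4]
    ring
  -- `q1 (b + t u)` is proportional to `q1 b`
  have hprop : ∀ t : ℂ, ∃ μ : ℂ, μ ≠ 0 ∧ Alg.grad Q (b + t • u) = μ • Alg.grad Q b := by
    intro t
    have hq : q1L Q b ≠ 0 := q1L_ne_zero hQ hb0 hbX
    obtain ⟨n, hn⟩ : ∃ n, q1L Q b n ≠ 0 := by
      by_contra hcon
      push Not at hcon
      exact hq (LinearMap.ext fun n => by simpa using hcon n)
    have hn' : q1 Q b n ≠ 0 := hn
    have hw : ∀ w : C4, q1 Q (b + t • u) w = (q1 Q (b + t • u) n / q1 Q b n) * q1 Q b w := by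
      intro w
      have hker : q1 Q b (w + (-(q1 Q b w / q1 Q b n)) • n) = 0 := by
        rw [q1_add, q1_smul]; field_simp; ring
      obtain ⟨a, s, r, hasr⟩ := span3 hQ hb0 hbX hub hvb hli hker
      have h1 : q1 Q (b + t • u) (w + (-(q1 Q b w / q1 Q b n)) • n) = 0 := by
        rw [hasr, q1_add, q1_add, q1_smul, q1_smul, q1_smul, hxb, hxu, hv]; ring
      rw [q1_add, q1_smul] at h1
      rw [div_mul_eq_mul_div]
      field_simp at h1 ⊢
      linear_combination h1
    refine ⟨q1 Q (b + t • u) n / q1 Q b n, ?_, ?_⟩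
    · intro hμ
      apply q1L_ne_zero hQ (hne t) (hX t)
      apply LinearMap.ext
      intro w
      rw [q1L_apply, hw w, hμ, zero_mul]
      rfl
    · funext i
      rw [Pi.smul_apply, smul_eq_mul, alg_grad_apply hQ.hom, alg_grad_apply hQ.hom, hw]
  have hder : HasDerivAt (fun t : ℂ => b + t • u) u 0 := hasDerivAt_line b u
  obtain ⟨κ, hκ⟩ := Alg.gauss_arc hQ (a := fun t : ℂ => b + t • u) (t0 := 0)
    hder.differentiableAt (by simpa using hb0) (h0 := Alg.grad Q b) (by
      intro hg
      apply q1L_ne_zero hQ hb0 hbX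
      apply LinearMap.ext
      intro w
      rw [q1L_apply, ← alg_grad_dot hQ.hom, hg, zero_dotProduct]
      rfl)
    (Filter.Eventually.frequently (Filter.Eventually.of_forall hprop))
  rw [hder.deriv] at hκ
  simp only [zero_smul, add_zero] at hκ
  have := hl (-κ) 1 0 (by rw [hκ]; module)
  exact one_ne_zero this.2.1

end Crest.Agent.R279.Gen
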