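import Crest.Agent.R279.GenDefs28
import Crest.Agent.R279.TypeL28

/-!
# R279, M14 (helper269): arc data without the condition on common zeros
-/

set_option autoImplicit false

namespace Crest.Agent.R279.Gen

open Metric Set EllAlg

/-- `ArcAt` without `nocommon`. -/
structure ArcPre (Q : MvPolynomial (Fin 4) ℂ) (b : ℂ → C4) (c₁ : ℂ) where
  e : ℕ
  e_le : e ≤ 1
  B : Set ℂ
  isOpen_B : IsOpen B
  c₁_mem : c₁ ∈ B
  u₁ : ℂ → C4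
  u₂ : ℂ → C4
  diff_b : DifferentiableOn ℂ b B
  diff_u₁ : DifferentiableOn ℂ u₁ B
  diff_u₂ : DifferentiableOn ℂ u₂ B
  b_mem : ∀ c ∈ B, b c ∈ Vstar Q
  pr_u₁ : ∀ c ∈ B, pr (grad Q (b c)) (u₁ c) = 0
  pr_u₂ : ∀ c ∈ B, pr (grad Q (b c)) (u₂ c) = 0
  indep : ∀ c ∈ B, LinearIndependent ℂ ![b c, u₁ c, u₂ c]
  d : ℂ × ℂ × ℂ → ℂ
  h : ℂ × ℂ × ℂ → ℂ
  q2 : ℂ × ℂ × ℂ → ℂ
  q3 : ℂ × ℂ × ℂ → ℂ
  q4 : ℂ × ℂ × ℂ → ℂ
  diff_d : DifferentiableOn ℂ d (B ×ˢ univ)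
  diff_h : DifferentiableOn ℂ h (B ×ˢ univ)
  diff_q2 : DifferentiableOn ℂ q2 (B ×ˢ univ)
  diff_q3 : DifferentiableOn ℂ q3 (B ×ˢ univ)
  diff_q4 : DifferentiableOn ℂ q4 (B ×ˢ univ)
  hom_d : ∀ c ∈ B, ∀ t s₁ s₂ : ℂ, d (c, t * s₁, t * s₂) = t ^ e * d (c, s₁, s₂)
  hom_h : ∀ c ∈ B, ∀ t s₁ s₂ : ℂ, h (c, t * s₁, t * s₂) = t ^ (1 - e) * h (c, s₁, s₂)
  hom_q2 : ∀ c ∈ B, ∀ t s₁ s₂ : ℂ, q2 (c, t * s₁, t * s₂) = t ^ (2 - e) * q2 (c, s₁, s₂)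
  hom_q3 : ∀ c ∈ B, ∀ t s₁ s₂ : ℂ, q3 (c, t * s₁, t * s₂) = t ^ (3 - e) * q3 (c, s₁, s₂)
  hom_q4 : ∀ c ∈ B, ∀ t s₁ s₂ : ℂ, q4 (c, t * s₁, t * s₂) = t ^ (4 - e) * q4 (c, s₁, s₂)
  a : Fin 5 → ℂ → ℂ
  diff_a : ∀ i, DifferentiableOn ℂ (a i) B
  expand : ∀ c ∈ B, ∀ l s₁ s₂ : ℂ,
    MvPolynomial.eval (l • b c + s₁ • u₁ c + s₂ • u₂ c) Q
      = d (c, s₁, s₂) * (l ^ 2 * q2 (c, s₁, s₂) + l * q3 (c, s₁, s₂) + q4 (c, s₁, s₂))
  disc : ∀ c ∈ B, ∀ s₁ s₂ : ℂ,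
    q3 (c, s₁, s₂) ^ 2 - 4 * q2 (c, s₁, s₂) * q4 (c, s₁, s₂)
      = h (c, s₁, s₂) ^ 2 * quart (fun i => a i c) s₁ s₂

variable {Q : MvPolynomial (Fin 4) ℂ} {b : ℂ → C4} {c₁ : ℂ}

/-- It is enough to exclude common zeros at `c₁`. -/
theorem ArcPre.nonempty (A : ArcPre Q b c₁)
    (h : ∀ s₁ s₂ : ℂ, (s₁ ≠ 0 ∨ s₂ ≠ 0) →
      ¬ (A.q2 (c₁, s₁, s₂) = 0 ∧ A.q3 (c₁, s₁, s₂) = 0 ∧ A.q4 (c₁, s₁, s₂) = 0)) :
    Nonempty (ArcAt Q b c₁) := by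
  obtain ⟨B, hB, hcB, hBA, hn⟩ := nocommon_open28 A.isOpen_B A.c₁_mem
    (n := ![2 - A.e, 3 - A.e, 4 - A.e]) (q := ![A.q2, A.q3, A.q4])
    (by
      intro j
      fin_cases j
      · exact A.diff_q2.continuousOn
      · exact A.diff_q3.continuousOn
      · exact A.diff_q4.continuousOn)
    (by
      intro j c hc t s₁ s₂
      fin_cases j
      · exact A.hom_q2 c hc t s₁ s₂
      · exact A.hom_q3 c hc t s₁ s₂
      · exact A.hom_q4 c hc t s₁ s₂)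
    (by
      intro s₁ s₂ hs
      by_contra hcon
      push Not at hcon
      exact h s₁ s₂ hs ⟨hcon 0, hcon 1, hcon 2⟩)
  have hp : B ×ˢ (univ : Set (ℂ × ℂ)) ⊆ A.B ×ˢ univ := prod_mono hBA Subset.rfl
  exact ⟨{ e := A.e, e_le := A.e_le, B := B, isOpen_B := hB, c₁_mem := hcB
           u₁ := A.u₁, u₂ := A.u₂, diff_b := A.diff_b.mono hBA, diff_u₁ := A.diff_u₁.mono hBA
           diff_u₂ := A.diff_u₂.mono hBA, b_mem := fun c hc => A.b_mem c (hBA hc)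
           pr_u₁ := fun c hc => A.pr_u₁ c (hBA hc), pr_u₂ := fun c hc => A.pr_u₂ c (hBA hc)
           indep := fun c hc => A.indep c (hBA hc), d := A.d, h := A.h, q2 := A.q2, q3 := A.q3
           q4 := A.q4, diff_d := A.diff_d.mono hp, diff_h := A.diff_h.mono hp
           diff_q2 := A.diff_q2.mono hp, diff_q3 := A.diff_q3.mono hp
           diff_q4 := A.diff_q4.mono hp, hom_d := fun c hc => A.hom_d c (hBA hc)
           hom_h := fun c hc => A.hom_h c (hBA hc), hom_q2 := fun c hc => A.hom_q2 c (hBA hc)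
           hom_q3 := fun c hc => A.hom_q3 c (hBA hc), hom_q4 := fun c hc => A.hom_q4 c (hBA hc)
           a := A.a, diff_a := fun i => (A.diff_a i).mono hBA
           expand := fun c hc => A.expand c (hBA hc), disc := fun c hc => A.disc c (hBA hc)
           nocommon := by
             intro c hc s₁ s₂ hs h0
             obtain ⟨j, hj⟩ := hn c hc s₁ s₂ hs
             fin_cases j
             · exact hj h0.1
             · exact hj h0.2.1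
             · exact hj h0.2.2 }⟩

end Crest.Agent.R279.Gen
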