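import Crest.Agent.R279.Gen269D
import Crest.Agent.R279.Gen269E

/-!
# R279, M14 (helper269): arc data, part F — type N along a frame
-/

set_option autoImplicit false

namespace Crest.Agent.R279.Gen

open MvPolynomial Metric Set Filter Topology EllAlg

variable {Q : MvPolynomial (Fin 4) ℂ}

theorem sext_one (A : Fin 7 → ℂ) (X : ℂ) : sext A X 1 =
    A 0 + A 1 * X + A 2 * X ^ 2 + A 3 * X ^ 3 + A 4 * X ^ 4 + A 5 * X ^ 5 + A 6 * X ^ 6 := by
  rw [sext]
  simp only [Fin.sum_univ_succ, Fin.sum_univ_zero, Fin.val_zero, Fin.val_succ]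
  norm_num
  show A 0 + (A 1 * X + (A 2 * X ^ 2 + (A 3 * X ^ 3 + (A 4 * X ^ 4 + (A 5 * X ^ 5
    + (A 6 * X ^ 6)))))) = _
  ring

theorem hasDerivAt_sext_one (A : Fin 7 → ℂ) (X : ℂ) : HasDerivAt (fun X => sext A X 1)
    (A 1 + 2 * A 2 * X + 3 * A 3 * X ^ 2 + 4 * A 4 * X ^ 3 + 5 * A 5 * X ^ 4
      + 6 * A 6 * X ^ 5) X := by
  have e : (fun X => sext A X 1) = fun X => A 0 + A 1 * X + A 2 * X ^ 2 + A 3 * X ^ 3
      + A 4 * X ^ 4 + A 5 * X ^ 5 + A 6 * X ^ 6 := funext fun X => sext_one A X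
  rw [e]
  have hp : ∀ n : ℕ, HasDerivAt (fun X : ℂ => X ^ n) (n * X ^ (n - 1)) X := fun n =>
    hasDerivAt_pow n X
  have h := ((((((hasDerivAt_const X (A 0)).fun_add ((hasDerivAt_id' X).const_mul (A 1))).fun_add
    ((hp 2).const_mul (A 2))).fun_add ((hp 3).const_mul (A 3))).fun_add ((hp 4).const_mul (A 4))).fun_add
    ((hp 5).const_mul (A 5))).fun_add ((hp 6).const_mul (A 6))
  refine h.congr_deriv ?_
  norm_num
  ring

theorem differentiable_AA (i : Fin 7) :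
    Differentiable ℂ (fun z : C4 × C4 × C4 => AA Q z.1 z.2.1 z.2.2 i) := by
  have hb : Differentiable ℂ (fun z : C4 × C4 × C4 => z.1) := differentiable_fst
  have hu : Differentiable ℂ (fun z : C4 × C4 × C4 => z.2.1) := differentiable_fst.comp differentiable_snd
  have hv : Differentiable ℂ (fun z : C4 × C4 × C4 => z.2.2) := differentiable_snd.comp differentiable_snd
  have T : ∀ {p q r s : C4 × C4 × C4 → C4}, Differentiable ℂ p → Differentiable ℂ q →
      Differentiable ℂ r → Differentiable ℂ s → Differentiable ℂ (fun z => tens Q (p z) (q z) (r z) (s z)) :=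
    fun hp hq hr hs z => Alg.differentiableAt_tens (hp z) (hq z) (hr z) (hs z)
  have m1 : Differentiable ℂ (fun z : C4 × C4 × C4 => q3 Q z.1 z.2.2) := (T hb hv hv hv).const_mul 4
  have m2 : Differentiable ℂ (fun z : C4 × C4 × C4 => q2 Q z.1 z.2.2) := (T hb hb hv hv).const_mul 6
  have m3 : Differentiable ℂ (fun z : C4 × C4 × C4 => q4 Q z.2.2) := T hv hv hv hv
  have m4 : Differentiable ℂ (fun z : C4 × C4 × C4 => 12 * tens Q z.1 z.2.1 z.2.2 z.2.2) :=
    (T hb hu hv hv).const_mul 12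
  have m5 : Differentiable ℂ (fun z : C4 × C4 × C4 => q3 Q z.2.1 z.2.2) := (T hu hv hv hv).const_mul 4
  have m6 : Differentiable ℂ (fun z : C4 × C4 × C4 => 12 * tens Q z.1 z.1 z.2.1 z.2.2) :=
    (T hb hb hu hv).const_mul 12
  have m7 : Differentiable ℂ (fun z : C4 × C4 × C4 => 12 * tens Q z.1 z.2.1 z.2.1 z.2.2) :=
    (T hb hu hu hv).const_mul 12
  have m8 : Differentiable ℂ (fun z : C4 × C4 × C4 => q2 Q z.2.1 z.2.2) := (T hu hu hv hv).const_mul 6
  have m9 : Differentiable ℂ (fun z : C4 × C4 × C4 => q2 Q z.1 z.2.1) := (T hb hb hu hu).const_mul 6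
  have m10 : Differentiable ℂ (fun z : C4 × C4 × C4 => q3 Q z.1 z.2.1) := (T hb hu hu hu).const_mul 4
  have m11 : Differentiable ℂ (fun z : C4 × C4 × C4 => q1 Q z.2.1 z.2.2) := (T hu hu hu hv).const_mul 4
  have m12 : Differentiable ℂ (fun z : C4 × C4 × C4 => q4 Q z.2.1) := T hu hu hu hu
  fin_cases i
  · exact (m1.pow 2).sub ((m2.mul m3).const_mul 4)
  · exact ((m1.mul m4).const_mul 2).sub (((m2.mul m5).add (m6.mul m3)).const_mul 4)
  · exact ((m4.pow 2).add ((m1.mul m7).const_mul 2)).sub ((((m2.mul m8).add (m6.mul m5)).add (m9.mul m3)).const_mul 4)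
  · exact (((m1.mul m10).const_mul 2).add ((m4.mul m7).const_mul 2)).sub ((((m2.mul m11).add (m6.mul m8)).add (m9.mul m5)).const_mul 4)
  · exact ((m7.pow 2).add ((m4.mul m10).const_mul 2)).sub ((((m2.mul m12).add (m6.mul m11)).add (m9.mul m8)).const_mul 4)
  · exact ((m7.mul m10).const_mul 2).sub (((m6.mul m12).add (m9.mul m11)).const_mul 4)
  · exact (m10.pow 2).sub ((m9.mul m12).const_mul 4)

theorem differentiableOn_divA {B : Set ℂ} {A : ℂ → Fin 7 → ℂ} {χ : ℂ → ℂ}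
    (hA : ∀ i, DifferentiableOn ℂ (fun c => A c i) B) (hχ : DifferentiableOn ℂ χ B) (i : Fin 5) :
    DifferentiableOn ℂ (fun c => divA (A c) (χ c) i) B := by
  have h4 : DifferentiableOn ℂ (fun c => divA (A c) (χ c) 4) B := hA 6
  have h3 : DifferentiableOn ℂ (fun c => divA (A c) (χ c) 3) B :=
    (hA 5).add ((hχ.const_mul 2).mul h4)
  have h2 : DifferentiableOn ℂ (fun c => divA (A c) (χ c) 2) B :=
    ((hA 4).add ((hχ.const_mul 2).mul h3)).sub ((hχ.pow 2).mul h4)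
  have h1 : DifferentiableOn ℂ (fun c => divA (A c) (χ c) 1) B :=
    ((hA 3).add ((hχ.const_mul 2).mul h2)).sub ((hχ.pow 2).mul h3)
  have h0 : DifferentiableOn ℂ (fun c => divA (A c) (χ c) 0) B :=
    ((hA 2).add ((hχ.const_mul 2).mul h1)).sub ((hχ.pow 2).mul h2)
  fin_cases i
  · exact h0
  · exact h1
  · exact h2
  · exact h3
  · exact h4

section pre

variable {b u v : ℂ → C4} {B : Set ℂ} {c₁ : ℂ}

theorem diff_comb (hu : DifferentiableOn ℂ u B) (hv : DifferentiableOn ℂ v B) :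
    DifferentiableOn ℂ (fun z : ℂ × ℂ × ℂ => z.2.1 • u z.1 + z.2.2 • v z.1) (B ×ˢ univ) := by
  have h1 : DifferentiableOn ℂ (fun z : ℂ × ℂ × ℂ => u z.1) (B ×ˢ univ) :=
    hu.comp differentiableOn_fst (fun z hz => hz.1)
  have h2 : DifferentiableOn ℂ (fun z : ℂ × ℂ × ℂ => v z.1) (B ×ˢ univ) :=
    hv.comp differentiableOn_fst (fun z hz => hz.1)
  have h3 : DifferentiableOn ℂ (fun z : ℂ × ℂ × ℂ => z.2.1) (B ×ˢ univ) := by fun_prop
  have h4 : DifferentiableOn ℂ (fun z : ℂ × ℂ × ℂ => z.2.2) (B ×ˢ univ) := by fun_prop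
  exact (h3.smul h1).add (h4.smul h2)

/-- data of type N from a frame and a factorisation of the sextic -/
noncomputable def preN (hQ : Q.IsHomogeneous 4) (hB : IsOpen B) (hc : c₁ ∈ B)
    (hb : DifferentiableOn ℂ b B) (hu : DifferentiableOn ℂ u B) (hv : DifferentiableOn ℂ v B)
    (hV : ∀ c ∈ B, b c ∈ Vstar Q) (tu : ∀ c ∈ B, q1 Q (b c) (u c) = 0)
    (tv : ∀ c ∈ B, q1 Q (b c) (v c) = 0) (hli : ∀ c ∈ B, LinearIndependent ℂ ![b c, u c, v c])
    (h : ℂ × ℂ × ℂ → ℂ) (hh : DifferentiableOn ℂ h (B ×ˢ univ))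
    (homh : ∀ c ∈ B, ∀ t s₁ s₂ : ℂ, h (c, t * s₁, t * s₂) = t * h (c, s₁, s₂))
    (a : Fin 5 → ℂ → ℂ) (ha : ∀ i, DifferentiableOn ℂ (a i) B)
    (hdisc : ∀ c ∈ B, ∀ s₁ s₂ : ℂ, g6 Q (b c) (s₁ • u c + s₂ • v c)
      = h (c, s₁, s₂) ^ 2 * quart (fun i => a i c) s₁ s₂) : ArcPre Q b c₁ where
  e := 0
  e_le := Nat.zero_le _
  B := B
  isOpen_B := hB
  c₁_mem := hc
  u₁ := u
  u₂ := v
  diff_b := hb
  diff_u₁ := hu
  diff_u₂ := hv
  b_mem := hV
  pr_u₁ := fun c hc => by rw [ell_pr_grad hQ]; exact tu c hc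
  pr_u₂ := fun c hc => by rw [ell_pr_grad hQ]; exact tv c hc
  indep := hli
  d := fun _ => 1
  h := h
  q2 := fun z => q2 Q (b z.1) (z.2.1 • u z.1 + z.2.2 • v z.1)
  q3 := fun z => q3 Q (b z.1) (z.2.1 • u z.1 + z.2.2 • v z.1)
  q4 := fun z => q4 Q (z.2.1 • u z.1 + z.2.2 • v z.1)
  diff_d := differentiableOn_const _
  diff_h := hh
  diff_q2 := by
    have h1 : DifferentiableOn ℂ (fun z : ℂ × ℂ × ℂ => b z.1) (B ×ˢ univ) :=
      hb.comp differentiableOn_fst (fun z hz => hz.1)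
    have h2 := diff_comb hu hv
    exact (Alg.differentiableOn_tens h1 h1 h2 h2).const_mul 6
  diff_q3 := by
    have h1 : DifferentiableOn ℂ (fun z : ℂ × ℂ × ℂ => b z.1) (B ×ˢ univ) :=
      hb.comp differentiableOn_fst (fun z hz => hz.1)
    have h2 := diff_comb hu hv
    exact (Alg.differentiableOn_tens h1 h2 h2 h2).const_mul 4
  diff_q4 := by
    have h2 := diff_comb hu hv
    exact Alg.differentiableOn_tens h2 h2 h2 h2
  hom_d := fun c _ t s₁ s₂ => by rw [pow_zero, one_mul]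
  hom_h := fun c hc t s₁ s₂ => by rw [homh c hc]; ring
  hom_q2 := fun c _ t s₁ s₂ => by
    dsimp only
    rw [mul_smul, mul_smul, ← smul_add, q2_smul_right]
  hom_q3 := fun c _ t s₁ s₂ => by
    dsimp only
    rw [mul_smul, mul_smul, ← smul_add, q3_smul_right]
  hom_q4 := fun c _ t s₁ s₂ => by
    dsimp only
    rw [mul_smul, mul_smul, ← smul_add, q4_smul]
  a := a
  diff_a := ha
  expand := fun c hc l s₁ s₂ => by
    dsimp only
    have hmem : s₁ • u c + s₂ • v c ∈ Tg Q (b c) :=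
      (Tg Q (b c)).add_mem ((Tg Q (b c)).smul_mem _ (tu c hc)) ((Tg Q (b c)).smul_mem _ (tv c hc))
    have h := eval_comb_tangent hQ (hV c hc).2 hmem l 1
    rw [one_smul, ← add_assoc] at h
    rw [h]
    ring
  disc := fun c hc s₁ s₂ => by
    have h := hdisc c hc s₁ s₂
    rw [g6, mul_assoc] at h
    rw [← h, ← mul_assoc]

end pre

/-- TYPE N in one chart: off a countable set of parameters, a double root of the sextic in the
chart `X u + v` gives the arc data. -/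
theorem typeN_chart (hQ : Alg.SmoothQuartic Q) {b u v : ℂ → C4}
    (hb : DifferentiableOn ℂ b (ball 0 1)) (hu : DifferentiableOn ℂ u (ball 0 1))
    (hv : DifferentiableOn ℂ v (ball 0 1)) (hV : ∀ c ∈ ball (0 : ℂ) 1, b c ∈ Vstar Q)
    (tu : ∀ c ∈ ball (0 : ℂ) 1, q1 Q (b c) (u c) = 0)
    (tv : ∀ c ∈ ball (0 : ℂ) 1, q1 Q (b c) (v c) = 0) {U : Set ℂ} (hUo : IsOpen U)
    (hUs : U ⊆ ball 0 1) (hli : ∀ c ∈ U, LinearIndependent ℂ ![b c, u c, v c])
    (hne : ∀ c ∈ U, ∃ X0 : ℂ, g6 Q (b c) (X0 • u c + v c) ≠ 0) :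
    ∃ N0 : Set ℂ, N0.Countable ∧ ∀ c1 ∈ U \ N0, ∀ X1 : ℂ,
      g6 Q (b c1) (X1 • u c1 + v c1) = 0 → dg6 Q (b c1) (X1 • u c1 + v c1) (u c1) = 0 →
      (∀ s₁ s₂ : ℂ, (s₁ ≠ 0 ∨ s₂ ≠ 0) → ¬ (q2 Q (b c1) (s₁ • u c1 + s₂ • v c1) = 0 ∧
        q3 Q (b c1) (s₁ • u c1 + s₂ • v c1) = 0 ∧ q4 Q (s₁ • u c1 + s₂ • v c1) = 0)) →
      Nonempty (ArcAt Q b c1) := by
  set N : ℂ × ℂ → ℂ := fun z => g6 Q (b z.1) (z.2 • u z.1 + v z.1) with hNdef
  have hNd : DifferentiableOn ℂ N (U ×ˢ univ) := by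
    have h1 : DifferentiableOn ℂ (fun z : ℂ × ℂ => b z.1) (U ×ˢ univ) :=
      (hb.mono hUs).comp differentiableOn_fst (fun z hz => hz.1)
    have h2 : DifferentiableOn ℂ (fun z : ℂ × ℂ => u z.1) (U ×ˢ univ) :=
      (hu.mono hUs).comp differentiableOn_fst (fun z hz => hz.1)
    have h3 : DifferentiableOn ℂ (fun z : ℂ × ℂ => v z.1) (U ×ˢ univ) :=
      (hv.mono hUs).comp differentiableOn_fst (fun z hz => hz.1)
    have h4 : DifferentiableOn ℂ (fun z : ℂ × ℂ => z.2 • u z.1 + v z.1) (U ×ˢ univ) :=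
      (differentiableOn_snd.smul h2).add h3
    exact Differentiable.comp_differentiableOn (g := fun z : C4 × C4 => g6 Q z.1 z.2)
      (f := fun z : ℂ × ℂ => (b z.1, z.2 • u z.1 + v z.1)) (differentiable_g6 (Q := Q))
      (h1.prodMk h4)
  have hNa : AnalyticOnNhd ℂ N (U ×ˢ univ) :=
    Crest.Agent.R266.SCV.analyticOnNhd_of_differentiableOn (hUo.prod isOpen_univ) hNd
  obtain ⟨N0, hN0, hroot⟩ := double_root hUo hNa (fun c hc X => by
    obtain ⟨X0, hX0⟩ := hne c hc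
    exact slice_ne hNa hc hX0 X)
  refine ⟨N0, hN0, ?_⟩
  rintro c1 ⟨hc1, hc1N⟩ X1 hg hdg hnc
  -- derivatives of `N` in `X`
  have hder : ∀ c : ℂ, ∀ X : ℂ, HasDerivAt (fun X => N (c, X))
      (dg6 Q (b c) (X • u c + v c) (u c)) X := by
    intro c X
    have h1 := hasDerivAt_g6 (Q := Q) (b c) (X • u c + v c) (u c)
    have h2 : HasDerivAt (fun X' : ℂ => X' - X) 1 X := (hasDerivAt_id X).sub_const X
    have h1' : HasDerivAt (fun t : ℂ => g6 Q (b c) (X • u c + v c + t • u c))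
        (dg6 Q (b c) (X • u c + v c) (u c)) (X - X) := by rw [sub_self]; exact h1
    have h3 := HasDerivAt.comp X (h := fun X' : ℂ => X' - X) h1' h2
    rw [mul_one] at h3
    refine h3.congr_of_eventuallyEq (Filter.Eventually.of_forall fun X' => ?_)
    show g6 Q (b c) (X' • u c + v c) = g6 Q (b c) (X • u c + v c + (X' - X) • u c)
    congr 1
    module
  have hDw : ∀ c ∈ U, ∀ X : ℂ, Strat.Dw N (c, X) = dg6 Q (b c) (X • u c + v c) (u c) := by
    intro c hc X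
    have h1 := Strat.hasDerivAt_slice (N := N) (x := c) (w := X)
      (hNa (c, X) ⟨hc, mem_univ _⟩).differentiableAt
    exact h1.unique (hder c X)
  obtain ⟨ρ, hρ, hs, χ, hχ, hχ1, hall⟩ := hroot c1 ⟨hc1, hc1N⟩ X1 hg (by rw [hDw c1 hc1]; exact hdg)
  have hs1 : ball c1 ρ ⊆ ball 0 1 := hs.trans hUs
  have hAd : ∀ i, DifferentiableOn ℂ (fun c => AA Q (b c) (u c) (v c) i) (ball c1 ρ) := by
    intro i
    exact Differentiable.comp_differentiableOn (g := fun z : C4 × C4 × C4 => AA Q z.1 z.2.1 z.2.2 i)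
      (f := fun c : ℂ => (b c, u c, v c)) (differentiable_AA (Q := Q) i)
      ((hb.mono hs1).prodMk ((hu.mono hs1).prodMk (hv.mono hs1)))
  set h : ℂ × ℂ × ℂ → ℂ := fun z => z.2.1 - χ z.1 * z.2.2 with hh
  have hhd : DifferentiableOn ℂ h (ball c1 ρ ×ˢ univ) := by
    have h1 : DifferentiableOn ℂ (fun z : ℂ × ℂ × ℂ => χ z.1) (ball c1 ρ ×ˢ univ) :=
      hχ.comp differentiableOn_fst (fun z hz => hz.1)
    have h3 : DifferentiableOn ℂ (fun z : ℂ × ℂ × ℂ => z.2.1) (ball c1 ρ ×ˢ univ) := by fun_prop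
    have h4 : DifferentiableOn ℂ (fun z : ℂ × ℂ × ℂ => z.2.2) (ball c1 ρ ×ˢ univ) := by fun_prop
    exact h3.sub (h1.mul h4)
  refine (preN (u := u) (v := v) hQ.hom isOpen_ball (mem_ball_self hρ) (hb.mono hs1) (hu.mono hs1)
    (hv.mono hs1) (fun c hc => hV c (hs1 hc)) (fun c hc => tu c (hs1 hc))
    (fun c hc => tv c (hs1 hc)) (fun c hc => hli c (hs hc)) h hhd
    (fun c _ t s₁ s₂ => by simp only [hh]; ring)
    (fun i c => divA (AA Q (b c) (u c) (v c)) (χ c) i)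
    (fun i => differentiableOn_divA hAd hχ i) ?_).nonempty ?_
  · intro c hc s₁ s₂
    rw [g6_frame]
    have h0 : sext (AA Q (b c) (u c) (v c)) (χ c) 1 = 0 := by
      have := (hall c hc).1
      rw [← g6_frame, one_smul]
      exact this
    have h1 := (hall c hc).2
    rw [hDw c (hs hc)] at h1
    have h2 : HasDerivAt (fun X => sext (AA Q (b c) (u c) (v c)) X 1) 0 (χ c) := by
      have h3 := hder c (χ c)
      rw [h1] at h3
      refine h3.congr_of_eventuallyEq (Filter.Eventually.of_forall fun X' => ?_)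
      show sext (AA Q (b c) (u c) (v c)) X' 1 = g6 Q (b c) (X' • u c + v c)
      rw [← g6_frame, one_smul]
    have h3 := (hasDerivAt_sext_one (AA Q (b c) (u c) (v c)) (χ c)).unique h2
    rw [sext_one] at h0
    exact divA_spec _ _ h0 h3 s₁ s₂
  · exact hnc

end Crest.Agent.R279.Gen
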