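import Crest.Agent.R279.Gen269F
import Crest.Agent.R279.ConstLine556
import Crest.Agent.R279.LocEq60

/-!
# R279, M14 (helper269): arc data, part G — type N
-/

set_option autoImplicit false

namespace Crest.Agent.R279.Gen

open MvPolynomial Metric Set Filter Topology EllAlg

variable {Q : MvPolynomial (Fin 4) ℂ}

/-- A line of the surface through `b c` which moves holomorphically with `c` is constant and
contains the whole arc. -/
theorem line_of_moving (hQ : Alg.SmoothQuartic Q) {b w : ℂ → C4}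
    (hb : DifferentiableOn ℂ b (ball 0 1)) {c1 : ℂ} {ρ : ℝ} (hρ : 0 < ρ)
    (hs : ball c1 ρ ⊆ ball 0 1) (hw : DifferentiableOn ℂ w (ball c1 ρ))
    (hli : ∀ c ∈ ball c1 ρ, LinearIndependent ℂ ![b c, w c])
    (h0 : ∀ c ∈ ball c1 ρ, ∀ l t : ℂ, eval (l • b c + t • w c) Q = 0) :
    ∃ e1 e2 : C4, LinearIndependent ℂ ![e1, e2] ∧ (∀ l t : ℂ, eval (l • e1 + t • e2) Q = 0) ∧
      ∀ c ∈ ball (0 : ℂ) 1, ∃ l t : ℂ, b c = l • e1 + t • e2 := by
  obtain ⟨ρ', hρ', hle, e1, e2, i, j, hlie, hall⟩ := const_line hQ hρ (hb.mono hs) hw hli h0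
  refine ⟨e1, e2, hlie, ?_, ?_⟩
  · intro l t
    have hc1 : c1 ∈ ball c1 ρ := mem_ball_self hρ
    obtain ⟨hb1, hw1⟩ := hall c1 (mem_ball_self hρ')
    have hl := LinearIndependent.pair_iff.1 (hli c1 hc1)
    have hz := h0 c1 hc1
    generalize b c1 i = bi at *
    generalize b c1 j = bj at *
    generalize w c1 i = wi at *
    generalize w c1 j = wj at *
    generalize b c1 = p at *
    generalize w c1 = q at *
    have hD : bi * wj - bj * wi ≠ 0 := by
      intro hD
      have h1 := hl wj (-bj) (by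
        rw [hb1, hw1]
        have : wj • (bi • e1 + bj • e2) + -bj • (wi • e1 + wj • e2)
          = (bi * wj - bj * wi) • e1 := by module
        rw [this, hD, zero_smul])
      have h2 := hl wi (-bi) (by
        rw [hb1, hw1]
        have : wi • (bi • e1 + bj • e2) + -bi • (wi • e1 + wj • e2)
          = -(bi * wj - bj * wi) • e2 := by module
        rw [this, hD, neg_zero, zero_smul])
      have h3 := hl 1 0 (by
        rw [hb1, neg_eq_zero.1 h1.2, neg_eq_zero.1 h2.2]; simp)
      exact one_ne_zero h3.1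
    have e : l • e1 + t • e2 = ((bi * wj - bj * wi)⁻¹ * (l * wj - t * wi)) • p
        + ((bi * wj - bj * wi)⁻¹ * (-l * bj + t * bi)) • q := by
      have e' : (bi * wj - bj * wi) • (l • e1 + t • e2) = (l * wj - t * wi) • p
          + (-l * bj + t * bi) • q := by
        rw [hb1, hw1]; module
      rw [mul_smul, mul_smul, ← smul_add, ← e', smul_smul, inv_mul_cancel₀ hD, one_smul]
    rw [e]
    exact hz _ _
  · intro c hc
    refine ⟨b c i, b c j, ?_⟩
    funext k
    have hbk : ∀ m : Fin 4, DifferentiableOn ℂ (fun c => b c m) (ball 0 1) := fun m c hc =>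
      differentiableWithinAt_pi.1 (hb c hc) m
    have hf : DifferentiableOn ℂ (fun c => b c k - (b c i * e1 k + b c j * e2 k)) (ball 0 1) :=
      (hbk k).sub (((hbk i).mul_const _).add ((hbk j).mul_const _))
    have han := hf.analyticOnNhd isOpen_ball
    have hev : (fun c => b c k - (b c i * e1 k + b c j * e2 k)) =ᶠ[𝓝 c1] 0 := by
      filter_upwards [ball_mem_nhds c1 hρ'] with c hc
      have := congrFun (hall c hc).1 k
      simp only [Pi.add_apply, Pi.smul_apply, smul_eq_mul] at this
      simp only [Pi.zero_apply]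
      rw [sub_eq_zero]
      exact this
    have := han.eqOn_zero_of_preconnected_of_eventuallyEq_zero
      (convex_ball (0 : ℂ) 1).isPreconnected (hs (mem_ball_self hρ)) hev hc
    simp only [Pi.zero_apply] at this
    simp only [Pi.add_apply, Pi.smul_apply, smul_eq_mul]
    exact sub_eq_zero.1 this

/-- scaling of the direction in `dg6` -/
theorem dg6_smul_dir (p u w : C4) (t : ℂ) : dg6 Q p (t • u) w = t ^ 5 * dg6 Q p u w := by
  simp only [dg6, q2, q3, q4, dq2, dq3, dq4, tens_smul1, tens_smul2, tens_smul3, tens_smul4]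
  ring

/-- a multiple root in one of the two charts -/
theorem root_cases (hQ : Q.IsHomogeneous 4) {p u v : C4} (hp : eval p Q = 0)
    (tu : q1 Q p u = 0) (tv : q1 Q p v = 0)
    (hspan : ∀ w : C4, q1 Q p w = 0 → ∃ a s t : ℂ, w = a • p + s • u + t • v) (hD : InD Q p) :
    (∃ X : ℂ, g6 Q p (X • u + v) = 0 ∧ dg6 Q p (X • u + v) u = 0) ∨
      (∃ X : ℂ, g6 Q p (X • v + u) = 0 ∧ dg6 Q p (X • v + u) v = 0) := by
  obtain ⟨w, hw, hl, h0, hd⟩ := hD
  obtain ⟨a, s, t, rfl⟩ := hspan w hw
  have hu' : s • u + t • v ∈ Tg Q p :=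
    (Tg Q p).add_mem ((Tg Q p).smul_mem s tu) ((Tg Q p).smul_mem t tv)
  have e1 : a • p + s • u + t • v = (s • u + t • v) + a • p := by abel
  rw [e1] at h0
  rw [g6_add_smul hQ hp hu'] at h0
  have hdu : dg6 Q p (s • u + t • v) u = 0 := by
    rw [← LocEq.dg6_add_smul hQ hp hu' tu a, ← e1]
    exact hd u tu
  have hdv : dg6 Q p (s • u + t • v) v = 0 := by
    rw [← LocEq.dg6_add_smul hQ hp hu' tv a, ← e1]
    exact hd v tv
  by_cases ht : t = 0
  · have hs : s ≠ 0 := by
      rintro rfl
      subst ht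
      rw [LinearIndependent.pair_iff] at hl
      have := hl a (-1) (by simp)
      simp at this
    right
    have e2 : s • u + t • v = s • ((t / s) • v + u) := by
      rw [smul_add, smul_smul, mul_div_cancel₀ _ hs, add_comm]
    rw [e2] at h0 hdv
    rw [g6_smul_right] at h0
    rw [dg6_smul_dir] at hdv
    exact ⟨t / s, (mul_eq_zero.1 h0).resolve_left (pow_ne_zero 6 hs),
      (mul_eq_zero.1 hdv).resolve_left (pow_ne_zero 5 hs)⟩
  · left
    have e2 : s • u + t • v = t • ((s / t) • u + v) := by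
      rw [smul_add, smul_smul, mul_div_cancel₀ _ ht]
    rw [e2] at h0 hdu
    rw [g6_smul_right] at h0
    rw [dg6_smul_dir] at hdu
    exact ⟨s / t, (mul_eq_zero.1 h0).resolve_left (pow_ne_zero 6 ht),
      (mul_eq_zero.1 hdu).resolve_left (pow_ne_zero 5 ht)⟩

/-- a continuous function which vanishes off `0` vanishes at `0` -/
theorem eq_zero_at_zero {f : ℂ → ℂ} (hf : Continuous f) (h : ∀ᶠ t in 𝓝[≠] (0 : ℂ), f t = 0) :
    f 0 = 0 := by
  have h1 : Tendsto f (𝓝[≠] 0) (𝓝 (f 0)) := hf.continuousAt.tendsto.mono_left nhdsWithin_le_nhds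
  have h2 : Tendsto f (𝓝[≠] 0) (𝓝 0) := by
    refine tendsto_const_nhds.congr' ?_
    filter_upwards [h] with t ht
    exact ht.symm
  exact tendsto_nhds_unique h1 h2

theorem continuous_g6 (p : C4) {w : ℂ → C4} (hw : Continuous w) :
    Continuous (fun t => g6 Q p (w t)) :=
  Continuous.comp (g := fun z : C4 × C4 => g6 Q z.1 z.2) (f := fun t => (p, w t))
    (differentiable_g6 (Q := Q)).continuous (continuous_const.prodMk hw)

/-- vanishing of the sextic in an affine chart (off one point) gives vanishing -/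
theorem g6_eq_zero_of_chart {p u v : C4} (h : ∀ X : ℂ, X ≠ 0 → g6 Q p (X • u + v) = 0)
    (s t : ℂ) : g6 Q p (s • u + t • v) = 0 := by
  have key : ∀ s t : ℂ, s ≠ 0 → t ≠ 0 → g6 Q p (s • u + t • v) = 0 := by
    intro s t hs ht
    have e2 : s • u + t • v = t • ((s / t) • u + v) := by
      rw [smul_add, smul_smul, mul_div_cancel₀ _ ht]
    rw [e2, g6_smul_right, h _ (div_ne_zero hs ht), mul_zero]
  have hc : Continuous (fun τ : ℂ => g6 Q p ((s + τ) • u + (t + τ) • v)) :=
    continuous_g6 p (by fun_prop)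
  have hev : ∀ (a : ℂ), ∀ᶠ τ in 𝓝[≠] (0 : ℂ), a + τ ≠ 0 := by
    intro a
    by_cases ha : a = 0
    · subst ha
      filter_upwards [self_mem_nhdsWithin] with τ hτ
      simpa using hτ
    · have h1 : ContinuousAt (fun τ : ℂ => a + τ) 0 := by fun_prop
      exact nhdsWithin_le_nhds (h1.eventually_ne (by simpa using ha))
  have := eq_zero_at_zero hc (by
    filter_upwards [hev s, hev t] with τ h1 h2
    exact key _ _ h1 h2)
  simpa using this

end Crest.Agent.R279.Gen
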