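import Crest.Agent.R279.Chart28

/-!
# R279, M14 (helper28), A10 (i): independence of `H(x), H(p), H(p')`
-/

set_option autoImplicit false

namespace Crest.Agent.R279.Gen

open MvPolynomial Set Filter Topology Metric EllAlg

variable {Q : MvPolynomial (Fin 4) ℂ}

/-- two independent vectors have a nonzero minor -/
theorem exists_minor {g g' : Fin 4 → ℂ} (h : LinearIndependent ℂ ![g, g']) :
    ∃ i j, g i * g' j - g j * g' i ≠ 0 := by
  have hg : g ≠ 0 := h.ne_zero 0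
  obtain ⟨i, hi⟩ : ∃ i, g i ≠ 0 := Function.ne_iff.mp hg
  by_contra hcon
  push Not at hcon
  rw [LinearIndependent.pair_iff' hg] at h
  apply h (g' i / g i)
  funext j
  simp only [Pi.smul_apply, smul_eq_mul]
  field_simp
  linear_combination -hcon i j

/-- the projection of the vector `y` to the plane `{⟨H(p), ·⟩ = ⟨H(p'), ·⟩ = 0}` -/
noncomputable def wv (Q : MvPolynomial (Fin 4) ℂ) (f₁ f₂ y : Fin 4 → ℂ)
    (z : (Fin 4 → ℂ) × (Fin 4 → ℂ)) : Fin 4 → ℂ :=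
  (q1 Q z.1 f₁ * q1 Q z.2 f₂ - q1 Q z.1 f₂ * q1 Q z.2 f₁) • y
    - (q1 Q z.2 f₂ * q1 Q z.1 y - q1 Q z.1 f₂ * q1 Q z.2 y) • f₁
    - (q1 Q z.1 f₁ * q1 Q z.2 y - q1 Q z.2 f₁ * q1 Q z.1 y) • f₂

theorem differentiable_q1_left (u : Fin 4 → ℂ) : Differentiable ℂ (fun p => q1 Q p u) := by
  unfold q1 tens; fun_prop

theorem differentiable_wv (f₁ f₂ y : Fin 4 → ℂ) : Differentiable ℂ (wv Q f₁ f₂ y) := by
  have h1 : ∀ u, Differentiable ℂ (fun z : (Fin 4 → ℂ) × (Fin 4 → ℂ) => q1 Q z.1 u) :=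
    fun u => (differentiable_q1_left u).comp differentiable_fst
  have h2 : ∀ u, Differentiable ℂ (fun z : (Fin 4 → ℂ) × (Fin 4 → ℂ) => q1 Q z.2 u) :=
    fun u => (differentiable_q1_left u).comp differentiable_snd
  unfold wv
  exact ((((h1 f₁).mul (h2 f₂)).sub ((h1 f₂).mul (h2 f₁))).smul_const y |>.sub
    ((((h2 f₂).mul (h1 y)).sub ((h1 f₂).mul (h2 y))).smul_const f₁)).sub
    ((((h1 f₁).mul (h2 y)).sub ((h2 f₁).mul (h1 y))).smul_const f₂)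

theorem q1_sub (p u v : Fin 4 → ℂ) : q1 Q p (u - v) = q1 Q p u - q1 Q p v :=
  (q1L Q p).map_sub u v

theorem q1_wv (f₁ f₂ y x : Fin 4 → ℂ) (z : (Fin 4 → ℂ) × (Fin 4 → ℂ)) :
    q1 Q x (wv Q f₁ f₂ y z) =
      (q1 Q z.1 f₁ * q1 Q z.2 f₂ - q1 Q z.1 f₂ * q1 Q z.2 f₁) * q1 Q x y
      - (q1 Q z.2 f₂ * q1 Q z.1 y - q1 Q z.1 f₂ * q1 Q z.2 y) * q1 Q x f₁
      - (q1 Q z.1 f₁ * q1 Q z.2 y - q1 Q z.2 f₁ * q1 Q z.1 y) * q1 Q x f₂ := by
  rw [wv, q1_sub, q1_sub, q1_smul, q1_smul, q1_smul]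

theorem q1_fst_wv (f₁ f₂ y : Fin 4 → ℂ) (z : (Fin 4 → ℂ) × (Fin 4 → ℂ)) :
    q1 Q z.1 (wv Q f₁ f₂ y z) = 0 := by rw [q1_wv]; ring

theorem q1_snd_wv (f₁ f₂ y : Fin 4 → ℂ) (z : (Fin 4 → ℂ) × (Fin 4 → ℂ)) :
    q1 Q z.2 (wv Q f₁ f₂ y z) = 0 := by rw [q1_wv]; ring

/-- if `H(x)` is a combination of `H(p)`, `H(p')` then `⟨H(x), wv⟩ = 0` -/
theorem q1_wv_eq_zero (hQ : Q.IsHomogeneous 4) (f₁ f₂ y x : Fin 4 → ℂ)
    (z : (Fin 4 → ℂ) × (Fin 4 → ℂ)) {α β : ℂ}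
    (h : grad Q x = α • grad Q z.1 + β • grad Q z.2) : q1 Q x (wv Q f₁ f₂ y z) = 0 := by
  have h1 : ∀ u, q1 Q x u = α * q1 Q z.1 u + β * q1 Q z.2 u := by
    intro u
    rw [q1_eq_pr hQ, q1_eq_pr hQ, q1_eq_pr hQ, h]
    simp only [pr, Pi.add_apply, Pi.smul_apply, smul_eq_mul, Finset.mul_sum,
      ← Finset.sum_add_distrib]
    exact Finset.sum_congr rfl fun i _ => by ring
  rw [h1, q1_fst_wv, q1_snd_wv]; ring

theorem continuous_grad : Continuous (grad Q) :=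
  continuous_pi fun _ => MvPolynomial.continuous_eval _

variable {W : Set (ℂ × ℂ)} {X : ℂ × ℂ → Fin 4 → ℂ} {b b' : ℂ → Fin 4 → ℂ} {γ γ' : ℂ × ℂ → ℂ}

/-- **A10 (i)**. -/
theorem exists_indep (hQ : Alg.SmoothQuartic Q) (hC : Alg.IsChart Q W X)
    (h : ChartBranch Q W X b γ) (h' : ChartBranch Q W X b' γ')
    (hind : ∃ z ∈ W, LinearIndependent ℂ ![grad Q (b (γ z)), grad Q (b' (γ' z))]) :
    ∃ z ∈ W, LinearIndependent ℂ ![grad Q (X z), grad Q (b (γ z)), grad Q (b' (γ' z))] := by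
  by_contra hcon
  push Not at hcon
  obtain ⟨z₀, hz₀, hi₀⟩ := hind
  -- shrink
  set W' : Set (ℂ × ℂ) :=
    {z | z ∈ W ∧ LinearIndependent ℂ ![grad Q (b (γ z)), grad Q (b' (γ' z))]} with hW'
  have hgc : ContinuousOn (fun z => grad Q (b (γ z))) W :=
    continuous_grad.comp_continuousOn h.diff_comp.continuousOn
  have hgc' : ContinuousOn (fun z => grad Q (b' (γ' z))) W :=
    continuous_grad.comp_continuousOn h'.diff_comp.continuousOn
  have hoW' : IsOpen W' := isOpen_indep hC.isOpen hgc hgc'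
  have hsub : W' ⊆ W := fun z hz => hz.1
  have hC' := chart_mono hC hoW' hsub
  have hb := h.mono hsub
  have hb' := h'.mono hsub
  have hcomb : ∀ z ∈ W', ∃ α β : ℂ,
      grad Q (X z) = α • grad Q (b (γ z)) + β • grad Q (b' (γ' z)) := by
    intro z hz
    have h1 := hcon z hz.1
    have h2 : ¬ LinearIndependent ℂ
        (Fin.cons (grad Q (X z)) ![grad Q (b (γ z)), grad Q (b' (γ' z))] : Fin 3 → Fin 4 → ℂ) := h1
    rw [linearIndependent_finCons] at h2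
    push Not at h2
    have h3 := h2 hz.2
    obtain ⟨c, hc⟩ := (Submodule.mem_span_range_iff_exists_fun ℂ).mp h3
    refine ⟨c 0, c 1, ?_⟩
    rw [← hc, Fin.sum_univ_two]
    simp
  -- the data at `z₀`
  obtain ⟨i, j, hij⟩ := exists_minor hi₀
  set f₁ : Fin 4 → ℂ := Pi.single i 1 with hf₁
  set f₂ : Fin 4 → ℂ := Pi.single j 1 with hf₂
  have hq1e : ∀ (p : Fin 4 → ℂ) (k : Fin 4), q1 Q p (Pi.single k 1) = grad Q p k := by
    intro p k
    rw [q1_eq_pr hQ.hom, pr, Finset.sum_eq_single k]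
    · simp
    · intro l _ hl; simp [hl]
    · simp
  obtain ⟨y, hy1, hy2, hy3⟩ : ∃ y : Fin 4 → ℂ, q1 Q (b (γ z₀)) y = 0 ∧ q1 Q (b' (γ' z₀)) y = 0 ∧
      LinearIndependent ℂ ![X z₀, y] := by
    set L : (Fin 4 → ℂ) →ₗ[ℂ] ℂ × ℂ := (q1L Q (b (γ z₀))).prod (q1L Q (b' (γ' z₀))) with hL
    have h1 := LinearMap.finrank_range_add_finrank_ker L
    have h2 : Module.finrank ℂ (LinearMap.range L) ≤ 2 := by
      refine (Submodule.finrank_le _).trans ?_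
      simp
    rw [Module.finrank_fintype_fun_eq_card, Fintype.card_fin] at h1
    have h3 : ¬ LinearMap.ker L ≤ Submodule.span ℂ {X z₀} := by
      intro hle
      have h4 := Submodule.finrank_mono hle
      have h5 := finrank_span_singleton (K := ℂ) (chart_ne_zero hC hz₀)
      omega
    obtain ⟨y, hy, hyn⟩ := SetLike.not_le_iff_exists.mp h3
    have hy' : q1 Q (b (γ z₀)) y = 0 ∧ q1 Q (b' (γ' z₀)) y = 0 := by
      have : (q1L Q (b (γ z₀)) y, q1L Q (b' (γ' z₀)) y) = (0 : ℂ × ℂ) := hy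
      exact ⟨congrArg Prod.fst this, congrArg Prod.snd this⟩
    refine ⟨y, hy'.1, hy'.2, ?_⟩
    by_contra hd
    obtain ⟨c, hc⟩ := exists_smul_of_not_indep (chart_ne_zero hC hz₀) hd
    exact hyn (Submodule.mem_span_singleton.mpr ⟨c, hc.symm⟩)
  -- the moving vector
  set w : ℂ × ℂ → Fin 4 → ℂ := fun z => wv Q f₁ f₂ y (b (γ z), b' (γ' z)) with hw
  have hwd : DifferentiableOn ℂ w W' :=
    (differentiable_wv f₁ f₂ y).comp_differentiableOn (hb.diff_comp.prodMk hb'.diff_comp)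
  have hline : ∀ z ∈ W', ∀ s t : ℂ, eval (s • X z + t • w z) Q = 0 := by
    refine line_lemma hQ.hom hoW' hC'.diff hwd hC'.zero ?_
    intro z hz
    obtain ⟨α, β, hαβ⟩ := hcomb z hz
    have hT : q1 Q (X z) (w z) = 0 :=
      q1_wv_eq_zero hQ.hom f₁ f₂ y (X z) (b (γ z), b' (γ' z)) hαβ
    obtain ⟨s, ξ, hs⟩ := exists_coord_chart hQ hC' hz hT
    have hd : fderiv ℂ X z ξ = w z + (-s) • X z := by rw [hs]; module
    have hp : q1 Q (b (γ z)) (w z) = 0 := q1_fst_wv f₁ f₂ y (b (γ z), b' (γ' z))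
    have hp' : q1 Q (b' (γ' z)) (w z) = 0 := q1_snd_wv f₁ f₂ y (b (γ z), b' (γ' z))
    have e1 : fderiv ℂ γ z ξ = 0 := hb.fderiv_eq_zero hC' hz (by
      rw [hd, q1_add, q1_smul, hp, hb.zero z hz, mul_zero, add_zero])
    have e2 : fderiv ℂ γ' z ξ = 0 := hb'.fderiv_eq_zero hC' hz (by
      rw [hd, q1_add, q1_smul, hp', hb'.zero z hz, mul_zero, add_zero])
    refine ⟨s, ξ, hs, ?_⟩
    have d1 := hb.hasDerivAt_comp hC' hz ξ
    have d2 := hb'.hasDerivAt_comp hC' hz ξ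
    rw [e1, zero_smul] at d1
    rw [e2, zero_smul] at d2
    have d3 : HasDerivAt (fun t : ℂ => (b (γ (z + t • ξ)), b' (γ' (z + t • ξ)))) (0, 0) 0 :=
      d1.prodMk d2
    have d4 := ((differentiable_wv (Q := Q) f₁ f₂ y).differentiableAt
      (x := (b (γ (z + (0 : ℂ) • ξ)), b' (γ' (z + (0 : ℂ) • ξ))))).hasFDerivAt.comp_hasDerivAt
      (0 : ℂ) d3
    have d5 : HasDerivAt (fun t : ℂ => w (z + t • ξ)) 0 0 := by
      rw [Prod.mk_zero_zero, map_zero] at d4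
      exact d4
    exact (hasDerivAt_comp_line ξ (hwd.differentiableAt (hoW'.mem_nhds hz))).unique d5
  -- the open set where `X`, `w` are independent
  have ho := isOpen_indep hoW' hC'.diff.continuousOn hwd.continuousOn
  have hz₀' : z₀ ∈ {z | z ∈ W' ∧ LinearIndependent ℂ ![X z, w z]} := by
    refine ⟨⟨hz₀, hi₀⟩, ?_⟩
    have e : w z₀ = (grad Q (b (γ z₀)) i * grad Q (b' (γ' z₀)) j -
        grad Q (b (γ z₀)) j * grad Q (b' (γ' z₀)) i) • y := by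
      simp only [hw, wv, hy1, hy2, hf₁, hf₂, hq1e]
      simp
    rw [e]
    rw [LinearIndependent.pair_iff] at hy3 ⊢
    intro s t hst
    rw [smul_smul] at hst
    obtain ⟨h1, h2⟩ := hy3 _ _ hst
    exact ⟨h1, (mul_eq_zero.mp h2).resolve_right hij⟩
  exact Alg.no_line_family hQ (chart_mono hC' ho fun z hz => hz.1) ⟨z₀, hz₀'⟩
    (u := w) (hwd.mono fun z hz => hz.1) fun z' hz' => ⟨hz'.2, hline z' hz'.1⟩

end Crest.Agent.R279.Gen
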