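import Mathlib

/-!
R279 (S0422), Part 8, A6 (helper855): sums over the zeros of a holomorphic function of one variable
(argument principle with a weight).
-/

set_option autoImplicit false

noncomputable section

open Set Filter Topology Metric Complex
open scoped Real

namespace Crest.Agent.R279.MaxP

theorem zeros_sum {U : Set ℂ} (hU : IsOpen U) {R : ℝ} (hR : 0 < R)
    (hRU : closedBall (0 : ℂ) R ⊆ U) (Z : Finset ℂ) :
    ∀ f : ℂ → ℂ, DifferentiableOn ℂ f U → (∀ w ∈ closedBall (0 : ℂ) R, f w = 0 ↔ w ∈ Z) →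
    (∀ ζ ∈ Z, ζ ∈ ball (0 : ℂ) R) → (∀ ζ ∈ Z, ¬ ∀ᶠ w in 𝓝 ζ, f w = 0) →
    ∃ n : ℂ → ℕ, (∀ ζ ∈ Z, 1 ≤ n ζ) ∧ ∀ φ : ℂ → ℂ, DifferentiableOn ℂ φ U →
      (∮ w in C(0, R), φ w * (deriv f w / f w)) = 2 * π * I * ∑ ζ ∈ Z, (n ζ : ℂ) * φ ζ := by
  classical
  induction Z using Finset.induction_on with
  | empty =>
    intro f hf hz _ _
    refine ⟨fun _ => 0, by simp, fun φ hφ => ?_⟩
    rw [Finset.sum_empty, mul_zero]
    have hne : ∀ w ∈ closedBall (0 : ℂ) R, f w ≠ 0 := fun w hw h => by
      simpa using (hz w hw).1 h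
    have hfd : ∀ w ∈ closedBall (0 : ℂ) R,
        DifferentiableAt ℂ (fun w => φ w * (deriv f w / f w)) w := by
      intro w hw
      have h1 : U ∈ 𝓝 w := hU.mem_nhds (hRU hw)
      exact (hφ.differentiableAt h1).mul
        (((hf.deriv hU).differentiableAt h1).div (hf.differentiableAt h1) (hne w hw))
    exact circleIntegral_eq_zero_of_differentiable_on_off_countable hR.le countable_empty
      (fun w hw => (hfd w hw).continuousAt.continuousWithinAt)
      (fun w hw => hfd w (ball_subset_closedBall hw.1))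
  | insert ζ Z hζZ ih =>
    intro f hf hz hball hne
    have hζb : ζ ∈ ball (0 : ℂ) R := hball ζ (Finset.mem_insert_self _ _)
    have hζU : ζ ∈ U := hRU (ball_subset_closedBall hζb)
    have hfζ : f ζ = 0 := (hz ζ (ball_subset_closedBall hζb)).2 (Finset.mem_insert_self _ _)
    have hfa : AnalyticAt ℂ f ζ := hf.analyticAt (hU.mem_nhds hζU)
    obtain ⟨n0, g, hga, hg0, hfg⟩ :=
      (hfa.exists_eventuallyEq_pow_smul_nonzero_iff).2 (hne ζ (Finset.mem_insert_self _ _))
    have hn0 : n0 ≠ 0 := by
      intro h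
      have := hfg.self_of_nhds
      rw [h, pow_zero, one_smul, hfζ] at this
      exact hg0 this.symm
    set h : ℂ → ℂ := fun w => if w = ζ then g ζ else f w / (w - ζ) ^ n0 with hh
    have hhζ : h ζ = g ζ := by simp [hh]
    have hhw : ∀ w, w ≠ ζ → h w = f w / (w - ζ) ^ n0 := fun w hw => by simp [hh, hw]
    have hfh : ∀ w, f w = (w - ζ) ^ n0 * h w := by
      intro w
      by_cases hw : w = ζ
      · rw [hw, hfζ, sub_self, zero_pow hn0, zero_mul]
      · rw [hhw w hw, mul_div_cancel₀]
        exact pow_ne_zero _ (sub_ne_zero.2 hw)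
    have hhd : DifferentiableOn ℂ h U := by
      intro w hwU
      refine DifferentiableAt.differentiableWithinAt ?_
      by_cases hw : w = ζ
      · rw [hw]
        refine hga.differentiableAt.congr_of_eventuallyEq ?_
        filter_upwards [hfg] with x hx
        by_cases hxζ : x = ζ
        · rw [hxζ, hhζ]
        · rw [hhw x hxζ, hx, smul_eq_mul, mul_comm, mul_div_assoc, div_self, mul_one]
          exact pow_ne_zero _ (sub_ne_zero.2 hxζ)
      · have h1 : DifferentiableAt ℂ (fun x => f x / (x - ζ) ^ n0) w := by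
          refine (hf.differentiableAt (hU.mem_nhds hwU)).div (by fun_prop) ?_
          exact pow_ne_zero _ (sub_ne_zero.2 hw)
        refine h1.congr_of_eventuallyEq ?_
        filter_upwards [isOpen_ne.mem_nhds hw] with x hx
        exact hhw x hx
    have hhz : ∀ w ∈ closedBall (0 : ℂ) R, h w = 0 ↔ w ∈ Z := by
      intro w hw
      by_cases hwζ : w = ζ
      · rw [hwζ, hhζ]
        exact iff_of_false hg0 hζZ
      · have h1 : h w = 0 ↔ f w = 0 := by
          rw [hfh w]
          constructor
          · intro h; rw [h, mul_zero]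
          · intro h
            exact (mul_eq_zero.1 h).resolve_left (pow_ne_zero _ (sub_ne_zero.2 hwζ))
        rw [h1, hz w hw, Finset.mem_insert]
        simp [hwζ]
    have hhne : ∀ ζ' ∈ Z, ¬ ∀ᶠ w in 𝓝 ζ', h w = 0 := by
      intro ζ' hζ' hev
      refine hne ζ' (Finset.mem_insert_of_mem hζ') ?_
      filter_upwards [hev] with w hw
      rw [hfh w, hw, mul_zero]
    obtain ⟨n, hn1, hn⟩ := ih h hhd hhz (fun ζ' hζ' => hball ζ' (Finset.mem_insert_of_mem hζ')) hhne
    refine ⟨Function.update n ζ n0, ?_, fun φ hφ => ?_⟩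
    · intro ζ' hζ'
      rcases Finset.mem_insert.1 hζ' with rfl | hζ'
      · simpa using Nat.one_le_iff_ne_zero.2 hn0
      · have : ζ' ≠ ζ := fun h => hζZ (h ▸ hζ')
        rw [Function.update_of_ne this]
        exact hn1 ζ' hζ'
    · have hsph : ∀ w ∈ sphere (0 : ℂ) R, w ≠ ζ ∧ h w ≠ 0 := by
        intro w hw
        have hw' : w ∈ closedBall (0 : ℂ) R := sphere_subset_closedBall hw
        have hnb : w ∉ ball (0 : ℂ) R := by
          rw [mem_ball, (mem_sphere.1 hw)]; exact lt_irrefl _
        refine ⟨fun h => hnb (h ▸ hζb), fun h => hnb ?_⟩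
        exact hball w (Finset.mem_insert_of_mem ((hhz w hw').1 h))
      have hcongr : ∀ w ∈ sphere (0 : ℂ) R, φ w * (deriv f w / f w) =
          (n0 : ℂ) * ((w - ζ)⁻¹ • φ w) + φ w * (deriv h w / h w) := by
        intro w hw
        obtain ⟨hwζ, hhw0⟩ := hsph w hw
        have hwU : w ∈ U := hRU (sphere_subset_closedBall hw)
        have hd : HasDerivAt f (((n0 : ℂ) * (w - ζ) ^ (n0 - 1) * 1) * h w +
            (w - ζ) ^ n0 * deriv h w) w := by
          have h1 : HasDerivAt (fun x => (x - ζ) ^ n0) ((n0 : ℂ) * (w - ζ) ^ (n0 - 1) * 1) w :=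
            ((hasDerivAt_id w).sub_const ζ).pow n0
          have h2 : HasDerivAt h (deriv h w) w :=
            (hhd.differentiableAt (hU.mem_nhds hwU)).hasDerivAt
          have h3 := h1.mul h2
          refine h3.congr_of_eventuallyEq (Eventually.of_forall fun x => ?_)
          exact hfh x
        rw [hd.deriv, hfh w]
        have h4 : w - ζ ≠ 0 := sub_ne_zero.2 hwζ
        have h5 : (w - ζ) ^ n0 = (w - ζ) ^ (n0 - 1) * (w - ζ) := by
          rw [← pow_succ, Nat.sub_add_cancel (Nat.one_le_iff_ne_zero.2 hn0)]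
        rw [h5, smul_eq_mul]
        have h6 : (w - ζ) ^ (n0 - 1) ≠ 0 := pow_ne_zero _ h4
        field_simp
      rw [circleIntegral.integral_congr hR.le hcongr, circleIntegral.integral_add]
      · rw [hn φ hφ, circleIntegral.integral_const_mul,
          circleIntegral_sub_inv_smul_of_differentiable_on_off_countable countable_empty hζb
            (hφ.continuousOn.mono hRU)
            (fun x hx => hφ.differentiableAt (hU.mem_nhds (hRU (ball_subset_closedBall hx.1)))),
          Finset.sum_insert hζZ, Function.update_self]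
        have h7 : ∑ x ∈ Z, ((Function.update n ζ n0 x : ℕ) : ℂ) * φ x = ∑ x ∈ Z, (n x : ℂ) * φ x := by
          refine Finset.sum_congr rfl (fun x hx => ?_)
          have : x ≠ ζ := fun h => hζZ (h ▸ hx)
          rw [Function.update_of_ne this]
        rw [h7, smul_eq_mul]
        ring
      · refine ContinuousOn.circleIntegrable hR.le ?_
        refine continuousOn_const.mul ?_
        simp only [smul_eq_mul]
        refine ContinuousOn.mul ?_ (hφ.continuousOn.mono (sphere_subset_closedBall.trans hRU))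
        refine ContinuousOn.inv₀ (by fun_prop) ?_
        intro w hw
        exact sub_ne_zero.2 (hsph w hw).1
      · refine ContinuousOn.circleIntegrable hR.le ?_
        have hsU : sphere (0 : ℂ) R ⊆ U := sphere_subset_closedBall.trans hRU
        refine (hφ.continuousOn.mono hsU).mul ?_
        refine ContinuousOn.div ((hhd.deriv hU).continuousOn.mono hsU)
          (hhd.continuousOn.mono hsU) ?_
        intro w hw
        exact (hsph w hw).2

end Crest.Agent.R279.MaxP
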