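import Crest.Agent.R279.AlgDefs149
import Crest.Agent.R279.HomVanish471

/-!
R279 (S0422), Part 8, A6 (helper855): the invariant `theta` of a simple root of the sextic.

For `p` in the surface, `u ∈ T_p` a root of `g6 p`, the covectors `H = q1 p ·` and `K = dg6 p u ·`
kill `p` and `u`, so the alternating form `H ∧ K` is a multiple `theta` of `det(p, u, ·, ·)`.
-/

set_option autoImplicit false
set_option linter.all false

noncomputable section

open Set Filter Topology Metric Complex MvPolynomial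

namespace Crest.Agent.R279.MaxP

abbrev V4 : Type := Fin 4 → ℂ

/-- `det (p, u, w, n)` written out -/
def D4 (p u w n : V4) : ℂ :=
  (p 2 * u 3 - p 3 * u 2) * (w 0 * n 1 - w 1 * n 0)
  - (p 1 * u 3 - p 3 * u 1) * (w 0 * n 2 - w 2 * n 0)
  + (p 1 * u 2 - p 2 * u 1) * (w 0 * n 3 - w 3 * n 0)
  + (p 0 * u 3 - p 3 * u 0) * (w 1 * n 2 - w 2 * n 1)
  - (p 0 * u 2 - p 2 * u 0) * (w 1 * n 3 - w 3 * n 1)
  + (p 0 * u 1 - p 1 * u 0) * (w 2 * n 3 - w 3 * n 2)

/-- the two-form `(h ∧ k)(w, n)` for covectors given by coordinates -/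
def om (h k w n : V4) : ℂ := (∑ i, h i * w i) * (∑ i, k i * n i) - (∑ i, h i * n i) * (∑ i, k i * w i)

lemma plucker_aux (a01 a02 a03 a12 a13 a23 b01 b02 b03 b12 b13 b23 W01 W02 W03 W12 W13 W23 T01 T02 T03 T12 T13 T23 : ℂ)
    (e01_02 : a01 * b02 = a02 * b01)
    (e01_03 : a01 * b03 = a03 * b01)
    (e01_12 : a01 * b12 = a12 * b01)
    (e01_13 : a01 * b13 = a13 * b01)
    (e01_23 : a01 * b23 = a23 * b01)
    (e02_03 : a02 * b03 = a03 * b02)
    (e02_12 : a02 * b12 = a12 * b02)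
    (e02_13 : a02 * b13 = a13 * b02)
    (e02_23 : a02 * b23 = a23 * b02)
    (e03_12 : a03 * b12 = a12 * b03)
    (e03_13 : a03 * b13 = a13 * b03)
    (e03_23 : a03 * b23 = a23 * b03)
    (e12_13 : a12 * b13 = a13 * b12)
    (e12_23 : a12 * b23 = a23 * b12)
    (e13_23 : a13 * b23 = a23 * b13)
    :
    (a01 * W01 + a02 * W02 + a03 * W03 + a12 * W12 + a13 * W13 + a23 * W23) *
    (b01 * T01 + b02 * T02 + b03 * T03 + b12 * T12 + b13 * T13 + b23 * T23) =
    (a01 * T01 + a02 * T02 + a03 * T03 + a12 * T12 + a13 * T13 + a23 * T23) *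
    (b01 * W01 + b02 * W02 + b03 * W03 + b12 * W12 + b13 * W13 + b23 * W23) := by
  linear_combination (W01 * T02 - W02 * T01) * e01_02 +
    (W01 * T03 - W03 * T01) * e01_03 +
    (W01 * T12 - W12 * T01) * e01_12 +
    (W01 * T13 - W13 * T01) * e01_13 +
    (W01 * T23 - W23 * T01) * e01_23 +
    (W02 * T03 - W03 * T02) * e02_03 +
    (W02 * T12 - W12 * T02) * e02_12 +
    (W02 * T13 - W13 * T02) * e02_13 +
    (W02 * T23 - W23 * T02) * e02_23 +
    (W03 * T12 - W12 * T03) * e03_12 +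
    (W03 * T13 - W13 * T03) * e03_13 +
    (W03 * T23 - W23 * T03) * e03_23 +
    (W12 * T13 - W13 * T12) * e12_13 +
    (W12 * T23 - W23 * T12) * e12_23 +
    (W13 * T23 - W23 * T13) * e13_23

/-- proportionality of `h ∧ k` and `det(p, u, ·, ·)` when `h, k` kill `p, u` -/
theorem om_mul_D4 {p u h k : V4} (h1 : ∑ i, h i * p i = 0) (h2 : ∑ i, h i * u i = 0)
    (h3 : ∑ i, k i * p i = 0) (h4 : ∑ i, k i * u i = 0) (w n w' n' : V4) :
    om h k w n * D4 p u w' n' = om h k w' n' * D4 p u w n := by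
  have R : ∀ a d : Fin 4, ∑ j, (h a * k j - h j * k a) * (p j * u d - p d * u j) = 0 := by
    intro a d
    simp only [Fin.sum_univ_four] at h1 h2 h3 h4 ⊢
    linear_combination h a * u d * h3 - h a * p d * h4 - k a * u d * h1 + k a * p d * h2
  simp only [Fin.sum_univ_four] at R
  have hom : ∀ w n : V4, om h k w n =
      (h 0 * k 1 - h 1 * k 0) * (w 0 * n 1 - w 1 * n 0) +
      (h 0 * k 2 - h 2 * k 0) * (w 0 * n 2 - w 2 * n 0) +
      (h 0 * k 3 - h 3 * k 0) * (w 0 * n 3 - w 3 * n 0) +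
      (h 1 * k 2 - h 2 * k 1) * (w 1 * n 2 - w 2 * n 1) +
      (h 1 * k 3 - h 3 * k 1) * (w 1 * n 3 - w 3 * n 1) +
      (h 2 * k 3 - h 3 * k 2) * (w 2 * n 3 - w 3 * n 2) := by
    intro w n
    simp only [om, Fin.sum_univ_four]
    ring
  rw [hom, hom]
  simp only [D4]
  clear hom h1 h2 h3 h4
  obtain ⟨a01, ha01⟩ : ∃ x, x = h 0 * k 1 - h 1 * k 0 := ⟨_, rfl⟩
  obtain ⟨a02, ha02⟩ : ∃ x, x = h 0 * k 2 - h 2 * k 0 := ⟨_, rfl⟩
  obtain ⟨a03, ha03⟩ : ∃ x, x = h 0 * k 3 - h 3 * k 0 := ⟨_, rfl⟩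
  obtain ⟨a12, ha12⟩ : ∃ x, x = h 1 * k 2 - h 2 * k 1 := ⟨_, rfl⟩
  obtain ⟨a13, ha13⟩ : ∃ x, x = h 1 * k 3 - h 3 * k 1 := ⟨_, rfl⟩
  obtain ⟨a23, ha23⟩ : ∃ x, x = h 2 * k 3 - h 3 * k 2 := ⟨_, rfl⟩
  obtain ⟨b01, hb01⟩ : ∃ x, x = p 2 * u 3 - p 3 * u 2 := ⟨_, rfl⟩
  obtain ⟨b02, hb02⟩ : ∃ x, x = -(p 1 * u 3 - p 3 * u 1) := ⟨_, rfl⟩
  obtain ⟨b03, hb03⟩ : ∃ x, x = p 1 * u 2 - p 2 * u 1 := ⟨_, rfl⟩
  obtain ⟨b12, hb12⟩ : ∃ x, x = p 0 * u 3 - p 3 * u 0 := ⟨_, rfl⟩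
  obtain ⟨b13, hb13⟩ : ∃ x, x = -(p 0 * u 2 - p 2 * u 0) := ⟨_, rfl⟩
  obtain ⟨b23, hb23⟩ : ∃ x, x = p 0 * u 1 - p 1 * u 0 := ⟨_, rfl⟩
  have e01_02 : a01 * b02 = a02 * b01 := by
    simp only [ha01, ha02, ha03, ha12, ha13, ha23, hb01, hb02, hb03, hb12, hb13, hb23]
    first | linear_combination (R 0 3) | linear_combination -(R 0 3)
  have e01_03 : a01 * b03 = a03 * b01 := by
    simp only [ha01, ha02, ha03, ha12, ha13, ha23, hb01, hb02, hb03, hb12, hb13, hb23]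
    first | linear_combination (R 0 2) | linear_combination -(R 0 2)
  have e01_12 : a01 * b12 = a12 * b01 := by
    simp only [ha01, ha02, ha03, ha12, ha13, ha23, hb01, hb02, hb03, hb12, hb13, hb23]
    first | linear_combination (R 1 3) | linear_combination -(R 1 3)
  have e01_13 : a01 * b13 = a13 * b01 := by
    simp only [ha01, ha02, ha03, ha12, ha13, ha23, hb01, hb02, hb03, hb12, hb13, hb23]
    first | linear_combination (R 1 2) | linear_combination -(R 1 2)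
  have e01_23 : a01 * b23 = a23 * b01 := by
    simp only [ha01, ha02, ha03, ha12, ha13, ha23, hb01, hb02, hb03, hb12, hb13, hb23]
    first | linear_combination (1/2:ℂ) * ((R 0 0) + (R 1 1) - (R 2 2) - (R 3 3)) | linear_combination -(1/2:ℂ) * ((R 0 0) + (R 1 1) - (R 2 2) - (R 3 3))
  have e02_03 : a02 * b03 = a03 * b02 := by
    simp only [ha01, ha02, ha03, ha12, ha13, ha23, hb01, hb02, hb03, hb12, hb13, hb23]
    first | linear_combination (R 0 1) | linear_combination -(R 0 1)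
  have e02_12 : a02 * b12 = a12 * b02 := by
    simp only [ha01, ha02, ha03, ha12, ha13, ha23, hb01, hb02, hb03, hb12, hb13, hb23]
    first | linear_combination (R 2 3) | linear_combination -(R 2 3)
  have e02_13 : a02 * b13 = a13 * b02 := by
    simp only [ha01, ha02, ha03, ha12, ha13, ha23, hb01, hb02, hb03, hb12, hb13, hb23]
    first | linear_combination (1/2:ℂ) * ((R 0 0) + (R 2 2) - (R 1 1) - (R 3 3)) | linear_combination -(1/2:ℂ) * ((R 0 0) + (R 2 2) - (R 1 1) - (R 3 3))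
  have e02_23 : a02 * b23 = a23 * b02 := by
    simp only [ha01, ha02, ha03, ha12, ha13, ha23, hb01, hb02, hb03, hb12, hb13, hb23]
    first | linear_combination (R 2 1) | linear_combination -(R 2 1)
  have e03_12 : a03 * b12 = a12 * b03 := by
    simp only [ha01, ha02, ha03, ha12, ha13, ha23, hb01, hb02, hb03, hb12, hb13, hb23]
    first | linear_combination (1/2:ℂ) * ((R 0 0) + (R 3 3) - (R 1 1) - (R 2 2)) | linear_combination -(1/2:ℂ) * ((R 0 0) + (R 3 3) - (R 1 1) - (R 2 2))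
  have e03_13 : a03 * b13 = a13 * b03 := by
    simp only [ha01, ha02, ha03, ha12, ha13, ha23, hb01, hb02, hb03, hb12, hb13, hb23]
    first | linear_combination (R 3 2) | linear_combination -(R 3 2)
  have e03_23 : a03 * b23 = a23 * b03 := by
    simp only [ha01, ha02, ha03, ha12, ha13, ha23, hb01, hb02, hb03, hb12, hb13, hb23]
    first | linear_combination (R 3 1) | linear_combination -(R 3 1)
  have e12_13 : a12 * b13 = a13 * b12 := by
    simp only [ha01, ha02, ha03, ha12, ha13, ha23, hb01, hb02, hb03, hb12, hb13, hb23]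
    first | linear_combination (R 1 0) | linear_combination -(R 1 0)
  have e12_23 : a12 * b23 = a23 * b12 := by
    simp only [ha01, ha02, ha03, ha12, ha13, ha23, hb01, hb02, hb03, hb12, hb13, hb23]
    first | linear_combination (R 2 0) | linear_combination -(R 2 0)
  have e13_23 : a13 * b23 = a23 * b13 := by
    simp only [ha01, ha02, ha03, ha12, ha13, ha23, hb01, hb02, hb03, hb12, hb13, hb23]
    first | linear_combination (R 3 0) | linear_combination -(R 3 0)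
  have key := plucker_aux a01 a02 a03 a12 a13 a23 b01 b02 b03 b12 b13 b23
    (w 0 * n 1 - w 1 * n 0) (w 0 * n 2 - w 2 * n 0) (w 0 * n 3 - w 3 * n 0) (w 1 * n 2 - w 2 * n 1) (w 1 * n 3 - w 3 * n 1) (w 2 * n 3 - w 3 * n 2)
    (w' 0 * n' 1 - w' 1 * n' 0) (w' 0 * n' 2 - w' 2 * n' 0) (w' 0 * n' 3 - w' 3 * n' 0) (w' 1 * n' 2 - w' 2 * n' 1) (w' 1 * n' 3 - w' 3 * n' 1) (w' 2 * n' 3 - w' 3 * n' 2)
    e01_02 e01_03 e01_12 e01_13 e01_23 e02_03 e02_12 e02_13 e02_23 e03_12 e03_13 e03_23 e12_13 e12_23 e13_23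
  simp only [ha01, ha02, ha03, ha12, ha13, ha23, hb01, hb02, hb03, hb12, hb13, hb23] at key
  linear_combination key

end Crest.Agent.R279.MaxP
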