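import Crest.Agent.R279.MaxD855

/-!
R279 (S0422), Part 8, A6 (helper855): the function `theta (p, u)`.
-/

set_option autoImplicit false
set_option linter.all false

noncomputable section

open Set Filter Topology Metric Complex MvPolynomial

namespace Crest.Agent.R279.MaxP

/-! ### D4 -/

lemma D4_smul (p u w n : V4) (s r : ℂ) : D4 (s • p) (r • u) w n = s * r * D4 p u w n := by
  simp only [D4, Pi.smul_apply, smul_eq_mul]; ring

lemma D4_shift (p u w n : V4) (m : ℂ) : D4 p (u + m • p) w n = D4 p u w n := by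
  simp only [D4, Pi.smul_apply, Pi.add_apply, smul_eq_mul]; ring

lemma exists_minor {p u : V4} (h : LinearIndependent ℂ ![p, u]) :
    ∃ i j : Fin 4, p i * u j - p j * u i ≠ 0 := by
  by_contra hcon
  push Not at hcon
  have hp : p ≠ 0 := by
    intro h0
    have := h.ne_zero 0
    simp [h0] at this
  obtain ⟨i, hi⟩ : ∃ i, p i ≠ 0 := by
    by_contra h'
    push Not at h'
    exact hp (funext h')
  rw [LinearIndependent.pair_iff' hp] at h
  apply h (u i / p i)
  ext j
  have := hcon i j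
  simp only [Pi.smul_apply, smul_eq_mul]
  rw [div_mul_eq_mul_div, div_eq_iff hi]
  linear_combination -this

lemma exists_D4_ne {p u : V4} (h : LinearIndependent ℂ ![p, u]) :
    ∃ w n : V4, D4 p u w n ≠ 0 := by
  obtain ⟨i, j, hij⟩ := exists_minor h
  by_contra hcon
  push Not at hcon
  apply hij
  have h01 := hcon (Pi.single 2 1) (Pi.single 3 1)
  have h02 := hcon (Pi.single 1 1) (Pi.single 3 1)
  have h03 := hcon (Pi.single 1 1) (Pi.single 2 1)
  have h12 := hcon (Pi.single 0 1) (Pi.single 3 1)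
  have h13 := hcon (Pi.single 0 1) (Pi.single 2 1)
  have h23 := hcon (Pi.single 0 1) (Pi.single 1 1)
  simp [D4, Pi.single_apply] at h01 h02 h03 h12 h13 h23
  fin_cases i <;> fin_cases j <;> simp <;>
    first
    | ring1
    | linear_combination h01
    | linear_combination h02
    | linear_combination h03
    | linear_combination h12
    | linear_combination h13
    | linear_combination h23
    | linear_combination -h01
    | linear_combination -h02
    | linear_combination -h03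
    | linear_combination -h12
    | linear_combination -h13
    | linear_combination -h23

/-! ### the two-form -/

variable {Q : MvPolynomial (Fin 4) ℂ}

lemma q1_add_right (p u v : V4) : q1 Q p (u + v) = q1 Q p u + q1 Q p v := by
  simp only [q1, tens_add4]; ring

lemma q1_smul_right (p u : V4) (c : ℂ) : q1 Q p (c • u) = c * q1 Q p u := by
  simp only [q1, tens_smul4]; ring

/-- `q1 p ·` as a linear map -/
def q1L (Q : MvPolynomial (Fin 4) ℂ) (p : V4) : V4 →ₗ[ℂ] ℂ where
  toFun := q1 Q p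
  map_add' := q1_add_right p
  map_smul' := fun c u => q1_smul_right p u c

/-- `dg6 p u ·` as a linear map -/
def dg6L (Q : MvPolynomial (Fin 4) ℂ) (p u : V4) : V4 →ₗ[ℂ] ℂ where
  toFun := dg6 Q p u
  map_add' := dg6_add_right p u
  map_smul' := fun c w => dg6_smul_right p u w c

@[simp] lemma q1L_apply (p u : V4) : q1L Q p u = q1 Q p u := rfl
@[simp] lemma dg6L_apply (p u w : V4) : dg6L Q p u w = dg6 Q p u w := rfl

/-- `(H ∧ K)(w, n)` -/
def Om (Q : MvPolynomial (Fin 4) ℂ) (p u w n : V4) : ℂ :=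
  q1 Q p w * dg6 Q p u n - q1 Q p n * dg6 Q p u w

lemma sum_coord (f : V4 →ₗ[ℂ] ℂ) (w : V4) : ∑ i, f (Pi.single i 1) * w i = f w := by
  have h : w = ∑ i, w i • (Pi.single i 1 : V4) := by
    ext j
    simp [Finset.sum_apply, Pi.single_apply]
  conv_rhs => rw [h, map_sum]
  exact Finset.sum_congr rfl (fun i _ => by rw [map_smul, smul_eq_mul, mul_comm])

/-- `dg6 p u p = 0` for `u ∈ T_p` -/
lemma dg6_base (hQ : Q.IsHomogeneous 4) {p u : V4} (hp : eval p Q = 0) (hu : u ∈ Tg Q p) :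
    dg6 Q p u p = 0 := by
  have h1 := hasDerivAt_g6 (Q := Q) p u p
  have h2 : (fun t : ℂ => g6 Q p (u + t • p)) = fun _ => g6 Q p u := by
    ext t; exact g6_add_smul hQ hp hu t
  rw [h2] at h1
  exact h1.unique (hasDerivAt_const _ _)

/-- moving the representative of `u` does not change `dg6` on `T_p` -/
lemma dg6_shift (hQ : Q.IsHomogeneous 4) {p u w : V4} (hp : eval p Q = 0) (hu : u ∈ Tg Q p)
    (hw : w ∈ Tg Q p) (m : ℂ) : dg6 Q p (u + m • p) w = dg6 Q p u w := by
  have h1 := hasDerivAt_g6 (Q := Q) p (u + m • p) w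
  have h2 := hasDerivAt_g6 (Q := Q) p u w
  have h3 : (fun t : ℂ => g6 Q p (u + m • p + t • w)) = fun t => g6 Q p (u + t • w) := by
    ext t
    have h4 : u + m • p + t • w = (u + t • w) + m • p := by abel
    rw [h4]
    exact g6_add_smul hQ hp ((Tg Q p).add_mem hu ((Tg Q p).smul_mem t hw)) m
  rw [h3] at h1
  exact h1.unique h2

lemma dg6_smul_mid {p u w : V4} (c : ℂ) : dg6 Q p (c • u) w = c ^ 5 * dg6 Q p u w := by
  simp only [dg6, q3_smul_right, q2_smul_right, q4_smul, dq3, dq2, dq4, tens_smul2, tens_smul3,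
    tens_smul1]
  ring

lemma Om_mul_D4 (hQ : Q.IsHomogeneous 4) {p u : V4} (hp : eval p Q = 0) (hu : u ∈ Tg Q p)
    (hg : g6 Q p u = 0) (w n w' n' : V4) :
    Om Q p u w n * D4 p u w' n' = Om Q p u w' n' * D4 p u w n := by
  have key := om_mul_D4 (p := p) (u := u) (h := fun i => q1L Q p (Pi.single i 1))
    (k := fun i => dg6L Q p u (Pi.single i 1)) ?_ ?_ ?_ ?_ w n w' n'
  · have e1 : ∀ w : V4, ∑ i, q1L Q p (Pi.single i 1) * w i = q1 Q p w := sum_coord (q1L Q p)
    have e2 : ∀ w : V4, ∑ i, dg6L Q p u (Pi.single i 1) * w i = dg6 Q p u w := sum_coord (dg6L Q p u)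
    simp only [om] at key
    rw [e1 w, e1 n, e2 w, e2 n, e1 w', e1 n', e2 w', e2 n'] at key
    exact key
  · rw [sum_coord, q1L_apply, q1_self hQ, hp, mul_zero]
  · rw [sum_coord]; exact hu
  · rw [sum_coord]; exact dg6_base hQ hp hu
  · rw [sum_coord, dg6L_apply, dg6_self, hg, mul_zero]

open Classical in
/-- the ratio `(H ∧ K) / det(p, u, ·, ·)` -/
def theta (Q : MvPolynomial (Fin 4) ℂ) (p u : V4) : ℂ :=
  if h : ∃ wn : V4 × V4, D4 p u wn.1 wn.2 ≠ 0 then
    Om Q p u h.choose.1 h.choose.2 / D4 p u h.choose.1 h.choose.2 else 0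

lemma theta_spec (hQ : Q.IsHomogeneous 4) {p u : V4} (hp : eval p Q = 0) (hu : u ∈ Tg Q p)
    (hg : g6 Q p u = 0) (hli : LinearIndependent ℂ ![p, u]) (w n : V4) :
    Om Q p u w n = theta Q p u * D4 p u w n := by
  have h : ∃ wn : V4 × V4, D4 p u wn.1 wn.2 ≠ 0 := by
    obtain ⟨w, n, h⟩ := exists_D4_ne hli
    exact ⟨(w, n), h⟩
  rw [theta, dif_pos h]
  have h1 := h.choose_spec
  rw [div_mul_eq_mul_div, eq_div_iff h1]
  exact Om_mul_D4 hQ hp hu hg _ _ _ _

lemma theta_eq_div (hQ : Q.IsHomogeneous 4) {p u : V4} (hp : eval p Q = 0) (hu : u ∈ Tg Q p)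
    (hg : g6 Q p u = 0) (hli : LinearIndependent ℂ ![p, u]) {w n : V4} (hD : D4 p u w n ≠ 0) :
    theta Q p u = Om Q p u w n / D4 p u w n := by
  rw [eq_div_iff hD, theta_spec hQ hp hu hg hli]

/-- scaling -/
lemma theta_smul (hQ : Q.IsHomogeneous 4) {p u : V4} (hp : eval p Q = 0) (hu : u ∈ Tg Q p)
    (hg : g6 Q p u = 0) (hli : LinearIndependent ℂ ![p, u]) {s r : ℂ} (hs : s ≠ 0) (hr : r ≠ 0) :
    theta Q (s • p) (r • u) = s ^ 4 * r ^ 4 * theta Q p u := by
  obtain ⟨w, n, hD⟩ := exists_D4_ne hli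
  have hp' : eval (s • p) Q = 0 := by
    have := tens_comb (Q := Q) p u s 0
    rw [zero_smul, add_zero, ← eval_eq_tens hQ, ← eval_eq_tens hQ, hp] at this
    rw [this]; ring
  have hu' : r • u ∈ Tg Q (s • p) := by
    rw [Tg_smul hs]; exact (Tg Q p).smul_mem r hu
  have hg' : g6 Q (s • p) (r • u) = 0 := by
    rw [g6_smul_left, g6_smul_right, hg]; ring
  have hli' : LinearIndependent ℂ ![s • p, r • u] := by
    rw [LinearIndependent.pair_iff] at hli ⊢
    intro a b hab
    have := hli (a * s) (b * r) (by rw [mul_smul, mul_smul]; exact hab)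
    exact ⟨by simpa [hs] using this.1, by simpa [hr] using this.2⟩
  have hD' : D4 (s • p) (r • u) w n ≠ 0 := by
    rw [D4_smul]; exact mul_ne_zero (mul_ne_zero hs hr) hD
  rw [theta_eq_div hQ hp' hu' hg' hli' hD', theta_eq_div hQ hp hu hg hli hD, D4_smul]
  have h1 : Om Q (s • p) (r • u) w n = s ^ 5 * r ^ 5 * Om Q p u w n := by
    simp only [Om, q1_smul_left, dg6_smul_left, dg6_smul_mid]; ring
  rw [h1]
  field_simp

/-- independence of the representative of `u` mod `p` -/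
lemma theta_shift (hQ : Q.IsHomogeneous 4) {p u : V4} (hp : eval p Q = 0) (hu : u ∈ Tg Q p)
    (hg : g6 Q p u = 0) (hli : LinearIndependent ℂ ![p, u]) {n0 : V4} (hn0 : q1 Q p n0 ≠ 0)
    (m : ℂ) : theta Q p (u + m • p) = theta Q p u := by
  obtain ⟨w, n, hD⟩ := exists_D4_ne hli
  have hpT : p ∈ Tg Q p := self_mem_Tg hQ hp
  have hu' : u + m • p ∈ Tg Q p := (Tg Q p).add_mem hu ((Tg Q p).smul_mem m hpT)
  have hg' : g6 Q p (u + m • p) = 0 := by rw [g6_add_smul hQ hp hu, hg]
  have hli' : LinearIndependent ℂ ![p, u + m • p] := by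
    rw [LinearIndependent.pair_iff] at hli ⊢
    intro a b hab
    have := hli (a + b * m) b (by rw [← hab]; module)
    refine ⟨?_, this.2⟩
    have h2 := this.1
    rw [this.2, zero_mul, add_zero] at h2
    exact h2
  have hD' : D4 p (u + m • p) w n ≠ 0 := by rw [D4_shift]; exact hD
  rw [theta_eq_div hQ hp hu' hg' hli' hD', theta_eq_div hQ hp hu hg hli hD, D4_shift]
  -- `dg6 p (u + m p) · = dg6 p u · + κ q1 p ·`
  obtain ⟨κ, hκ⟩ : ∃ κ : ℂ, ∀ v : V4, dg6 Q p (u + m • p) v = dg6 Q p u v + κ * q1 Q p v := by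
    refine ⟨(dg6 Q p (u + m • p) n0 - dg6 Q p u n0) / q1 Q p n0, fun v => ?_⟩
    obtain ⟨c, hc⟩ : ∃ c : ℂ, c = q1 Q p v / q1 Q p n0 := ⟨_, rfl⟩
    have hc' : c * q1 Q p n0 = q1 Q p v := by rw [hc, div_mul_cancel₀ _ hn0]
    have hv : v + (-c) • n0 ∈ Tg Q p := by
      rw [mem_Tg, q1_add_right, q1_smul_right]
      linear_combination -hc'
    have h1 := dg6_shift hQ hp hu hv m
    rw [dg6_add_right, dg6_add_right, dg6_smul_right, dg6_smul_right] at h1
    rw [div_mul_eq_mul_div, mul_div_assoc, ← hc]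
    linear_combination h1
  have hOm : Om Q p (u + m • p) w n = Om Q p u w n := by
    rw [Om, Om, hκ w, hκ n]
    ring
  rw [hOm]

lemma LI_ne {p u : V4} (h : LinearIndependent ℂ ![p, u]) : p ≠ 0 ∧ u ≠ 0 := by
  constructor
  · intro h0
    have := h.ne_zero 0
    simp [h0] at this
  · intro h0
    have := h.ne_zero 1
    simp [h0] at this

/-- `theta ≠ 0` for simple roots -/
lemma theta_ne_zero (hQ : Q.IsHomogeneous 4) {p u : V4} (hp : eval p Q = 0) (hu : u ∈ Tg Q p)
    (hg : g6 Q p u = 0) (hli : LinearIndependent ℂ ![p, u]) {w0 n0 : V4} (hn0 : q1 Q p n0 ≠ 0)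
    (hw0 : w0 ∈ Tg Q p) (hd : dg6 Q p u w0 ≠ 0) :
    theta Q p u ≠ 0 ∧ D4 p u w0 n0 ≠ 0 := by
  have h1 := theta_spec hQ hp hu hg hli w0 n0
  have h2 : Om Q p u w0 n0 ≠ 0 := by
    rw [Om, mem_Tg.1 hw0, zero_mul, zero_sub, neg_ne_zero]
    exact mul_ne_zero hn0 hd
  rw [h1] at h2
  exact ⟨left_ne_zero_of_mul h2, right_ne_zero_of_mul h2⟩

end Crest.Agent.R279.MaxP
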