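import Crest.Agent.R279.MaxE855
import Crest.Agent.R279.Impl545

/-!
R279 (S0422), Part 8, A6 (helper855): Hermitian geometry of pairs, roots of the sextic, and the
local holomorphic root.
-/

set_option autoImplicit false
set_option linter.all false

noncomputable section

open Set Filter Topology Metric Complex MvPolynomial

namespace Crest.Agent.R279.MaxP

open HV

/-! ### Hermitian product -/

lemma herm_add_right (p q r : V4) : herm p (q + r) = herm p q + herm p r := by
  simp only [herm, Pi.add_apply, mul_add, Finset.sum_add_distrib]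

lemma herm_smul_right (p q : V4) (s : ℂ) : herm p (s • q) = s * herm p q := by
  simp only [herm, Pi.smul_apply, smul_eq_mul, Finset.mul_sum]
  exact Finset.sum_congr rfl (fun i _ => by ring)

lemma herm_conj (p q : V4) : herm q p = (starRingEnd ℂ) (herm p q) := by
  simp only [herm, map_sum, map_mul, Complex.conj_conj]
  exact Finset.sum_congr rfl (fun i _ => by ring)

lemma herm_add_left (p q r : V4) : herm (p + q) r = herm p r + herm q r := by
  simp only [herm, Pi.add_apply, map_add, add_mul, Finset.sum_add_distrib]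

lemma herm_smul_left (p q : V4) (s : ℂ) : herm (s • p) q = (starRingEnd ℂ) s * herm p q := by
  simp only [herm, Pi.smul_apply, smul_eq_mul, Finset.mul_sum, map_mul]
  exact Finset.sum_congr rfl (fun i _ => by ring)

lemma herm_self (p : V4) : herm p p = ((nrm p ^ 2 : ℝ) : ℂ) := by
  rw [herm_eq_inner, inner_self_eq_norm_sq_to_K, nrm]
  simp

lemma nrm_nonneg (p : V4) : 0 ≤ nrm p := norm_nonneg _

lemma nrm_eq_zero {p : V4} (h : nrm p = 0) : p = 0 := by
  by_contra h0
  exact (nrm_pos h0).ne' h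

/-- Bessel's identity for an orthonormal pair -/
lemma bessel {p u : V4} (hp : nrm p = 1) (hu : nrm u = 1) (hpu : herm p u = 0) (x : V4) :
    nrm (x + (-(herm p x)) • p + (-(herm u x)) • u) ^ 2 =
      nrm x ^ 2 - ‖herm p x‖ ^ 2 - ‖herm u x‖ ^ 2 := by
  have hup : herm u p = 0 := by rw [herm_conj, hpu, map_zero]
  have hpp : herm p p = 1 := by rw [herm_self, hp]; simp
  have huu : herm u u = 1 := by rw [herm_self, hu]; simp
  have h1 : herm (x + (-(herm p x)) • p + (-(herm u x)) • u)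
      (x + (-(herm p x)) • p + (-(herm u x)) • u) =
      herm x x - herm p x * (starRingEnd ℂ) (herm p x) - herm u x * (starRingEnd ℂ) (herm u x) := by
    simp only [herm_add_left, herm_add_right, herm_smul_left, herm_smul_right, hpp, huu, hpu, hup,
      map_neg]
    rw [herm_conj p x, herm_conj u x]
    ring
  rw [herm_self, herm_self, Complex.mul_conj, Complex.mul_conj, Complex.normSq_eq_norm_sq,
    Complex.normSq_eq_norm_sq] at h1
  exact_mod_cast h1

lemma bessel_le {p u : V4} (hp : nrm p = 1) (hu : nrm u = 1) (hpu : herm p u = 0) (x : V4) :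
    ‖herm p x‖ ^ 2 + ‖herm u x‖ ^ 2 ≤ nrm x ^ 2 := by
  have h := bessel hp hu hpu x
  have : 0 ≤ nrm (x + (-(herm p x)) • p + (-(herm u x)) • u) ^ 2 := sq_nonneg _
  linarith

lemma bessel_eq {p u : V4} (hp : nrm p = 1) (hu : nrm u = 1) (hpu : herm p u = 0) {x : V4}
    (h : nrm x ^ 2 ≤ ‖herm p x‖ ^ 2 + ‖herm u x‖ ^ 2) :
    x = herm p x • p + herm u x • u := by
  have h1 := bessel hp hu hpu x
  have h2 : nrm (x + (-(herm p x)) • p + (-(herm u x)) • u) ^ 2 ≤ 0 := by linarith
  have h3 : nrm (x + (-(herm p x)) • p + (-(herm u x)) • u) = 0 := by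
    nlinarith [nrm_nonneg (x + (-(herm p x)) • p + (-(herm u x)) • u)]
  have h4 := nrm_eq_zero h3
  rw [neg_smul, neg_smul] at h4
  have : x = x + -(herm p x • p) + -(herm u x • u) + (herm p x • p + herm u x • u) := by abel
  rw [h4, zero_add] at this
  exact this

/-- the minor of a pair with respect to an orthonormal pair -/
lemma minor_le {p u : V4} (hp : nrm p = 1) (hu : nrm u = 1) (hpu : herm p u = 0) (q v : V4) :
    ‖herm p q * herm u v - herm u q * herm p v‖ ≤ nrm q * nrm v := by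
  have h1 := bessel_le hp hu hpu q
  have h2 := bessel_le hp hu hpu v
  have h3 : ‖herm p q * herm u v - herm u q * herm p v‖ ≤
      ‖herm p q‖ * ‖herm u v‖ + ‖herm u q‖ * ‖herm p v‖ := by
    refine (norm_sub_le _ _).trans ?_
    rw [norm_mul, norm_mul]
  have h4 : ‖herm p q‖ * ‖herm u v‖ + ‖herm u q‖ * ‖herm p v‖ ≤ nrm q * nrm v := by
    refine abs_le_of_sq_le_sq' ?_ (mul_nonneg (nrm_nonneg _) (nrm_nonneg _)) |>.2
    have h5 : (‖herm p q‖ * ‖herm u v‖ + ‖herm u q‖ * ‖herm p v‖) ^ 2 ≤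
        (‖herm p q‖ ^ 2 + ‖herm u q‖ ^ 2) * (‖herm p v‖ ^ 2 + ‖herm u v‖ ^ 2) := by
      nlinarith [sq_nonneg (‖herm p q‖ * ‖herm p v‖ - ‖herm u q‖ * ‖herm u v‖)]
    refine h5.trans ?_
    rw [mul_pow]
    exact mul_le_mul h1 h2 (by positivity) (by positivity)
  exact h3.trans h4

lemma minor_eq {p u : V4} (hp : nrm p = 1) (hu : nrm u = 1) (hpu : herm p u = 0) {q v : V4}
    (hv : v ≠ 0) (h : nrm q * nrm v ≤ ‖herm p q * herm u v - herm u q * herm p v‖) :
    q = herm p q • p + herm u q • u := by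
  refine bessel_eq hp hu hpu ?_
  have h2 := bessel_le hp hu hpu v
  have h3 : ‖herm p q * herm u v - herm u q * herm p v‖ ≤
      ‖herm p q‖ * ‖herm u v‖ + ‖herm u q‖ * ‖herm p v‖ := by
    refine (norm_sub_le _ _).trans ?_
    rw [norm_mul, norm_mul]
  have hv0 := nrm_pos hv
  have h5 : (‖herm p q‖ * ‖herm u v‖ + ‖herm u q‖ * ‖herm p v‖) ^ 2 ≤
      (‖herm p q‖ ^ 2 + ‖herm u q‖ ^ 2) * (‖herm p v‖ ^ 2 + ‖herm u v‖ ^ 2) := by
    nlinarith [sq_nonneg (‖herm p q‖ * ‖herm p v‖ - ‖herm u q‖ * ‖herm u v‖)]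
  have h6 : (nrm q * nrm v) ^ 2 ≤ (‖herm p q‖ * ‖herm u v‖ + ‖herm u q‖ * ‖herm p v‖) ^ 2 :=
    pow_le_pow_left₀ (mul_nonneg (nrm_nonneg _) (nrm_nonneg _)) (h.trans h3) 2
  have h7 : nrm q ^ 2 * nrm v ^ 2 ≤ (‖herm p q‖ ^ 2 + ‖herm u q‖ ^ 2) * nrm v ^ 2 := by
    rw [← mul_pow]
    refine (h6.trans h5).trans ?_
    exact mul_le_mul_of_nonneg_left h2 (by positivity)
  exact le_of_mul_le_mul_right h7 (by positivity)

/-! ### existence of roots -/

variable {Q : MvPolynomial (Fin 4) ℂ}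

lemma exists_q1_ne (hQ : Q.IsHomogeneous 4) {p : V4} (h : ∃ i : Fin 4, eval p (pderiv i Q) ≠ 0) :
    ∃ n : V4, q1 Q p n ≠ 0 := by
  obtain ⟨i, hi⟩ := h
  refine ⟨Pi.single i 1, ?_⟩
  rw [q1_eq hQ]
  simpa [Pi.single_apply] using hi

lemma finrank_Tg (hQ : Q.IsHomogeneous 4) {p : V4} (h : ∃ i : Fin 4, eval p (pderiv i Q) ≠ 0) :
    Module.finrank ℂ (Tg Q p) = 3 := by
  obtain ⟨n, hn⟩ := exists_q1_ne hQ h
  have h1 : Tg Q p = LinearMap.ker (q1L Q p) := by
    ext v
    rw [mem_Tg, LinearMap.mem_ker, q1L_apply]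
  have hne : q1L Q p ≠ 0 := by
    intro h0
    apply hn
    have := congrArg (fun f => f n) h0
    simpa using this
  have h2 := Module.Dual.finrank_ker_add_one_of_ne_zero (f := q1L Q p) hne
  have h3 : Module.finrank ℂ V4 = 4 := by simp
  have h4 : Module.finrank ℂ (LinearMap.ker (q1L Q p)) + 1 = 4 := h2.trans h3
  have h5 : Module.finrank ℂ (Tg Q p) = Module.finrank ℂ (LinearMap.ker (q1L Q p)) := by rw [h1]
  rw [h5]
  exact Nat.succ_injective h4

/-- two vectors `a, b` with `p, a, b` a basis of the tangent hyperplane -/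
lemma exists_frame (hQ : Q.IsHomogeneous 4) {p : V4} (hp0 : p ≠ 0)
    (h : ∃ i : Fin 4, eval p (pderiv i Q) ≠ 0) :
    ∃ a ∈ Tg Q p, ∃ b ∈ Tg Q p, ∀ x y z : ℂ, x • p + y • a + z • b = 0 → x = 0 ∧ y = 0 ∧ z = 0 := by
  have h3 := finrank_Tg hQ h
  have hex : ∀ W : Submodule ℂ V4, Module.finrank ℂ W ≤ 2 → ∃ a ∈ Tg Q p, a ∉ W := by
    intro W hW
    by_contra hcon
    push Not at hcon
    have : Module.finrank ℂ (Tg Q p) ≤ Module.finrank ℂ W := Submodule.finrank_mono hcon
    omega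
  obtain ⟨a, ha, haW⟩ := hex (Submodule.span ℂ {p}) ((finrank_span_singleton hp0).le.trans (by norm_num))
  obtain ⟨b, hb, hbW⟩ := hex (Submodule.span ℂ (Set.range ![p, a])) (by
    have := finrank_range_le_card (R := ℂ) ![p, a]
    simpa [Set.finrank] using this)
  refine ⟨a, ha, b, hb, ?_⟩
  intro x y z hxyz
  have hz : z = 0 := by
    by_contra hz
    apply hbW
    have : b = (-(x / z)) • p + (-(y / z)) • a := by
      have h1 : z⁻¹ • (x • p + y • a + z • b) = 0 := by rw [hxyz, smul_zero]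
      have h2 : z⁻¹ • (x • p + y • a + z • b) = (x / z) • p + (y / z) • a + b := by
        rw [smul_add, smul_add, smul_smul, smul_smul, smul_smul, inv_mul_cancel₀ hz, one_smul]
        congr 3 <;> ring_nf
      rw [h2] at h1
      rw [neg_smul, neg_smul]
      have h3 : b = ((x / z) • p + (y / z) • a + b) + (-((x / z) • p) + -((y / z) • a)) := by abel
      rw [h1, zero_add] at h3
      exact h3
    rw [this]
    refine Submodule.add_mem _ (Submodule.smul_mem _ _ (Submodule.subset_span ⟨0, rfl⟩))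
      (Submodule.smul_mem _ _ (Submodule.subset_span ⟨1, rfl⟩))
  subst hz
  rw [zero_smul, add_zero] at hxyz
  have hy : y = 0 := by
    by_contra hy
    apply haW
    rw [Submodule.mem_span_singleton]
    refine ⟨-(x / y), ?_⟩
    have h1 : y⁻¹ • (x • p + y • a) = 0 := by rw [hxyz, smul_zero]
    have h2 : y⁻¹ • (x • p + y • a) = (x / y) • p + a := by
      rw [smul_add, smul_smul, smul_smul, inv_mul_cancel₀ hy, one_smul]
      congr 2; ring
    rw [h2] at h1
    rw [neg_smul]
    exact (eq_neg_of_add_eq_zero_right h1).symm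
  subst hy
  rw [zero_smul, add_zero] at hxyz
  exact ⟨(smul_eq_zero.1 hxyz).resolve_right hp0, rfl, rfl⟩

lemma differentiable_g6_line (p a b : V4) : Differentiable ℂ (fun s : ℂ => g6 Q p (a + s • b)) := by
  have h1 : Differentiable ℂ (fun s : ℂ => ((p, a + s • b) : V4 × V4)) := by fun_prop
  have h2 := Differentiable.comp (g := fun z : V4 × V4 => g6 Q z.1 z.2) (differentiable_g6 Q) h1
  simp only [Function.comp_def] at h2
  exact h2

/-- the sextic has a root -/
lemma exists_root (hQ : Q.IsHomogeneous 4) {p : V4} (hp0 : p ≠ 0)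
    (h : ∃ i : Fin 4, eval p (pderiv i Q) ≠ 0) :
    ∃ u ∈ Tg Q p, LinearIndependent ℂ ![p, u] ∧ g6 Q p u = 0 := by
  obtain ⟨a, ha, b, hb, hli⟩ := exists_frame hQ hp0 h
  by_contra hcon
  push Not at hcon
  have hb0 : g6 Q p b ≠ 0 := by
    refine hcon b hb ?_
    rw [LinearIndependent.pair_iff]
    intro s t hst
    have := hli s 0 t (by rw [zero_smul, add_zero]; exact hst)
    exact ⟨this.1, this.2.2⟩
  have hF0 : ∀ s : ℂ, g6 Q p (a + s • b) ≠ 0 := by
    intro s
    refine hcon _ ((Tg Q p).add_mem ha ((Tg Q p).smul_mem s hb)) ?_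
    rw [LinearIndependent.pair_iff]
    intro x y hxy
    have := hli x y (y * s) (by rw [← hxy]; module)
    exact ⟨this.1, this.2.1⟩
  have hFd : Differentiable ℂ (fun s : ℂ => g6 Q p (a + s • b)) := by
    exact differentiable_g6_line p a b
  have hinv : Differentiable ℂ (fun s : ℂ => (g6 Q p (a + s • b))⁻¹) := hFd.inv hF0
  have hlim : Tendsto (fun s : ℂ => (g6 Q p (a + s • b))⁻¹) (cocompact ℂ) (𝓝 0) := by
    have h1 : Tendsto (fun s : ℂ => s⁻¹) (cocompact ℂ) (𝓝 0) := by
      rw [← Metric.cobounded_eq_cocompact]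
      exact tendsto_inv₀_cobounded
    have h2 : Continuous (fun t : ℂ => g6 Q p (b + t • a)) := by
      exact (differentiable_g6_line p b a).continuous
    have h3 : Tendsto (fun s : ℂ => g6 Q p (b + s⁻¹ • a)) (cocompact ℂ) (𝓝 (g6 Q p b)) := by
      have := (h2.tendsto 0).comp h1
      simpa [Function.comp_def] using this
    have h4 : Tendsto (fun s : ℂ => (s⁻¹) ^ 6 * (g6 Q p (b + s⁻¹ • a))⁻¹) (cocompact ℂ)
        (𝓝 (0 ^ 6 * (g6 Q p b)⁻¹)) := (h1.pow 6).mul (h3.inv₀ hb0)
    rw [zero_pow (by norm_num), zero_mul] at h4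
    refine h4.congr' ?_
    have h5 : ∀ᶠ s : ℂ in cocompact ℂ, s ≠ 0 := by
      have : ({0} : Set ℂ)ᶜ ∈ cocompact ℂ := (isCompact_singleton).compl_mem_cocompact
      exact this
    filter_upwards [h5] with s hs
    have h6 : a + s • b = s • (b + s⁻¹ • a) := by
      rw [smul_add, smul_smul, mul_inv_cancel₀ hs, one_smul, add_comm]
    rw [h6, g6_smul_right, mul_inv, inv_pow]
  have := hinv.apply_eq_of_tendsto_cocompact 0 hlim
  exact inv_ne_zero (hF0 0) this

end Crest.Agent.R279.MaxP
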