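import Crest.Agent.R279.MaxF855

/-!
R279 (S0422), Part 8, A6 (helper855): orthonormal pairs, compactness, the local holomorphic root.
-/

set_option autoImplicit false
set_option linter.all false

noncomputable section

open Set Filter Topology Metric Complex MvPolynomial

namespace Crest.Agent.R279.MaxP

open HV

variable {Q : MvPolynomial (Fin 4) ℂ}

lemma LI_iff {p u : V4} (hp : p ≠ 0) : LinearIndependent ℂ ![p, u] ↔ ∀ c : ℂ, c • p ≠ u :=
  LinearIndependent.pair_iff' hp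

/-- an orthonormal pair is independent -/
lemma LI_of_orthonormal {p u : V4} (hp : nrm p = 1) (hu : nrm u = 1) (hpu : herm p u = 0) :
    LinearIndependent ℂ ![p, u] := by
  have hp0 : p ≠ 0 := by
    intro h; rw [h] at hp; simp [nrm] at hp
  rw [LI_iff hp0]
  intro c hc
  have hpp : herm p p = 1 := by rw [herm_self, hp]; simp
  have h1 : herm p (c • p) = 0 := by rw [hc, hpu]
  rw [herm_smul_right, hpp, mul_one] at h1
  rw [← hc, h1, zero_smul] at hu
  simp [nrm] at hu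

/-- the perpendicular part of `u` with respect to `p` -/
def perp (p u : V4) : V4 := u + (-(herm p u / ((nrm p ^ 2 : ℝ) : ℂ))) • p

lemma herm_perp {p : V4} (hp : p ≠ 0) (u : V4) : herm p (perp p u) = 0 := by
  have h0 : ((nrm p ^ 2 : ℝ) : ℂ) ≠ 0 := by exact_mod_cast (pow_pos (nrm_pos hp) 2).ne'
  rw [perp, herm_add_right, herm_smul_right, herm_self, neg_mul, div_mul_cancel₀ _ h0]
  ring

lemma perp_ne {p u : V4} (h : LinearIndependent ℂ ![p, u]) : perp p u ≠ 0 := by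
  have hp := (LI_ne h).1
  rw [LI_iff hp] at h
  intro h0
  apply h (herm p u / ((nrm p ^ 2 : ℝ) : ℂ))
  rw [perp, neg_smul] at h0
  exact (eq_of_sub_eq_zero (by rw [sub_eq_add_neg]; exact h0)).symm

/-- the orthonormal root pairs over `G` -/
def SS (Q : MvPolynomial (Fin 4) ℂ) (G : Set V4) : Set (V4 × V4) :=
  {z | (z.1 ∈ G ∧ nrm z.1 = 1) ∧ nrm z.2 = 1 ∧ herm z.1 z.2 = 0 ∧ q1 Q z.1 z.2 = 0 ∧
    g6 Q z.1 z.2 = 0}

/-- every root pair over `G` is, up to scaling and shift, an orthonormal one -/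
lemma theta_normalise (hQ : Q.IsHomogeneous 4)
    (hsmooth : ∀ p : V4, p ≠ 0 → eval p Q = 0 → ∃ i : Fin 4, eval p (pderiv i Q) ≠ 0)
    {G : Set V4} (hG : ∀ p ∈ G, p ≠ 0 ∧ eval p Q = 0) (hGc : ∀ q ∈ G, ∀ s : ℂ, s ≠ 0 → s • q ∈ G)
    {q u : V4} (hq : q ∈ G) (hu : u ∈ Tg Q q) (hg : g6 Q q u = 0)
    (hli : LinearIndependent ℂ ![q, u]) :
    ∃ z ∈ SS Q G, ‖theta Q q u‖ = (nrm q * nrm (perp q u)) ^ 4 * ‖theta Q z.1 z.2‖ := by
  obtain ⟨hq0, hqQ⟩ := hG q hq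
  have hqT : q ∈ Tg Q q := self_mem_Tg hQ hqQ
  have hp1 := nrm_pos hq0
  have hv0 : perp q u ≠ 0 := perp_ne hli
  have hv1 := nrm_pos hv0
  have hvT : perp q u ∈ Tg Q q := (Tg Q q).add_mem hu ((Tg Q q).smul_mem _ hqT)
  have hvg : g6 Q q (perp q u) = 0 := by rw [perp, g6_add_smul hQ hqQ hu, hg]
  have hs : (((nrm q : ℝ) : ℂ)⁻¹) ≠ 0 := inv_ne_zero (by exact_mod_cast hp1.ne')
  have hr : (((nrm (perp q u) : ℝ) : ℂ)⁻¹) ≠ 0 := inv_ne_zero (by exact_mod_cast hv1.ne')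
  have hvli : LinearIndependent ℂ ![q, perp q u] := by
    rw [LI_iff hq0]
    intro c hc
    have h1 := herm_perp hq0 u
    rw [← hc, herm_smul_right, herm_self] at h1
    have h0 : ((nrm q ^ 2 : ℝ) : ℂ) ≠ 0 := by exact_mod_cast (pow_pos hp1 2).ne'
    rw [(mul_eq_zero.1 h1).resolve_right h0, zero_smul] at hc
    exact hv0 hc.symm
  obtain ⟨n0, hn0⟩ := exists_q1_ne hQ (hsmooth q hq0 hqQ)
  have h1 : theta Q q (perp q u) = theta Q q u := theta_shift hQ hqQ hu hg hli hn0 _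
  have h2 := theta_smul hQ hqQ hvT hvg hvli hs hr
  have hn1 : nrm (((nrm q : ℝ) : ℂ)⁻¹ • q) = 1 := by
    rw [nrm_smul, norm_inv, Complex.norm_real, Real.norm_eq_abs, abs_of_pos hp1,
      inv_mul_cancel₀ hp1.ne']
  have hn2 : nrm (((nrm (perp q u) : ℝ) : ℂ)⁻¹ • perp q u) = 1 := by
    rw [nrm_smul, norm_inv, Complex.norm_real, Real.norm_eq_abs, abs_of_pos hv1,
      inv_mul_cancel₀ hv1.ne']
  refine ⟨(((nrm q : ℝ) : ℂ)⁻¹ • q, ((nrm (perp q u) : ℝ) : ℂ)⁻¹ • perp q u),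
    ⟨⟨hGc q hq _ hs, hn1⟩, hn2, ?_, ?_, ?_⟩, ?_⟩
  · simp only
    rw [herm_smul_left, herm_smul_right, herm_perp hq0]; ring
  · simp only
    rw [q1_smul_left, q1_smul_right, mem_Tg.1 hvT]; ring
  · simp only
    rw [g6_smul_left, g6_smul_right, hvg]; ring
  · simp only
    rw [h2, h1, norm_mul, norm_mul, norm_pow, norm_pow, norm_inv, norm_inv, Complex.norm_real,
      Complex.norm_real, Real.norm_eq_abs, Real.norm_eq_abs, abs_of_pos hp1, abs_of_pos hv1]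
    field_simp

lemma continuous_herm : Continuous (fun z : V4 × V4 => herm z.1 z.2) := by
  unfold herm
  fun_prop

lemma differentiable_q1 (Q : MvPolynomial (Fin 4) ℂ) :
    Differentiable ℂ (fun z : V4 × V4 => q1 Q z.1 z.2) := by
  unfold q1 tens
  fun_prop

lemma isCompact_SS {G : Set V4} (hGcl : ∀ q : V4, q ≠ 0 → q ∈ closure G → q ∈ G) :
    IsCompact (SS Q G) := by
  have h1 : IsCompact {q : V4 | q ∈ G ∧ nrm q = 1} := HV.isCompact_sphere hGcl
  have h2 : IsCompact {q : V4 | q ∈ (univ : Set V4) ∧ nrm q = 1} :=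
    HV.isCompact_sphere (fun q _ _ => mem_univ q)
  have h3 : SS Q G = ({q : V4 | q ∈ G ∧ nrm q = 1} ×ˢ {q : V4 | q ∈ (univ : Set V4) ∧ nrm q = 1}) ∩
      {z | herm z.1 z.2 = 0 ∧ q1 Q z.1 z.2 = 0 ∧ g6 Q z.1 z.2 = 0} := by
    ext z
    constructor
    · rintro ⟨ha, hb, hc, hd, he⟩
      exact ⟨⟨ha, mem_univ _, hb⟩, hc, hd, he⟩
    · rintro ⟨⟨ha, _, hb⟩, hc, hd, he⟩
      exact ⟨ha, hb, hc, hd, he⟩
  rw [h3]
  refine (h1.prod h2).inter_right ?_
  refine IsClosed.inter (isClosed_eq continuous_herm continuous_const) ?_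
  exact IsClosed.inter (isClosed_eq (differentiable_q1 Q).continuous continuous_const)
    (isClosed_eq (differentiable_g6 Q).continuous continuous_const)

lemma differentiable_Om (w n : V4) : Differentiable ℂ (fun z : V4 × V4 => Om Q z.1 z.2 w n) := by
  unfold Om q1 dg6 q2 q3 q4 dq2 dq3 dq4 tens
  fun_prop

lemma differentiable_D4 (w n : V4) : Differentiable ℂ (fun z : V4 × V4 => D4 z.1 z.2 w n) := by
  unfold D4
  fun_prop

lemma continuousOn_theta (hQ : Q.IsHomogeneous 4) {G : Set V4}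
    (hG : ∀ p ∈ G, p ≠ 0 ∧ eval p Q = 0) :
    ContinuousOn (fun z : V4 × V4 => ‖theta Q z.1 z.2‖) (SS Q G) := by
  intro z0 hz0
  obtain ⟨w, n, hD⟩ := exists_D4_ne (LI_of_orthonormal hz0.1.2 hz0.2.1 hz0.2.2.1)
  have hc : ContinuousAt (fun z : V4 × V4 => ‖Om Q z.1 z.2 w n / D4 z.1 z.2 w n‖) z0 :=
    (((differentiable_Om w n).continuous.continuousAt).div
      ((differentiable_D4 w n).continuous.continuousAt) hD).norm
  refine hc.continuousWithinAt.congr_of_eventuallyEq ?_ ?_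
  · have h1 : ∀ᶠ z in 𝓝[SS Q G] z0, D4 z.1 z.2 w n ≠ 0 :=
      ((differentiable_D4 w n).continuous.continuousAt.eventually_ne hD).filter_mono
        nhdsWithin_le_nhds
    filter_upwards [h1, self_mem_nhdsWithin] with z hz1 hz2
    rw [theta_eq_div hQ (hG _ hz2.1.1).2 hz2.2.2.2.1 hz2.2.2.2.2
      (LI_of_orthonormal hz2.1.2 hz2.2.1 hz2.2.2.1) hz1]
  · rw [theta_eq_div hQ (hG _ hz0.1.1).2 hz0.2.2.2.1 hz0.2.2.2.2
      (LI_of_orthonormal hz0.1.2 hz0.2.1 hz0.2.2.1) hD]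

end Crest.Agent.R279.MaxP
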