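import Crest.Agent.R279.HomVanish471
import Crest.Agent.R279.LocEq60
import Crest.Agent.R279.Boot556

/-!
# R279 (helper471): `NoStrictMax` of a cone which is locally the zero set of one holomorphic function
in conic charts, from the maximum principle in two variables (`Max2`)
-/

set_option autoImplicit false

namespace Crest.Agent.R279.HV

open Filter Topology MvPolynomial Metric Set

/-- Maximum principle on the zero set of one holomorphic function of two variables (and the zero set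
has no isolated points). -/
def Max2 : Prop :=
  ∀ (g φ : ℂ × ℂ → ℂ) (U : Set (ℂ × ℂ)), IsOpen U → (0 : ℂ × ℂ) ∈ U → DifferentiableOn ℂ g U →
    DifferentiableOn ℂ φ U → g 0 = 0 → ∀ N ∈ 𝓝 (0 : ℂ × ℂ), ∃ z ∈ N, z ≠ 0 ∧ g z = 0 ∧
      ‖φ 0‖ ≤ ‖φ z‖

theorem noStrictMax_of_charts (h2 : Max2) {S G : Set (Fin 4 → ℂ)}
    (h : ∀ v ∈ G, ∃ (C : Chart S v) (ρ : ℝ) (g : ℂ × ℂ → ℂ), 0 < ρ ∧ ρ ≤ C.r ∧
      DifferentiableOn ℂ g (ball 0 ρ) ∧ g 0 = 0 ∧ ∀ z ∈ ball (0 : ℂ × ℂ) ρ, g z = 0 → C.x z ∈ G) :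
    NoStrictMax G := by
  intro p hp f U hU hpU hf N hN
  obtain ⟨C, ρ, g, hρ, hρr, hg, hg0, hgG⟩ := h p hp
  have hxc : ContinuousAt C.x 0 :=
    (C.diff_x.differentiableAt (isOpen_ball.mem_nhds (mem_ball_self C.r_pos))).continuousAt
  have hpre : C.x ⁻¹' (U ∩ interior N) ∈ 𝓝 (0 : ℂ × ℂ) := by
    apply hxc.preimage_mem_nhds
    rw [C.x_zero]
    exact inter_mem (hU.mem_nhds hpU) (interior_mem_nhds.2 hN)
  obtain ⟨δ, hδ, hδs⟩ := Metric.mem_nhds_iff.1 hpre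
  set r := min ρ δ with hr
  have hr0 : 0 < r := lt_min hρ hδ
  have hdφ : DifferentiableOn ℂ (fun z => f (C.x z)) (ball 0 r) := by
    refine hf.comp (C.diff_x.mono (ball_subset_ball ((min_le_left _ _).trans hρr))) ?_
    intro z hz
    exact (hδs (ball_subset_ball (min_le_right _ _) hz)).1
  obtain ⟨z, hzN, hz0, hgz, hle⟩ := h2 g (fun z => f (C.x z)) (ball 0 r) isOpen_ball
    (mem_ball_self hr0) (hg.mono (ball_subset_ball (min_le_left _ _))) hdφ hg0
    (ball 0 r) (isOpen_ball.mem_nhds (mem_ball_self hr0))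
  have hzρ : z ∈ ball (0 : ℂ × ℂ) ρ := ball_subset_ball (min_le_left _ _) hzN
  have hzr : z ∈ ball (0 : ℂ × ℂ) C.r := ball_subset_ball hρr hzρ
  refine ⟨C.x z, hgG z hzρ hgz, interior_subset (hδs (ball_subset_ball (min_le_right _ _) hzN)).2,
    ?_, ?_⟩
  · rw [LinearIndependent.pair_iff]
    intro s t hst
    have h0r : (0 : ℂ × ℂ) ∈ ball (0 : ℂ × ℂ) C.r := mem_ball_self C.r_pos
    have hap : C.a p = 1 := by
      have := C.a_x 0 h0r
      rwa [C.x_zero] at this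
    have hbp : C.b p = 0 := by
      have := C.b_x 0 h0r
      rwa [C.x_zero] at this
    have hA := congrArg C.a hst
    have hB := congrArg C.b hst
    rw [map_add, map_smul, map_smul, hap, C.a_x z hzr, map_zero] at hA
    rw [map_add, map_smul, map_smul, hbp, C.b_x z hzr, map_zero, smul_zero, zero_add] at hB
    have ht : t = 0 := by
      rcases smul_eq_zero.1 hB with h | h
      · exact h
      · exact absurd h hz0
    subst ht
    simp only [smul_eq_mul, mul_one, add_zero] at hA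
    exact ⟨hA, rfl⟩
  · have := hle
    simp only [C.x_zero] at this
    exact this

/-- the cone `D` satisfies the local maximum principle -/
theorem noStrictMax_DD (h2 : Max2) {Q : MvPolynomial (Fin 4) ℂ} (hQ : Q.IsHomogeneous 4)
    (hsmooth : ∀ p : Fin 4 → ℂ, p ≠ 0 → eval p Q = 0 → ∃ i, eval p (pderiv i Q) ≠ 0) :
    NoStrictMax (DD Q) := by
  refine noStrictMax_of_charts (S := {v : Fin 4 → ℂ | v ≠ 0 ∧ eval v Q = 0}) h2 ?_
  intro v hv
  obtain ⟨C, -⟩ := Boot.exists_chart hQ hv.1.1 hv.1.2 (hsmooth v hv.1.1 hv.1.2) one_pos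
  obtain ⟨ρ, G, hρ, hρr, hG, hiff⟩ := LocEq.locEq_chart hQ hsmooth hv.1.1 hv.1.2 C
  refine ⟨C, ρ, G, hρ, hρr, hG.mono (ball_subset_ball hρr), ?_, fun z hz h => (hiff z hz).2 h⟩
  refine (hiff 0 (mem_ball_self hρ)).1 ?_
  rw [C.x_zero]
  exact hv

/-- the cone cut out by one holomorphic function `F` on `V*` satisfies the local maximum
principle -/
theorem noStrictMax_zero (h2 : Max2) {Q : MvPolynomial (Fin 4) ℂ} (hQ : Q.IsHomogeneous 4)
    (hsmooth : ∀ p : Fin 4 → ℂ, p ≠ 0 → eval p Q = 0 → ∃ i, eval p (pderiv i Q) ≠ 0)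
    {G : Set (Fin 4 → ℂ)} (hG0 : ∀ v ∈ G, v ≠ 0 ∧ eval v Q = 0)
    (hF : ∀ v ∈ G, ∃ (F : (Fin 4 → ℂ) → ℂ) (O : Set (Fin 4 → ℂ)), IsOpen O ∧ v ∈ O ∧
      DifferentiableOn ℂ F O ∧ F v = 0 ∧ ∀ y ∈ O, y ≠ 0 → eval y Q = 0 → F y = 0 → y ∈ G) :
    NoStrictMax G := by
  refine noStrictMax_of_charts (S := {v : Fin 4 → ℂ | v ≠ 0 ∧ eval v Q = 0}) h2 ?_
  intro v hv
  obtain ⟨hv0, hvQ⟩ := hG0 v hv
  obtain ⟨C, -⟩ := Boot.exists_chart hQ hv0 hvQ (hsmooth v hv0 hvQ) one_pos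
  obtain ⟨F, O, hO, hvO, hFd, hFv, hFG⟩ := hF v hv
  have hxc : ContinuousAt C.x 0 :=
    (C.diff_x.differentiableAt (isOpen_ball.mem_nhds (mem_ball_self C.r_pos))).continuousAt
  have hpre : C.x ⁻¹' O ∈ 𝓝 (0 : ℂ × ℂ) := by
    apply hxc.preimage_mem_nhds
    rw [C.x_zero]
    exact hO.mem_nhds hvO
  obtain ⟨δ, hδ, hδs⟩ := Metric.mem_nhds_iff.1 hpre
  refine ⟨C, min C.r δ, fun z => F (C.x z), lt_min C.r_pos hδ, min_le_left _ _, ?_, ?_, ?_⟩
  · exact hFd.comp (C.diff_x.mono (ball_subset_ball (min_le_left _ _)))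
      fun z hz => hδs (ball_subset_ball (min_le_right _ _) hz)
  · simp only [C.x_zero]
    exact hFv
  · intro z hz hz0
    have h1 := (C.x_mem z (ball_subset_ball (min_le_left _ _) hz)).1
    exact hFG _ (hδs (ball_subset_ball (min_le_right _ _) hz)) h1.1 h1.2 hz0

end Crest.Agent.R279.HV
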