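import Mathlib
import Crest.Agent.R279.Defs765
import Crest.Agent.R279.Spray477
import Crest.Agent.R279.MergeApp250
import Crest.Agent.R279.Deriv556
import Crest.Agent.R279.Red625

/-!
R279 (helper625): sprays over holomorphic maps near compact convex sets into the punctured cone
of a smooth homogeneous polynomial, in the form `SprayData` of `Defs765`.
Input: `SplitProp` (through helper250's `bezout`), helper477's `exists_spray`.
-/

set_option autoImplicit false

open Set Metric Filter Topology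

namespace Crest.Agent.R279.Red

open Crest.Agent.R279.Merge Crest.Agent.R279.Spray

lemma contDiff_eval (Q : MvPolynomial (Fin 4) ℂ) :
    ContDiff ℂ 2 (fun v : Fin 4 → ℂ => MvPolynomial.eval v Q) := by
  induction Q using MvPolynomial.induction_on with
  | C a =>
    have : (fun v : Fin 4 → ℂ => MvPolynomial.eval v (MvPolynomial.C a)) = fun _ => a := by
      funext v; simp
    rw [this]; exact contDiff_const
  | add p q hp hq =>
    have : (fun v : Fin 4 → ℂ => MvPolynomial.eval v (p + q)) =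
        fun v => MvPolynomial.eval v p + MvPolynomial.eval v q := by
      funext v; simp
    rw [this]; exact hp.add hq
  | mul_X p i hp =>
    have : (fun v : Fin 4 → ℂ => MvPolynomial.eval v (p * MvPolynomial.X i)) =
        fun v => MvPolynomial.eval v p * v i := by
      funext v; simp
    rw [this]; exact hp.mul (contDiff_apply ℂ ℂ i)

/-- the gradient -/
noncomputable def gradv (Q : MvPolynomial (Fin 4) ℂ) (v : Fin 4 → ℂ) : Fin 4 → ℂ :=
  fun i => MvPolynomial.eval v (MvPolynomial.pderiv i Q)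

lemma differentiable_gradv (Q : MvPolynomial (Fin 4) ℂ) : Differentiable ℂ (gradv Q) := by
  rw [differentiable_pi]
  intro i
  exact Crest.Agent.R279.differentiable_eval _

/-- smooth quartics (any degree): the gradient does not vanish on the punctured cone -/
def SmoothQ (Q : MvPolynomial (Fin 4) ℂ) : Prop :=
  ∀ p : Fin 4 → ℂ, p ≠ 0 → MvPolynomial.eval p Q = 0 →
      ∃ i : Fin 4, MvPolynomial.eval p (MvPolynomial.pderiv i Q) ≠ 0

/-- spray data from a Bezout vector on a neighbourhood -/
theorem sprayData_of_bezout {Q : MvPolynomial (Fin 4) ℂ} {m : ℕ}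
    {K O : Set (Fin m → ℂ)} (hK : IsCompact K) (hO : IsOpen O) (hKO : K ⊆ O)
    {f h : (Fin m → ℂ) → Fin 4 → ℂ} (hf : DifferentiableOn ℂ f O) (hh : DifferentiableOn ℂ h O)
    (hfV : ∀ x ∈ O, f x ∈ VS Q) (hone : ∀ x ∈ O, ∑ j, gradv Q (f x) j * h x j = 1) :
    Nonempty (SprayData (Vstar Q) f K) := by
  -- a compact neighbourhood
  obtain ⟨L, hL, hKL, hLO⟩ := exists_compact_between hK hO hKO
  obtain ⟨c, hc0, hc⟩ := exists_lower_bound hf hfV hL hLO
  obtain ⟨M1, hM1⟩ := (hL.image_of_continuousOn (hf.continuousOn.mono hLO)).isBounded.exists_norm_le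
  obtain ⟨M2, hM2⟩ := (hL.image_of_continuousOn (hh.continuousOn.mono hLO)).isBounded.exists_norm_le
  have hDL : interior L ⊆ L := interior_subset
  have hDO : interior L ⊆ O := hDL.trans hLO
  obtain ⟨r, C, s, hs⟩ := exists_spray (contDiff_eval Q) (D := interior L) isOpen_interior
    (hf.mono hDO) (hh.mono hDO) (M := max M1 M2) hc0
    (fun x hx => (hM1 _ ⟨x, hDL hx, rfl⟩).trans (le_max_left _ _))
    (fun x hx => (hM2 _ ⟨x, hDL hx, rfl⟩).trans (le_max_right _ _))
    (fun x hx => hc x (hDL hx)) (fun x hx => (hfV x (hDO hx)).2)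
    (fun x hx => by
      rw [(Crest.Agent.R279.hasFDerivAt_eval Q (f x)).fderiv, Crest.Agent.R279.dQ_apply]
      exact hone x (hDO hx))
  refine ⟨⟨fun z => s z.1 z.2, interior L, r, r / 2, isOpen_interior, hKL, hs.r_pos,
    half_pos hs.r_pos, hs.hol, ?_, fun x hx => hs.zero x hx, ?_⟩⟩
  · rintro ⟨x, t⟩ ⟨hx, ht⟩
    exact hs.mem x hx t ht
  · intro x hx t ht y hy hyt
    rw [mem_ball_zero_iff] at ht ⊢
    have h1 : ‖t‖ + ‖y - s x t‖ < r := by linarith
    exact ⟨(norm_add_le _ _).trans_lt h1, hs.trans x hx t y hy.2 h1⟩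

/-- sprays over maps near compact convex sets -/
theorem sprayData_of {Q : MvPolynomial (Fin 4) ℂ} (hQ : SmoothQ Q) {m : ℕ} (hS : SplitProp m)
    {K : Set (Fin m → ℂ)} (hK : IsCompact K) (hKc : Convex ℝ K) {f : (Fin m → ℂ) → C4}
    (hf : HolNear (Vstar Q) f K) : Nonempty (SprayData (Vstar Q) f K) := by
  obtain ⟨O, hO, hKO, hfd, hfm⟩ := hf
  obtain ⟨V, h, hV, hKV, hVO, hh, hone⟩ := bezout hS (J := Fin 4) hK hKc hO hKO
    (w := fun x => gradv Q (f x)) ((differentiable_gradv Q).comp_differentiableOn hfd)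
    (fun x hx h0 => by
      obtain ⟨i, hi⟩ := hQ (f x) (hfm hx).1 (hfm hx).2
      exact hi (congrFun h0 i))
  exact sprayData_of_bezout hK hV hKV (hfd.mono hVO) hh (fun x hx => hfm (hVO hx)) hone

/-- the target of `Defs765` -/
theorem sprayTarget_of {Q : MvPolynomial (Fin 4) ℂ} (hQ : SmoothQ Q)
    (hS : ∀ n, SplitProp n) : SprayTarget (Vstar Q) := by
  intro n P hP f hf
  refine sprayData_of hQ (hS n) ?_ ?_ hf
  · have h1 : polyRect P = Set.pi Set.univ fun i =>
        rect (P i).1 (P i).2.1 (P i).2.2.1 (P i).2.2.2 := by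
      ext x; simp [polyRect]
    rw [h1]
    refine isCompact_univ_pi fun i => ?_
    have h2 : rect (P i).1 (P i).2.1 (P i).2.2.1 (P i).2.2.2
        = Icc (P i).1 (P i).2.1 ×ℂ Icc (P i).2.2.1 (P i).2.2.2 := by
      ext z; simp [rect, Complex.mem_reProdIm]
    rw [h2]
    exact isCompact_Icc.reProdIm isCompact_Icc
  · intro x hx y hy a b ha hb hab i
    have hx := hx i
    have hy := hy i
    refine ⟨?_, ?_⟩
    · have := (convex_Icc (P i).1 (P i).2.1) hx.1 hy.1 ha hb hab
      simpa using this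
    · have := (convex_Icc (P i).2.2.1 (P i).2.2.2) hx.2 hy.2 ha hb hab
      simpa using this

end Crest.Agent.R279.Red
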