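import Crest.Agent.R279.D4_421

/-!
# R279 (helper421): Theorem E for the polar curves `Γ_x = {q ∈ V* : ⟨H(q), x⟩ = 0}`
-/

set_option autoImplicit false

namespace Crest.Agent.R279.D4

open MvPolynomial Metric Set Filter Topology Crest.Agent.R279.HV

variable {Q : MvPolynomial (Fin 4) ℂ}

/-- A6: every polar curve `Γ_x`, `x ∈ V*`, meets `D`. -/
theorem exists_DD_polar (hQ : Q.IsHomogeneous 4)
    (hsmooth : ∀ p : V4, p ≠ 0 → eval p Q = 0 → ∃ i, eval p (pderiv i Q) ≠ 0)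
    (hE : ThmE Q) (x : V4) (hx0 : x ≠ 0) (hxQ : eval x Q = 0) :
    ∃ p ∈ DD Q, q1 Q p x = 0 := by
  have hd : Differentiable ℂ (fun q : V4 => q1 Q q x) := by
    have := differentiable_tens' (Q := Q) (a := fun q : V4 => q) (b := fun q : V4 => q)
      (c := fun q : V4 => q) (d := fun _ : V4 => x) differentiable_id differentiable_id
      differentiable_id (differentiable_const x)
    unfold q1
    exact this.const_mul 4
  set Γ : Set V4 := {q | q ≠ 0 ∧ (eval q Q = 0 ∧ q1 Q q x = 0)} with hΓ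
  have hM : NoStrictMax Γ := by
    refine noStrictMax_zero max2 hQ hsmooth (fun q hq => ⟨hq.1, hq.2.1⟩) ?_
    intro q hq
    exact ⟨fun q => q1 Q q x, univ, isOpen_univ, mem_univ _, hd.differentiableOn, hq.2.2,
      fun y _ hy0 hyQ hyx => ⟨hy0, hyQ, hyx⟩⟩
  obtain ⟨p, hp, hpD⟩ := hE Γ (fun q hq => ⟨hq.1, hq.2.1⟩)
    ⟨x, hx0, hxQ, by rw [q1_self hQ, hxQ, mul_zero]⟩
    (fun q hq s hs => ⟨smul_ne_zero hs hq.1, by rw [eval_smul4 hQ, hq.2.1, mul_zero],
      by rw [q1_smul_left, hq.2.2, mul_zero]⟩)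
    (closed_of ((evalQ_closed hQ).inter (isClosed_eq hd.continuous continuous_const))
      (fun x => Iff.rfl)) hM
  exact ⟨p, ⟨⟨hp.1, hp.2.1⟩, hpD⟩, hp.2.2⟩

end Crest.Agent.R279.D4
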