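import Mathlib
import Crest.Agent.R279.Root477
import Crest.Agent.R279.Hol806
import Crest.Agent.R279.FamDefs520

/-!
# R279, Part 6: transitions for submersions (helper477)

`exists_trans` (general spaces), `hasTrans_of_submersion` (the form `Fam.HasTrans`),
`vs_determined` (points of a hypersurface near a smooth point are determined by the other
coordinates).
-/

set_option autoImplicit false

namespace Crest.Agent.R279.Spray

open Metric Filter Topology

/-- transitions for maps `h : P → V` which are submersive onto `S` at `0`; `π` are coordinates on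
`S` near `h 0`, `R` is a right inverse of `π ∘ Dh(0)` -/
theorem exists_trans {P V W : Type*} [NormedAddCommGroup P] [NormedSpace ℂ P]
    [NormedAddCommGroup V] [NormedSpace ℂ V] [NormedAddCommGroup W] [NormedSpace ℂ W]
    [CompleteSpace W] {S : Set V} {h : P → V} {r₀ : ℝ} (hr₀ : 0 < r₀)
    (hh : DifferentiableOn ℂ h (ball 0 r₀)) (hS : ∀ p ∈ ball (0 : P) r₀, h p ∈ S)
    (π : V →L[ℂ] W) (R : W →L[ℂ] P) (hR : ∀ w, π (fderiv ℂ h 0 (R w)) = w)
    {δ : ℝ} (hδ : 0 < δ)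
    (hdet : ∀ y ∈ S, ∀ y' ∈ S, ‖y - h 0‖ < δ → ‖y' - h 0‖ < δ → π y = π y' → y = y') :
    ∃ r C : ℝ, 0 < r ∧ 0 < C ∧ ∃ Γ : P × V → P,
      DifferentiableOn ℂ Γ {z | ‖z.1‖ < r ∧ ‖z.2 - h z.1‖ < r} ∧
      ∀ (p : P) (F : V), ‖p‖ < r → ‖F - h p‖ < r → F ∈ S →
        h (Γ (p, F)) = F ∧ ‖Γ (p, F) - p‖ ≤ C * ‖F - h p‖ := by
  have hopen : IsOpen (ball (0 : P) r₀) := isOpen_ball
  have h0mem : (0 : P) ∈ ball (0 : P) r₀ := mem_ball_self hr₀
  -- continuity of the derivative and of `h` at `0`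
  have hc1 : ContinuousAt (fderiv ℂ h) 0 :=
    (Hol.continuousOn_fderiv hopen hh).continuousAt (hopen.mem_nhds h0mem)
  have hc2 : ContinuousAt h 0 := (hh.differentiableAt (hopen.mem_nhds h0mem)).continuousAt
  set c : ℝ := 1 / (2 * (‖π‖ * ‖R‖ + 1)) with hc
  have hcpos : 0 < c := by positivity
  obtain ⟨ε₁, hε₁, H1⟩ := Metric.continuousAt_iff.1 hc1 c hcpos
  obtain ⟨ε₂, hε₂, H2⟩ := Metric.continuousAt_iff.1 hc2 (δ / 2) (by positivity)
  set r₁ : ℝ := min r₀ (min ε₁ ε₂) with hr₁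
  have hr₁pos : 0 < r₁ := lt_min hr₀ (lt_min hε₁ hε₂)
  have hr₁0 : r₁ ≤ r₀ := min_le_left _ _
  have hr₁1 : r₁ ≤ ε₁ := (min_le_right _ _).trans (min_le_left _ _)
  have hr₁2 : r₁ ≤ ε₂ := (min_le_right _ _).trans (min_le_right _ _)
  set ρ : ℝ := r₁ / (4 * (‖R‖ + 1)) with hρ
  have hρpos : 0 < ρ := by positivity
  have hRρ : ‖R‖ * ρ ≤ r₁ / 4 := by
    rw [hρ, mul_div_assoc']
    rw [div_le_div_iff₀ (by positivity) (by norm_num)]
    nlinarith [norm_nonneg R]
  set r : ℝ := min (r₁ / 2) (min (δ / 2) (ρ / (4 * (‖π‖ + 1)))) with hr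
  have hrpos : 0 < r := lt_min (by positivity) (lt_min (by positivity) (by positivity))
  have hr1 : r ≤ r₁ / 2 := min_le_left _ _
  have hr2 : r ≤ δ / 2 := (min_le_right _ _).trans (min_le_left _ _)
  have hr3 : ‖π‖ * r ≤ ρ / 4 := by
    have h1 : r ≤ ρ / (4 * (‖π‖ + 1)) := (min_le_right _ _).trans (min_le_right _ _)
    rw [le_div_iff₀ (by positivity)] at h1
    nlinarith [norm_nonneg π]
  -- points reached
  have hreach : ∀ p : P, ‖p‖ < r → ∀ k ∈ closedBall (0 : W) ρ, p + R k ∈ ball (0 : P) r₁ := by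
    intro p hp k hk
    rw [mem_ball_zero_iff]
    have h1 : ‖R k‖ ≤ ‖R‖ * ρ := (R.le_opNorm k).trans
      (mul_le_mul_of_nonneg_left (mem_closedBall_zero_iff.1 hk) (norm_nonneg _))
    have h2 := norm_add_le p (R k)
    linarith
  have hdiffAt : ∀ p ∈ ball (0 : P) r₁, DifferentiableAt ℂ h p := fun p hp =>
    hh.differentiableAt (hopen.mem_nhds (ball_subset_ball hr₁0 hp))
  have hder : ∀ p ∈ ball (0 : P) r₁,
      ‖(π.comp (fderiv ℂ h p)).comp R - ContinuousLinearMap.id ℂ W‖ ≤ 1 / 2 := by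
    intro p hp
    have e1 : (π.comp (fderiv ℂ h 0)).comp R = ContinuousLinearMap.id ℂ W := by
      ext w
      exact hR w
    rw [← e1]
    have e2 : (π.comp (fderiv ℂ h p)).comp R - (π.comp (fderiv ℂ h 0)).comp R =
        (π.comp (fderiv ℂ h p - fderiv ℂ h 0)).comp R := by
      ext w
      simp
    rw [e2]
    have e3 : ‖fderiv ℂ h p - fderiv ℂ h 0‖ ≤ c := by
      have := H1 (x := p) (by
        rw [dist_zero_right]
        exact lt_of_lt_of_le (mem_ball_zero_iff.1 hp) hr₁1)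
      rw [dist_eq_norm] at this
      exact this.le
    calc ‖(π.comp (fderiv ℂ h p - fderiv ℂ h 0)).comp R‖
        ≤ ‖π.comp (fderiv ℂ h p - fderiv ℂ h 0)‖ * ‖R‖ := ContinuousLinearMap.opNorm_comp_le _ _
      _ ≤ (‖π‖ * ‖fderiv ℂ h p - fderiv ℂ h 0‖) * ‖R‖ :=
          mul_le_mul_of_nonneg_right (ContinuousLinearMap.opNorm_comp_le _ _) (norm_nonneg _)
      _ ≤ (‖π‖ * c) * ‖R‖ := by gcongr
      _ = (‖π‖ * ‖R‖) * c := by ring
      _ ≤ 1 / 2 := by
          rw [hc, mul_one_div, div_le_iff₀ (by positivity)]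
          linarith
  set G : P × V → W → W := fun z k => π (h (z.1 + R k)) - π z.2 with hG
  set D : Set (P × V) := {z | ‖z.1‖ < r ∧ ‖z.2 - h z.1‖ < r} with hD
  have hk : ∀ z ∈ D, ∀ k₁ ∈ closedBall (0 : W) ρ, ∀ k₂ ∈ closedBall (0 : W) ρ,
      ‖(G z k₁ - G z k₂) - (k₁ - k₂)‖ ≤ 1 / 2 * ‖k₁ - k₂‖ := by
    intro z hz k₁ hk₁ k₂ hk₂
    have hd : ∀ k ∈ closedBall (0 : W) ρ, HasFDerivWithinAt (fun k => π (h (z.1 + R k)) - k)
        ((π.comp (fderiv ℂ h (z.1 + R k))).comp R - ContinuousLinearMap.id ℂ W)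
        (closedBall (0 : W) ρ) k := by
      intro k hk
      have e1 : HasFDerivAt (fun k : W => z.1 + R k) R k := R.hasFDerivAt.const_add z.1
      have e2 : HasFDerivAt h (fderiv ℂ h (z.1 + R k)) (z.1 + R k) :=
        (hdiffAt _ (hreach z.1 hz.1 k hk)).hasFDerivAt
      have e3 : HasFDerivAt (fun k : W => π (h (z.1 + R k)))
          ((π.comp (fderiv ℂ h (z.1 + R k))).comp R) k := by
        have := (π.hasFDerivAt (x := h (z.1 + R k))).comp k (e2.comp k e1)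
        exact this
      exact (e3.sub (hasFDerivAt_id k)).hasFDerivWithinAt
    have := (convex_closedBall (0 : W) ρ).norm_image_sub_le_of_norm_hasFDerivWithin_le (𝕜 := ℂ)
      hd (fun k hk => hder _ (hreach z.1 hz.1 k hk)) hk₂ hk₁
    have e : G z k₁ - G z k₂ - (k₁ - k₂) =
        (π (h (z.1 + R k₁)) - k₁) - (π (h (z.1 + R k₂)) - k₂) := by
      simp only [hG]
      abel
    rw [e]
    exact this
  have hG0 : ∀ z : P × V, ‖G z 0‖ ≤ ‖π‖ * ‖z.2 - h z.1‖ := by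
    intro z
    have e : G z 0 = -(π (z.2 - h z.1)) := by
      simp only [hG, map_zero, add_zero, map_sub]
      abel
    rw [e, norm_neg]
    exact π.le_opNorm _
  have h0 : ∀ z ∈ D, ‖G z 0‖ < ρ / 2 := by
    intro z hz
    have h1 := hG0 z
    have h2 : ‖π‖ * ‖z.2 - h z.1‖ ≤ ‖π‖ * r := mul_le_mul_of_nonneg_left hz.2.le (norm_nonneg _)
    linarith
  obtain ⟨κ, hκ, hκd⟩ := exists_unif_root G D hρpos hk h0
  have hDn : ∀ z ∈ D, D ∈ 𝓝 z := by
    intro z hz
    have hz1 : z.1 ∈ ball (0 : P) r₁ := by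
      rw [mem_ball_zero_iff]
      linarith [hz.1]
    have hcz : ContinuousAt h z.1 := (hdiffAt z.1 hz1).continuousAt
    have e1 : ContinuousAt (fun z : P × V => ‖z.1‖) z := continuous_fst.norm.continuousAt
    have e2 : ContinuousAt (fun z : P × V => ‖z.2 - h z.1‖) z :=
      (continuousAt_snd.sub (ContinuousAt.comp (f := Prod.fst) hcz continuousAt_fst)).norm
    exact Filter.inter_mem (e1.eventually_lt continuousAt_const hz.1)
      (e2.eventually_lt continuousAt_const hz.2)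
  have hκmem : ∀ z ∈ D, κ z ∈ closedBall (0 : W) ρ := fun z hz =>
    mem_closedBall_zero_iff.2 (hκ z hz).2.2.1.le
  refine ⟨r, 2 * ‖R‖ * ‖π‖ + 1, hrpos, by positivity, fun z => z.1 + R (κ z), ?_, ?_⟩
  · intro z hz
    have hd : DifferentiableAt ℂ κ z := by
      refine hκd z hz (hDn z hz) ?_
      have e1 : DifferentiableAt ℂ h (z.1 + R (κ z)) := hdiffAt _ (hreach z.1 hz.1 _ (hκmem z hz))
      have e2 : DifferentiableAt ℂ (fun y : (P × V) × W => y.1.1 + R y.2) (z, κ z) :=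
        differentiableAt_fst.fst.add (R.differentiableAt.comp (z, κ z) differentiableAt_snd)
      have e3 : DifferentiableAt ℂ (fun y : (P × V) × W => h (y.1.1 + R y.2)) (z, κ z) :=
        DifferentiableAt.comp (f := fun y : (P × V) × W => y.1.1 + R y.2) (z, κ z) e1 e2
      exact (π.differentiableAt.comp (z, κ z) e3).sub
        (π.differentiableAt.comp (z, κ z) differentiableAt_fst.snd)
    exact (differentiableAt_fst.add (R.differentiableAt.comp z hd)).differentiableWithinAt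
  · intro p F hp hF hFS
    have hz : ((p, F) : P × V) ∈ D := ⟨hp, hF⟩
    have hroot : π (h (p + R (κ (p, F)))) = π F := by
      have := (hκ (p, F) hz).1
      exact sub_eq_zero.1 this
    have hΓ : p + R (κ (p, F)) ∈ ball (0 : P) r₁ := hreach p hp _ (hκmem _ hz)
    have hp1 : p ∈ ball (0 : P) r₁ := by
      rw [mem_ball_zero_iff]
      linarith
    have hclose : ∀ p' ∈ ball (0 : P) r₁, ‖h p' - h 0‖ < δ / 2 := by
      intro p' hp'
      have := H2 (x := p') (by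
        rw [dist_zero_right]
        exact lt_of_lt_of_le (mem_ball_zero_iff.1 hp') hr₁2)
      rwa [dist_eq_norm] at this
    refine ⟨hdet _ (hS _ (ball_subset_ball hr₁0 hΓ)) _ hFS ?_ ?_ hroot, ?_⟩
    · linarith [hclose _ hΓ]
    · have e1 := hclose _ hp1
      have e2 : F - h 0 = (F - h p) + (h p - h 0) := by abel
      rw [e2]
      have e3 := norm_add_le (F - h p) (h p - h 0)
      linarith
    · have e1 : p + R (κ (p, F)) - p = R (κ (p, F)) := by abel
      show ‖p + R (κ (p, F)) - p‖ ≤ _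
      rw [e1]
      have e2 := (hκ (p, F) hz).2.1
      have e3 := hG0 (p, F)
      have e4 : ‖κ (p, F)‖ ≤ 2 * (‖π‖ * ‖F - h p‖) := by
        refine e2.trans ?_
        exact mul_le_mul_of_nonneg_left e3 (by norm_num)
      calc ‖R (κ (p, F))‖ ≤ ‖R‖ * ‖κ (p, F)‖ := R.le_opNorm _
        _ ≤ ‖R‖ * (2 * (‖π‖ * ‖F - h p‖)) := mul_le_mul_of_nonneg_left e4 (norm_nonneg _)
        _ ≤ (2 * ‖R‖ * ‖π‖ + 1) * ‖F - h p‖ := by
            have := norm_nonneg (F - h p)
            nlinarith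

/-- the form used in Part 6 -/
theorem hasTrans_of_submersion {E : Type} [NormedAddCommGroup E] [NormedSpace ℂ E]
    {W : Type*} [NormedAddCommGroup W] [NormedSpace ℂ W] [CompleteSpace W]
    {S : Set C4} {h : Fam.C2 × E → C4} {r₀ : ℝ} (hr₀ : 0 < r₀)
    (hh : DifferentiableOn ℂ h (ball 0 r₀)) (hS : ∀ p ∈ ball (0 : Fam.C2 × E) r₀, h p ∈ S)
    (π : C4 →L[ℂ] W) (R : W →L[ℂ] Fam.C2 × E) (hR : ∀ w, π (fderiv ℂ h 0 (R w)) = w)
    {δ : ℝ} (hδ : 0 < δ)
    (hdet : ∀ y ∈ S, ∀ y' ∈ S, ‖y - h 0‖ < δ → ‖y' - h 0‖ < δ → π y = π y' → y = y') :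
    Fam.HasTrans S h :=
  exists_trans hr₀ hh hS π R hR hδ hdet

/-- near a point `v` with `∂_w q(v) ≠ 0`, points of `{q = 0}` which differ by a multiple of `w`
coincide -/
theorem eq_of_sub_smul {V : Type*} [NormedAddCommGroup V] [NormedSpace ℂ V] {q : V → ℂ} {v w : V}
    (hq : HasStrictFDerivAt q (fderiv ℂ q v) v) (hw : fderiv ℂ q v w ≠ 0) :
    ∃ δ : ℝ, 0 < δ ∧ ∀ y y' : V, q y = 0 → q y' = 0 → ‖y - v‖ < δ → ‖y' - v‖ < δ →
      ∀ c : ℂ, y - y' = c • w → y = y' := by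
  have hwn : 0 < ‖w‖ := by
    rw [norm_pos_iff]
    rintro rfl
    exact hw (map_zero _)
  have hpos : 0 < ‖fderiv ℂ q v w‖ := norm_pos_iff.2 hw
  have h1 := hq.isLittleO.def (c := ‖fderiv ℂ q v w‖ / (2 * ‖w‖)) (by positivity)
  rw [Metric.eventually_nhds_iff] at h1
  obtain ⟨δ, hδ, H⟩ := h1
  refine ⟨δ, hδ, fun y y' hy hy' hyv hyv' c hc => ?_⟩
  have h2 := H (y := (y, y')) (by
    rw [Prod.dist_eq, dist_eq_norm, dist_eq_norm]
    exact max_lt hyv hyv')
  simp only [hy, hy', sub_self, zero_sub, norm_neg, hc, map_smul, smul_eq_mul, norm_mul,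
    norm_smul] at h2
  have h3 : ‖fderiv ℂ q v w‖ / (2 * ‖w‖) * (‖c‖ * ‖w‖) = ‖c‖ * ‖fderiv ℂ q v w‖ / 2 := by
    field_simp
  rw [h3] at h2
  have h4 : ‖c‖ = 0 := by
    by_contra hne
    have : 0 < ‖c‖ * ‖fderiv ℂ q v w‖ := mul_pos (lt_of_le_of_ne (norm_nonneg _) (Ne.symm hne)) hpos
    linarith
  rw [norm_eq_zero.1 h4, zero_smul] at hc
  exact sub_eq_zero.1 hc

/-- a point of `{q = 0}` near `v` is determined by the coordinates other than `i` if
`∂_i q (v) ≠ 0` -/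
theorem vs_determined {q : C4 → ℂ} {v : C4} {i : Fin 4}
    (hq : HasStrictFDerivAt q (fderiv ℂ q v) v) (hi : fderiv ℂ q v (Pi.single i 1) ≠ 0) :
    ∃ δ : ℝ, 0 < δ ∧ ∀ y y' : C4, q y = 0 → q y' = 0 → ‖y - v‖ < δ → ‖y' - v‖ < δ →
      (∀ j, j ≠ i → y j = y' j) → y = y' := by
  obtain ⟨δ, hδ, H⟩ := eq_of_sub_smul hq hi
  refine ⟨δ, hδ, fun y y' hy hy' hyv hyv' hj => H y y' hy hy' hyv hyv' (y i - y' i) ?_⟩
  funext j
  by_cases hji : j = i
  · subst hji
    simp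
  · simp [hji, hj j hji]

end Crest.Agent.R279.Spray
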