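import Crest.Agent.R279.HomVanish471
import Crest.Agent.R279.Deriv556

/-!
# R279 (helper471): two different tangent planes through a regular point

`(R1)`: if all tangent planes `T_p`, `p ∈ D ∩ Γ_x`, of a regular point `x` coincide with `T`, then
`D ⊆ T`.  `(R3)`: outside one plane, every regular point has two different tangent planes.
-/

set_option autoImplicit false

namespace Crest.Agent.R279.TwoPl

open Filter Topology MvPolynomial Crest.Agent.R279.HV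

/-- near `p` the cone `D` is the cone over a holomorphic arc `a`, on which `c ↦ <H(a c), x>` has a
simple zero at `p` -/
def ArcTo (Q : MvPolynomial (Fin 4) ℂ) (D : Set (Fin 4 → ℂ)) (x p : Fin 4 → ℂ) : Prop :=
  ∃ (a : ℂ → Fin 4 → ℂ) (k : (Fin 4 → ℂ) → ℂ), DifferentiableAt ℂ a 0 ∧ a 0 = p ∧
    (∀ᶠ c in 𝓝 (0 : ℂ), eval (a c) Q = 0) ∧ deriv (fun c => dQ Q (a c) x) 0 ≠ 0 ∧
    ContinuousAt k p ∧ k p = 0 ∧ ∀ᶠ y in 𝓝 p, y ∈ D → ∃ t : ℂ, t ≠ 0 ∧ y = t • a (k y)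

theorem differentiable_dQ_left (Q : MvPolynomial (Fin 4) ℂ) (x : Fin 4 → ℂ) :
    Differentiable ℂ (fun q => dQ Q q x) := by
  have : (fun q => dQ Q q x) = fun q => ∑ i, eval q (pderiv i Q) * x i := by
    funext q; rw [dQ_apply]
  rw [this]
  have h : ∀ i, Differentiable ℂ (fun q : Fin 4 → ℂ => eval q (pderiv i Q)) :=
    fun i => differentiable_eval _
  fun_prop

theorem dQ_smul_left {Q : MvPolynomial (Fin 4) ℂ} (hQ : Q.IsHomogeneous 4) (s : ℂ)
    (q x : Fin 4 → ℂ) : dQ Q (s • q) x = s ^ 3 * dQ Q q x := by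
  rw [dQ_apply, dQ_apply, Finset.mul_sum]
  refine Finset.sum_congr rfl fun i _ => ?_
  have h : (pderiv i Q).IsHomogeneous 3 := hQ.pderiv
  rw [eval_smul h]
  ring

/-- the ratio of a function with a double zero and a function with a simple zero tends to `0` -/
theorem tendsto_ratio {u v : ℂ → ℂ} {κ : ℂ} (hu : HasDerivAt u 0 0) (hv : HasDerivAt v κ 0)
    (hκ : κ ≠ 0) (hu0 : u 0 = 0) (hv0 : v 0 = 0) :
    Tendsto (fun c => u c / v c) (𝓝 0) (𝓝 0) := by
  have h1 := hasDerivAt_iff_tendsto_slope.1 hu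
  have h2 := hasDerivAt_iff_tendsto_slope.1 hv
  have h3 : Tendsto (fun c => slope u 0 c / slope v 0 c) (𝓝[≠] 0) (𝓝 0) := by
    have h := h1.div h2 hκ
    rw [zero_div] at h
    exact h
  have h4 : Tendsto (fun c => u c / v c) (𝓝[≠] 0) (𝓝 0) := by
    refine h3.congr' ?_
    filter_upwards [self_mem_nhdsWithin] with c hc
    have hc' : c ≠ 0 := hc
    simp only [slope_def_field, hu0, hv0, sub_zero]
    field_simp
  have h5 : Tendsto (fun c => u c / v c) (𝓝[≠] 0 ⊔ pure 0) (𝓝 0) := by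
    rw [tendsto_sup]
    refine ⟨h4, ?_⟩
    rw [tendsto_pure_left]
    intro s hs
    simp only [hu0, zero_div]
    exact mem_of_mem_nhds hs
  rwa [nhdsNE_sup_pure] at h5

theorem subset_of_reg {Q : MvPolynomial (Fin 4) ℂ} (hQ : Q.IsHomogeneous 4)
    {D : Set (Fin 4 → ℂ)} (hD0 : ∀ q ∈ D, q ≠ 0 ∧ eval q Q = 0)
    (hDc : ∀ q ∈ D, ∀ s : ℂ, s ≠ 0 → s • q ∈ D)
    (hDcl : ∀ q : Fin 4 → ℂ, q ≠ 0 → q ∈ closure D → q ∈ D)
    (hM : NoStrictMax D) (x : Fin 4 → ℂ) (t : (Fin 4 → ℂ) →L[ℂ] ℂ)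
    (hreg : ∀ p ∈ D, dQ Q p x = 0 → ArcTo Q D x p)
    (ht : ∀ p ∈ D, dQ Q p x = 0 → ∃ s : ℂ, t = s • dQ Q p) :
    ∀ q ∈ D, t q = 0 := by
  classical
  set n : (Fin 4 → ℂ) → ℂ := fun q => dQ Q q x with hn
  have hnd : Differentiable ℂ n := differentiable_dQ_left Q x
  have htself : ∀ p ∈ D, n p = 0 → t p = 0 := by
    intro p hp hnp
    obtain ⟨s, hs⟩ := ht p hp hnp
    rw [hs, smul_apply, dQ_self hQ, (hD0 p hp).2]
    simp
  have key : ∀ q ∈ D, q ∉ {q : Fin 4 → ℂ | n q = 0} → (fun q => t q / n q) q = 0 := by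
    refine hom_vanish (m := 2) (fun q hq => (hD0 q hq).1) hDc hDcl hM (by norm_num)
      (fun q => t q / n q) ?_ ?_ ?_ ?_
    · intro q _ hqS s hs
      simp only [Set.mem_ofPred_eq] at hqS ⊢
      rw [hn]
      simp only
      rw [dQ_smul_left hQ]
      exact mul_ne_zero (pow_ne_zero _ hs) hqS
    · intro p _ hpS
      refine ⟨{q | n q ≠ 0}, ?_, hpS, ?_, ?_⟩
      · exact isOpen_ne_fun hnd.continuous continuous_const
      · intro q hq
        have h1 : DifferentiableAt ℂ (fun q => t q / n q) q := by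
          have h2 : DifferentiableAt ℂ (fun q => t q) q := t.differentiableAt
          simp only [div_eq_mul_inv]
          exact h2.fun_mul ((hnd q).fun_inv hq)
        exact h1.differentiableWithinAt
      · intro q hq _
        exact hq
    · intro q _ _ s hs
      simp only [hn, map_smul, smul_eq_mul]
      rw [dQ_smul_left hQ]
      by_cases h0 : dQ Q q x = 0
      · simp [h0]
      · field_simp
    · intro p hp hpS ε hε
      have hnp : n p = 0 := hpS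
      obtain ⟨a, k, had, ha0, haQ, hder, hkc, hkp, hcov⟩ := hreg p hp hnp
      obtain ⟨s₀, hs₀⟩ := ht p hp hnp
      have htp : t p = 0 := htself p hp hnp
      have hp0 : p ≠ 0 := (hD0 p hp).1
      -- the numerator
      have hu : HasDerivAt (fun c => t (a c)) 0 0 := by
        have h1 : HasDerivAt (fun c => t (a c)) (t (deriv a 0)) 0 :=
          (t.hasFDerivAt.comp_hasDerivAt 0 had.hasDerivAt)
        have h2 : HasDerivAt (fun c => eval (a c) Q) (dQ Q p (deriv a 0)) 0 := by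
          have h3 : HasFDerivAt (fun y : Fin 4 → ℂ => eval y Q) (dQ Q p) (a 0) := by
            rw [ha0]; exact hasFDerivAt_eval Q p
          exact h3.comp_hasDerivAt 0 had.hasDerivAt
        have h4 : HasDerivAt (fun c => eval (a c) Q) 0 0 := by
          have h5 : (fun c => eval (a c) Q) =ᶠ[𝓝 0] fun _ => (0 : ℂ) := haQ
          exact (hasDerivAt_const (0 : ℂ) (0 : ℂ)).congr_of_eventuallyEq h5
        have h6 := h2.unique h4
        have h7 : t (deriv a 0) = 0 := by rw [hs₀, smul_apply, h6, smul_zero]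
        rwa [h7] at h1
      have hv : HasDerivAt (fun c => n (a c)) (deriv (fun c => dQ Q (a c) x) 0) 0 := by
        have h1 : DifferentiableAt ℂ (fun c => n (a c)) 0 :=
          (hnd (a 0)).comp 0 had
        exact h1.hasDerivAt
      have hrat := tendsto_ratio hu hv hder (by simp only [ha0, htp]) (by simp only [ha0, hnp])
      obtain ⟨i, hi⟩ : ∃ i, p i ≠ 0 := by
        by_contra h
        push Not at h
        exact hp0 (funext h)
      have hpi : 0 < ‖p i‖ := norm_pos_iff.2 hi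
      -- eventually estimates
      have hk0 : Tendsto k (𝓝 p) (𝓝 0) := by rw [← hkp]; exact hkc
      have e1 : ∀ᶠ y in 𝓝 p, ‖t (a (k y)) / n (a (k y))‖ < ε / 4 := by
        have h1 := hrat.comp hk0
        have h2 := h1.norm
        rw [norm_zero] at h2
        exact h2.eventually (gt_mem_nhds (by positivity))
      have e2 : ∀ᶠ y in 𝓝 p, (3 / 4) * ‖p i‖ < ‖y i‖ := by
        have h1 : Tendsto (fun y : Fin 4 → ℂ => ‖y i‖) (𝓝 p) (𝓝 ‖p i‖) :=
          ((continuous_apply i).tendsto p).norm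
        exact h1.eventually (lt_mem_nhds (by linarith))
      have e3 : ∀ᶠ y in 𝓝 p, ‖a (k y) i‖ < (3 / 2) * ‖p i‖ := by
        have h1 : Tendsto (fun c => ‖a c i‖) (𝓝 0) (𝓝 ‖p i‖) := by
          have h2 : Tendsto a (𝓝 0) (𝓝 p) := by
            rw [← ha0]; exact had.continuousAt
          exact (((continuous_apply i).tendsto p).comp h2).norm
        exact (h1.comp hk0).eventually (gt_mem_nhds (by linarith))
      refine ⟨_, (e1.and (e2.and (e3.and hcov))), ?_⟩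
      rintro y ⟨h1, h2, h3, h4⟩ hyD _
      obtain ⟨s, hs, hy⟩ := h4 hyD
      have hyi : y i = s * a (k y) i := by
        have := congrFun hy i
        simpa using this
      have hsn : 1 / 2 < ‖s‖ := by
        rw [hyi, norm_mul] at h2
        by_contra hcon
        push Not at hcon
        have : ‖s‖ * ‖a (k y) i‖ ≤ (1 / 2) * ((3 / 2) * ‖p i‖) :=
          mul_le_mul hcon h3.le (norm_nonneg _) (by norm_num)
        linarith
      have hval : t y / n y = (s ^ 2)⁻¹ * (t (a (k y)) / n (a (k y))) := by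
        conv_lhs => rw [hy]
        simp only [hn, map_smul, smul_eq_mul]
        rw [dQ_smul_left hQ]
        by_cases h0 : dQ Q (a (k y)) x = 0
        · simp [h0]
        · field_simp
      rw [hval, norm_mul, norm_inv, norm_pow]
      have h5 : (‖s‖ ^ 2)⁻¹ ≤ 4 := by
        rw [inv_le_comm₀ (by positivity) (by norm_num)]
        nlinarith
      calc (‖s‖ ^ 2)⁻¹ * ‖t (a (k y)) / n (a (k y))‖
          ≤ 4 * ‖t (a (k y)) / n (a (k y))‖ :=
            mul_le_mul_of_nonneg_right h5 (norm_nonneg _)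
        _ < 4 * (ε / 4) := by linarith
        _ = ε := by ring
  intro q hq
  by_cases h0 : n q = 0
  · exact htself q hq h0
  · have := key q hq h0
    simp only at this
    rcases div_eq_zero_iff.1 this with h | h
    · exact h
    · exact absurd h h0

theorem exists_submodule {τ τ₁ : (Fin 4 → ℂ) →L[ℂ] ℂ} {x : Fin 4 → ℂ} (h : τ x ≠ 0)
    (h1 : τ₁ x = 0) (h2 : τ₁ ≠ 0) :
    ∃ L : Submodule ℂ (Fin 4 → ℂ), Module.finrank ℂ L = 2 ∧ ∀ v, τ v = 0 → τ₁ v = 0 → v ∈ L := by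
  obtain ⟨y, hy⟩ : ∃ y, τ₁ y ≠ 0 := by
    by_contra hcon
    push Not at hcon
    exact h2 (by ext v; simp [hcon])
  set f : (Fin 4 → ℂ) →ₗ[ℂ] ℂ × ℂ := (τ : (Fin 4 → ℂ) →ₗ[ℂ] ℂ).prod (τ₁ : (Fin 4 → ℂ) →ₗ[ℂ] ℂ)
    with hf
  have hsurj : Function.Surjective f := by
    rintro ⟨u, w⟩
    refine ⟨((u - (w / τ₁ y) * τ y) / τ x) • x + (w / τ₁ y) • y, ?_⟩
    refine Prod.ext ?_ ?_
    · change τ (((u - (w / τ₁ y) * τ y) / τ x) • x + (w / τ₁ y) • y) = u
      simp only [map_add, map_smul, smul_eq_mul]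
      field_simp
      ring
    · change τ₁ (((u - (w / τ₁ y) * τ y) / τ x) • x + (w / τ₁ y) • y) = w
      simp only [map_add, map_smul, smul_eq_mul, h1]
      field_simp
      ring
  have hr := LinearMap.finrank_range_add_finrank_ker f
  rw [LinearMap.range_eq_top.2 hsurj, finrank_top] at hr
  have h4 : Module.finrank ℂ (ℂ × ℂ) = 2 := by simp
  have h5 : Module.finrank ℂ (Fin 4 → ℂ) = 4 := by simp
  refine ⟨LinearMap.ker f, by omega, ?_⟩
  intro v hv hv1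
  rw [LinearMap.mem_ker]
  simp [hf, hv, hv1]

/-- (R3) -/
theorem two_planes {Q : MvPolynomial (Fin 4) ℂ} (hQ : Q.IsHomogeneous 4)
    (hsmooth : ∀ p : Fin 4 → ℂ, p ≠ 0 → eval p Q = 0 → ∃ i : Fin 4, eval p (pderiv i Q) ≠ 0)
    {D : Set (Fin 4 → ℂ)} (hD0 : ∀ q ∈ D, q ≠ 0 ∧ eval q Q = 0)
    (hDc : ∀ q ∈ D, ∀ s : ℂ, s ≠ 0 → s • q ∈ D)
    (hDcl : ∀ q : Fin 4 → ℂ, q ≠ 0 → q ∈ closure D → q ∈ D)
    (hM : NoStrictMax D)
    (hD2 : ∀ L : Submodule ℂ (Fin 4 → ℂ), Module.finrank ℂ L = 2 → ¬ D ⊆ (L : Set (Fin 4 → ℂ))) :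
    ∃ τ : (Fin 4 → ℂ) →L[ℂ] ℂ, τ ≠ 0 ∧ ∀ x : Fin 4 → ℂ, τ x ≠ 0 →
      (∀ p ∈ D, dQ Q p x = 0 → ArcTo Q D x p) → (∃ p ∈ D, dQ Q p x = 0) →
      ∃ p ∈ D, ∃ p' ∈ D, dQ Q p x = 0 ∧ dQ Q p' x = 0 ∧
        LinearIndependent ℂ ![dQ Q p, dQ Q p'] := by
  have hne : ∀ p ∈ D, dQ Q p ≠ 0 := fun p hp =>
    dQ_ne_zero (hsmooth p (hD0 p hp).1 (hD0 p hp).2)
  -- proportionality
  have hprop : ∀ x p₀, p₀ ∈ D → dQ Q p₀ x = 0 →
      (¬ ∃ p ∈ D, ∃ p' ∈ D, dQ Q p x = 0 ∧ dQ Q p' x = 0 ∧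
        LinearIndependent ℂ ![dQ Q p, dQ Q p']) →
      ∀ p ∈ D, dQ Q p x = 0 → ∃ s : ℂ, dQ Q p₀ = s • dQ Q p := by
    intro x p₀ hp₀ hx₀ hno p hp hx
    by_contra hcon
    push Not at hcon
    refine hno ⟨p, hp, p₀, hp₀, hx, hx₀, ?_⟩
    rw [LinearIndependent.pair_iff' (hne p hp)]
    intro a ha
    exact hcon a ha.symm
  by_cases hex : ∃ x₀, (∀ p ∈ D, dQ Q p x₀ = 0 → ArcTo Q D x₀ p) ∧ (∃ p ∈ D, dQ Q p x₀ = 0) ∧
      ¬ ∃ p ∈ D, ∃ p' ∈ D, dQ Q p x₀ = 0 ∧ dQ Q p' x₀ = 0 ∧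
        LinearIndependent ℂ ![dQ Q p, dQ Q p']
  · obtain ⟨x₀, hreg₀, ⟨p₀, hp₀, hpx₀⟩, hno₀⟩ := hex
    refine ⟨dQ Q p₀, hne p₀ hp₀, ?_⟩
    intro x hx hreg hE
    by_contra hno
    obtain ⟨p₁, hp₁, hpx₁⟩ := hE
    have hA := subset_of_reg hQ hD0 hDc hDcl hM x₀ (dQ Q p₀) hreg₀
      (hprop x₀ p₀ hp₀ hpx₀ hno₀)
    have hB := subset_of_reg hQ hD0 hDc hDcl hM x (dQ Q p₁) hreg
      (hprop x p₁ hp₁ hpx₁ hno)
    obtain ⟨L, hL, hLv⟩ := exists_submodule hx hpx₁ (hne p₁ hp₁)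
    exact hD2 L hL fun q hq => hLv q (hA q hq) (hB q hq)
  · push Not at hex
    refine ⟨ContinuousLinearMap.proj 0, ?_, ?_⟩
    · intro h
      have := congrArg (fun f : (Fin 4 → ℂ) →L[ℂ] ℂ => f (Pi.single 0 1)) h
      simp at this
    · intro x _ hreg hE
      exact hex x hreg hE

end Crest.Agent.R279.TwoPl
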